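import Claimed.Agent.R285.C5.T1

/-!
# ROW 285, [C] s5, package PK-C5-T1: upper bound of the torus variance by the free coefficient (50-openness.tex l.976-1004)

GLUE, PROVED from the leaves of `C5/T1.lean` and the contracts of `Read/C2.lean` (`free_var`, `reg_cos`, `reg_smul`, `ref_var`, `scaleCoef_fixed`), `Base/Height` (`lsys_var_mono`), `Free/Sys` (`sqrt_var_add_le`).
`torVar_limsup_le'` is the MOVING TEMPERATURE form: the upper half of `Top.torus_limit` ([E]P5.6, last assertion).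
-/

set_option autoImplicit false

namespace Claimed.Agent.R285.C5

open Filter Topology
open scoped Classical

noncomputable section

/-- limits of variances -/
theorem aLim_nonneg (b : ℝ) (hb : 0 < b) : 0 ≤ aLim b :=
  C2.scaleCoef_nonneg (C2.scaleCoef_fixed b hb id tendsto_id)

/-- the finite inequality: cut the torus along one seam -/
theorem torVar_sqrt_le (b : ℝ) (hb : 0 < b) (n : ℕ) (hn : 2 ≤ n) :
    Real.sqrt (torVar b n) ≤ Real.sqrt ((C2.sq n).var b (C2.gd (cosPot n))) + Real.sqrt (b * (Real.pi ^ 2 / (n : ℝ) ^ 3)) := by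
  have : NeZero n := ⟨by omega⟩
  obtain ⟨r, hr⟩ := tor_cut_ref n b
  have hok := torLaw_ok n b hb
  have h1 : torVar b n = ((torLaw n).sys b).V0 (torX n b (torFl n)) := by
    rw [torVar_eq, Vr_eq_V0 _ (torLaw_proper n) b _ _ (tor_cos_lift n hn b)]
  have h2 : torX n b (torFl n)
      = torX n b (fun e => if torLift n e ∈ (C2.sq n).bd then C2.gd (cosPot n) (torLift n e) else 0)
        + torX n b (fun e => if torLift n e ∈ (C2.sq n).bd then 0 else torFl n e) := by
    rw [← torX_add]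
    congr 1
    funext e
    by_cases h : torLift n e ∈ (C2.sq n).bd <;> simp [h, torFl]
  rw [h1, h2]
  refine (Free.sqrt_var_add_le _ hok _ _).trans (add_le_add ?_ ?_)
  · apply Real.sqrt_le_sqrt
    rw [← hr]
    exact lsys_var_mono r (C2.rc_ok _ b hb) hok _
  · apply Real.sqrt_le_sqrt
    refine (C2.ref_var _ hok b (fun _ => le_rfl) _).trans ?_
    exact mul_le_mul_of_nonneg_left (tor_seam_cost n hn) hb.le

theorem le_sq_sqrt (x : ℝ) : x ≤ Real.sqrt x ^ 2 := by
  rcases le_total 0 x with h | h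
  · rw [Real.sq_sqrt h]
  · exact h.trans (sq_nonneg _)

/-- **(T1), moving temperature** = upper half of [E]P5.6, last assertion. -/
theorem torVar_limsup_le' {b : ℕ → ℝ} {n : ℕ → ℕ} {a : ℝ} (hS : C2.ScaleCoef b n a) (ε : ℝ) (hε : 0 < ε) :
    ∀ᶠ k in atTop, torVar (b k) (n k) ≤ (8 * Real.pi ^ 2)⁻¹ * a + ε := by
  have ha : 0 ≤ a := C2.scaleCoef_nonneg hS
  obtain ⟨⟨β₀, β₁, hβ₀, hβ⟩, hn, -⟩ := id hS
  have hAdm : C2.Adm n fun k => C2.sq (n k) := by
    refine ⟨1, fun k => ?_⟩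
    simp [C2.sq]
  obtain ⟨M, hM⟩ := kapN_tendsto.bddAbove_range
  have hReg : C2.Reg n (fun k => C2.sq (n k)) fun k => cosPot (n k) := by
    have h1 := C2.reg_cos hn hAdm (fun _ => 2 * Real.pi) (fun _ => 0) (fun _ => 0) (2 * Real.pi)
      (fun _ => by rw [abs_of_pos (by positivity)]) (fun _ => by simp; positivity)
    have h2 := C2.reg_smul h1 (fun k => kapN (n k)) M
      (fun k => by rw [abs_of_nonneg (kapN_nonneg _)]; exact hM ⟨n k, rfl⟩)
    have h3 : (fun k v => kapN (n k) * Real.cos (2 * Real.pi * ((v.1 : ℝ) / n k) + 0 * ((v.2 : ℝ) / n k) + 0))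
        = fun (k : ℕ) (v : ℤ × ℤ) => cosPot (n k) v := by
      funext k v
      simp [cosPot]
    rw [← h3]
    exact h2
  have hfv := C2.free_var hS hAdm hReg
  have hk : Tendsto (fun k => kapN (n k)) atTop (𝓝 (4 * Real.pi ^ 2)⁻¹) := kapN_tendsto.comp hn
  -- the upper bound of the square variance
  have hU : Tendsto (fun k => ((C2.sq (n k)).var (b k) (C2.gd (cosPot (n k))) - a * (C2.sq (n k)).dir (cosPot (n k)))
      + a * (kapN (n k) / 2)) atTop (𝓝 (0 + a * ((4 * Real.pi ^ 2)⁻¹ / 2))) :=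
    hfv.add ((hk.div_const 2).const_mul a)
  have hs : Tendsto (fun k => β₁ * (Real.pi ^ 2 / ((n k : ℕ) : ℝ) ^ 3)) atTop (𝓝 (β₁ * 0)) := by
    refine Tendsto.const_mul β₁ ?_
    refine Tendsto.div_atTop tendsto_const_nhds ?_
    exact (tendsto_pow_atTop (by norm_num)).comp (tendsto_natCast_atTop_atTop.comp hn)
  have hlim := ((hU.sqrt).add (hs.sqrt)).pow 2
  have hval : (Real.sqrt (0 + a * ((4 * Real.pi ^ 2)⁻¹ / 2)) + Real.sqrt (β₁ * 0)) ^ 2 = (8 * Real.pi ^ 2)⁻¹ * a := by
    rw [mul_zero, Real.sqrt_zero, add_zero, zero_add, Real.sq_sqrt (by positivity)]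
    field_simp
    ring
  rw [hval] at hlim
  filter_upwards [hlim.eventually (gt_mem_nhds (lt_add_of_pos_right _ hε)), hn.eventually_ge_atTop 3] with k h1 h2
  refine le_trans ?_ h1.le
  refine (le_sq_sqrt _).trans (pow_le_pow_left₀ (Real.sqrt_nonneg _) ?_ 2)
  refine (torVar_sqrt_le (b k) (hβ₀.trans_le (hβ k).1) (n k) (by omega)).trans (add_le_add ?_ ?_)
  · apply Real.sqrt_le_sqrt
    have := mul_le_mul_of_nonneg_left (cosPot_dir_le (n k) h2) ha
    linarith
  · apply Real.sqrt_le_sqrt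
    exact mul_le_mul_of_nonneg_right (hβ k).2 (by positivity)

/-- **(T1)** l.955-985, for every `a(b) ≥ 0` (only `a = 0` is used here; [E] uses the general case): `limsup Var_tor H_n ≤ a / (8π²)`. -/
theorem torVar_limsup_le (b : ℝ) (hb : 0 < b) (ε : ℝ) (hε : 0 < ε) :
    ∀ᶠ n : ℕ in atTop, torVar b n ≤ (8 * Real.pi ^ 2)⁻¹ * aLim b + ε :=
  torVar_limsup_le' (C2.scaleCoef_fixed b hb id tendsto_id) ε hε

end

end Claimed.Agent.R285.C5
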