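import Claimed.Agent.R285.C5.Defs

/-!
# ROW 285, [C] s5, leaf L-C5-AVG: the averaged gradient energy is at most the gradient energy; exact halves of the comparisons of L5.2
-/

set_option autoImplicit false

namespace Claimed.Agent.R285.C5

open Filter Topology
open scoped Classical

noncomputable section

section pure

open Finset

/-- uniqueness of the euclidean division, in the form used below -/
theorem avg_div_unique {N i i' : ℤ} {r r' : ℕ} {n : ℕ} (hN : N = n) (hr : r < n) (hr' : r' < n)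
    (h : N * i + r = N * i' + r') : i = i' ∧ r = r' := by
  have hn : (0 : ℤ) < N := by rw [hN]; exact_mod_cast (Nat.zero_lt_of_lt hr)
  have h1 := (Int.ediv_emod_unique (a := N * i + r) (q := i) (r := r) hn).2
    ⟨by ring, by positivity, by rw [hN]; exact_mod_cast hr⟩
  have h2 := (Int.ediv_emod_unique (a := N * i + r) (q := i') (r := r') hn).2
    ⟨by rw [h]; ring, by positivity, by rw [hN]; exact_mod_cast hr'⟩
  refine ⟨h1.1.symm.trans h2.1, ?_⟩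
  have := h1.2.symm.trans h2.2
  exact_mod_cast this

/-- **one direction of `avgEn_le`, on `ℤ²`** (Jensen + counting). -/
theorem avg_dir {ι : Type} [DecidableEq ι] (Q : Finset ι) (ci cj : ι → ℤ)
    (hinj : ∀ q ∈ Q, ∀ q' ∈ Q, ci q = ci q' → cj q = cj q' → q = q')
    (n : ℕ) (hn : 0 < n) (w : ℤ → ℤ → ℝ) (Bd : Finset (ℤ × ℤ))
    (hB : ∀ q ∈ Q, ∀ a b : ℕ, a < 2 * n - 1 → b < n →
      ((n : ℤ) * ci q + a, (n : ℤ) * cj q + b) ∈ Bd) :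
    ∑ q ∈ Q, (((n : ℝ) ^ 2)⁻¹ * ∑ a ∈ range n, ∑ b ∈ range n,
          w ((n : ℤ) * (ci q + 1) + a) ((n : ℤ) * cj q + b) -
        ((n : ℝ) ^ 2)⁻¹ * ∑ a ∈ range n, ∑ b ∈ range n,
          w ((n : ℤ) * ci q + a) ((n : ℤ) * cj q + b)) ^ 2 ≤
      ∑ e ∈ Bd, (w (e.1 + 1) e.2 - w e.1 e.2) ^ 2 := by
  classical
  have hn0 : (0 : ℝ) < n := by exact_mod_cast hn
  set ψ : ℤ × ℤ → ℝ := fun e => (w (e.1 + 1) e.2 - w e.1 e.2) ^ 2 with hψ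
  set R : Finset (ℕ × ℕ × ℕ) := range n ×ˢ range n ×ˢ range n with hR
  have hRc : (R.card : ℝ) = (n : ℝ) ^ 3 := by
    rw [hR]; simp [card_product]; ring
  set β : ι × ℕ × ℕ × ℕ → ℤ × ℤ := fun s =>
    ((n : ℤ) * ci s.1 + s.2.1 + s.2.2.2, (n : ℤ) * cj s.1 + s.2.2.1) with hβ
  -- one pair
  have hone : ∀ q, (((n : ℝ) ^ 2)⁻¹ * ∑ a ∈ range n, ∑ b ∈ range n,
          w ((n : ℤ) * (ci q + 1) + a) ((n : ℤ) * cj q + b) -
        ((n : ℝ) ^ 2)⁻¹ * ∑ a ∈ range n, ∑ b ∈ range n,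
          w ((n : ℤ) * ci q + a) ((n : ℤ) * cj q + b)) ^ 2 ≤
      (n : ℝ)⁻¹ * ∑ t ∈ R, ψ (β (q, t)) := by
    intro q
    have htel : ∀ a b : ℕ, w ((n : ℤ) * (ci q + 1) + a) ((n : ℤ) * cj q + b) -
        w ((n : ℤ) * ci q + a) ((n : ℤ) * cj q + b) =
        ∑ r ∈ range n, (w ((n : ℤ) * ci q + a + r + 1) ((n : ℤ) * cj q + b) -
          w ((n : ℤ) * ci q + a + r) ((n : ℤ) * cj q + b)) := by
      intro a b
      have := Finset.sum_range_sub (fun r : ℕ => w ((n : ℤ) * ci q + a + r) ((n : ℤ) * cj q + b)) n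
      simp only [Nat.cast_add, Nat.cast_one, Nat.cast_zero, add_zero] at this
      have e1 : (n : ℤ) * (ci q + 1) + a = (n : ℤ) * ci q + a + n := by ring
      rw [e1, ← this]
      refine Finset.sum_congr rfl fun r _ => ?_
      rw [add_assoc ((n : ℤ) * ci q + a) (r : ℤ) 1]
    have hsum : ((n : ℝ) ^ 2)⁻¹ * ∑ a ∈ range n, ∑ b ∈ range n,
          w ((n : ℤ) * (ci q + 1) + a) ((n : ℤ) * cj q + b) -
        ((n : ℝ) ^ 2)⁻¹ * ∑ a ∈ range n, ∑ b ∈ range n,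
          w ((n : ℤ) * ci q + a) ((n : ℤ) * cj q + b) =
        ((n : ℝ) ^ 2)⁻¹ * ∑ t ∈ R, (w ((β (q, t)).1 + 1) (β (q, t)).2 -
          w (β (q, t)).1 (β (q, t)).2) := by
      rw [← mul_sub, ← Finset.sum_sub_distrib]
      congr 1
      rw [hR, Finset.sum_product]
      refine Finset.sum_congr rfl fun a _ => ?_
      rw [← Finset.sum_sub_distrib, Finset.sum_product]
      refine Finset.sum_congr rfl fun b _ => ?_
      rw [htel a b]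
    rw [hsum, mul_pow]
    have hcs := sq_sum_le_card_mul_sum_sq (s := R)
      (f := fun t => w ((β (q, t)).1 + 1) (β (q, t)).2 - w (β (q, t)).1 (β (q, t)).2)
    rw [hRc] at hcs
    have h3 : (((n : ℝ) ^ 2)⁻¹) ^ 2 * ((n : ℝ) ^ 3 * ∑ t ∈ R, ψ (β (q, t))) =
        (n : ℝ)⁻¹ * ∑ t ∈ R, ψ (β (q, t)) := by
      field_simp
    rw [← h3]
    exact mul_le_mul_of_nonneg_left hcs (by positivity)
  -- counting
  have hmaps : ∀ s ∈ Q ×ˢ R, β s ∈ Bd := by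
    rintro ⟨q, a, b, r⟩ hs
    simp only [hR, mem_product, mem_range] at hs
    obtain ⟨hq, ha, hb, hr⟩ := hs
    have := hB q hq (a + r) b (by omega) hb
    simpa [hβ, add_assoc] using this
  have hfib : ∀ e ∈ Bd, ∑ s ∈ (Q ×ˢ R).filter (fun s => β s = e), ψ (β s) ≤ (n : ℝ) * ψ e := by
    intro e _
    have h1 : ∑ s ∈ (Q ×ˢ R).filter (fun s => β s = e), ψ (β s) =
        (((Q ×ˢ R).filter (fun s => β s = e)).card : ℝ) * ψ e := by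
      rw [Finset.sum_congr rfl (g := fun _ => ψ e) fun s hs => by rw [(mem_filter.1 hs).2]]
      simp
    rw [h1]
    refine mul_le_mul_of_nonneg_right ?_ (sq_nonneg _)
    have hcard : ((Q ×ˢ R).filter (fun s => β s = e)).card ≤ (range n).card := by
      refine Finset.card_le_card_of_injOn (fun s => s.2.1) ?_ ?_
      · intro s hs
        have := (mem_filter.1 (Finset.mem_coe.1 hs)).1
        simp only [hR, mem_product] at this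
        exact Finset.mem_coe.2 this.2.1
      · rintro ⟨q, a, b, r⟩ hs ⟨q', a', b', r'⟩ hs' haa
        have hs1 := mem_filter.1 (Finset.mem_coe.1 hs)
        have hs2 := mem_filter.1 (Finset.mem_coe.1 hs')
        simp only [hR, mem_product, mem_range] at hs1 hs2
        obtain ⟨⟨hq, ha, hb, hr⟩, he⟩ := hs1
        obtain ⟨⟨hq', ha', hb', hr'⟩, he'⟩ := hs2
        have haa' : a = a' := haa
        subst haa'
        have hee := he.trans he'.symm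
        simp only [hβ, Prod.mk.injEq] at hee
        obtain ⟨hx, hy⟩ := hee
        have hx' : (n : ℤ) * ci q + r = (n : ℤ) * ci q' + r' := by linarith
        obtain ⟨h1, h2⟩ := avg_div_unique rfl hr hr' hx'
        obtain ⟨h3, h4⟩ := avg_div_unique rfl hb hb' hy
        have := hinj q hq q' hq' h1 h3
        subst this; subst h2; subst h4
        rfl
    rw [card_range] at hcard
    exact_mod_cast hcard
  calc ∑ q ∈ Q, (((n : ℝ) ^ 2)⁻¹ * ∑ a ∈ range n, ∑ b ∈ range n,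
          w ((n : ℤ) * (ci q + 1) + a) ((n : ℤ) * cj q + b) -
        ((n : ℝ) ^ 2)⁻¹ * ∑ a ∈ range n, ∑ b ∈ range n,
          w ((n : ℤ) * ci q + a) ((n : ℤ) * cj q + b)) ^ 2
      ≤ ∑ q ∈ Q, (n : ℝ)⁻¹ * ∑ t ∈ R, ψ (β (q, t)) := Finset.sum_le_sum fun q _ => hone q
    _ = (n : ℝ)⁻¹ * ∑ s ∈ Q ×ˢ R, ψ (β s) := by
        rw [← Finset.mul_sum, Finset.sum_product]
    _ = (n : ℝ)⁻¹ * ∑ e ∈ Bd, ∑ s ∈ (Q ×ˢ R).filter (fun s => β s = e), ψ (β s) := by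
        rw [Finset.sum_fiberwise_of_maps_to hmaps]
    _ ≤ (n : ℝ)⁻¹ * ∑ e ∈ Bd, (n : ℝ) * ψ e :=
        mul_le_mul_of_nonneg_left (Finset.sum_le_sum hfib) (by positivity)
    _ = ∑ e ∈ Bd, ψ e := by
        rw [← Finset.mul_sum, ← mul_assoc, inv_mul_cancel₀ hn0.ne', one_mul]

end pure

theorem avg_idx_le {N x y i i' : ℤ} (hN : 0 < N) (hxy : x ≤ y) (h1 : N * i ≤ x)
    (h4 : y < N * (i' + 1)) : i ≤ i' := by
  by_contra hcon
  have h : i' + 1 ≤ i := by omega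
  have := mul_le_mul_of_nonneg_left h hN.le
  linarith

theorem avg_sum_Ico (f : ℤ → ℝ) (x0 : ℤ) (n : ℕ) :
    ∑ x ∈ Finset.Ico x0 (x0 + n), f x = ∑ a ∈ Finset.range n, f (x0 + a) := by
  symm
  refine Finset.sum_bij (fun a _ => x0 + (a : ℤ)) ?_ ?_ ?_ ?_
  · intro a ha
    have := Finset.mem_range.1 ha
    rw [Finset.mem_Ico]
    omega
  · intro a _ a' _ h
    omega
  · intro x hx
    rw [Finset.mem_Ico] at hx
    exact ⟨(x - x0).toNat, Finset.mem_range.2 (by omega), by omega⟩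
  · intro a _
    rfl

theorem avg_sum_dom {D : Finset (ℤ × ℤ)} {cut : Set Bond} (F : ℤ × ℤ → ℝ) :
    ∑ x : (domG D cut).V, F (domPos x) = ∑ p ∈ D, F p :=
  (Finset.sum_subtype D (fun _ => Iff.rfl) F).symm

theorem avg_sum_domE {D : Finset (ℤ × ℤ)} {cut : Set Bond} (F : Bond → ℝ) :
    ∑ e : (domG D cut).E, F (domBond e) = ∑ e ∈ domBonds D cut, F e :=
  (Finset.sum_subtype (domBonds D cut) (fun _ => Iff.rfl) F).symm

/-- extension by zero of a function on the vertices -/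
def avgExt {D : Finset (ℤ × ℤ)} {cut : Set Bond} (v : (domG D cut).V → ℝ) (p : ℤ × ℤ) : ℝ :=
  if h : p ∈ D then v ⟨p, h⟩ else 0

theorem avgExt_eqns_cite : True := by have := @avgExt.eq_1; trivial

theorem avgExt_pos {D : Finset (ℤ × ℤ)} {cut : Set Bond} (v : (domG D cut).V → ℝ)
    (x : (domG D cut).V) : avgExt v (domPos x) = v x := by
  have hx : domPos x ∈ D := Subtype.property (p := fun v => v ∈ D) x
  unfold avgExt
  rw [dif_pos hx]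
  rfl

theorem avg_en {D : Finset (ℤ × ℤ)} {cut : Set Bond} (v : (domG D cut).V → ℝ) :
    HLaw.en v 0 = ∑ e ∈ domBonds D cut, (avgExt v e.snd - avgExt v e.1) ^ 2 := by
  rw [← avg_sum_domE (D := D) (cut := cut) fun e => (avgExt v e.snd - avgExt v e.1) ^ 2]
  unfold HLaw.en
  refine Finset.sum_congr rfl fun e _ => ?_
  rw [← avgExt_pos v ((domG D cut).tgt e), ← avgExt_pos v ((domG D cut).src e)]
  simp only [Pi.zero_apply, add_zero]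
  rfl

/-- average over a fibre which is a set `S ⊆ D` of positions -/
theorem avg_pair {D : Finset (ℤ × ℤ)} {cut : Set Bond} {C : Type} (κ₀ : (domG D cut).V → C) (c : C)
    (S : Finset (ℤ × ℤ)) (hS : S ⊆ D) (hκ : ∀ x, κ₀ x = c ↔ domPos x ∈ S)
    (v : (domG D cut).V → ℝ) :
    HLaw.pair (fibAvg κ₀ c) v = (S.card : ℝ)⁻¹ * ∑ p ∈ S, avgExt v p := by
  have hcard : ((Finset.univ.filter fun w => κ₀ w = c).card : ℝ) = (S.card : ℝ) := by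
    rw [Finset.card_filter]
    push_cast
    have h1 : ∀ x : (domG D cut).V, (if κ₀ x = c then (1 : ℝ) else 0) =
        (fun p => if p ∈ S then (1 : ℝ) else 0) (domPos x) := by
      intro x
      by_cases h : κ₀ x = c
      · simp [h, (hκ x).1 h]
      · have : domPos x ∉ S := fun h' => h ((hκ x).2 h')
        simp [h, this]
    rw [Finset.sum_congr rfl fun x _ => h1 x,
      avg_sum_dom (D := D) (cut := cut) (fun p => if p ∈ S then (1 : ℝ) else 0), Finset.sum_ite_mem,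
      Finset.inter_eq_right.2 hS]
    simp
  unfold HLaw.pair fibAvg
  rw [hcard]
  have h2 : ∀ x : (domG D cut).V, (if κ₀ x = c then (S.card : ℝ)⁻¹ else 0) * v x =
      (fun p => if p ∈ S then (S.card : ℝ)⁻¹ * avgExt v p else 0) (domPos x) := by
    intro x
    by_cases h : κ₀ x = c
    · simp [h, (hκ x).1 h, avgExt_pos]
    · have : domPos x ∉ S := fun h' => h ((hκ x).2 h')
      simp [h, this]
  rw [Finset.sum_congr rfl fun x _ => h2 x,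
    avg_sum_dom (D := D) (cut := cut) (fun p => if p ∈ S then (S.card : ℝ)⁻¹ * avgExt v p else 0),
    Finset.sum_ite_mem, Finset.inter_eq_right.2 hS, Finset.mul_sum]

section geo

variable {m₁ m₂ : ℕ} (Γ : CGeom m₁ m₂) (s0 : ℕ)

theorem avg_mem_cell (κ : Fin m₁ × Fin m₂) (p : ℤ × ℤ) :
    p ∈ (Geo.ug m₁ m₂ s0).cell κ ↔
      ((((s0 + 1 : ℕ) : ℤ) * (κ.1.1 : ℤ) ≤ p.1 ∧ p.1 < ((s0 + 1 : ℕ) : ℤ) * ((κ.1.1 : ℤ) + 1)) ∧
        (((s0 + 1 : ℕ) : ℤ) * (κ.2.1 : ℤ) ≤ p.2 ∧ p.2 < ((s0 + 1 : ℕ) : ℤ) * ((κ.2.1 : ℤ) + 1))) := by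
  simp [DGrid.cell, DGrid.unif, Geo.ug, Finset.mem_product, Finset.mem_Ico]

theorem avg_cell_unique {κ κ' : Fin m₁ × Fin m₂} {p : ℤ × ℤ} (h : p ∈ (Geo.ug m₁ m₂ s0).cell κ)
    (h' : p ∈ (Geo.ug m₁ m₂ s0).cell κ') : κ = κ' := by
  rw [avg_mem_cell] at h h'
  have hN : (0 : ℤ) < ((s0 + 1 : ℕ) : ℤ) := by positivity
  have a1 := avg_idx_le hN le_rfl h.1.1 h'.1.2
  have a2 := avg_idx_le hN le_rfl h'.1.1 h.1.2
  have a3 := avg_idx_le hN le_rfl h.2.1 h'.2.2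
  have a4 := avg_idx_le hN le_rfl h'.2.1 h.2.2
  ext
  · omega
  · omega

theorem avg_exists_cell (x : (Γ.graph (Geo.ug m₁ m₂ s0)).V) :
    ∃ κ ∈ Γ.T, domPos (D := (Geo.ug m₁ m₂ s0).region Γ.T) (cut := Γ.cutB (Geo.ug m₁ m₂ s0)) x ∈
      (Geo.ug m₁ m₂ s0).cell κ := by
  have : domPos (D := (Geo.ug m₁ m₂ s0).region Γ.T) (cut := Γ.cutB (Geo.ug m₁ m₂ s0)) x ∈
      (Geo.ug m₁ m₂ s0).region Γ.T := Subtype.property (p := fun v => v ∈ (Geo.ug m₁ m₂ s0).region Γ.T) x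
  exact Finset.mem_biUnion.1 this

theorem avg_cellOf {x : (Γ.graph (Geo.ug m₁ m₂ s0)).V} {κ : Fin m₁ × Fin m₂}
    (h : domPos (D := (Geo.ug m₁ m₂ s0).region Γ.T) (cut := Γ.cutB (Geo.ug m₁ m₂ s0)) x ∈
      (Geo.ug m₁ m₂ s0).cell κ) : Geo.cellOf Γ (Geo.ug m₁ m₂ s0) x = some κ := by
  have hex : ∃ κ, domPos (D := (Geo.ug m₁ m₂ s0).region Γ.T) (cut := Γ.cutB (Geo.ug m₁ m₂ s0)) x ∈
      (Geo.ug m₁ m₂ s0).cell κ := ⟨κ, h⟩
  unfold Geo.cellOf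
  rw [dif_pos hex]
  exact congrArg some (avg_cell_unique s0 hex.choose_spec h)

theorem avg_cellOf_iff (x : (Γ.graph (Geo.ug m₁ m₂ s0)).V) (κ : Fin m₁ × Fin m₂) :
    Geo.cellOf Γ (Geo.ug m₁ m₂ s0) x = some κ ↔
      domPos (D := (Geo.ug m₁ m₂ s0).region Γ.T) (cut := Γ.cutB (Geo.ug m₁ m₂ s0)) x ∈
        (Geo.ug m₁ m₂ s0).cell κ := by
  refine ⟨fun h => ?_, avg_cellOf Γ s0⟩
  obtain ⟨κ', -, h'⟩ := avg_exists_cell Γ s0 x
  rw [avg_cellOf Γ s0 h'] at h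
  rw [← Option.some.inj h]
  exact h'

theorem avg_cell_eq (κ : Fin m₁ × Fin m₂) :
    (Geo.ug m₁ m₂ s0).cell κ =
      Finset.Ico (((s0 + 1 : ℕ) : ℤ) * (κ.1.1 : ℤ)) (((s0 + 1 : ℕ) : ℤ) * (κ.1.1 : ℤ) + (s0 + 1 : ℕ)) ×ˢ
        Finset.Ico (((s0 + 1 : ℕ) : ℤ) * (κ.2.1 : ℤ)) (((s0 + 1 : ℕ) : ℤ) * (κ.2.1 : ℤ) + (s0 + 1 : ℕ)) := by
  ext p
  rw [avg_mem_cell, Finset.mem_product, Finset.mem_Ico, Finset.mem_Ico, mul_add, mul_add, mul_one]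

theorem avg_pair_cell (v : (Γ.graph (Geo.ug m₁ m₂ s0)).V → ℝ) {κ : Fin m₁ × Fin m₂} (hκ : κ ∈ Γ.T) :
    HLaw.pair (fibAvg (Geo.cellOf Γ (Geo.ug m₁ m₂ s0)) (some κ)) v =
      (((s0 + 1 : ℕ) : ℝ) ^ 2)⁻¹ * ∑ a ∈ Finset.range (s0 + 1), ∑ b ∈ Finset.range (s0 + 1),
        avgExt (D := (Geo.ug m₁ m₂ s0).region Γ.T) (cut := Γ.cutB (Geo.ug m₁ m₂ s0)) v
          (((s0 + 1 : ℕ) : ℤ) * (κ.1.1 : ℤ) + a, ((s0 + 1 : ℕ) : ℤ) * (κ.2.1 : ℤ) + b) := by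
  have h := avg_pair (D := (Geo.ug m₁ m₂ s0).region Γ.T) (cut := Γ.cutB (Geo.ug m₁ m₂ s0))
    (Geo.cellOf Γ (Geo.ug m₁ m₂ s0)) (some κ) ((Geo.ug m₁ m₂ s0).cell κ)
    (Finset.subset_biUnion_of_mem _ hκ) (fun x => avg_cellOf_iff Γ s0 x κ) v
  refine h.trans ?_
  rw [avg_cell_eq, Finset.card_product, Int.card_Ico, Int.card_Ico, Finset.sum_product]
  congr 1
  · simp [sq]
  · rw [avg_sum_Ico]
    refine Finset.sum_congr rfl fun a _ => ?_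
    rw [avg_sum_Ico]

/-- the pairs of `A_cell` are pairs of adjacent cells with an uncut common face -/
theorem avg_pairs {p : Option (Fin m₁ × Fin m₂) × Option (Fin m₁ × Fin m₂)}
    (hp : p ∈ cellPairs (Geo.cellOf Γ (Geo.ug m₁ m₂ s0))) :
    ∃ κ κ' : Fin m₁ × Fin m₂, p = (some κ, some κ') ∧ κ ∈ Γ.T ∧ κ' ∈ Γ.T ∧
      ((κ.1.1 + 1 = κ'.1.1 ∧ κ.2.1 = κ'.2.1 ∧ (κ, true) ∉ Γ.cutF) ∨
        (κ.1.1 = κ'.1.1 ∧ κ.2.1 + 1 = κ'.2.1 ∧ (κ, false) ∉ Γ.cutF)) := by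
  have hN : (0 : ℤ) < ((s0 + 1 : ℕ) : ℤ) := by positivity
  simp only [cellPairs, Finset.mem_filter, Finset.mem_image, Finset.mem_univ, true_and] at hp
  obtain ⟨⟨e, rfl⟩, hne⟩ := hp
  simp only at hne
  obtain ⟨κ, hκ, h1⟩ := avg_exists_cell Γ s0 ((Γ.graph (Geo.ug m₁ m₂ s0)).src e)
  obtain ⟨κ', hκ', h2⟩ := avg_exists_cell Γ s0 ((Γ.graph (Geo.ug m₁ m₂ s0)).tgt e)
  rw [avg_cellOf Γ s0 h1, avg_cellOf Γ s0 h2] at hne ⊢
  have hne' : κ ≠ κ' := fun h => hne (by rw [h])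
  refine ⟨κ, κ', rfl, hκ, hκ', ?_⟩
  set bd : Bond := domBond (D := (Geo.ug m₁ m₂ s0).region Γ.T) (cut := Γ.cutB (Geo.ug m₁ m₂ s0)) e
    with hbd
  have hb1 : bd.1 ∈ (Geo.ug m₁ m₂ s0).cell κ := h1
  have hb2 : bd.snd ∈ (Geo.ug m₁ m₂ s0).cell κ' := h2
  have hmem : bd ∈ domBonds ((Geo.ug m₁ m₂ s0).region Γ.T) (Γ.cutB (Geo.ug m₁ m₂ s0)) :=
    Subtype.property
      (p := fun e => e ∈ domBonds ((Geo.ug m₁ m₂ s0).region Γ.T) (Γ.cutB (Geo.ug m₁ m₂ s0))) e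
  have hcut : bd ∉ Γ.cutB (Geo.ug m₁ m₂ s0) := (Finset.mem_filter.1 hmem).2.2
  have hnot : bd.snd ∉ (Geo.ug m₁ m₂ s0).cell κ := fun h => hne' (avg_cell_unique s0 h hb2)
  have hface : (κ, bd.2) ∉ Γ.cutF := fun h => hcut ⟨(κ, bd.2), h, rfl, hb1, hnot⟩
  rw [avg_mem_cell] at hb1 hb2
  have hNN : ((s0 + 1 : ℕ) : ℤ) * (((κ.1.1 : ℤ) + 1) + 1) =
      ((s0 + 1 : ℕ) : ℤ) * ((κ.1.1 : ℤ) + 1) + ((s0 + 1 : ℕ) : ℤ) := by ring
  have hNN2 : ((s0 + 1 : ℕ) : ℤ) * (((κ.2.1 : ℤ) + 1) + 1) =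
      ((s0 + 1 : ℕ) : ℤ) * ((κ.2.1 : ℤ) + 1) + ((s0 + 1 : ℕ) : ℤ) := by ring
  cases hd : bd.2 with
  | true =>
    rw [hd] at hface
    have hs : bd.snd = (bd.1.1 + 1, bd.1.2) := by simp [Bond.snd, hd]
    rw [hs] at hb2
    simp only at hb2
    left
    have a1 := avg_idx_le hN (by omega : bd.1.1 ≤ bd.1.1 + 1) hb1.1.1 hb2.1.2
    have a2 := avg_idx_le (i' := (κ.1.1 : ℤ) + 1) hN (le_refl (bd.1.1 + 1)) hb2.1.1 (by omega)
    have a3 := avg_idx_le hN le_rfl hb1.2.1 hb2.2.2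
    have a4 := avg_idx_le hN le_rfl hb2.2.1 hb1.2.2
    have h2e : κ.2.1 = κ'.2.1 := by omega
    refine ⟨?_, h2e, hface⟩
    by_contra hc
    have : κ.1.1 = κ'.1.1 := by omega
    exact hne' (Prod.ext (Fin.ext this) (Fin.ext h2e))
  | false =>
    rw [hd] at hface
    have hs : bd.snd = (bd.1.1, bd.1.2 + 1) := by simp [Bond.snd, hd]
    rw [hs] at hb2
    simp only at hb2
    right
    have a1 := avg_idx_le hN (by omega : bd.1.2 ≤ bd.1.2 + 1) hb1.2.1 hb2.2.2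
    have a2 := avg_idx_le (i' := (κ.2.1 : ℤ) + 1) hN (le_refl (bd.1.2 + 1)) hb2.2.1 (by omega)
    have a3 := avg_idx_le hN le_rfl hb1.1.1 hb2.1.2
    have a4 := avg_idx_le hN le_rfl hb2.1.1 hb1.1.2
    have h1e : κ.1.1 = κ'.1.1 := by omega
    refine ⟨h1e, ?_, hface⟩
    by_contra hc
    have : κ.2.1 = κ'.2.1 := by omega
    exact hne' (Prod.ext (Fin.ext h1e) (Fin.ext this))

theorem avg_mem_cell' (κ : Fin m₁ × Fin m₂) (x y : ℤ) :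
    ((((s0 + 1 : ℕ) : ℤ) * (κ.1.1 : ℤ) + x, ((s0 + 1 : ℕ) : ℤ) * (κ.2.1 : ℤ) + y) : ℤ × ℤ) ∈
      (Geo.ug m₁ m₂ s0).cell κ ↔ (0 ≤ x ∧ x < ((s0 + 1 : ℕ) : ℤ)) ∧ (0 ≤ y ∧ y < ((s0 + 1 : ℕ) : ℤ)) := by
  rw [avg_mem_cell, mul_add, mul_add, mul_one]
  simp only
  omega

theorem avg_bond_mem {e : Bond} {κ₁ κ₂ : Fin m₁ × Fin m₂} (h1 : κ₁ ∈ Γ.T) (h2 : κ₂ ∈ Γ.T)
    (he1 : e.1 ∈ (Geo.ug m₁ m₂ s0).cell κ₁) (he2 : e.snd ∈ (Geo.ug m₁ m₂ s0).cell κ₂)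
    (h : κ₁ = κ₂ ∨ (κ₁, e.2) ∉ Γ.cutF) :
    e ∈ domBonds ((Geo.ug m₁ m₂ s0).region Γ.T) (Γ.cutB (Geo.ug m₁ m₂ s0)) := by
  refine Finset.mem_filter.2 ⟨Finset.mem_product.2 ⟨Finset.mem_biUnion.2 ⟨κ₁, h1, he1⟩,
    Finset.mem_univ _⟩, Finset.mem_biUnion.2 ⟨κ₂, h2, he2⟩, ?_⟩
  rintro ⟨f, hf, hd, hf1, hf2⟩
  have hfk : f.1 = κ₁ := avg_cell_unique s0 hf1 he1
  rcases h with rfl | h
  · exact hf2 (hfk ▸ he2)
  · apply h
    have : f = (κ₁, e.2) := Prod.ext hfk hd.symm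
    rwa [← this]

/-- the horizontal bonds used by a horizontal pair -/
theorem avg_bond_h {κ κ' : Fin m₁ × Fin m₂} (hκ : κ ∈ Γ.T) (hκ' : κ' ∈ Γ.T)
    (h1 : κ.1.1 + 1 = κ'.1.1) (h2 : κ.2.1 = κ'.2.1) (hc : (κ, true) ∉ Γ.cutF) {a b : ℕ}
    (ha : a < 2 * (s0 + 1) - 1) (hb : b < s0 + 1) :
    (((((s0 + 1 : ℕ) : ℤ) * (κ.1.1 : ℤ) + a, ((s0 + 1 : ℕ) : ℤ) * (κ.2.1 : ℤ) + b), true) : Bond) ∈
      domBonds ((Geo.ug m₁ m₂ s0).region Γ.T) (Γ.cutB (Geo.ug m₁ m₂ s0)) := by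
  have e1 : ((s0 + 1 : ℕ) : ℤ) * (κ.1.1 : ℤ) = ((s0 + 1 : ℕ) : ℤ) * (κ'.1.1 : ℤ) - ((s0 + 1 : ℕ) : ℤ) := by
    have : (κ'.1.1 : ℤ) = (κ.1.1 : ℤ) + 1 := by omega
    rw [this]; ring
  have e2 : (κ.2.1 : ℤ) = (κ'.2.1 : ℤ) := by omega
  have hsnd : Bond.snd (((((s0 + 1 : ℕ) : ℤ) * (κ.1.1 : ℤ) + a, ((s0 + 1 : ℕ) : ℤ) * (κ.2.1 : ℤ) + b),
      true) : Bond) = (((s0 + 1 : ℕ) : ℤ) * (κ.1.1 : ℤ) + ((a : ℤ) + 1),
        ((s0 + 1 : ℕ) : ℤ) * (κ.2.1 : ℤ) + b) := by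
    simp [Bond.snd, add_assoc]
  have q1 : ∀ x : ℤ, ((((s0 + 1 : ℕ) : ℤ) * (κ.1.1 : ℤ) + x, ((s0 + 1 : ℕ) : ℤ) * (κ.2.1 : ℤ) + b) : ℤ × ℤ) =
      (((s0 + 1 : ℕ) : ℤ) * (κ'.1.1 : ℤ) + (x - ((s0 + 1 : ℕ) : ℤ)), ((s0 + 1 : ℕ) : ℤ) * (κ'.2.1 : ℤ) + b) := by
    intro x
    rw [e1, e2]
    ext
    · simp only; ring
    · rfl
  rcases lt_trichotomy (a + 1) (s0 + 1) with hlt | heq | hgt
  · refine avg_bond_mem Γ s0 hκ hκ ?_ ?_ (Or.inl rfl)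
    · exact (avg_mem_cell' s0 κ _ _).2 (by omega)
    · rw [hsnd]; exact (avg_mem_cell' s0 κ _ _).2 (by omega)
  · refine avg_bond_mem Γ s0 hκ hκ' ?_ ?_ (Or.inr hc)
    · exact (avg_mem_cell' s0 κ _ _).2 (by omega)
    · rw [hsnd, q1]; exact (avg_mem_cell' s0 κ' _ _).2 (by omega)
  · refine avg_bond_mem Γ s0 hκ' hκ' ?_ ?_ (Or.inl rfl)
    · show ((((s0 + 1 : ℕ) : ℤ) * (κ.1.1 : ℤ) + (a : ℤ), ((s0 + 1 : ℕ) : ℤ) * (κ.2.1 : ℤ) + b) : ℤ × ℤ) ∈ _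
      rw [q1]; exact (avg_mem_cell' s0 κ' _ _).2 (by omega)
    · rw [hsnd, q1]; exact (avg_mem_cell' s0 κ' _ _).2 (by omega)

/-- the vertical bonds used by a vertical pair -/
theorem avg_bond_v {κ κ' : Fin m₁ × Fin m₂} (hκ : κ ∈ Γ.T) (hκ' : κ' ∈ Γ.T)
    (h1 : κ.1.1 = κ'.1.1) (h2 : κ.2.1 + 1 = κ'.2.1) (hc : (κ, false) ∉ Γ.cutF) {a b : ℕ}
    (ha : a < 2 * (s0 + 1) - 1) (hb : b < s0 + 1) :
    (((((s0 + 1 : ℕ) : ℤ) * (κ.1.1 : ℤ) + b, ((s0 + 1 : ℕ) : ℤ) * (κ.2.1 : ℤ) + a), false) : Bond) ∈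
      domBonds ((Geo.ug m₁ m₂ s0).region Γ.T) (Γ.cutB (Geo.ug m₁ m₂ s0)) := by
  have e1 : ((s0 + 1 : ℕ) : ℤ) * (κ.2.1 : ℤ) = ((s0 + 1 : ℕ) : ℤ) * (κ'.2.1 : ℤ) - ((s0 + 1 : ℕ) : ℤ) := by
    have : (κ'.2.1 : ℤ) = (κ.2.1 : ℤ) + 1 := by omega
    rw [this]; ring
  have e2 : (κ.1.1 : ℤ) = (κ'.1.1 : ℤ) := by omega
  have hsnd : Bond.snd (((((s0 + 1 : ℕ) : ℤ) * (κ.1.1 : ℤ) + b, ((s0 + 1 : ℕ) : ℤ) * (κ.2.1 : ℤ) + a),
      false) : Bond) = (((s0 + 1 : ℕ) : ℤ) * (κ.1.1 : ℤ) + b,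
        ((s0 + 1 : ℕ) : ℤ) * (κ.2.1 : ℤ) + ((a : ℤ) + 1)) := by
    simp [Bond.snd, add_assoc]
  have q1 : ∀ x : ℤ, ((((s0 + 1 : ℕ) : ℤ) * (κ.1.1 : ℤ) + b, ((s0 + 1 : ℕ) : ℤ) * (κ.2.1 : ℤ) + x) : ℤ × ℤ) =
      (((s0 + 1 : ℕ) : ℤ) * (κ'.1.1 : ℤ) + b, ((s0 + 1 : ℕ) : ℤ) * (κ'.2.1 : ℤ) + (x - ((s0 + 1 : ℕ) : ℤ))) := by
    intro x
    rw [e1, e2]
    ext
    · rfl
    · simp only; ring
  rcases lt_trichotomy (a + 1) (s0 + 1) with hlt | heq | hgt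
  · refine avg_bond_mem Γ s0 hκ hκ ?_ ?_ (Or.inl rfl)
    · exact (avg_mem_cell' s0 κ _ _).2 (by omega)
    · rw [hsnd]; exact (avg_mem_cell' s0 κ _ _).2 (by omega)
  · refine avg_bond_mem Γ s0 hκ hκ' ?_ ?_ (Or.inr hc)
    · exact (avg_mem_cell' s0 κ _ _).2 (by omega)
    · rw [hsnd, q1]; exact (avg_mem_cell' s0 κ' _ _).2 (by omega)
  · refine avg_bond_mem Γ s0 hκ' hκ' ?_ ?_ (Or.inl rfl)
    · show ((((s0 + 1 : ℕ) : ℤ) * (κ.1.1 : ℤ) + b, ((s0 + 1 : ℕ) : ℤ) * (κ.2.1 : ℤ) + (a : ℤ)) : ℤ × ℤ) ∈ _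
      rw [q1]; exact (avg_mem_cell' s0 κ' _ _).2 (by omega)
    · rw [hsnd, q1]; exact (avg_mem_cell' s0 κ' _ _).2 (by omega)

end geo

/-- **the averaged gradient energy is at most the gradient energy, constant ONE** (Jensen + counting: a bond at offset `r` in its cell is used with total weight `(r+1)/s0 + (s0-r-1)/s0 = 1`).
Consequence: `a⁻¹ 𝓔 ≤ a⁻¹ 𝓔 + δ avgEn ≤ a'⁻¹ 𝓔`: one half of every comparison in L5.2 is an exact inequality at finite `t, s0`. -/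
theorem avgEn_le {m₁ m₂ : ℕ} (Γ : CGeom m₁ m₂) (s0 : ℕ) (v : (Γ.graph (Geo.ug m₁ m₂ s0)).V → ℝ) :
    avgEn (Geo.cellOf Γ (Geo.ug m₁ m₂ s0)) v ≤ HLaw.en v 0 := by
  set D := (Geo.ug m₁ m₂ s0).region Γ.T with hD
  set cut := Γ.cutB (Geo.ug m₁ m₂ s0) with hcut
  set u : ℤ × ℤ → ℝ := avgExt (D := D) (cut := cut) v with hu
  set A : Fin m₁ × Fin m₂ → ℝ := fun κ =>
    (((s0 + 1 : ℕ) : ℝ) ^ 2)⁻¹ * ∑ a ∈ Finset.range (s0 + 1), ∑ b ∈ Finset.range (s0 + 1),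
      u (((s0 + 1 : ℕ) : ℤ) * (κ.1.1 : ℤ) + a, ((s0 + 1 : ℕ) : ℤ) * (κ.2.1 : ℤ) + b) with hA
  set Ph : Finset ((Fin m₁ × Fin m₂) × (Fin m₁ × Fin m₂)) := (Γ.T ×ˢ Γ.T).filter fun q =>
    q.1.1.1 + 1 = q.2.1.1 ∧ q.1.2.1 = q.2.2.1 ∧ (q.1, true) ∉ Γ.cutF with hPh
  set Pv : Finset ((Fin m₁ × Fin m₂) × (Fin m₁ × Fin m₂)) := (Γ.T ×ˢ Γ.T).filter fun q =>
    q.1.1.1 = q.2.1.1 ∧ q.1.2.1 + 1 = q.2.2.1 ∧ (q.1, false) ∉ Γ.cutF with hPv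
  -- step 1: the sum over the pairs
  have hJ : Function.Injective fun q : (Fin m₁ × Fin m₂) × (Fin m₁ × Fin m₂) =>
      ((some q.1, some q.2) : Option (Fin m₁ × Fin m₂) × Option (Fin m₁ × Fin m₂)) := by
    intro q q' h
    simp only [Prod.mk.injEq, Option.some.injEq] at h
    exact Prod.ext h.1 h.2
  have h1 : avgEn (Geo.cellOf Γ (Geo.ug m₁ m₂ s0)) v ≤ ∑ q ∈ Ph ∪ Pv, (A q.2 - A q.1) ^ 2 := by
    have hsub : cellPairs (Geo.cellOf Γ (Geo.ug m₁ m₂ s0)) ⊆ (Ph ∪ Pv).image fun q =>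
        ((some q.1, some q.2) : Option (Fin m₁ × Fin m₂) × Option (Fin m₁ × Fin m₂)) := by
      intro p hp
      obtain ⟨κ, κ', rfl, hκ, hκ', h⟩ := avg_pairs Γ s0 hp
      refine Finset.mem_image.2 ⟨(κ, κ'), Finset.mem_union.2 ?_, rfl⟩
      rcases h with h | h
      · exact Or.inl (Finset.mem_filter.2 ⟨Finset.mem_product.2 ⟨hκ, hκ'⟩, h⟩)
      · exact Or.inr (Finset.mem_filter.2 ⟨Finset.mem_product.2 ⟨hκ, hκ'⟩, h⟩)
    unfold avgEn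
    refine (Finset.sum_le_sum_of_subset_of_nonneg hsub fun _ _ _ => sq_nonneg _).trans ?_
    rw [Finset.sum_image fun q _ q' _ h => hJ h]
    refine le_of_eq (Finset.sum_congr rfl fun q hq => ?_)
    have hqT : q.1 ∈ Γ.T ∧ q.2 ∈ Γ.T := by
      rcases Finset.mem_union.1 hq with h | h
      · exact Finset.mem_product.1 (Finset.mem_filter.1 h).1
      · exact Finset.mem_product.1 (Finset.mem_filter.1 h).1
    simp only
    rw [avg_pair_cell Γ s0 v hqT.1, avg_pair_cell Γ s0 v hqT.2]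
  have h2 : ∑ q ∈ Ph ∪ Pv, (A q.2 - A q.1) ^ 2 =
      ∑ q ∈ Ph, (A q.2 - A q.1) ^ 2 + ∑ q ∈ Pv, (A q.2 - A q.1) ^ 2 := by
    refine Finset.sum_union (Finset.disjoint_left.2 fun q hq hq' => ?_)
    have a1 := (Finset.mem_filter.1 hq).2.1
    have a2 := (Finset.mem_filter.1 hq').2.1
    omega
  -- step 2: horizontal pairs
  have h3 : ∑ q ∈ Ph, (A q.2 - A q.1) ^ 2 ≤
      ∑ e ∈ (domBonds D cut).filter (fun e => e.2 = true), (u e.snd - u e.1) ^ 2 := by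
    have key := avg_dir Ph (fun q => (q.1.1.1 : ℤ)) (fun q => (q.1.2.1 : ℤ)) (by
        intro q hq q' hq' e1 e2
        have b1 := (Finset.mem_filter.1 hq).2
        have b2 := (Finset.mem_filter.1 hq').2
        refine Prod.ext (Prod.ext (Fin.ext (by omega)) (Fin.ext (by omega)))
          (Prod.ext (Fin.ext (by omega)) (Fin.ext (by omega))))
      (s0 + 1) (Nat.succ_pos s0) (fun x y => u (x, y))
      (((domBonds D cut).filter (fun e => e.2 = true)).image fun e => e.1) (by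
        intro q hq a b ha hb
        have b1 := Finset.mem_filter.1 hq
        have b2 := Finset.mem_product.1 b1.1
        exact Finset.mem_image.2 ⟨_, Finset.mem_filter.2
          ⟨avg_bond_h Γ s0 b2.1 b2.2 b1.2.1 b1.2.2.1 b1.2.2.2 ha hb, rfl⟩, rfl⟩)
    rw [Finset.sum_image (by
      intro e he e' he' h
      have c1 := (Finset.mem_filter.1 he).2
      have c2 := (Finset.mem_filter.1 he').2
      exact Prod.ext h (c1.trans c2.symm))] at key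
    refine le_trans (le_of_eq (Finset.sum_congr rfl fun q hq => ?_))
      (key.trans (le_of_eq (Finset.sum_congr rfl fun e he => ?_)))
    · have b1 := (Finset.mem_filter.1 hq).2
      have c1 : (q.2.1.1 : ℤ) = (q.1.1.1 : ℤ) + 1 := by omega
      have c2 : (q.2.2.1 : ℤ) = (q.1.2.1 : ℤ) := by omega
      simp only [hA, c1, c2]
    · have c1 := (Finset.mem_filter.1 he).2
      simp only [Bond.snd, c1, if_true]
  -- step 3: vertical pairs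
  have h4 : ∑ q ∈ Pv, (A q.2 - A q.1) ^ 2 ≤
      ∑ e ∈ (domBonds D cut).filter (fun e => ¬ e.2 = true), (u e.snd - u e.1) ^ 2 := by
    have key := avg_dir Pv (fun q => (q.1.2.1 : ℤ)) (fun q => (q.1.1.1 : ℤ)) (by
        intro q hq q' hq' e1 e2
        have b1 := (Finset.mem_filter.1 hq).2
        have b2 := (Finset.mem_filter.1 hq').2
        refine Prod.ext (Prod.ext (Fin.ext (by omega)) (Fin.ext (by omega)))
          (Prod.ext (Fin.ext (by omega)) (Fin.ext (by omega))))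
      (s0 + 1) (Nat.succ_pos s0) (fun x y => u (y, x))
      (((domBonds D cut).filter (fun e => ¬ e.2 = true)).image fun e => (e.1.2, e.1.1)) (by
        intro q hq a b ha hb
        have b1 := Finset.mem_filter.1 hq
        have b2 := Finset.mem_product.1 b1.1
        exact Finset.mem_image.2 ⟨_, Finset.mem_filter.2
          ⟨avg_bond_v Γ s0 b2.1 b2.2 b1.2.1 b1.2.2.1 b1.2.2.2 ha hb, by simp⟩, rfl⟩)
    rw [Finset.sum_image (by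
      intro e he e' he' h
      have c1 := (Finset.mem_filter.1 he).2
      have c2 := (Finset.mem_filter.1 he').2
      simp only [Prod.mk.injEq] at h
      refine Prod.ext (Prod.ext h.2 h.1) ?_
      simp only [Bool.not_eq_true] at c1 c2
      exact c1.trans c2.symm)] at key
    refine le_trans (le_of_eq (Finset.sum_congr rfl fun q hq => ?_))
      (key.trans (le_of_eq (Finset.sum_congr rfl fun e he => ?_)))
    · have b1 := (Finset.mem_filter.1 hq).2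
      have c1 : (q.2.1.1 : ℤ) = (q.1.1.1 : ℤ) := by omega
      have c2 : (q.2.2.1 : ℤ) = (q.1.2.1 : ℤ) + 1 := by omega
      simp only [hA, c1, c2]
      rw [Finset.sum_comm (s := Finset.range (s0 + 1)) (t := Finset.range (s0 + 1)) (f := fun a b : ℕ =>
          u (((s0 + 1 : ℕ) : ℤ) * (q.1.1.1 : ℤ) + (a : ℤ), ((s0 + 1 : ℕ) : ℤ) * ((q.1.2.1 : ℤ) + 1) + (b : ℤ))),
        Finset.sum_comm (s := Finset.range (s0 + 1)) (t := Finset.range (s0 + 1)) (f := fun a b : ℕ =>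
          u (((s0 + 1 : ℕ) : ℤ) * (q.1.1.1 : ℤ) + (a : ℤ), ((s0 + 1 : ℕ) : ℤ) * (q.1.2.1 : ℤ) + (b : ℤ)))]
    · have c1 := (Finset.mem_filter.1 he).2
      simp only [Bool.not_eq_true] at c1
      simp [Bond.snd, c1]
  have h5 : HLaw.en v 0 = ∑ e ∈ domBonds D cut, (u e.snd - u e.1) ^ 2 :=
    avg_en (D := D) (cut := cut) v
  rw [h5, ← Finset.sum_filter_add_sum_filter_not (domBonds D cut) (fun e => e.2 = true)]
  linarith

theorem exists_delta (a : ℝ) (ha : 8 * Real.pi < a) : ∃ δ > 0, 8 * Real.pi < aPrime a δ := by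
  have hpi : 0 < 8 * Real.pi := by positivity
  have ha0 : 0 < a := hpi.trans ha
  have hinv : a⁻¹ < (8 * Real.pi)⁻¹ := (inv_lt_inv₀ ha0 hpi).2 ha
  refine ⟨((8 * Real.pi)⁻¹ - a⁻¹) / 2, by linarith, ?_⟩
  unfold aPrime
  have h1 : 0 < a⁻¹ + ((8 * Real.pi)⁻¹ - a⁻¹) / 2 := by
    have := inv_pos.2 ha0
    linarith
  rw [lt_inv_comm₀ hpi h1]
  linarith

/-- the penalty of the strengthened law -/
theorem avg_str_sum {G : HGraph} (H : HLaw G) {C : Type} (κ₀ : G.V → C) (w : ℝ) (c : H.O → ℝ)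
    (v : G.V → ℝ) :
    ∑ o, ((str H κ₀ w).obs v o - (strAff H κ₀ w ⟨0, 0, c⟩).c o) ^ 2 =
      ∑ o, (H.obs v o - c o) ^ 2 + w ^ 2 * avgEn κ₀ v := by
  have h1 : ∑ o, ((str H κ₀ w).obs v o - (strAff H κ₀ w ⟨0, 0, c⟩).c o) ^ 2 =
      ∑ o : H.O, ((str H κ₀ w).obs v (Sum.inl o) - (strAff H κ₀ w ⟨0, 0, c⟩).c (Sum.inl o)) ^ 2 +
      ∑ p : {p : C × C // p ∈ cellPairs κ₀},
        ((str H κ₀ w).obs v (Sum.inr p) - (strAff H κ₀ w ⟨0, 0, c⟩).c (Sum.inr p)) ^ 2 :=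
    Fintype.sum_sum_type _
  rw [h1]
  congr 1
  have h2 : ∀ p : {p : C × C // p ∈ cellPairs κ₀},
      ((str H κ₀ w).obs v (Sum.inr p) - (strAff H κ₀ w ⟨0, 0, c⟩).c (Sum.inr p)) ^ 2 =
      (fun p : C × C => w ^ 2 *
        (HLaw.pair (fibAvg κ₀ p.2) v - HLaw.pair (fibAvg κ₀ p.1) v) ^ 2) p.1 := by
    intro p
    have e1 : (str H κ₀ w).obs v (Sum.inr p) =
        ∑ x, w * (fibAvg κ₀ p.1.2 x - fibAvg κ₀ p.1.1 x) * v x := rfl
    have e2 : (strAff H κ₀ w ⟨0, 0, c⟩).c (Sum.inr p) = 0 := rfl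
    rw [e1, e2, sub_zero]
    simp only [HLaw.pair]
    rw [← mul_pow, ← Finset.sum_sub_distrib, Finset.mul_sum]
    congr 1
    refine Finset.sum_congr rfl fun x _ => ?_
    ring
  rw [Finset.sum_congr rfl fun p _ => h2 p, avgEn, Finset.mul_sum]
  exact (Finset.sum_subtype (cellPairs κ₀) (fun _ => Iff.rfl) (fun p : C × C => w ^ 2 *
        (HLaw.pair (fibAvg κ₀ p.2) v - HLaw.pair (fibAvg κ₀ p.1) v) ^ 2)).symm

/-- exact half of the comparison, for any law -/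
theorem avg_str_gEn_le {G : HGraph} (H : HLaw G) {C : Type} (κ₀ : G.V → C)
    (havg : ∀ v : G.V → ℝ, avgEn κ₀ v ≤ HLaw.en v 0) (a δ : ℝ) (ha : 0 < a) (hδ : 0 ≤ δ)
    (c : H.O → ℝ) :
    (str H κ₀ (Real.sqrt δ)).gEn a 0 (strAff H κ₀ (Real.sqrt δ) ⟨0, 0, c⟩).c ≤
      H.gEn (aPrime a δ) 0 c := by
  unfold HLaw.gEn
  have hinv : (aPrime a δ)⁻¹ = a⁻¹ + δ := by unfold aPrime; rw [inv_inv]
  have ha' : 0 ≤ a⁻¹ := (inv_pos.2 ha).le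
  have hen : ∀ v : G.V → ℝ, 0 ≤ HLaw.en v (0 : G.E → ℝ) := fun v =>
    Finset.sum_nonneg fun _ _ => sq_nonneg _
  refine ciInf_mono (ι := H.rspan) ⟨0, ?_⟩ fun v => ?_
  · rintro _ ⟨v, rfl⟩
    exact add_nonneg (mul_nonneg ha' (hen _)) (Finset.sum_nonneg fun _ _ => sq_nonneg _)
  · rw [avg_str_sum, Real.sq_sqrt hδ, hinv]
    have := mul_le_mul_of_nonneg_left (havg (v : G.V → ℝ)) hδ
    linarith

section

variable {k₁ k₂ : ℕ} (Γ : CGeom k₁ k₂)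

/-- POT, exact half: `avgEn ≤ 𝓔` gives `E^{str}_{a} ≤ E_{a'}` at every `t, s0` -/
theorem pot_gEn_le (a δ : ℝ) (ha : 0 < a) (hδ : 0 ≤ δ) (t s0 : ℕ) (c : Fin Γ.nObs → ℝ) :
    (Geo.lawS (Geo.refine Γ t) (Geo.ug _ _ s0) δ).gEn a 0
        (strAff _ (Geo.cellOf (Geo.refine Γ t) (Geo.ug _ _ s0)) (Real.sqrt δ) ⟨0, 0, c⟩).c
      ≤ ((Geo.refine Γ t).law (Geo.ug _ _ s0)).gEn (aPrime a δ) 0 c :=
  avg_str_gEn_le ((Geo.refine Γ t).law (Geo.ug _ _ s0)) _ (avgEn_le (Geo.refine Γ t) s0) a δ ha hδ c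

end

end

end Claimed.Agent.R285.C5
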