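import Claimed.Agent.R285.C5.Defs

/-!
# ROW 285, [C] s5, leaf L-C5-CONT: finite-patch continuity in the temperature (50-openness.tex l.818-845)
-/

set_option autoImplicit false

namespace Claimed.Agent.R285.C5

open Filter Topology
open scoped Classical

noncomputable section

/-- the Bessel weight is continuous in the temperature (Fourier representation). -/
theorem c5_bes_continuous (k : ℤ) : Continuous fun b : ℝ => bes b k := by
  have e : (fun b : ℝ => bes b k) = fun b => (2 * Real.pi)⁻¹ *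
      ∫ θ in (0 : ℝ)..(2 * Real.pi), Real.exp (b * (Real.cos θ - 1)) * Real.cos (k * θ) :=
    funext fun b => bes_fourier b k
  rw [e]
  refine continuous_const.mul ?_
  apply intervalIntegral.continuous_parametric_intervalIntegral_of_continuous
  · fun_prop
  · exact continuous_const

/-- monotone domination: `p_b (k) ≤ e^{hi} p_{hi} (k)` for `0 ≤ b ≤ hi`. -/
theorem c5_bes_le {b hi : ℝ} (hb : 0 ≤ b) (hbh : b ≤ hi) (k : ℤ) : bes b k ≤ Real.exp hi * bes hi k := by
  unfold bes
  have h1 : ∑' m : ℕ, (b / 2) ^ (2 * m + k.natAbs) / ((m.factorial : ℝ) * ((m + k.natAbs).factorial : ℝ))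
      ≤ ∑' m : ℕ, (hi / 2) ^ (2 * m + k.natAbs) / ((m.factorial : ℝ) * ((m + k.natAbs).factorial : ℝ)) :=
    Summable.tsum_le_tsum (fun m => by gcongr) (bes_inner_summable b k) (bes_inner_summable hi k)
  have h0 : 0 ≤ ∑' m : ℕ, (b / 2) ^ (2 * m + k.natAbs) / ((m.factorial : ℝ) * ((m + k.natAbs).factorial : ℝ)) :=
    tsum_nonneg fun m => by positivity
  have h2 : Real.exp (-b) ≤ 1 := Real.exp_le_one_iff.2 (by linarith)
  calc _ ≤ 1 * ∑' m : ℕ, (hi / 2) ^ (2 * m + k.natAbs) / ((m.factorial : ℝ) * ((m + k.natAbs).factorial : ℝ)) :=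
        mul_le_mul h2 h1 h0 zero_le_one
    _ = _ := by rw [← mul_assoc, ← Real.exp_add]; simp

/-- all finite-graph quantities of the entry construction are continuous in `b'`: one statement on `LSys` (locally uniform domination: `lsys_summable` at a larger temperature, `bes` is continuous and monotone bounds from `Rsd/Bes`). -/
theorem lsys_continuous_b (S : LSys) (hS : S.Ok) (α : S.Amb) (Y : S.L →+ ℝ) (F : S.L → ℝ) (hF : ∃ C, ∀ z, |F z| ≤ C) :
    ContinuousOn (fun b' : ℝ => (S.atb fun _ => b').Zf α fun z => F z * Real.exp (Y z)) (Set.Ioi 0) := by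
  obtain ⟨C, hC⟩ := hF
  rw [IsOpen.continuousOn_iff isOpen_Ioi]
  intro a ha
  have ha' : (0 : ℝ) < a := ha
  have hhi : (0 : ℝ) < a + 1 := by linarith
  have hOk : (S.atb fun _ => a + 1).Ok := ⟨fun _ => hhi, hS.2⟩
  have hW : ∀ (b' : ℝ) (x : S.Amb), (S.atb fun _ => b').W x
      = (∏ e, bes b' (x.1 e)) * Real.exp (-(∑ o, x.2 o ^ 2) / 2) := fun _ _ => rfl
  have hcont : ContinuousOn (fun b' : ℝ => ∑' z : S.L, (F z * Real.exp (Y z)) *
      (S.atb fun _ => b').W ((z : S.Amb) + α)) (Set.Ioo 0 (a + 1)) := by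
    refine continuousOn_tsum (u := fun z : S.L => (C * Real.exp (a + 1) ^ (Fintype.card S.E)) *
      (Real.exp (Y z) * (S.atb fun _ => a + 1).W ((z : S.Amb) + α))) ?_ ?_ ?_
    · intro z
      simp only [hW]
      exact (continuous_const.mul ((continuous_finsetProd _ fun e _ => c5_bes_continuous _).mul
        continuous_const)).continuousOn
    · exact (lsys_summable (S.atb fun _ => a + 1) hOk α Y).mul_left _
    · intro z b' hb'
      have hb0 : 0 ≤ b' := hb'.1.le
      have h1 : (∏ e, bes b' (((z : S.Amb) + α).1 e)) ≤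
          Real.exp (a + 1) ^ (Fintype.card S.E) * ∏ e, bes (a + 1) (((z : S.Amb) + α).1 e) := by
        calc (∏ e, bes b' (((z : S.Amb) + α).1 e))
            ≤ ∏ e : S.E, Real.exp (a + 1) * bes (a + 1) (((z : S.Amb) + α).1 e) :=
              Finset.prod_le_prod (fun e _ => bes_nonneg _ hb0 _) (fun e _ => c5_bes_le hb0 hb'.2.le _)
          _ = _ := by rw [Finset.prod_mul_distrib, Finset.prod_const, Finset.card_univ]
      have h2 : 0 ≤ ∏ e, bes b' (((z : S.Amb) + α).1 e) := Finset.prod_nonneg fun e _ => bes_nonneg _ hb0 _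
      rw [hW, hW, Real.norm_eq_abs, abs_mul, abs_mul, Real.abs_exp, abs_mul, Real.abs_exp, abs_of_nonneg h2]
      have hC0 : 0 ≤ C := le_trans (abs_nonneg _) (hC z)
      calc |F z| * Real.exp (Y z) * ((∏ e, bes b' (((z : S.Amb) + α).1 e)) *
            Real.exp (-(∑ o, ((z : S.Amb) + α).2 o ^ 2) / 2))
          ≤ C * Real.exp (Y z) * ((Real.exp (a + 1) ^ (Fintype.card S.E) *
              ∏ e, bes (a + 1) (((z : S.Amb) + α).1 e)) * Real.exp (-(∑ o, ((z : S.Amb) + α).2 o ^ 2) / 2)) := by
            gcongr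
            exact hC z
        _ = _ := by ring
  exact hcont.continuousAt (Ioo_mem_nhds ha' (by linarith))

end

end Claimed.Agent.R285.C5
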