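import Claimed.Agent.R285.C5.Shift
import Claimed.Agent.R285.F4a.Face
import Claimed.Agent.R285.F4a.Tilt
import Claimed.Agent.R285.F4a.UnitB

/-!
# ROW 285, [C] s5, package PK-C5-RES (architect helper75): DEFINITIONS and LEAVES of L5.3 in the vocabulary of the ENTRY ENGINE (`F4a.Top c` on `RG.Geom`, `RG.Grid`)

The strengthened law (5.2) on a cut topology `T : F4a.Top c` with subcells = blocks of a finer grid `c0` is `lawS T c0 δ = C5.str T.law (subOf T c0) √δ`: the averaged bond between two subcells is present iff they are joined by a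
retained primary bond (`cellPairs`), so a cut removes its averaged bonds automatically.
L5.3 = (i) Gaussian domination `str_shift_energy` (leaf L-C5-SHIFT); (ii) `face_control` (5.10)-(5.11), constant `12 + 6/δ`, independent of `t = c.m / c0.m`, of the volume and of the cuts; (iii) `F4a.face_energy_upper` at `τ = 0`.
(ii) is cut here: two-cell Poincaré with constant ONE (`two_cell`), the averaged bonds of a retained face (`subFaces`), double counting (`face_mean_le`).   Glue: `C5/Res.lean` (PROVED).  All leaves are paper-free.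
-/

set_option autoImplicit false

namespace Claimed.Agent.R285.C5

open Filter Topology
open Claimed.Agent.R285.RG Claimed.Agent.R285.F4a
open scoped Classical

noncomputable section

variable {G : Geom} {c : Grid G}

/-- the subcell of a vertex -/
def subOf (T : F4a.Top c) (c0 : Grid G) (v : T.graph.V) : c0.I := c0.blk v.1

/-- **(5.2)** on a cut topology: observation rows of `T.law` + averaged bonds between the subcells of the grid `c0` -/
def lawS (T : F4a.Top c) (c0 : Grid G) (δ : ℝ) : HLaw T.graph := str T.law (subOf T c0) (Real.sqrt δ)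

/-- the observation data `y` -/
def affS (T : F4a.Top c) (c0 : Grid G) (δ : ℝ) (y : c.I → ℝ) : (lawS T c0 δ).Aff :=
  strAff T.law (subOf T c0) (Real.sqrt δ) ⟨0, 0, fun i => y i.1⟩

/-- `Z_G(y) / Z_G(0)` of the strengthened law -/
def ratS (T : F4a.Top c) (c0 : Grid G) (δ b : ℝ) (y : c.I → ℝ) : ℝ := (lawS T c0 δ).ratioL b (affS T c0 δ y)

/-- the average over the cell `i` of a field on the retained graph (`= T.law.obs v ⟨i, _⟩` by `rfl`) -/
def cav (T : F4a.Top c) (v : T.graph.V → ℝ) (i : c.I) : ℝ :=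
  ∑ x : T.graph.V, (if c.blk x.1 = i then ((c.sites {i}).card : ℝ)⁻¹ else 0) * v x

/-- the average over the subcell `κ` -/
def sav (T : F4a.Top c) (c0 : Grid G) (v : T.graph.V → ℝ) (κ : c0.I) : ℝ := HLaw.pair (fibAvg (subOf T c0) κ) v

/-- the faces of the subcell grid which carry an averaged bond: inside a present cell, or across a retained face -/
def subFaces (T : F4a.Top c) {c0 : Grid G} (N : Nest c0 c) : Finset (Face c0) :=
  Finset.univ.filter fun φ => IsFace c0 φ ∧ N.up φ.1 ∈ T.cells ∧ N.up (fnb c0 φ) ∈ T.cells ∧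
    (N.up (fnb c0 φ) = N.up φ.1 ∨ (N.up φ.1, φ.2) ∈ T.faces)

/-- the mean over the subcells of the cell `i` -/
def cmean {c0 : Grid G} (N : Nest c0 c) (U : c0.I → ℝ) (i : c.I) : ℝ :=
  ((Finset.univ.filter fun κ : c0.I => N.up κ = i).card : ℝ)⁻¹ * ∑ κ ∈ Finset.univ.filter (fun κ : c0.I => N.up κ = i), U κ

/-! ## Leaf L-C5-RESA: the strengthened law is proper (generic) -/

theorem str_coord_old {G : HGraph} (H : HLaw G) {C : Type} (κ₀ : G.V → C) (w : ℝ) (h : G.V → ℤ) :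
    H.coord h = (((str H κ₀ w).coord h).1, fun o => ((str H κ₀ w).coord h).2 (Sum.inl o)) := rfl

/-- L-C5-RESA.  The coordinates of `H` are among those of `str H`. -/
theorem str_proper {G : HGraph} (H : HLaw G) (hP : H.Proper) {C : Type} (κ₀ : G.V → C) (w : ℝ) : (str H κ₀ w).Proper := by
  intro h hh h0
  apply hP h hh
  rw [str_coord_old H κ₀ w h, h0]
  rfl

/-- L-C5-RESA.  `Ok` of `H` gives a basis `v i = H.coord (h i)`, `h i ∈ Λ`; take `v' i = (str H κ₀ w).coord (h i)`.  Real independence: the old coordinates of `v' i` are those of `v i` (compose with the linear projection).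
Generation: for `h ∈ Λ`, `H.coord h = ∑ n_i v i = H.coord (∑ n_i h i)`, so `h = ∑ n_i h i` by `hP`.  (`AddSubgroup.closure_induction`, `AddSubgroup.mem_closure_range_iff` / `Finsupp`.) -/
theorem str_ok {G : HGraph} (H : HLaw G) (hP : H.Proper) {C : Type} (κ₀ : G.V → C) (w b : ℝ) (hOk : (H.sys b).Ok) :
    ((str H κ₀ w).sys b).Ok := by
  obtain ⟨hb, n, v, hli, hL⟩ := hOk
  have hv : ∀ i, ∃ h ∈ H.Λ, H.coord h = v i := by
    intro i
    have h1 : v i ∈ (H.sys b).L := by
      rw [hL]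
      exact AddSubgroup.subset_closure ⟨i, rfl⟩
    exact AddSubgroup.mem_map.1 h1
  choose hh hhΛ hhv using hv
  have hcl : AddSubgroup.closure (Set.range hh) ≤ H.Λ := by
    rw [AddSubgroup.closure_le]
    rintro _ ⟨i, rfl⟩
    exact hhΛ i
  have hΛ : H.Λ ≤ AddSubgroup.closure (Set.range hh) := by
    intro h hhm
    have h1 : H.coord h ∈ (H.sys b).L := AddSubgroup.mem_map.2 ⟨h, hhm, rfl⟩
    have h2 : (H.sys b).L = (AddSubgroup.closure (Set.range hh)).map H.coord := by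
      rw [hL, AddMonoidHom.map_closure, ← Set.range_comp]
      congr 2
      funext i
      exact (hhv i).symm
    rw [h2] at h1
    obtain ⟨g, hg, hgh⟩ := AddSubgroup.mem_map.1 h1
    have h3 : h - g = 0 := hP (h - g) (H.Λ.sub_mem hhm (hcl hg)) (by rw [map_sub, hgh, sub_self])
    rw [sub_eq_zero.1 h3]
    exact hg
  refine ⟨hb, n, fun i => (str H κ₀ w).coord (hh i), ?_, ?_⟩
  · let P : ((((str H κ₀ w).sys b).E → ℝ) × (((str H κ₀ w).sys b).O → ℝ)) →ₗ[ℝ]
        (((H.sys b).E → ℝ) × ((H.sys b).O → ℝ)) :=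
      { toFun := fun z => (z.1, fun o => z.2 (Sum.inl o))
        map_add' := fun _ _ => rfl
        map_smul' := fun _ _ => rfl }
    refine LinearIndependent.of_comp P ?_
    have e : (P ∘ fun i => ((str H κ₀ w).sys b).real ((str H κ₀ w).coord (hh i))) =
        fun i => (H.sys b).real (v i) := by
      funext i
      rw [← hhv i]
      rfl
    exact e ▸ hli
  · show (str H κ₀ w).Λ.map (str H κ₀ w).coord = _
    have e : (str H κ₀ w).Λ = AddSubgroup.closure (Set.range hh) := le_antisymm hΛ hcl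
    rw [e, AddMonoidHom.map_closure, ← Set.range_comp]
    rfl

/-! ## Leaf L-C5-RESB: two-cell Poincaré, constant ONE (Mathlib only) -/

/-- L-C5-RESB.  `mean_right - mean_left = t⁻² ∑_{x,y<t} ∑_{k<t} (u (x+k+1) y - u (x+k) y)` (telescoping); Cauchy-Schwarz with `t³` terms (`Finset.sum_mul_sq_le_sq_mul_sq` / `inner_mul_le_norm_mul_norm` / `sq_sum_le_card_mul_sum_sq`);
a bond `(x', y)` occurs for at most `t` pairs `(x, k)`, `x + k = x'`. -/
theorem two_cell (t : ℕ) (ht : 0 < t) (u : ℕ → ℕ → ℝ) :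
    (((t : ℝ) ^ 2)⁻¹ * ∑ x ∈ Finset.range t, ∑ y ∈ Finset.range t, u (x + t) y
        - ((t : ℝ) ^ 2)⁻¹ * ∑ x ∈ Finset.range t, ∑ y ∈ Finset.range t, u x y) ^ 2
      ≤ ∑ x ∈ Finset.range (2 * t - 1), ∑ y ∈ Finset.range t, (u (x + 1) y - u x y) ^ 2 := by
  have ht0 : (0 : ℝ) < t := by exact_mod_cast ht
  set g : ℕ → ℝ := fun x => ∑ y ∈ Finset.range t, (u (x + 1) y - u x y) ^ 2 with hg
  have hg0 : ∀ x, 0 ≤ g x := fun x => Finset.sum_nonneg fun y _ => sq_nonneg _
  set S : ℝ := ∑ x ∈ Finset.range t, ∑ y ∈ Finset.range t, ∑ k ∈ Finset.range t,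
    (u (x + k + 1) y - u (x + k) y) with hS
  have h1 : ∑ x ∈ Finset.range t, ∑ y ∈ Finset.range t, u (x + t) y -
      ∑ x ∈ Finset.range t, ∑ y ∈ Finset.range t, u x y = S := by
    rw [hS, ← Finset.sum_sub_distrib]
    refine Finset.sum_congr rfl fun x _ => ?_
    rw [← Finset.sum_sub_distrib]
    refine Finset.sum_congr rfl fun y _ => ?_
    have := Finset.sum_range_sub (fun k => u (x + k) y) t
    simpa [add_assoc] using this.symm
  have hcard : ((Finset.range t).card : ℝ) = t := by simp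
  have h2 : S ^ 2 ≤ (t : ℝ) ^ 3 * ∑ x ∈ Finset.range t, ∑ y ∈ Finset.range t,
      ∑ k ∈ Finset.range t, (u (x + k + 1) y - u (x + k) y) ^ 2 := by
    have a1 := sq_sum_le_card_mul_sum_sq (s := Finset.range t)
      (f := fun x => ∑ y ∈ Finset.range t, ∑ k ∈ Finset.range t,
        (u (x + k + 1) y - u (x + k) y))
    rw [hcard] at a1
    refine a1.trans ?_
    have a2 : ∑ x ∈ Finset.range t, (∑ y ∈ Finset.range t, ∑ k ∈ Finset.range t,
        (u (x + k + 1) y - u (x + k) y)) ^ 2 ≤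
        ∑ x ∈ Finset.range t, (t : ℝ) ^ 2 * ∑ y ∈ Finset.range t, ∑ k ∈ Finset.range t,
          (u (x + k + 1) y - u (x + k) y) ^ 2 := by
      refine Finset.sum_le_sum fun x _ => ?_
      have b1 := sq_sum_le_card_mul_sum_sq (s := Finset.range t)
        (f := fun y => ∑ k ∈ Finset.range t, (u (x + k + 1) y - u (x + k) y))
      rw [hcard] at b1
      refine b1.trans ?_
      have b2 : ∑ y ∈ Finset.range t, (∑ k ∈ Finset.range t,
          (u (x + k + 1) y - u (x + k) y)) ^ 2 ≤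
          ∑ y ∈ Finset.range t, (t : ℝ) * ∑ k ∈ Finset.range t,
            (u (x + k + 1) y - u (x + k) y) ^ 2 := by
        refine Finset.sum_le_sum fun y _ => ?_
        have c1 := sq_sum_le_card_mul_sum_sq (s := Finset.range t)
          (f := fun k => (u (x + k + 1) y - u (x + k) y))
        rw [hcard] at c1
        exact c1
      rw [← Finset.mul_sum] at b2
      calc (t : ℝ) * ∑ y ∈ Finset.range t, (∑ k ∈ Finset.range t,
            (u (x + k + 1) y - u (x + k) y)) ^ 2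
          ≤ (t : ℝ) * ((t : ℝ) * ∑ y ∈ Finset.range t, ∑ k ∈ Finset.range t,
            (u (x + k + 1) y - u (x + k) y) ^ 2) := mul_le_mul_of_nonneg_left b2 ht0.le
        _ = _ := by ring
    rw [← Finset.mul_sum] at a2
    calc (t : ℝ) * ∑ x ∈ Finset.range t, (∑ y ∈ Finset.range t, ∑ k ∈ Finset.range t,
          (u (x + k + 1) y - u (x + k) y)) ^ 2
        ≤ (t : ℝ) * ((t : ℝ) ^ 2 * ∑ x ∈ Finset.range t, ∑ y ∈ Finset.range t,
          ∑ k ∈ Finset.range t, (u (x + k + 1) y - u (x + k) y) ^ 2) :=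
          mul_le_mul_of_nonneg_left a2 ht0.le
      _ = _ := by ring
  have h3 : ∑ x ∈ Finset.range t, ∑ y ∈ Finset.range t,
      ∑ k ∈ Finset.range t, (u (x + k + 1) y - u (x + k) y) ^ 2 ≤
      (t : ℝ) * ∑ x ∈ Finset.range (2 * t - 1), g x := by
    have a1 : ∀ x ∈ Finset.range t, ∑ y ∈ Finset.range t,
        ∑ k ∈ Finset.range t, (u (x + k + 1) y - u (x + k) y) ^ 2 ≤
        ∑ x ∈ Finset.range (2 * t - 1), g x := by
      intro x hx
      rw [Finset.mem_range] at hx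
      rw [Finset.sum_comm]
      have e : ∑ k ∈ Finset.range t, ∑ y ∈ Finset.range t,
          (u (x + k + 1) y - u (x + k) y) ^ 2 = ∑ j ∈ Finset.Ico x (x + t), g j := by
        rw [Finset.sum_Ico_eq_sum_range, Nat.add_sub_cancel_left]
      rw [e]
      refine Finset.sum_le_sum_of_subset_of_nonneg ?_ fun j _ _ => hg0 j
      intro j hj
      rw [Finset.mem_Ico] at hj
      rw [Finset.mem_range]
      omega
    have a2 := Finset.sum_le_sum a1
    rw [Finset.sum_const, Finset.card_range, nsmul_eq_mul] at a2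
    exact a2
  rw [← mul_sub, h1, mul_pow]
  have h4 : S ^ 2 ≤ (t : ℝ) ^ 4 * ∑ x ∈ Finset.range (2 * t - 1), g x := by
    refine h2.trans ?_
    calc (t : ℝ) ^ 3 * _ ≤ (t : ℝ) ^ 3 * ((t : ℝ) * ∑ x ∈ Finset.range (2 * t - 1), g x) :=
          mul_le_mul_of_nonneg_left h3 (by positivity)
      _ = _ := by ring
  calc (((t : ℝ) ^ 2)⁻¹) ^ 2 * S ^ 2
      ≤ (((t : ℝ) ^ 2)⁻¹) ^ 2 * ((t : ℝ) ^ 4 * ∑ x ∈ Finset.range (2 * t - 1), g x) :=
        mul_le_mul_of_nonneg_left h4 (by positivity)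
    _ = ∑ x ∈ Finset.range (2 * t - 1), g x := by
        field_simp

/-! ## Leaf L-C5-RESC: averaged bonds and averages on a cut topology -/

theorem res_blk_up {c0 : Grid G} (N : Nest c0 c) (v : G.V) : c.blk v = N.up (c0.blk v) :=
  Prod.ext (N.comm v.1) (N.comm v.2)

theorem res_nx_ne {n : ℕ} (hn : 2 ≤ n) (a : Fin n) : nx a ≠ a := by
  intro h
  have h1 : (a.1 + 1) % n = a.1 := congrArg Fin.val h
  have ha := a.2
  rcases Nat.lt_or_ge (a.1 + 1) n with h2 | h2
  · rw [Nat.mod_eq_of_lt h2] at h1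
    omega
  · have h3 : a.1 + 1 = n := by omega
    rw [h3, Nat.mod_self] at h1
    omega

theorem res_fnb_ne {c0 : Grid G} (hc0 : Whole c0) (φ : Face c0) : fnb c0 φ ≠ φ.1 := by
  intro h
  unfold fnb at h
  split_ifs at h with hd
  · exact res_nx_ne hc0.two φ.1.1 (congrArg Prod.fst h)
  · exact res_nx_ne hc0.two φ.1.2 (congrArg Prod.snd h)

/-- the last site of the interval `a`. -/
theorem res_last {c0 : Grid G} (hc0 : Whole c0) (a : Fin c0.n) :
    ∃ x : Fin G.M, c0.blk1 x = a ∧ (x : ℕ) + 1 = (a.1 + 1) * c0.m := by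
  have hM := whole_card hc0
  have hm := hc0.pos
  have ha := a.2
  have h1 : (a.1 + 1) * c0.m ≤ c0.n * c0.m := Nat.mul_le_mul_right _ ha
  have h2 : 0 < (a.1 + 1) * c0.m := Nat.mul_pos (Nat.succ_pos _) hm
  refine ⟨⟨(a.1 + 1) * c0.m - 1, by omega⟩, ?_, by simp only []; omega⟩
  apply Fin.ext
  rw [whole_blk1 hc0]
  simp only []
  have e : (a.1 + 1) * c0.m - 1 = a.1 * c0.m + (c0.m - 1) := by
    rw [Nat.succ_mul]
    omega
  rw [e, Nat.mul_comm, Nat.mul_add_div hm, Nat.div_eq_of_lt (by omega), add_zero]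

/-- the successor of the last site lies in the next interval. -/
theorem res_next {c0 : Grid G} (hc0 : Whole c0) (a : Fin c0.n) (x y : Fin G.M)
    (hx : (x : ℕ) + 1 = (a.1 + 1) * c0.m) (hy : (y : ℕ) = ((x : ℕ) + 1) % G.M) : c0.blk1 y = nx a := by
  have hM := whole_card hc0
  have hm := hc0.pos
  have ha := a.2
  apply Fin.ext
  rw [whole_blk1 hc0, hy, hx]
  show _ = (a.1 + 1) % c0.n
  rcases Nat.lt_or_ge (a.1 + 1) c0.n with h2 | h2
  · have h3 : (a.1 + 1) * c0.m < G.M := by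
      rw [hM]
      exact Nat.mul_lt_mul_of_pos_right h2 hm
    rw [Nat.mod_eq_of_lt h3, Nat.mod_eq_of_lt h2, Nat.mul_div_cancel _ hm]
  · have h3 : a.1 + 1 = c0.n := by omega
    rw [h3, ← hM, Nat.mod_self, Nat.mod_self, Nat.zero_div]

/-- steps in the first direction. -/
theorem res_stp_true (v : G.V) (h : G.bc = BC.per ∨ (v.1 : ℕ) + 1 < G.M) :
    ((stp v true).1 : ℕ) = ((v.1 : ℕ) + 1) % G.M ∧ (stp v true).2 = v.2 := by
  cases hG : G.bc with
  | per => exact ⟨(stp_per hG v).1, (stp_per hG v).2.1⟩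
  | free =>
    have h1 : (v.1 : ℕ) + 1 < G.M := by
      rcases h with h | h
      · rw [hG] at h; cases h
      · exact h
    have h2 := (stp_free hG v).1 h1
    exact ⟨by rw [h2.1, Nat.mod_eq_of_lt h1], h2.2⟩

/-- steps in the second direction. -/
theorem res_stp_false (v : G.V) (h : G.bc = BC.per ∨ (v.2 : ℕ) + 1 < G.M) :
    ((stp v false).2 : ℕ) = ((v.2 : ℕ) + 1) % G.M ∧ (stp v false).1 = v.1 := by
  cases hG : G.bc with
  | per => exact ⟨(stp_per hG v).2.2.1, (stp_per hG v).2.2.2⟩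
  | free =>
    have h1 : (v.2 : ℕ) + 1 < G.M := by
      rcases h with h | h
      · rw [hG] at h; cases h
      · exact h
    have h2 := (stp_free hG v).2.2.1 h1
    exact ⟨by rw [h2.1, Nat.mod_eq_of_lt h1], h2.2⟩

/-- a primary bond across a face of a whole grid. -/
theorem res_cross {c0 : Grid G} (hc0 : Whole c0) (φ : Face c0) (hφ : IsFace c0 φ) :
    ∃ v : G.V, c0.blk v = φ.1 ∧ c0.blk (stp v φ.2) = fnb c0 φ := by
  obtain ⟨⟨a1, a2⟩, d⟩ := φ
  have hM := whole_card hc0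
  have hm := hc0.pos
  obtain ⟨x1, hx1, hx1'⟩ := res_last hc0 a1
  obtain ⟨x2, hx2, hx2'⟩ := res_last hc0 a2
  refine ⟨(x1, x2), Prod.ext hx1 hx2, ?_⟩
  cases d with
  | true =>
    have hf : G.bc = BC.per ∨ ((x1 : ℕ) + 1 < G.M) := by
      rcases hφ with h | h
      · exact Or.inl h
      · right
        have h' : (a1 : ℕ) + 1 < c0.n := h
        rw [hx1', hM]
        exact Nat.mul_lt_mul_of_pos_right h' hm
    obtain ⟨h1, h2⟩ := res_stp_true (x1, x2) hf
    refine Prod.ext ?_ ?_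
    · exact res_next hc0 a1 x1 _ hx1' h1
    · show c0.blk1 (stp (x1, x2) true).2 = a2
      rw [h2]
      exact hx2
  | false =>
    have hf : G.bc = BC.per ∨ ((x2 : ℕ) + 1 < G.M) := by
      rcases hφ with h | h
      · exact Or.inl h
      · right
        have h' : (a2 : ℕ) + 1 < c0.n := h
        rw [hx2', hM]
        exact Nat.mul_lt_mul_of_pos_right h' hm
    obtain ⟨h1, h2⟩ := res_stp_false (x1, x2) hf
    refine Prod.ext ?_ ?_
    · show c0.blk1 (stp (x1, x2) false).1 = a1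
      rw [h2]
      exact hx1
    · exact res_next hc0 a2 x2 _ hx2' h1

theorem res_mem_cellPairs {G : HGraph} {C : Type} (κ : G.V → C) (e : G.E)
    (h : κ (G.src e) ≠ κ (G.tgt e)) : (κ (G.src e), κ (G.tgt e)) ∈ cellPairs κ := by
  unfold cellPairs
  exact Finset.mem_filter.2 ⟨Finset.mem_image.2 ⟨e, Finset.mem_univ _, rfl⟩, h⟩

/-- L-C5-RESC.  Take the site `v` of the subcell `φ.1` with maximal coordinate in the direction `φ.2` (`whole_blk1`: `blk1 x = x / m`; `stp_per`, `stp_free`): the bond `(v, φ.2)` is retained (`Top.IsEdge`; `N.comm` identifies the cells) and joins `φ.1` to `fnb c0 φ`;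
`fnb c0 φ ≠ φ.1` because `2 ≤ c0.n`. -/
theorem subFaces_mem_cellPairs (hc : Whole c) {c0 : Grid G} (hc0 : Whole c0) (N : Nest c0 c) (T : F4a.Top c) (hT : T.Ok)
    (φ : Face c0) (hφ : φ ∈ subFaces T N) : (φ.1, fnb c0 φ) ∈ cellPairs (subOf T c0) := by
  have _ := hc
  have _ := hT
  rw [subFaces, Finset.mem_filter] at hφ
  obtain ⟨-, hface, h1, h2, h3⟩ := hφ
  obtain ⟨v, hv1, hv2⟩ := res_cross hc0 φ hface
  have hne := res_fnb_ne hc0 φ
  have hb1 : c.blk v = N.up φ.1 := by rw [res_blk_up N, hv1]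
  have hb2 : c.blk (stp v φ.2) = N.up (fnb c0 φ) := by rw [res_blk_up N, hv2]
  have hE : T.IsEdge (v, φ.2) := by
    refine ⟨?_, ?_, ?_, ?_⟩
    · intro h
      apply hne
      rw [← hv2, ← hv1]
      exact congrArg c0.blk h
    · show c.blk v ∈ T.cells
      rw [hb1]; exact h1
    · show c.blk (stp v φ.2) ∈ T.cells
      rw [hb2]; exact h2
    · show c.blk (stp v φ.2) = c.blk v ∨ (c.blk v, φ.2) ∈ T.faces
      rw [hb1, hb2]; exact h3
  have e1 : subOf T c0 (T.graph.src (⟨(v, φ.2), hE⟩ : T.graph.E)) = φ.1 := hv1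
  have e2 : subOf T c0 (T.graph.tgt (⟨(v, φ.2), hE⟩ : T.graph.E)) = fnb c0 φ := hv2
  have h4 := res_mem_cellPairs (subOf T c0) (⟨(v, φ.2), hE⟩ : T.graph.E)
    (by rw [e1, e2]; exact fun h => hne h.symm)
  rw [e1, e2] at h4
  exact h4

theorem res_face_inj {c0 : Grid G} (hc0 : Whole c0) :
    Function.Injective (fun φ : Face c0 => (φ.1, fnb c0 φ)) := by
  rintro ⟨a, d⟩ ⟨a', d'⟩ h
  have h1 : a = a' := congrArg Prod.fst h
  subst h1
  have h2 : fnb c0 (a, d) = fnb c0 (a, d') := congrArg Prod.snd h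
  cases d <;> cases d'
  · rfl
  · exfalso
    simp only [fnb] at h2
    exact res_nx_ne hc0.two a.1 (congrArg Prod.fst h2).symm
  · exfalso
    simp only [fnb] at h2
    exact res_nx_ne hc0.two a.1 (congrArg Prod.fst h2)
  · rfl

/-- L-C5-RESC.  `φ ↦ (φ.1, fnb c0 φ)` is injective (`nx a ≠ a` for `2 ≤ n`): `Finset.sum_image`, `Finset.sum_le_sum_of_subset_of_nonneg`, `subFaces_mem_cellPairs`. -/
theorem avgEn_ge (hc : Whole c) {c0 : Grid G} (hc0 : Whole c0) (N : Nest c0 c) (T : F4a.Top c) (hT : T.Ok) (v : T.graph.V → ℝ) :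
    ∑ φ ∈ subFaces T N, (sav T c0 v (fnb c0 φ) - sav T c0 v φ.1) ^ 2 ≤ avgEn (subOf T c0) v := by
  have h1 : ∑ φ ∈ subFaces T N, (sav T c0 v (fnb c0 φ) - sav T c0 v φ.1) ^ 2 =
      ∑ p ∈ (subFaces T N).image (fun φ : Face c0 => (φ.1, fnb c0 φ)),
        (HLaw.pair (fibAvg (subOf T c0) p.2) v - HLaw.pair (fibAvg (subOf T c0) p.1) v) ^ 2 := by
    rw [Finset.sum_image fun x _ y _ h => res_face_inj hc0 h]
    rfl
  rw [h1, avgEn]
  refine Finset.sum_le_sum_of_subset_of_nonneg ?_ fun _ _ _ => sq_nonneg _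
  intro p hp
  obtain ⟨φ, hφ, rfl⟩ := Finset.mem_image.1 hp
  exact subFaces_mem_cellPairs hc hc0 N T hT φ hφ

/-- the number of vertices of the retained graph in a subcell of a present cell. -/
theorem res_fib_card {c0 : Grid G} (hc0 : Whole c0) (N : Nest c0 c) (T : F4a.Top c) (κ : c0.I)
    (hκ : N.up κ ∈ T.cells) (inst : DecidablePred fun w : T.graph.V => subOf T c0 w = κ) :
    ((@Finset.filter _ (fun w : T.graph.V => subOf T c0 w = κ) inst Finset.univ).card : ℝ) =
      (c0.m : ℝ) ^ 2 := by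
  have h : (@Finset.filter _ (fun w : T.graph.V => subOf T c0 w = κ) inst Finset.univ).card =
      (c0.sites {κ}).card := by
    refine Finset.card_bij (fun w _ => w.1) ?_ ?_ ?_
    · intro w hw
      have h1 : c0.blk w.1 = κ := (Finset.mem_filter.1 hw).2
      simp [Grid.sites, h1]
    · intro w _ w' _ h
      exact Subtype.ext h
    · intro x hx
      have h1 : c0.blk x = κ := by simpa [Grid.sites] using hx
      have h2 : c.blk x ∈ T.cells := by rw [res_blk_up N, h1]; exact hκ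
      exact ⟨⟨x, h2⟩, Finset.mem_filter.2 ⟨Finset.mem_univ _, h1⟩, rfl⟩
  rw [h, whole_sites_card hc0]
  push_cast
  rfl

theorem res_fibAvg {c0 : Grid G} (hc0 : Whole c0) (N : Nest c0 c) (T : F4a.Top c) (κ : c0.I)
    (hκ : N.up κ ∈ T.cells) (x : T.graph.V) :
    fibAvg (subOf T c0) κ x = if c0.blk x.1 = κ then ((c0.m : ℝ) ^ 2)⁻¹ else 0 := by
  unfold fibAvg
  by_cases h : c0.blk x.1 = κ
  · have h' : subOf T c0 x = κ := h
    rw [if_pos h, if_pos h', res_fib_card hc0 N T κ hκ]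
  · have h' : ¬ subOf T c0 x = κ := h
    rw [if_neg h, if_neg h']

/-- a cell is the disjoint union of its subcells. -/
theorem res_sub_count (hc : Whole c) {c0 : Grid G} (hc0 : Whole c0) (N : Nest c0 c) (i : c.I) :
    c.m ^ 2 = (Finset.univ.filter fun κ : c0.I => N.up κ = i).card * c0.m ^ 2 := by
  rw [← whole_sites_card hc i]
  rw [Finset.card_eq_sum_card_fiberwise (f := c0.blk) (s := c.sites {i})
    (t := Finset.univ.filter fun κ : c0.I => N.up κ = i)]
  · rw [Finset.sum_congr rfl (g := fun _ => c0.m ^ 2), Finset.sum_const, smul_eq_mul]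
    intro κ hκ
    have hκ' : N.up κ = i := (Finset.mem_filter.1 hκ).2
    rw [← whole_sites_card hc0 κ]
    congr 1
    ext x
    simp only [Grid.sites, Finset.mem_filter, Finset.mem_univ, true_and, Finset.mem_singleton]
    constructor
    · exact fun h => h.2
    · intro h
      exact ⟨by rw [res_blk_up N, h, hκ'], h⟩
  · intro x hx
    have h1 : c.blk x = i := by simpa [Grid.sites] using hx
    simp only [Finset.coe_filter, Finset.mem_univ, true_and, Set.mem_ofPred_eq]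
    rw [← res_blk_up N, h1]

/-- L-C5-RESC.  All subcells have `c0.m²` sites, a cell has `c.m²` sites (`whole_sites_card`) and is the disjoint union of its subcells (`N.comm`); the vertices of `T.graph` over a present cell are all its sites. -/
theorem cav_eq_cmean (hc : Whole c) {c0 : Grid G} (hc0 : Whole c0) (N : Nest c0 c) (T : F4a.Top c) (v : T.graph.V → ℝ)
    (i : c.I) (hi : i ∈ T.cells) : cav T v i = cmean N (sav T c0 v) i := by
  have hcnt := res_sub_count hc hc0 N i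
  set K := Finset.univ.filter fun κ : c0.I => N.up κ = i with hK
  have hm : (0 : ℝ) < c.m := by exact_mod_cast hc.pos
  have hm0 : (0 : ℝ) < c0.m := by exact_mod_cast hc0.pos
  have hcntR : (c.m : ℝ) ^ 2 = (K.card : ℝ) * (c0.m : ℝ) ^ 2 := by exact_mod_cast hcnt
  have hK0 : (K.card : ℝ) ≠ 0 := by
    intro h
    rw [h, zero_mul] at hcntR
    exact (pow_pos hm 2).ne' hcntR
  have h1 : ∑ κ ∈ K, sav T c0 v κ =
      ∑ x : T.graph.V, (if c.blk x.1 = i then ((c0.m : ℝ) ^ 2)⁻¹ else 0) * v x := by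
    have a1 : ∀ κ ∈ K, sav T c0 v κ =
        ∑ x : T.graph.V, (if c0.blk x.1 = κ then ((c0.m : ℝ) ^ 2)⁻¹ else 0) * v x := by
      intro κ hκ
      have hκ' : N.up κ = i := (Finset.mem_filter.1 hκ).2
      unfold sav HLaw.pair
      refine Finset.sum_congr rfl fun x _ => ?_
      rw [res_fibAvg hc0 N T κ (by rw [hκ']; exact hi)]
    rw [Finset.sum_congr rfl a1, Finset.sum_comm]
    refine Finset.sum_congr rfl fun x _ => ?_
    rw [← Finset.sum_mul, Finset.sum_ite_eq]
    congr 1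
    have e : (c0.blk x.1 ∈ K) ↔ c.blk x.1 = i := by
      rw [hK, Finset.mem_filter, res_blk_up N]
      simp
    by_cases h : c.blk x.1 = i
    · rw [if_pos h, if_pos (e.2 h)]
    · rw [if_neg h, if_neg fun h' => h (e.1 h')]
  unfold cmean cav
  rw [← hK, h1, Finset.mul_sum]
  refine Finset.sum_congr rfl fun x _ => ?_
  rw [whole_sites_card hc]
  by_cases h : c.blk x.1 = i
  · rw [if_pos h, if_pos h]
    push_cast
    rw [hcntR]
    field_simp
  · rw [if_neg h, if_neg h]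
    simp

/-! ## Leaf L-C5-RESD: (5.10) summed over the retained faces -/

/-- coordinates adapted to the direction `d`. -/
def resSw {n : ℕ} (d : Bool) (p q : Fin n) : Fin n × Fin n := if d then (p, q) else (q, p)

/-- the coordinate in the direction `d`. -/
def resP {n : ℕ} (d : Bool) (i : Fin n × Fin n) : Fin n := if d then i.1 else i.2

/-- the transversal coordinate. -/
def resQ {n : ℕ} (d : Bool) (i : Fin n × Fin n) : Fin n := if d then i.2 else i.1

theorem resSw_PQ {n : ℕ} (d : Bool) (i : Fin n × Fin n) : resSw d (resP d i) (resQ d i) = i := by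
  cases d <;> rfl

theorem resSw_inj {n : ℕ} {d : Bool} {p q p' q' : Fin n} (h : resSw d p q = resSw d p' q') :
    p = p' ∧ q = q' := by
  cases d
  · exact ⟨congrArg Prod.snd h, congrArg Prod.fst h⟩
  · exact ⟨congrArg Prod.fst h, congrArg Prod.snd h⟩

theorem res_fnb_sw (c : Grid G) (d : Bool) (p q : Fin c.n) :
    fnb c (resSw d p q, d) = resSw d (nx p) q := by
  cases d <;> rfl

theorem res_up_sw {c0 : Grid G} (N : Nest c0 c) (d : Bool) (p q : Fin c0.n) :
    N.up (resSw d p q) = resSw d (N.up1 p) (N.up1 q) := by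
  cases d <;> rfl

theorem res_isFace_sw (c : Grid G) (d : Bool) (p q : Fin c.n) :
    IsFace c (resSw d p q, d) ↔ (G.bc = BC.per ∨ (p : ℕ) + 1 < c.n) := by
  cases d <;> rfl

/-- residues as indices. -/
def resFm (c0 : Grid G) (h : 0 < c0.n) (a : ℕ) : Fin c0.n := ⟨a % c0.n, Nat.mod_lt _ h⟩

theorem res_nx_fm (c0 : Grid G) (h : 0 < c0.n) (a : ℕ) : nx (resFm c0 h a) = resFm c0 h (a + 1) := by
  apply Fin.ext
  show (a % c0.n + 1) % c0.n = (a + 1) % c0.n
  rw [Nat.mod_add_mod]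

theorem res_nx_inj {n : ℕ} {a b : Fin n} (h : nx a = nx b) : a = b := by
  have h1 : (a.1 + 1) % n = (b.1 + 1) % n := congrArg Fin.val h
  have ha := a.2
  have hb := b.2
  apply Fin.ext
  rcases Nat.lt_or_ge (a.1 + 1) n with h2 | h2 <;> rcases Nat.lt_or_ge (b.1 + 1) n with h3 | h3
  · rw [Nat.mod_eq_of_lt h2, Nat.mod_eq_of_lt h3] at h1
    omega
  · have h4 : b.1 + 1 = n := by omega
    rw [Nat.mod_eq_of_lt h2, h4, Nat.mod_self] at h1
    omega
  · have h4 : a.1 + 1 = n := by omega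
    rw [Nat.mod_eq_of_lt h3, h4, Nat.mod_self] at h1
    omega
  · omega

theorem res_t_pos (hc : Whole c) {c0 : Grid G} {t : ℕ} (ht : c.m = t * c0.m) : 0 < t := by
  rcases Nat.eq_zero_or_pos t with h | h
  · have := hc.pos
    rw [ht, h, Nat.zero_mul] at this
    exact absurd this (lt_irrefl _)
  · exact h

theorem res_n0 (hc : Whole c) {c0 : Grid G} (hc0 : Whole c0) {t : ℕ} (ht : c.m = t * c0.m) :
    c0.n = t * c.n := by
  have h1 := whole_card hc
  have h2 := whole_card hc0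
  rw [ht] at h1
  have h3 : c0.n * c0.m = (t * c.n) * c0.m := by
    rw [← h2, h1]
    ring
  exact Nat.eq_of_mul_eq_mul_right hc0.pos h3

theorem res_up1 (hc : Whole c) {c0 : Grid G} (hc0 : Whole c0) (N : Nest c0 c) {t : ℕ}
    (ht : c.m = t * c0.m) (a : Fin c0.n) : ((N.up1 a : Fin c.n) : ℕ) = (a : ℕ) / t := by
  obtain ⟨x, hx, -⟩ := res_last hc0 a
  have h1 := N.comm x
  rw [hx] at h1
  rw [← h1, whole_blk1 hc, ht, Nat.mul_comm, ← Nat.div_div_eq_div_mul, ← whole_blk1 hc0, hx]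

theorem res_lt {t n : ℕ} (P : Fin n) {x : ℕ} (hx : x < t) : t * (P : ℕ) + x < t * n := by
  have h1 : t * ((P : ℕ) + 1) ≤ t * n := Nat.mul_le_mul_left t P.2
  rw [Nat.mul_succ] at h1
  omega

theorem res_fm_val {c0 : Grid G} (h : 0 < c0.n) {t : ℕ} (hn0 : c0.n = t * c.n) (P : Fin c.n) {x : ℕ}
    (hx : x < t) : ((resFm c0 h (t * (P : ℕ) + x) : Fin c0.n) : ℕ) = t * (P : ℕ) + x := by
  show (t * (P : ℕ) + x) % c0.n = _
  rw [hn0]
  exact Nat.mod_eq_of_lt (res_lt P hx)

theorem res_up1_fm (hc : Whole c) {c0 : Grid G} (hc0 : Whole c0) (N : Nest c0 c) {t : ℕ}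
    (ht : c.m = t * c0.m) (h : 0 < c0.n) (P : Fin c.n) {x : ℕ} (hx : x < t) :
    N.up1 (resFm c0 h (t * (P : ℕ) + x)) = P := by
  apply Fin.ext
  rw [res_up1 hc hc0 N ht, res_fm_val h (res_n0 hc hc0 ht) P hx,
    Nat.mul_add_div (res_t_pos hc ht), Nat.div_eq_of_lt hx, add_zero]

theorem res_fm_shift {c0 : Grid G} (h : 0 < c0.n) {t : ℕ} (hn0 : c0.n = t * c.n) (P : Fin c.n)
    (x : ℕ) : resFm c0 h (t * (P : ℕ) + (t + x)) = resFm c0 h (t * ((nx P : Fin c.n) : ℕ) + x) := by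
  apply Fin.ext
  show (t * (P : ℕ) + (t + x)) % c0.n = (t * (((P : ℕ) + 1) % c.n) + x) % c0.n
  rw [hn0, ← Nat.mul_mod_mul_left, Nat.mod_add_mod]
  congr 1
  ring

/-- the function `U` in coordinates adapted to `d`, periodic. -/
def resU {c0 : Grid G} (h : 0 < c0.n) (U : c0.I → ℝ) (d : Bool) (a b : ℕ) : ℝ :=
  U (resSw d (resFm c0 h a) (resFm c0 h b))

theorem res_card_K (hc : Whole c) {c0 : Grid G} (hc0 : Whole c0) (N : Nest c0 c) {t : ℕ}
    (ht : c.m = t * c0.m) (i : c.I) : (Finset.univ.filter fun κ : c0.I => N.up κ = i).card = t ^ 2 := by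
  have h := res_sub_count hc hc0 N i
  rw [ht, Nat.mul_pow] at h
  exact (Nat.eq_of_mul_eq_mul_right (pow_pos hc0.pos 2) h).symm

theorem res_cmean (hc : Whole c) {c0 : Grid G} (hc0 : Whole c0) (N : Nest c0 c) {t : ℕ}
    (ht : c.m = t * c0.m) (h : 0 < c0.n) (U : c0.I → ℝ) (d : Bool) (P Q : Fin c.n) :
    cmean N U (resSw d P Q) = ((t : ℝ) ^ 2)⁻¹ * ∑ x ∈ Finset.range t, ∑ y ∈ Finset.range t,
      resU h U d (t * (P : ℕ) + x) (t * (Q : ℕ) + y) := by
  have htp := res_t_pos hc ht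
  have hn0 := res_n0 hc hc0 ht
  unfold cmean
  rw [res_card_K hc hc0 N ht]
  push_cast
  congr 1
  rw [← Finset.sum_product']
  symm
  refine Finset.sum_bij (fun z _ => resSw d (resFm c0 h (t * (P : ℕ) + z.1))
    (resFm c0 h (t * (Q : ℕ) + z.2))) ?_ ?_ ?_ ?_
  · intro z hz
    rw [Finset.mem_product, Finset.mem_range, Finset.mem_range] at hz
    rw [Finset.mem_filter]
    refine ⟨Finset.mem_univ _, ?_⟩
    rw [res_up_sw, res_up1_fm hc hc0 N ht h P hz.1, res_up1_fm hc hc0 N ht h Q hz.2]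
  · intro z hz z' hz' he
    rw [Finset.mem_product, Finset.mem_range, Finset.mem_range] at hz hz'
    obtain ⟨h1, h2⟩ := resSw_inj he
    have h1' := congrArg Fin.val h1
    have h2' := congrArg Fin.val h2
    rw [res_fm_val h hn0 P hz.1, res_fm_val h hn0 P hz'.1] at h1'
    rw [res_fm_val h hn0 Q hz.2, res_fm_val h hn0 Q hz'.2] at h2'
    exact Prod.ext (by omega) (by omega)
  · intro κ hκ
    rw [Finset.mem_filter] at hκ
    have hκ2 := hκ.2
    rw [← resSw_PQ d κ, res_up_sw] at hκ2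
    obtain ⟨h1, h2⟩ := resSw_inj hκ2
    have h1' := congrArg Fin.val h1
    have h2' := congrArg Fin.val h2
    rw [res_up1 hc hc0 N ht] at h1' h2'
    refine ⟨(((resP d κ : Fin c0.n) : ℕ) % t, ((resQ d κ : Fin c0.n) : ℕ) % t), ?_, ?_⟩
    · rw [Finset.mem_product, Finset.mem_range, Finset.mem_range]
      exact ⟨Nat.mod_lt _ htp, Nat.mod_lt _ htp⟩
    · conv_rhs => rw [← resSw_PQ d κ]
      congr 1
      · apply Fin.ext
        rw [res_fm_val h hn0 P (Nat.mod_lt _ htp), ← h1']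
        exact Nat.div_add_mod _ _
      · apply Fin.ext
        rw [res_fm_val h hn0 Q (Nat.mod_lt _ htp), ← h2']
        exact Nat.div_add_mod _ _
  · intro z _
    rfl

/-- the subface at the position `(a, b)`, direction `d`. -/
def resPhi {c0 : Grid G} (h : 0 < c0.n) (d : Bool) (a b : ℕ) : Face c0 :=
  (resSw d (resFm c0 h a) (resFm c0 h b), d)

theorem res_term {c0 : Grid G} (h : 0 < c0.n) (U : c0.I → ℝ) (d : Bool) (a b : ℕ) :
    (resU h U d (a + 1) b - resU h U d a b) ^ 2 =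
      (U (fnb c0 (resPhi h d a b)) - U (resPhi h d a b).1) ^ 2 := by
  unfold resPhi resU
  rw [res_fnb_sw, res_nx_fm]

theorem res_face_le (hc : Whole c) {c0 : Grid G} (hc0 : Whole c0) (N : Nest c0 c) {t : ℕ}
    (ht : c.m = t * c0.m) (h : 0 < c0.n) (U : c0.I → ℝ) (d : Bool) (P Q : Fin c.n) :
    (cmean N U (fnb c (resSw d P Q, d)) - cmean N U (resSw d P Q)) ^ 2 ≤
      ∑ x ∈ Finset.range (2 * t - 1), ∑ y ∈ Finset.range t,
        (U (fnb c0 (resPhi h d (t * (P : ℕ) + x) (t * (Q : ℕ) + y))) -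
          U (resPhi h d (t * (P : ℕ) + x) (t * (Q : ℕ) + y)).1) ^ 2 := by
  have htp := res_t_pos hc ht
  have hn0 := res_n0 hc hc0 ht
  rw [res_fnb_sw, res_cmean hc hc0 N ht h U d (nx P) Q, res_cmean hc hc0 N ht h U d P Q]
  have h2 := two_cell t htp (fun x y => resU h U d (t * (P : ℕ) + x) (t * (Q : ℕ) + y))
  have e1 : ∀ x y, resU h U d (t * ((nx P : Fin c.n) : ℕ) + x) (t * (Q : ℕ) + y) =
      resU h U d (t * (P : ℕ) + (x + t)) (t * (Q : ℕ) + y) := by
    intro x y
    unfold resU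
    rw [Nat.add_comm x t, res_fm_shift h hn0 P x]
  simp only [e1]
  refine h2.trans (le_of_eq ?_)
  refine Finset.sum_congr rfl fun x _ => Finset.sum_congr rfl fun y _ => ?_
  exact res_term h U d (t * (P : ℕ) + x) (t * (Q : ℕ) + y)

theorem res_mem_inside (hc : Whole c) {c0 : Grid G} (hc0 : Whole c0) (N : Nest c0 c) {t : ℕ}
    (ht : c.m = t * c0.m) (h : 0 < c0.n) (T : F4a.Top c) (d : Bool) (P Q : Fin c.n)
    (hcell : resSw d P Q ∈ T.cells) {x y : ℕ} (hx : x + 1 < t) (hy : y < t) :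
    resPhi h d (t * (P : ℕ) + x) (t * (Q : ℕ) + y) ∈ subFaces T N := by
  have hn0 := res_n0 hc hc0 ht
  have hx' : x < t := by omega
  have u1 : N.up (resSw d (resFm c0 h (t * (P : ℕ) + x)) (resFm c0 h (t * (Q : ℕ) + y))) =
      resSw d P Q := by
    rw [res_up_sw, res_up1_fm hc hc0 N ht h P hx', res_up1_fm hc hc0 N ht h Q hy]
  have u2 : N.up (fnb c0 (resSw d (resFm c0 h (t * (P : ℕ) + x)) (resFm c0 h (t * (Q : ℕ) + y)), d)) =
      resSw d P Q := by
    rw [res_fnb_sw, res_nx_fm, Nat.add_assoc, res_up_sw, res_up1_fm hc hc0 N ht h P hx,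
      res_up1_fm hc hc0 N ht h Q hy]
  unfold subFaces resPhi
  rw [Finset.mem_filter]
  refine ⟨Finset.mem_univ _, ?_, ?_, ?_, Or.inl ?_⟩
  · rw [res_isFace_sw]
    right
    rw [res_fm_val h hn0 P hx', hn0]
    have := res_lt P hx
    omega
  · show N.up (resSw d _ _) ∈ T.cells
    rw [u1]
    exact hcell
  · rw [u2]
    exact hcell
  · rw [u2]
    exact u1.symm

theorem res_mem_cross (hc : Whole c) {c0 : Grid G} (hc0 : Whole c0) (N : Nest c0 c) {t : ℕ}
    (ht : c.m = t * c0.m) (h : 0 < c0.n) (T : F4a.Top c) (hT : T.Ok) (d : Bool) (P Q : Fin c.n)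
    (hf : (resSw d P Q, d) ∈ T.faces) {x y : ℕ} (hx : x + 1 = t) (hy : y < t) :
    resPhi h d (t * (P : ℕ) + x) (t * (Q : ℕ) + y) ∈ subFaces T N := by
  have hn0 := res_n0 hc hc0 ht
  have htp := res_t_pos hc ht
  have hx' : x < t := by omega
  obtain ⟨hF, hc1, hc2⟩ := hT _ hf
  rw [res_fnb_sw] at hc2
  have u1 : N.up (resSw d (resFm c0 h (t * (P : ℕ) + x)) (resFm c0 h (t * (Q : ℕ) + y))) =
      resSw d P Q := by
    rw [res_up_sw, res_up1_fm hc hc0 N ht h P hx', res_up1_fm hc hc0 N ht h Q hy]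
  have u2 : N.up (fnb c0 (resSw d (resFm c0 h (t * (P : ℕ) + x)) (resFm c0 h (t * (Q : ℕ) + y)), d)) =
      resSw d (nx P) Q := by
    have e : t * (P : ℕ) + x + 1 = t * (P : ℕ) + (t + 0) := by omega
    rw [res_fnb_sw, res_nx_fm, e, res_fm_shift h hn0 P 0, res_up_sw,
      res_up1_fm hc hc0 N ht h (nx P) htp, res_up1_fm hc hc0 N ht h Q hy]
  unfold subFaces resPhi
  rw [Finset.mem_filter]
  refine ⟨Finset.mem_univ _, ?_, ?_, ?_, Or.inr ?_⟩
  · rw [res_isFace_sw] at hF ⊢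
    rcases hF with hF | hF
    · exact Or.inl hF
    · right
      rw [res_fm_val h hn0 P hx', hn0]
      have h1 : t * ((P : ℕ) + 1 + 1) ≤ t * c.n := Nat.mul_le_mul_left t hF
      rw [Nat.mul_succ, Nat.mul_succ] at h1
      omega
  · show N.up (resSw d _ _) ∈ T.cells
    rw [u1]
    exact hc1
  · rw [u2]
    exact hc2
  · show (N.up (resSw d _ _), d) ∈ T.faces
    rw [u1]
    exact hf

theorem res_div_mod {t : ℕ} (ht : 0 < t) {P P' x x' : ℕ} (hx : x < t) (hx' : x' < t)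
    (h : t * P + x = t * P' + x') : P = P' ∧ x = x' := by
  have h1 := congrArg (· / t) h
  have h2 := congrArg (· % t) h
  simp only [Nat.mul_add_div ht, Nat.div_eq_of_lt hx, Nat.div_eq_of_lt hx', add_zero] at h1
  simp only [Nat.mul_add_mod, Nat.mod_eq_of_lt hx, Nat.mod_eq_of_lt hx'] at h2
  exact ⟨h1, h2⟩

/-- the positions determine the face. -/
theorem res_phi_inj (hc : Whole c) {c0 : Grid G} (hc0 : Whole c0) {t : ℕ} (ht : c.m = t * c0.m)
    (h : 0 < c0.n) (σ : Fin c.n → Fin c.n) (hσ : Function.Injective σ) {f f' : Face c}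
    {x y x' y' : ℕ} (hx : x < t) (hy : y < t) (hx' : x' < t) (hy' : y' < t)
    (he : resPhi h f.2 (t * ((σ (resP f.2 f.1) : Fin c.n) : ℕ) + x) (t * ((resQ f.2 f.1 : Fin c.n) : ℕ) + y) =
      resPhi h f'.2 (t * ((σ (resP f'.2 f'.1) : Fin c.n) : ℕ) + x') (t * ((resQ f'.2 f'.1 : Fin c.n) : ℕ) + y')) :
    f = f' ∧ x = x' ∧ y = y' := by
  have hn0 := res_n0 hc hc0 ht
  have htp := res_t_pos hc ht
  obtain ⟨i, d⟩ := f
  obtain ⟨i', d'⟩ := f'
  have hd : d = d' := congrArg Prod.snd he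
  subst hd
  obtain ⟨h1, h2⟩ := resSw_inj (congrArg Prod.fst he)
  have h1' := congrArg Fin.val h1
  have h2' := congrArg Fin.val h2
  rw [res_fm_val h hn0 _ hx, res_fm_val h hn0 _ hx'] at h1'
  rw [res_fm_val h hn0 _ hy, res_fm_val h hn0 _ hy'] at h2'
  obtain ⟨a1, a2⟩ := res_div_mod htp hx hx' h1'
  obtain ⟨b1, b2⟩ := res_div_mod htp hy hy' h2'
  have a3 : resP d i = resP d i' := hσ (Fin.ext a1)
  have b3 : resQ d i = resQ d i' := Fin.ext b1
  refine ⟨?_, a2, b2⟩
  rw [← resSw_PQ d i, ← resSw_PQ d i', a3, b3]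

theorem res_sum_le {A B : Type} (s : Finset A) (R R' : Finset ℕ) (g : A → ℕ → ℕ → B) (S : Finset B)
    (F : B → ℝ) (hF : ∀ b, 0 ≤ F b) (hmaps : ∀ a ∈ s, ∀ x ∈ R, ∀ y ∈ R', g a x y ∈ S)
    (hinj : ∀ a ∈ s, ∀ x ∈ R, ∀ y ∈ R', ∀ a' ∈ s, ∀ x' ∈ R, ∀ y' ∈ R',
      g a x y = g a' x' y' → a = a' ∧ x = x' ∧ y = y') :
    ∑ a ∈ s, ∑ x ∈ R, ∑ y ∈ R', F (g a x y) ≤ ∑ b ∈ S, F b := by
  have e : ∑ a ∈ s, ∑ x ∈ R, ∑ y ∈ R', F (g a x y) =
      ∑ z ∈ s ×ˢ (R ×ˢ R'), F (g z.1 z.2.1 z.2.2) := by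
    rw [Finset.sum_product]
    refine Finset.sum_congr rfl fun a _ => ?_
    rw [Finset.sum_product]
  rw [e, ← Finset.sum_image (f := F) (g := fun z : A × ℕ × ℕ => g z.1 z.2.1 z.2.2)]
  · refine Finset.sum_le_sum_of_subset_of_nonneg ?_ fun b _ _ => hF b
    intro b hb
    obtain ⟨z, hz, rfl⟩ := Finset.mem_image.1 hb
    rw [Finset.mem_product, Finset.mem_product] at hz
    exact hmaps _ hz.1 _ hz.2.1 _ hz.2.2
  · intro z hz z' hz' hzz
    rw [Finset.mem_coe, Finset.mem_product, Finset.mem_product] at hz hz'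
    obtain ⟨h1, h2, h3⟩ := hinj _ hz.1 _ hz.2.1 _ hz.2.2 _ hz'.1 _ hz'.2.1 _ hz'.2.2 hzz
    exact Prod.ext h1 (Prod.ext h2 h3)

/-- L-C5-RESD.  `N.comm` + `whole_blk1` + `whole_card`: `(N.up κ).1 = κ.1 / t`, `c0.n = t * c.n`.  For a face `f = (i, d)` apply `two_cell` to `u x y = U` at the subcell `(t i.1 + x mod c0.n, t i.2 + y)` (`d = true`; transposed for `d = false`):
`(cmean (fnb c f) - cmean i)² ≤ A_d(i) + Cr(f) + A_d(fnb c f)`, `A_d(i)` = the subfaces of direction `d` inside the cell `i`, `Cr(f)` = those across `f`; all of them lie in `subFaces T N` (`hT`).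
`f ↦ f.1` and `f ↦ fnb c f` are injective at fixed direction, so `∑_f ≤ 2 ∑_i A + ∑_f Cr ≤ 2 ∑_{subFaces}`. -/
theorem face_mean_le (hc : Whole c) {c0 : Grid G} (hc0 : Whole c0) (N : Nest c0 c) (t : ℕ) (ht : c.m = t * c0.m) (T : F4a.Top c) (hT : T.Ok)
    (U : c0.I → ℝ) :
    ∑ f ∈ T.faces, (cmean N U (fnb c f) - cmean N U f.1) ^ 2 ≤ 2 * ∑ φ ∈ subFaces T N, (U (fnb c0 φ) - U φ.1) ^ 2 := by
  have hn0 := res_n0 hc hc0 ht
  have htp := res_t_pos hc ht
  have h : 0 < c0.n := lt_of_lt_of_le (by norm_num) hc0.two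
  set F : Face c0 → ℝ := fun φ => (U (fnb c0 φ) - U φ.1) ^ 2 with hFdef
  have hF : ∀ φ, 0 ≤ F φ := fun φ => sq_nonneg _
  have h1 : ∀ f ∈ T.faces, (cmean N U (fnb c f) - cmean N U f.1) ^ 2 ≤
      ∑ x ∈ Finset.range t, ∑ y ∈ Finset.range t,
        F (resPhi h f.2 (t * ((id (resP f.2 f.1) : Fin c.n) : ℕ) + x) (t * ((resQ f.2 f.1 : Fin c.n) : ℕ) + y)) +
      ∑ x ∈ Finset.range (t - 1), ∑ y ∈ Finset.range t,
        F (resPhi h f.2 (t * ((nx (resP f.2 f.1) : Fin c.n) : ℕ) + x) (t * ((resQ f.2 f.1 : Fin c.n) : ℕ) + y)) := by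
    rintro ⟨i, d⟩ -
    have h2 := res_face_le hc hc0 N ht h U d (resP d i) (resQ d i)
    rw [resSw_PQ] at h2
    refine h2.trans (le_of_eq ?_)
    have e : 2 * t - 1 = t + (t - 1) := by omega
    rw [e, Finset.sum_range_add]
    congr 1
    refine Finset.sum_congr rfl fun x _ => Finset.sum_congr rfl fun y _ => ?_
    show F (resPhi h d _ _) = F (resPhi h d _ _)
    unfold resPhi
    rw [res_fm_shift h hn0 (resP d i) x]
  refine (Finset.sum_le_sum h1).trans ?_
  rw [Finset.sum_add_distrib, two_mul]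
  refine add_le_add ?_ ?_
  · refine res_sum_le _ _ _ _ _ F hF ?_ ?_
    · rintro ⟨i, d⟩ hf x hx y hy
      rw [Finset.mem_range] at hx hy
      have hf' : (resSw d (resP d i) (resQ d i), d) ∈ T.faces := by rw [resSw_PQ]; exact hf
      rcases Nat.lt_or_ge (x + 1) t with hx1 | hx1
      · refine res_mem_inside hc hc0 N ht h T d _ _ ?_ hx1 hy
        show resSw d (resP d i) (resQ d i) ∈ T.cells
        rw [resSw_PQ]
        exact (hT _ hf).2.1
      · exact res_mem_cross hc hc0 N ht h T hT d _ _ hf' (by omega) hy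
    · intro f _ x hx y hy f' _ x' hx' y' hy' he
      rw [Finset.mem_range] at hx hy hx' hy'
      exact res_phi_inj hc hc0 ht h id Function.injective_id hx hy hx' hy' he
  · refine res_sum_le _ _ _ _ _ F hF ?_ ?_
    · rintro ⟨i, d⟩ hf x hx y hy
      rw [Finset.mem_range] at hx hy
      refine res_mem_inside hc hc0 N ht h T d _ _ ?_ (by omega) hy
      have h3 := (hT _ hf).2.2
      rw [← resSw_PQ d i, res_fnb_sw] at h3
      exact h3
    · intro f _ x hx y hy f' _ x' hx' y' hy' he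
      rw [Finset.mem_range] at hx hy hx' hy'
      exact res_phi_inj hc hc0 ht h nx (fun _ _ => res_nx_inj) (by omega) hy (by omega) hy' he

end

end Claimed.Agent.R285.C5
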