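import Claimed.Agent.R285.Entry.GoodDefs
import Claimed.Agent.R285.C5.ResL

/-!
# ROW 285, [C] s5.3 (L5.4, entry for the strengthened law), post C5-BOX: DEFINITIONS      (architect helper262)

Nothing is sorried here.   **This file is the TWIN of `Entry/GoodDefs.lean` (helper109)** for the strengthened law `lawS T c0 δ` (`C5/ResL.lean`): `T.law ↦ lawS T c0 δ`, `⟨0, T.econn τ, y⟩ ↦ affS T c0 δ y`,
only the centred sector `τ = 0`, NO cutoff factors `χ` (the reserve L5.3 = `C5.large_field` is global).   Prefix `es`.   Everything which does not depend on the law is REUSED from `GoodDefs`: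
`egRes, egExt, egSites, egTest, egNorm, Top.glue, EgMark, egPo, egPc, egDE, egDl, egLg, egPhi, egTop, egE, egGr, egSh, egWnb, egWd, EgWMark, EgWMark.Geo, egWPc, egWPo, EgWin, EgMark.pull, EgMark.Geo, EgMark.Ok, EgTemp`.

## Two stiffnesses
* `a  = aLim b`  : the Gaussian limit of the XY heights; the discrete Gaussian reference of the strengthened law has the form `a⁻¹ 𝓔 + δ avgEn + |B·|²`  (PHYSICAL reference; window law `esLw`, stiffness `a`).
* `a' = aPrime a δ = (a⁻¹ + δ)⁻¹` : the stiffness of the REFERENCE of the engine: `T.Eobs a' 0 y`, proxies, regulators (window law `esL0`: cell rows only, stiffness `a'`).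
The two are compared by POT1 (`t → ∞`).
## Two limits, always in this order:   `∀ᶠ t in atTop, ∀ᶠ s0 in atTop`    (`s0` = side of a subcell, `s = t * s0` = side of an observation cell), at the CENTRAL parameter `b`; the neighbourhood of `b`: generic post PERT.
## Window side
A shape `Γ : CGeom m₁ m₂` is in units of OBSERVATION cells (as in `GoodDefs`); the laws live on the refined geometry `Geo.refine Γ t : CGeom (t * m₁) (t * m₂)` (units of subcells) with the uniform grid `egGr (t * m₁) (t * m₂) s0`: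
`esLw Γ t s0 δ = C3.lawR (Geo.refine Γ t) (egGr ..) (esRow Γ t δ)`, rows = one average per present observation cell, then one row `√δ (avg_κ' - avg_κ)` per retained face of subcells.   So all contracts of `Read/C3.lean` apply at fixed `t`.
-/

set_option autoImplicit false

namespace Claimed.Agent.R285.C5

open scoped BigOperators
open Claimed.Agent.R285 Claimed.Agent.R285.RG Claimed.Agent.R285.F4a Claimed.Agent.R285.Entry

noncomputable section

variable {G : Geom} {c : Grid G}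

/-! ## 1. Volume side: partition sums, joint densities, positive factors -/

/-- `Z_T (y; b)`: the strengthened Skellam sum with the penalty `exp (-‖B_s h - y‖²/2)` -/
def esZ (T : Top c) (c0 : Grid G) (δ b : ℝ) (y : c.I → ℝ) : ℝ := (lawS T c0 δ).Z b (affS T c0 δ y) fun _ => 1

/-- the joint density `𝒥_T (y, γ)`, `γ = h` on the sites of the cells of `p` -/
def esJ (T : Top c) (c0 : Grid G) (δ b : ℝ) (y : c.I → ℝ) (p : Finset c.I) (h : G.V → ℤ) : ℝ :=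
  ((lawS T c0 δ).addPin (egSites T p)).Z b ⟨C3.resZ (egSites T p) (egRes T h), 0, (affS T c0 δ y).c⟩ fun _ => 1

/-- `∑_h F(h) 𝒲_T (h) exp (-½ ‖B_s h - y‖²)` -/
def esSum (T : Top c) (c0 : Grid G) (δ b : ℝ) (y : c.I → ℝ) (F : (G.V → ℤ) → ℝ) : ℝ :=
  C3.ZI (lawS T c0 δ) b (affS T c0 δ y) fun h => F (egExt T h)

/-- `E_{T, y}` -/
def esEx (T : Top c) (c0 : Grid G) (δ b : ℝ) (y : c.I → ℝ) (F : (G.V → ℤ) → ℝ) : ℝ := esSum T c0 δ b y F / esZ T c0 δ b y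

/-- `𝒜_T (y) = e^{E_T (y)/2} Z_T (y; b) / Z_T (0; b)`, `E_T = T.Eobs a' 0` -/
def esA (T : Top c) (c0 : Grid G) (δ b a' : ℝ) (y : c.I → ℝ) : ℝ :=
  Real.exp (T.Eobs a' 0 y / 2) * esZ T c0 δ b y / esZ T c0 δ b 0

/-! ## 2. One marked event -/

/-- the centred open-patch scalar `C_i` -/
def esC (T : Top c) (c0 : Grid G) (δ : ℝ) (M : EgMark c) (b : ℝ) : ℝ := esZ (egPo T M) c0 δ b 0 / esZ (egPc T M) c0 δ b 0

/-- (5.14) the proxy `𝓑_i (y)` -/
def esB (T : Top c) (c0 : Grid G) (δ : ℝ) (M : EgMark c) (b a' : ℝ) (y : c.I → ℝ) : ℝ :=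
  esC T c0 δ M b * Real.exp (-(egDE T M a' 0 y) / 2)

/-- `K_o / (𝓑_i K_c)` -/
def esX (T : Top c) (c0 : Grid G) (δ : ℝ) (M : EgMark c) (b a' : ℝ) (y : c.I → ℝ) (h : G.V → ℤ) : ℝ :=
  esJ (T.glue M.F) c0 δ b y M.p h / (esB T c0 δ M b a' y * esJ (T.cut M.F) c0 δ b y M.p h)

/-- `δ_i (y, γ)` -/
def esDelta (T : Top c) (c0 : Grid G) (δ : ℝ) (M : EgMark c) (b a' : ℝ) (y : c.I → ℝ) (h : G.V → ℤ) : ℝ := egDl (esX T c0 δ M b a' y h)

/-- the complete per-box factor `Q_b (y_b)` -/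
def esQ {ι : Type} [Fintype ι] (T : Top c) (c0 : Grid G) (δ : ℝ) (Ms : ι → EgMark c) (b a' : ℝ) (y : c.I → ℝ) : ℝ :=
  esA T c0 δ b a' y * esEx T c0 δ b y fun h => ∏ i, esDelta T c0 δ (Ms i) b a' y h

/-! ## 3. Conditional functionals as functions of global fields -/

def esCL (T : Top c) (c0 : Grid G) (δ b : ℝ) (p : Finset c.I) (y : c.I → ℝ) (h : G.V → ℤ) : ℝ :=
  C3.cLap (lawS T c0 δ) b (egSites T p) (egTest T y) (egRes T h)

def esZ0 (T : Top c) (c0 : Grid G) (δ b : ℝ) (p : Finset c.I) (h : G.V → ℤ) : ℝ := C3.ZC (lawS T c0 δ) b (egSites T p) (egRes T h) fun _ => 1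

def esRP (T : Top c) (c0 : Grid G) (δ b : ℝ) (p H : Finset c.I) (h : G.V → ℤ) : ℝ :=
  C3.rPin (lawS T c0 δ) b (egSites T p) (egSites T H) (egRes T h)

def esRD (T : Top c) (c0 : Grid G) (δ : ℝ) (M : EgMark c) (b : ℝ) (h : G.V → ℤ) : ℝ :=
  (esZ0 (T.glue M.F) c0 δ b M.p h / esZ0 (T.cut M.F) c0 δ b M.p h) / (esZ0 (T.glue M.F) c0 δ b M.p 0 / esZ0 (T.cut M.F) c0 δ b M.p 0)

def esCs (T : Top c) (c0 : Grid G) (δ : ℝ) (M : EgMark c) (b : ℝ) : ℝ :=
  Real.log (esZ0 (T.glue M.F) c0 δ b M.p 0 / (esC T c0 δ M b * esZ0 (T.cut M.F) c0 δ b M.p 0))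

/-- `d_{i} = D_i (H, p)`: the centred pin interaction in the CUT OPEN PATCH -/
def esDs (T : Top c) (c0 : Grid G) (δ : ℝ) (M : EgMark c) (b : ℝ) : ℝ :=
  (lawS (egPc T M) c0 δ).dPin b (egSites (egPc T M) M.H) (egSites (egPc T M) M.p)

def esLam (T : Top c) (c0 : Grid G) (δ : ℝ) (M : EgMark c) (b a' : ℝ) (y : c.I → ℝ) (h : G.V → ℤ) : ℝ :=
  esCL (T.glue M.F) c0 δ b M.p y h - esCL (T.cut M.F) c0 δ b M.p y h + egDE T M a' 0 y / 2

/-! ## 4. Window side -/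

section window

variable {m₁ m₂ : ℕ}

/-- the subcells under a set of observation cells -/
def esUp (t : ℕ) (A : Finset (C3.Cell m₁ m₂)) : Finset (C3.Cell (t * m₁) (t * m₂)) := Finset.univ.filter fun κ => Geo.up t κ ∈ A

/-- the faces of subcells which lie in a face of observation cells of `F` -/
def esUpF (t : ℕ) (F : Finset (C3.Cell m₁ m₂ × Bool)) : Finset (C3.Cell (t * m₁) (t * m₂) × Bool) :=
  Finset.univ.filter fun f => (Geo.up t f.1, f.2) ∈ F ∧ (if f.2 then (f.1.1.1 + 1) % t = 0 else (f.1.2.1 + 1) % t = 0)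

open Classical in
/-- the faces which carry an averaged bond in a geometry `Γ'` (units of subcells): both cells present, face not removed -/
def esSoft {n₁ n₂ : ℕ} (Γ' : CGeom n₁ n₂) : Finset (C3.Cell n₁ n₂ × Bool) :=
  Finset.univ.filter fun f => f.1 ∈ Γ'.T ∧ f ∉ Γ'.cutF ∧ ∃ κ' ∈ Γ'.T, egWnb f κ'

open Classical in
/-- the row `w (avg_κ' - avg_κ)` of the face `f = (κ, d)` -/
def esSoftRow {n₁ n₂ : ℕ} (w : ℝ) (f : C3.Cell n₁ n₂ × Bool) (κ : C3.Cell n₁ n₂) : ℝ :=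
  w * ((if egWnb f κ then 1 else 0) - (if κ = f.1 then 1 else 0))

/-- the rows of the observation cells, in units of subcells -/
def esRow0 (Γ : CGeom m₁ m₂) (t : ℕ) : Fin Γ.T.card → C3.Cell (t * m₁) (t * m₂) → ℝ :=
  fun o κ => if Geo.up t κ = (Γ.T.equivFin.symm o).1 then ((t : ℝ) ^ 2)⁻¹ else 0

/-- **the rows of the strengthened law of the shape `Γ`**: observation cells, then averaged bonds -/
def esRow (Γ : CGeom m₁ m₂) (t : ℕ) (δ : ℝ) : Fin (Γ.T.card + (esSoft (Geo.refine Γ t)).card) → C3.Cell (t * m₁) (t * m₂) → ℝ :=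
  Fin.addCases (esRow0 Γ t) fun j => esSoftRow (Real.sqrt δ) ((esSoft (Geo.refine Γ t)).equivFin.symm j).1

/-- the rows of the RESTORED law (format of `C3.cond_transfer`): the rows of the cut shape `Γ`, then the averaged bonds through the restored faces `F` -/
def esRowU (Γ : CGeom m₁ m₂) (F : Finset (C3.Cell m₁ m₂ × Bool)) (t : ℕ) (δ : ℝ) :
    Fin ((Γ.T.card + (esSoft (Geo.refine Γ t)).card) + (esSoft (Geo.refine (C3.uncut Γ F) t) \ esSoft (Geo.refine Γ t)).card) →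
      C3.Cell (t * m₁) (t * m₂) → ℝ :=
  Fin.addCases (esRow Γ t δ) fun j => esSoftRow (Real.sqrt δ) ((esSoft (Geo.refine (C3.uncut Γ F) t) \ esSoft (Geo.refine Γ t)).equivFin.symm j).1

/-- the grid of subcells of side `s0` -/
abbrev esGr (m₁ m₂ t s0 : ℕ) : DGrid (t * m₁) (t * m₂) := egGr (t * m₁) (t * m₂) s0

/-- **the strengthened law of a shape** -/
def esLw (Γ : CGeom m₁ m₂) (t s0 : ℕ) (δ : ℝ) : HLaw ((Geo.refine Γ t).graph (esGr m₁ m₂ t s0)) :=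
  C3.lawR (Geo.refine Γ t) (esGr m₁ m₂ t s0) (esRow Γ t δ)

/-- the law of the same shape on the same graph WITHOUT averaged bonds (its Gaussian reference at stiffness `a'` is the reference of the engine) -/
def esL0 (Γ : CGeom m₁ m₂) (t s0 : ℕ) : HLaw ((Geo.refine Γ t).graph (esGr m₁ m₂ t s0)) :=
  C3.lawR (Geo.refine Γ t) (esGr m₁ m₂ t s0) (esRow0 Γ t)

/-- the centres: the observation on the rows of the cells, `0` on the averaged bonds -/
def esCen (Γ : CGeom m₁ m₂) (t : ℕ) (y : C3.Cell m₁ m₂ → ℝ) : Fin (Γ.T.card + (esSoft (Geo.refine Γ t)).card) → ℝ :=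
  Fin.addCases (egCen Γ y) fun _ => 0

/-- the coefficients of the test `h ↦ ⟨y, B_s (2π h)⟩` on the subcells -/
def esTst (t : ℕ) (y : C3.Cell m₁ m₂ → ℝ) : C3.Cell (t * m₁) (t * m₂) → ℝ := fun κ => y (Geo.up t κ) / (t : ℝ) ^ 2

/-- the test as a row vector -/
def esTest (Γ : CGeom m₁ m₂) (t s0 : ℕ) (y : C3.Cell m₁ m₂ → ℝ) : ((Geo.refine Γ t).graph (esGr m₁ m₂ t s0)).V → ℝ :=
  (Geo.refine Γ t).cellTest (esGr m₁ m₂ t s0) (esTst t y)

/-- the sites of a set of observation cells -/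
def esSt (Γ : CGeom m₁ m₂) (t s0 : ℕ) (A : Finset (C3.Cell m₁ m₂)) : Set ((Geo.refine Γ t).graph (esGr m₁ m₂ t s0)).V :=
  (Geo.refine Γ t).sites (esGr m₁ m₂ t s0) (esUp t A)

/-- `log (Z (y) / Z (0))` of the strengthened law of a shape -/
def esWR (Γ : CGeom m₁ m₂) (t s0 : ℕ) (δ b : ℝ) (y : C3.Cell m₁ m₂ → ℝ) : ℝ :=
  Real.log ((esLw Γ t s0 δ).Z b ⟨0, 0, esCen Γ t y⟩ (fun _ => 1) / (esLw Γ t s0 δ).Z b ⟨0, 0, esCen Γ t 0⟩ fun _ => 1)

/-- the PHYSICAL Gaussian energy of a shape: `min_v a⁻¹ 𝓔 (v) + δ avgEn (v) + |B v - y|²` -/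
def esWE (Γ : CGeom m₁ m₂) (t s0 : ℕ) (δ a : ℝ) (y : C3.Cell m₁ m₂ → ℝ) : ℝ := (esLw Γ t s0 δ).gEn a 0 (esCen Γ t y)

/-- the REFERENCE energy of a shape: `min_v a'⁻¹ 𝓔 (v) + |B v - y|²` -/
def esWE0 (Γ : CGeom m₁ m₂) (t s0 : ℕ) (a' : ℝ) (y : C3.Cell m₁ m₂ → ℝ) : ℝ := (esL0 Γ t s0).gEn a' 0 (egCen Γ y)

/-- `E_{o_i} (y) - E_{c_i} (y)`, physical reference -/
def esWDE (Γ : CGeom m₁ m₂) (M : EgWMark m₁ m₂) (t s0 : ℕ) (δ a : ℝ) (y : C3.Cell m₁ m₂ → ℝ) : ℝ :=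
  esWE (egWPo Γ M) t s0 δ a y - esWE (egWPc Γ M) t s0 δ a y

/-- `E_{o_i} (y) - E_{c_i} (y)`, reference of the engine -/
def esWDE0 (Γ : CGeom m₁ m₂) (M : EgWMark m₁ m₂) (t s0 : ℕ) (a' : ℝ) (y : C3.Cell m₁ m₂ → ℝ) : ℝ :=
  esWE0 (egWPo Γ M) t s0 a' y - esWE0 (egWPc Γ M) t s0 a' y

/-- the centred pin interaction `D (A, p)` of the strengthened law of a shape -/
def esWD (Γ : CGeom m₁ m₂) (t s0 : ℕ) (δ b : ℝ) (A p : Finset (C3.Cell m₁ m₂)) : ℝ := (esLw Γ t s0 δ).dPin b (esSt Γ t s0 A) (esSt Γ t s0 p)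

/-- its physical Gaussian reference -/
def esWDg (Γ : CGeom m₁ m₂) (t s0 : ℕ) (δ a : ℝ) (A p : Finset (C3.Cell m₁ m₂)) : ℝ :=
  (esLw Γ t s0 δ).gPin a ((Geo.refine Γ t).sites (esGr m₁ m₂ t s0) (Geo.refine Γ t).pin) (esSt Γ t s0 A) (esSt Γ t s0 p)

/-- **the lattice side of the transfer** (twin of `egWL`): `Γ` = cut box; the guard data are sampled in the restored (`top = true`) or in the cut box, tilted by `y`;  `Φ (log L_c, log L_o, r_H)` -/
def esWL (Γ : CGeom m₁ m₂) (M : EgWMark m₁ m₂) (t s0 : ℕ) (δ b : ℝ) (top : Bool) (y : C3.Cell m₁ m₂ → ℝ) (Φ : ℝ → ℝ → ℝ → ℝ) : ℝ :=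
  (if top then C3.ExU (Geo.refine Γ t) (esUpF t M.F) (esGr m₁ m₂ t s0) (esRowU Γ M.F t δ) b (esTest Γ t s0 y)
    else C3.ExT (esLw Γ t s0 δ) b (esTest Γ t s0 y))
  fun h => Φ (C3.cLap (esLw Γ t s0 δ) b (esSt Γ t s0 M.p) (esTest Γ t s0 y) h)
    (C3.cLapU (Geo.refine Γ t) (esUpF t M.F) (esGr m₁ m₂ t s0) (esRowU Γ M.F t δ) b (esSt Γ t s0 M.p) (esTest Γ t s0 y) h)
    (C3.rPin (esLw Γ t s0 δ) b (esSt Γ t s0 M.p) (esSt Γ t s0 M.H) h)

/-- **the Gaussian side of the transfer** (twin of `egWG`): the PHYSICAL discrete Gaussian reference on the same graphs, stiffness `a` -/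
def esWG (Γ : CGeom m₁ m₂) (M : EgWMark m₁ m₂) (t s0 : ℕ) (δ a : ℝ) (top : Bool) (y : C3.Cell m₁ m₂ → ℝ) (Φ : ℝ → ℝ → ℝ → ℝ) : ℝ :=
  (if top then C3.gExU (Geo.refine Γ t) (esUpF t M.F) (esGr m₁ m₂ t s0) (esRowU Γ M.F t δ) a
        ((Geo.refine Γ t).sites (esGr m₁ m₂ t s0) (Geo.refine Γ t).pin) (esTest Γ t s0 y)
    else C3.gExT (esLw Γ t s0 δ) a ((Geo.refine Γ t).sites (esGr m₁ m₂ t s0) (Geo.refine Γ t).pin) (esTest Γ t s0 y))
  fun φ => Φ (C3.gcLap (esLw Γ t s0 δ) a ((Geo.refine Γ t).sites (esGr m₁ m₂ t s0) (Geo.refine Γ t).pin ∪ esSt Γ t s0 M.p) (esTest Γ t s0 y) φ)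
    (C3.gcLapU (Geo.refine Γ t) (esUpF t M.F) (esGr m₁ m₂ t s0) (esRowU Γ M.F t δ) a
      ((Geo.refine Γ t).sites (esGr m₁ m₂ t s0) (Geo.refine Γ t).pin ∪ esSt Γ t s0 M.p) (esTest Γ t s0 y) φ)
    (C3.grPin (esLw Γ t s0 δ) a ((Geo.refine Γ t).sites (esGr m₁ m₂ t s0) (Geo.refine Γ t).pin ∪ esSt Γ t s0 M.p) (esSt Γ t s0 M.H) φ)

end window

/-! ## 5. Volumes with two nested grids -/

/-- observation cells `c` of side `t * s0`, subcells `c0` of side `s0`, whole cells, nested -/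
structure EsVol (c c0 : Grid G) (t s0 : ℕ) : Prop where
  hc : Whole c
  hc0 : Whole c0
  nest : Nonempty (Nest c0 c)
  m0 : c0.m = s0
  m : c.m = t * s0

end

end Claimed.Agent.R285.C5
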