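import Claimed.Agent.R285.C5.EntDefs
import Claimed.Agent.R285.C5.EsDefs
import Claimed.Agent.R285.Entry.PhyXY

/-!
# ROW 285, [C] s5, ENTRY OF THE STRENGTHENED LAW: THE LAW LEVEL (contract `C5.str_law`; architect helper66, chief helper262).   PAPER-FREE, no estimate.
Definitions: `C5/EntDefs.lean`.   Twin of `Ent/PropLaw.lean` (generic height sum `prZg`) and `Entry/PhyXY.lean` (carriers).   Helper names: prefix `esl_`.
EXITS: `str_str`, `str_isReal`, `str_isEven`, `str_phy_ok`, `str_qloc`, `str_Z1_eq`, `str_Zh_real`, `str_N_eq`.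
s1 geometry of the subcell faces (from `C5/ResL.lean`: `res_cross`, `res_blk_up`);  s2 carriers and splittings;  s3 `strEn`;  s4 `strOm`;  s5 `Str`, reality, parity (without `N`);
s6 the factor model: weight, `Z1`, carriers;  s7 the bridge to `lawS T c0 δ` (`esZ`);  s8 exits.
-/

set_option autoImplicit false

namespace Claimed.Agent.R285.C5

open scoped BigOperators ComplexConjugate
open Claimed.Agent.R285 Claimed.Agent.R285.RG Claimed.Agent.R285.F4a Claimed.Agent.R285.Ent Claimed.Agent.R285.Entry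

noncomputable section

variable {G : Geom} {c0 c : Grid G}

/-! ## 1. Geometry of the subcell faces -/

/-- the parents of the two subcells of a face are equal or joined by the face of the same direction -/
theorem esl_up_fnb (hc : Whole c) (hc0 : Whole c0) (N0 : Nest c0 c) (f : Face c0) (hf : IsFace c0 f) (hne : N0.up (fnb c0 f) ≠ N0.up f.1) :
    N0.up (fnb c0 f) = fnb c (N0.up f.1, f.2) := by
  obtain ⟨v, h1, h2⟩ := res_cross hc0 f hf
  have e1 : c.blk v = N0.up f.1 := by rw [res_blk_up N0, h1]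
  have e2 : c.blk (stp v f.2) = N0.up (fnb c0 f) := by rw [res_blk_up N0, h2]
  rw [← e2, ← e1]
  exact enb_blk_stp hc v f.2 (by rw [e1, e2]; exact hne)

/-- LEAF SL-1: both parents belong to the carrier (unfold `carS`; three cases; `esl_up_fnb`) -/
theorem esl_carS_at (hc : Whole c) (hc0 : Whole c0) (N0 : Nest c0 c) (f : Face c0) :
    carAt (carS N0 f) (N0.up f.1) ∧ carAt (carS N0 f) (N0.up (fnb c0 f)) := by
  classical
  unfold carS
  by_cases hf : IsFace c0 f
  · rw [if_pos hf]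
    by_cases he : N0.up (fnb c0 f) = N0.up f.1
    · rw [if_pos he]
      exact ⟨rfl, he⟩
    · rw [if_neg he]
      exact ⟨Or.inl rfl, Or.inr (esl_up_fnb hc hc0 N0 f hf he)⟩
  · rw [if_neg hf]
    exact ⟨trivial, trivial⟩

theorem esl_mem_F (N0 : Nest c0 c) (T : Top c) (f : Face c0) : f ∈ strF N0 T ↔ carIn T (carS N0 f) := by
  classical
  simp [strF]

/-- LEAF SL-1: the retained subcell faces are `C5.subFaces` (`esl_up_fnb`) -/
theorem esl_F_eq (hc : Whole c) (hc0 : Whole c0) (N0 : Nest c0 c) (T : Top c) : strF N0 T = subFaces T N0 := by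
  classical
  ext f
  rw [esl_mem_F]
  unfold subFaces carS
  rw [Finset.mem_filter]
  by_cases hf : IsFace c0 f
  · rw [if_pos hf]
    by_cases he : N0.up (fnb c0 f) = N0.up f.1
    · rw [if_pos he]
      constructor
      · intro h
        have h' : N0.up f.1 ∈ T.cells := h
        exact ⟨Finset.mem_univ _, hf, h', he ▸ h', Or.inl he⟩
      · rintro ⟨-, -, h, -⟩
        exact h
    · rw [if_neg he]
      have e := esl_up_fnb hc hc0 N0 f hf he
      constructor
      · intro h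
        have h' : (N0.up f.1, f.2) ∈ T.faces ∧ N0.up f.1 ∈ T.cells ∧ fnb c (N0.up f.1, f.2) ∈ T.cells := h
        exact ⟨Finset.mem_univ _, hf, h'.2.1, e ▸ h'.2.2, Or.inr h'.1⟩
      · rintro ⟨-, -, h1, h2, h3⟩
        exact ⟨h3.resolve_left he, h1, e ▸ h2⟩
  · rw [if_neg hf]
    constructor
    · intro h
      exact h.elim
    · rintro ⟨-, h, -⟩
      exact hf h

/-- the sites of the two subcells of a retained face are sites of `T` -/
theorem esl_F_sites (hc : Whole c) (hc0 : Whole c0) (N0 : Nest c0 c) (T : Top c) (f : Face c0) (hf : f ∈ strF N0 T) (v : G.V)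
    (hv : c0.blk v = f.1 ∨ c0.blk v = fnb c0 f) : c.blk v ∈ T.cells := by
  have h := (esl_mem_F N0 T f).1 hf
  rw [res_blk_up N0]
  rcases hv with hv | hv
  · rw [hv]; exact car_at_mem h (esl_carS_at hc hc0 N0 f).1
  · rw [hv]; exact car_at_mem h (esl_carS_at hc hc0 N0 f).2

/-! ## 2. Carriers and splittings -/

/-- LEAF SL-2 (three cases of `κ`; copy of `Entry.car_in_split`) -/
theorem esl_in_splits (T : Top c) (O₁ O₂ : Finset c.I) (hs : Splits T O₁ O₂) (κ : Car c) :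
    carIn T κ ↔ carIn (T.restr O₁) κ ∨ carIn (T.restr O₂) κ := by
  classical
  obtain ⟨-, h1, h2⟩ := hs
  rcases κ with _ | j | f
  · simp [carIn]
  · simp only [carIn, Top.restr, Finset.mem_inter]
    constructor
    · intro h
      rcases Finset.mem_union.1 (h1 h) with hi | hi
      · exact Or.inl ⟨h, hi⟩
      · exact Or.inr ⟨h, hi⟩
    · rintro (⟨h, -⟩ | ⟨h, -⟩) <;> exact h
  · simp only [carIn, Top.restr, Finset.mem_inter, Finset.mem_filter]
    constructor
    · rintro ⟨h, h3, h4⟩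
      rcases h2 f h with hi | hi
      · exact Or.inl ⟨⟨h, hi⟩, ⟨h3, hi.1⟩, ⟨h4, hi.2⟩⟩
      · exact Or.inr ⟨⟨h, hi⟩, ⟨h3, hi.1⟩, ⟨h4, hi.2⟩⟩
    · rintro (⟨⟨h, -⟩, ⟨h3, -⟩, ⟨h4, -⟩⟩ | ⟨⟨h, -⟩, ⟨h3, -⟩, ⟨h4, -⟩⟩) <;> exact ⟨h, h3, h4⟩

/-- LEAF SL-2 (`Entry.car_at_exists`, `Entry.car_at_restr`) -/
theorem esl_in_disj (T : Top c) (O₁ O₂ : Finset c.I) (hd : Disjoint O₁ O₂) (κ : Car c) (h1 : carIn (T.restr O₁) κ) (h2 : carIn (T.restr O₂) κ) : False := by
  obtain ⟨j, hj⟩ := car_at_exists h1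
  exact Finset.disjoint_left.1 hd (car_at_restr h1 hj) (car_at_restr h2 hj)

theorem esl_F_split (N0 : Nest c0 c) (T : Top c) (O₁ O₂ : Finset c.I) (hs : Splits T O₁ O₂) :
    strF N0 T = strF N0 (T.restr O₁) ∪ strF N0 (T.restr O₂) := by
  ext f
  rw [Finset.mem_union, esl_mem_F, esl_mem_F, esl_mem_F]
  exact esl_in_splits T O₁ O₂ hs _

theorem esl_F_disj (N0 : Nest c0 c) (T : Top c) (O₁ O₂ : Finset c.I) (hd : Disjoint O₁ O₂) :
    Disjoint (strF N0 (T.restr O₁)) (strF N0 (T.restr O₂)) :=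
  Finset.disjoint_left.2 fun f h1 h2 => esl_in_disj T O₁ O₂ hd _ ((esl_mem_F N0 _ f).1 h1) ((esl_mem_F N0 _ f).1 h2)

/-! ## 3. The averaged gradient energy -/

theorem esl_En_nonneg (N0 : Nest c0 c) (T : Top c) (k : G.V → ℤ) : 0 ≤ strEn N0 T k := Finset.sum_nonneg fun _ _ => sq_nonneg _

theorem esl_En_add (N0 : Nest c0 c) (T : Top c) (O₁ O₂ : Finset c.I) (hs : Splits T O₁ O₂) (k : G.V → ℤ) :
    strEn N0 T k = strEn N0 (T.restr O₁) k + strEn N0 (T.restr O₂) k := by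
  unfold strEn
  rw [esl_F_split N0 T O₁ O₂ hs, Finset.sum_union (esl_F_disj N0 T O₁ O₂ hs.1)]

theorem esl_En_loc (hc : Whole c) (hc0 : Whole c0) (N0 : Nest c0 c) (T : Top c) : prLoc T (strEn N0 T) := by
  intro k k' h
  unfold strEn
  refine Finset.sum_congr rfl fun f hf => ?_
  rw [pr_Av_congr k k' (fnb c0 f) fun v hv => h v (esl_F_sites hc hc0 N0 T f hf v (Or.inr hv)),
    pr_Av_congr k k' f.1 fun v hv => h v (esl_F_sites hc hc0 N0 T f hf v (Or.inl hv))]

theorem esl_En_shift (hc0 : Whole c0) (N0 : Nest c0 c) (T : Top c) (k : G.V → ℤ) : strEn N0 T (fun v => k v + 1) = strEn N0 T k := by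
  unfold strEn
  refine Finset.sum_congr rfl fun f _ => ?_
  rw [pr_Av_shift hc0, pr_Av_shift hc0]
  ring

theorem esl_En_neg (N0 : Nest c0 c) (T : Top c) (k : G.V → ℤ) : strEn N0 T (-k) = strEn N0 T k := by
  unfold strEn
  refine Finset.sum_congr rfl fun f _ => ?_
  rw [pr_Av_neg, pr_Av_neg]
  ring

theorem esl_En_empty (N0 : Nest c0 c) (T : Top c) (h0 : T.cells = ∅) (k : G.V → ℤ) : strEn N0 T k = 0 := by
  have : strF N0 T = ∅ := by
    refine Finset.eq_empty_of_forall_notMem fun f hf => ?_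
    have h := (esl_mem_F N0 T f).1 hf
    obtain ⟨j, hj⟩ := car_at_exists h
    have := car_at_mem h hj
    rw [h0] at this
    exact Finset.notMem_empty _ this
  unfold strEn
  rw [this, Finset.sum_empty]

/-! ## 4. The weight `strOm` -/

/-- the real weight -/
def strOmR (N0 : Nest c0 c) (T : Top c) (dl b : ℝ) (k : G.V → ℤ) : ℝ := prOmR T b 0 k * Real.exp (-(dl * strEn N0 T k) / 2)

theorem esl_Om_real (N0 : Nest c0 c) (T : Top c) (dl b : ℝ) (k : G.V → ℤ) : strOm N0 T dl b k = (strOmR N0 T dl b k : ℂ) := by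
  unfold strOm strOmR
  rw [pr_Om_real]
  push_cast
  rfl

theorem esl_Om_loc (hc : Whole c) (hc0 : Whole c0) (N0 : Nest c0 c) (T : Top c) (dl : ℝ) (b : ℂ) : prLoc T (strOm N0 T dl b) := by
  intro k k' h
  unfold strOm
  rw [pr_Om_loc T b 0 k k' h, esl_En_loc hc hc0 N0 T k k' h]

theorem esl_Om_mul (hc : Whole c) (N0 : Nest c0 c) (T : Top c) (O₁ O₂ : Finset c.I) (hs : Splits T O₁ O₂) (dl : ℝ) (b : ℂ) (k : G.V → ℤ) :
    strOm N0 T dl b k = strOm N0 (T.restr O₁) dl b k * strOm N0 (T.restr O₂) dl b k := by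
  unfold strOm
  rw [pr_Om_mul hc T O₁ O₂ hs, esl_En_add N0 T O₁ O₂ hs]
  have : Complex.exp (-((dl * (strEn N0 (T.restr O₁) k + strEn N0 (T.restr O₂) k) : ℝ) : ℂ) / 2) =
      Complex.exp (-((dl * strEn N0 (T.restr O₁) k : ℝ) : ℂ) / 2) * Complex.exp (-((dl * strEn N0 (T.restr O₂) k : ℝ) : ℂ) / 2) := by
    rw [← Complex.exp_add]
    congr 1
    push_cast
    ring
  rw [this]
  ring

theorem esl_Om_shift (hc0 : Whole c0) (N0 : Nest c0 c) (T : Top c) (dl : ℝ) (b : ℂ) (k : G.V → ℤ) :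
    strOm N0 T dl b (fun v => k v + 1) = strOm N0 T dl b k := by
  unfold strOm
  rw [pr_Om_shift, esl_En_shift hc0]

theorem esl_Om_neg (N0 : Nest c0 c) (T : Top c) (dl : ℝ) (b : ℂ) (k : G.V → ℤ) : strOm N0 T dl b (-k) = strOm N0 T dl b k := by
  unfold strOm
  rw [pr_Om_neg, esl_En_neg]

theorem esl_Om_conj (N0 : Nest c0 c) (T : Top c) (dl b : ℝ) (k : G.V → ℤ) : conj (strOm N0 T dl b k) = strOm N0 T dl b k := by
  rw [esl_Om_real, Complex.conj_ofReal]

theorem esl_Om_norm_le (N0 : Nest c0 c) (T : Top c) (dl : ℝ) (hdl : 0 ≤ dl) (b : ℂ) (k : G.V → ℤ) : ‖strOm N0 T dl b k‖ ≤ ‖prOm T b 0 k‖ := by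
  unfold strOm
  rw [norm_mul]
  refine mul_le_of_le_one_right (norm_nonneg _) ?_
  rw [Complex.norm_exp]
  have : (-((dl * strEn N0 T k : ℝ) : ℂ) / 2).re = -(dl * strEn N0 T k) / 2 := by
    have h2 : (-((dl * strEn N0 T k : ℝ) : ℂ) / 2) = ((-(dl * strEn N0 T k) / 2 : ℝ) : ℂ) := by push_cast; ring
    rw [h2, Complex.ofReal_re]
  rw [this, Real.exp_le_one_iff]
  have := mul_nonneg hdl (esl_En_nonneg N0 T k)
  linarith

theorem esl_Om_maj (hc : Whole c) (N0 : Nest c0 c) (T : Top c) (dl : ℝ) (hdl : 0 ≤ dl) (b : ℂ) :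
    ∃ ω : (G.V → ℤ) → ℝ, prMaj T ω ∧ ∀ k, ‖strOm N0 T dl b k‖ ≤ ω k := by
  obtain ⟨ω, hm, hle⟩ := pr_Om_maj hc T 0 ‖b‖
  exact ⟨ω, hm, fun k => (esl_Om_norm_le N0 T dl hdl b k).trans (hle b le_rfl k)⟩

theorem esl_summable (hc : Whole c) (N0 : Nest c0 c) (T : Top c) (dl : ℝ) (hdl : 0 ≤ dl) (b : ℂ) (y : c.I → ℂ) :
    Summable fun h : T.graph.V → ℤ => ‖strOm N0 T dl b (prExt T h) * prGs T y (prExt T h)‖ := by
  obtain ⟨ω, hm, hle⟩ := esl_Om_maj hc N0 T dl hdl b
  exact pr_Zg_summable T _ ω hle hm y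

/-! ## 5. The height sum -/

theorem esl_Zh_mul (hc : Whole c) (hc0 : Whole c0) (N0 : Nest c0 c) (dl : ℝ) (hdl : 0 ≤ dl) (b : ℂ) (T : Top c) (O₁ O₂ : Finset c.I)
    (hs : Splits T O₁ O₂) (y : c.I → ℂ) :
    prZg T (strOm N0 T dl b) y = prZg (T.restr O₁) (strOm N0 (T.restr O₁) dl b) y * prZg (T.restr O₂) (strOm N0 (T.restr O₂) dl b) y :=
  pr_Zg_mul T O₁ O₂ hs _ _ _ (esl_Om_mul hc N0 T O₁ O₂ hs dl b) (esl_Om_loc hc hc0 N0 _ dl b) (esl_Om_loc hc hc0 N0 _ dl b) y
    (esl_summable hc N0 _ dl hdl b y) (esl_summable hc N0 _ dl hdl b y)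

theorem esl_Zh_one (N0 : Nest c0 c) (dl : ℝ) (b : ℂ) (T : Top c) (h0 : T.cells = ∅) (y : c.I → ℂ) : prZg T (strOm N0 T dl b) y = 1 := by
  classical
  rw [pr_Zg_one T h0]
  unfold strOm
  rw [esl_En_empty N0 T h0]
  have : Finset.univ.filter T.IsEdge = ∅ := by
    refine Finset.eq_empty_of_forall_notMem fun e he => ?_
    have h1 := (Finset.mem_filter.1 he).2.2.1
    rw [h0] at h1
    exact Finset.notMem_empty _ h1
  unfold prOm
  rw [this]
  simp

/-! ## 6. The factor model -/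

/-- LEAF SL-3: the averaged bond as a real form: `rv (inr f) k = √δ (avg_{k'} - avg_k)` (`Entry.car_row_sum` for the grid `c0`, twice; `mul_sub`, `Finset.sum_sub_distrib`) -/
theorem esl_rv_inr (b dl : ℝ) (f : Face c0) (k : G.V → ℤ) :
    (facS c c0 b dl).rv (Sum.inr f) k = Real.sqrt dl * (prAv c0 k (fnb c0 f) - prAv c0 k f.1) := by
  unfold prAv
  rw [← car_row_sum (fnb c0 f) fun v => 2 * Real.pi * (k v : ℝ), ← car_row_sum f.1 fun v => 2 * Real.pi * (k v : ℝ),
    ← Finset.sum_sub_distrib, Finset.mul_sum]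
  refine Finset.sum_congr rfl fun v _ => ?_
  show Real.sqrt dl * ((if c0.blk v = fnb c0 f then ((c0.sites {fnb c0 f}).card : ℝ)⁻¹ else 0)
        - (if c0.blk v = f.1 then ((c0.sites {f.1}).card : ℝ)⁻¹ else 0)) * (2 * Real.pi * (k v : ℝ)) = _
  ring

/-- LEAF SL-3 (`Entry.car_row_sum`) -/
theorem esl_rv_inl (b dl : ℝ) (i : c.I) (k : G.V → ℤ) : (facS c c0 b dl).rv (Sum.inl i) k = prAv c k i :=
  car_row_sum i fun v => 2 * Real.pi * (k v : ℝ)

/-- LEAF SL-3 (`Entry.car_bond_sumZ`) -/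
theorem esl_dv (b dl : ℝ) (e : G.V × Bool) (k : G.V → ℤ) : (facS c c0 b dl).dv e k = k (stp e.1 e.2) - k e.1 :=
  car_bond_sumZ e k

/-- LEAF SL-3: **the weight of a height.**  Unfold `Fac.Msk.wt`, `Fac.rw`, `Fac.rwE`, `mskS`, `datS`; the sum over `Finset.univ.filter (carIn T ∘ carO N0)` of `c.I ⊕ Face c0` splits
(`Finset.sum_filter`, `Fintype.sum_sum_type`) into `∑ i ∈ T.cells` and `∑ f ∈ strF N0 T`; `Real.sq_sqrt hdl`; `prEc c 0 e = 0`; `← Real.exp_add`. -/
theorem esl_wt (N0 : Nest c0 c) (b dl : ℝ) (hdl : 0 ≤ dl) (T : Top c) (y : c.I → ℝ) (k : G.V → ℤ) :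
    (mskS N0 b dl T).wt (datS c c0 b dl y) k = strOmR N0 T dl b k * carGs T y k := by
  classical
  unfold Fac.Msk.wt Fac.rw Fac.rwE strOmR prOmR carGs
  rw [mul_assoc, ← Real.exp_add]
  congr 1
  · refine Finset.prod_congr (Finset.filter_congr_decidable _ _ _) fun e _ => ?_
    rw [esl_dv]
    have h0 : prEc c (0 : Face c → ℤ) e = 0 := by
      unfold prEc
      split_ifs <;> rfl
    rw [h0]
    rfl
  · congr 1
    have hsum : ∑ o ∈ (mskS N0 b dl T).O, ((facS c c0 b dl).rv o k - (datS c c0 b dl y).c o) ^ 2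
        = ∑ i ∈ T.cells, (prAv c k i - y i) ^ 2 + dl * strEn N0 T k := by
      have e0 : ∑ o ∈ (mskS N0 b dl T).O, ((facS c c0 b dl).rv o k - (datS c c0 b dl y).c o) ^ 2
          = ∑ o : c.I ⊕ Face c0, if carIn T (carO N0 o) then ((facS c c0 b dl).rv o k - (datS c c0 b dl y).c o) ^ 2 else 0 := by
        rw [← Finset.sum_filter]
        exact Finset.sum_congr (Finset.filter_congr_decidable _ _ _) fun _ _ => rfl
      rw [e0, Fintype.sum_sum_type]
      congr 1
      · have : ∀ i : c.I, (if carIn T (carO N0 (Sum.inl i)) then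
            ((facS c c0 b dl).rv (Sum.inl i) k - (datS c c0 b dl y).c (Sum.inl i)) ^ 2 else 0)
            = if i ∈ T.cells then (prAv c k i - y i) ^ 2 else 0 := by
          intro i
          rw [esl_rv_inl]
          have hi : carIn T (carO N0 (Sum.inl i)) ↔ i ∈ T.cells := Iff.rfl
          by_cases h : i ∈ T.cells
          · rw [if_pos (hi.2 h), if_pos h]
            rfl
          · rw [if_neg (fun h' => h (hi.1 h')), if_neg h]
        simp_rw [this]
        rw [Finset.sum_ite_mem, Finset.univ_inter]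
      · unfold strEn strF
        rw [Finset.mul_sum, Finset.sum_filter]
        refine Finset.sum_congr rfl fun f _ => ?_
        have hc' : carO N0 (Sum.inr f) = carS N0 f := rfl
        have hd' : (datS c c0 b dl y).c (Sum.inr f) = 0 := rfl
        rw [hc', hd', esl_rv_inr, sub_zero, mul_pow, Real.sq_sqrt hdl]
    show -(∑ o ∈ (mskS N0 b dl T).O, ((facS c c0 b dl).rv o k - (datS c c0 b dl y).c o) ^ 2) / 2 = _
    rw [hsum]
    ring

/-- LEAF SL-3 (`Entry.car_tsum_sup`, `esl_wt`; `zero_add`, `one_mul`) -/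
theorem esl_Z1 (N0 : Nest c0 c) (b dl : ℝ) (hdl : 0 ≤ dl) (T : Top c) (y : c.I → ℝ) :
    (mskS N0 b dl T).Z1 (datS c c0 b dl y) = ∑' h : T.graph.V → ℤ, strOmR N0 T dl b (prExt T h) * carGs T y (prExt T h) := by
  rw [← car_tsum_sup (facS c c0 b dl).b (facS c c0 b dl).d (facS c c0 b dl).r T fun k => strOmR N0 T dl b k * carGs T y k]
  unfold Fac.Msk.Z1 Fac.Msk.Z
  refine tsum_congr fun g => ?_
  have h0 : (datS c c0 b dl y).x + (g : (facS c c0 b dl).Ht) = (g : (facS c c0 b dl).Ht) := zero_add _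
  rw [h0, one_mul, esl_wt N0 b dl hdl]

theorem esl_dat_zero (b dl : ℝ) : datS c c0 b dl 0 = 0 := by
  show (⟨0, 0, Sum.elim (0 : c.I → ℝ) fun _ => 0⟩ : (facS c c0 b dl).Dat) = ⟨0, 0, 0⟩
  congr 1
  funext o
  cases o <;> rfl

/-- the height sum at real observations -/
theorem esl_Zh_eq (N0 : Nest c0 c) (b dl : ℝ) (hdl : 0 ≤ dl) (T : Top c) (y : c.I → ℝ) :
    prZg T (strOm N0 T dl b) (fun i => (y i : ℂ)) = (((mskS N0 b dl T).Z1 (datS c c0 b dl y) : ℝ) : ℂ) := by
  rw [esl_Z1 N0 b dl hdl, car_Zg_real T _ (strOmR N0 T dl b) (esl_Om_real N0 T dl b) y]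

/-- the support of an averaged bond lies over its carrier -/
theorem esl146_supO (hc : Whole c) (hc0 : Whole c0) (N0 : Nest c0 c) (dl : ℝ) (f : Face c0) (v : G.V)
    (h' : Real.sqrt dl * ((if c0.blk v = fnb c0 f then ((c0.sites {fnb c0 f}).card : ℝ)⁻¹ else 0)
          - (if c0.blk v = f.1 then ((c0.sites {f.1}).card : ℝ)⁻¹ else 0)) ≠ 0) : carAt (carS N0 f) (c.blk v) := by
  rw [res_blk_up N0]
  by_cases h1 : c0.blk v = f.1
  · rw [h1]
    exact (esl_carS_at hc hc0 N0 f).1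
  · by_cases h2 : c0.blk v = fnb c0 f
    · rw [h2]
      exact (esl_carS_at hc hc0 N0 f).2
    · exact absurd (by rw [if_neg h1, if_neg h2, sub_zero, mul_zero]) h'

/-- LEAF SL-4: the carriers of the strengthened law (twin of `Entry.xyp_car`; `supO` at `inr f`: `esl_carS_at`, `res_blk_up`; `cell`: `Entry.car_cell_raw` with the row `inl i`) -/
theorem esl_car (hc : Whole c) (hc0 : Whole c0) (N0 : Nest c0 c) (R : ℕ) (dl a' b0 b : ℝ) (hb : 0 < b) :
    CarOk (strPhy N0 R dl a' b0 b) (carB c) (carO N0) where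
  A_eq := fun T => rfl
  mem_E := fun T e => by
    classical
    rw [← car_isEdge_iff hc T e]
    have key : ∀ e' : G.V × Bool, e' ∈ (Finset.univ.filter fun e : G.V × Bool => T.IsEdge e) ↔ T.IsEdge e' := fun e' => by
      simp only [Finset.mem_filter, Finset.mem_univ, true_and]
    exact key e
  mem_O := fun T o => by
    classical
    have key : ∀ o' : c.I ⊕ Face c0, o' ∈ (Finset.univ.filter fun o : c.I ⊕ Face c0 => carIn T (carO N0 o)) ↔ carIn T (carO N0 o') :=
      fun o' => by simp only [Finset.mem_filter, Finset.mem_univ, true_and]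
    exact key o
  mem_FE := fun f e => car_bondsF_iff f e
  mem_FO := fun f o => by
    classical
    have key : ∀ o' : c.I ⊕ Face c0, o' ∈ (Finset.univ.filter fun o : c.I ⊕ Face c0 => carO N0 o = some (Sum.inr f))
        ↔ carO N0 o' = some (Sum.inr f) := fun o' => by simp only [Finset.mem_filter, Finset.mem_univ, true_and]
    exact key o
  supE := fun e v h => car_bond_sup hc e v h
  supO := fun o v h => by
    rcases o with i | f
    · show c.blk v = i
      by_contra hne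
      exact h (if_neg hne)
    · exact esl146_supO hc hc0 N0 dl f v h
  pos := fun _ => hb
  cell := fun i u h1 h2 => by
    refine car_cell_raw hc i u (fun e he => ?_) ?_
    · have h3 := h1 e he
      have h4 := car_bond_sumR e u
      have h5 : u (stp e.1 e.2) - u e.1 = 0 := h4.symm.trans h3
      linarith
    · exact (car_row_sum i u).symm.trans (h2 (Sum.inl i) rfl)

theorem esl_msk_ok (hc : Whole c) (hc0 : Whole c0) (N0 : Nest c0 c) (dl b : ℝ) (hb : 0 < b) (T : Top c) : (mskS N0 b dl T).Ok :=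
  car_msk_ok (esl_car hc hc0 N0 0 dl 1 1 b hb) T

/-! ## 7. The bridge to `lawS T c0 δ` -/

/-- a primary bond whose ends lie in different cells crosses a face of the uncut inclusion -/
theorem esl107_isFace (hc0 : Whole c0) (x : G.V) (d : Bool) (hne : c0.blk (stp x d) ≠ c0.blk x) : IsFace c0 (c0.blk x, d) := by
  cases hG : G.bc with
  | per => exact Or.inl hG
  | free =>
    right
    obtain ⟨h1, h2, h3, h4⟩ := stp_free hG x
    cases d with
    | true =>
      show ((c0.blk1 x.1 : Fin c0.n) : ℕ) + 1 < c0.n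
      have hlt : (x.1 : ℕ) + 1 < G.M := by
        by_contra hcon
        have : (x.1 : ℕ) + 1 = G.M := by have := x.1.2; omega
        exact hne (by rw [h2 this])
      obtain ⟨e1, e2⟩ := h1 hlt
      have hle : c0.blk1 x.1 ≤ c0.blk1 (stp x true).1 := hc0.mono (Fin.le_def.2 (by rw [e1]; omega))
      have hne1 : c0.blk1 (stp x true).1 ≠ c0.blk1 x.1 := by
        intro h
        apply hne
        exact Prod.ext h (by show c0.blk1 (stp x true).2 = c0.blk1 x.2; rw [e2])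
      have hlt2 : c0.blk1 x.1 < c0.blk1 (stp x true).1 := lt_of_le_of_ne hle (Ne.symm hne1)
      have := (c0.blk1 (stp x true).1).2
      have h5 : ((c0.blk1 x.1 : Fin c0.n) : ℕ) < ((c0.blk1 (stp x true).1 : Fin c0.n) : ℕ) := hlt2
      omega
    | false =>
      show ((c0.blk1 x.2 : Fin c0.n) : ℕ) + 1 < c0.n
      have hlt : (x.2 : ℕ) + 1 < G.M := by
        by_contra hcon
        have : (x.2 : ℕ) + 1 = G.M := by have := x.2.2; omega
        exact hne (by rw [h4 this])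
      obtain ⟨e1, e2⟩ := h3 hlt
      have hle : c0.blk1 x.2 ≤ c0.blk1 (stp x false).2 := hc0.mono (Fin.le_def.2 (by rw [e1]; omega))
      have hne1 : c0.blk1 (stp x false).2 ≠ c0.blk1 x.2 := by
        intro h
        apply hne
        exact Prod.ext (by show c0.blk1 (stp x false).1 = c0.blk1 x.1; rw [e2]) h
      have hlt2 : c0.blk1 x.2 < c0.blk1 (stp x false).2 := lt_of_le_of_ne hle (Ne.symm hne1)
      have := (c0.blk1 (stp x false).2).2
      have h5 : ((c0.blk1 x.2 : Fin c0.n) : ℕ) < ((c0.blk1 (stp x false).2 : Fin c0.n) : ℕ) := hlt2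
      omega

/-- `subFaces_mem_cellPairs` without `T.Ok` -/
theorem esl107_mem (hc0 : Whole c0) (N : Nest c0 c) (T : Top c) (φ : Face c0) (hφ : φ ∈ subFaces T N) :
    (φ.1, fnb c0 φ) ∈ cellPairs (subOf T c0) := by
  simp only [subFaces, Finset.mem_filter] at hφ
  obtain ⟨-, hface, h1, h2, h3⟩ := hφ
  obtain ⟨v, hv1, hv2⟩ := res_cross hc0 φ hface
  have hne := res_fnb_ne hc0 φ
  have hb1 : c.blk v = N.up φ.1 := by rw [res_blk_up N, hv1]
  have hb2 : c.blk (stp v φ.2) = N.up (fnb c0 φ) := by rw [res_blk_up N, hv2]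
  have hE : T.IsEdge (v, φ.2) := by
    refine ⟨?_, ?_, ?_, ?_⟩
    · intro h
      apply hne
      rw [← hv2, ← hv1]
      exact congrArg c0.blk h
    · show c.blk v ∈ T.cells
      rw [hb1]; exact h1
    · show c.blk (stp v φ.2) ∈ T.cells
      rw [hb2]; exact h2
    · show c.blk (stp v φ.2) = c.blk v ∨ (c.blk v, φ.2) ∈ T.faces
      rw [hb1, hb2]; exact h3
  have e1 : subOf T c0 (T.graph.src (⟨(v, φ.2), hE⟩ : T.graph.E)) = φ.1 := hv1
  have e2 : subOf T c0 (T.graph.tgt (⟨(v, φ.2), hE⟩ : T.graph.E)) = fnb c0 φ := hv2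
  have h4 := res_mem_cellPairs (subOf T c0) (⟨(v, φ.2), hE⟩ : T.graph.E)
    (by rw [e1, e2]; exact fun h => hne h.symm)
  rw [e1, e2] at h4
  exact h4

/-- LEAF SL-5: **the averaged bonds of `lawS` are the retained subcell faces.**  `⊇`: copy the proof of `subFaces_mem_cellPairs` (its hypothesis `T.Ok` is not used).  `⊆`: a retained bond `e` whose ends lie in different subcells crosses the face `φ = (c0.blk e.1, e.2)`:
`enb_blk_stp hc0`; `IsFace c0 φ` (on the free square `stp` does not move at the wall: `F4a.stp_free` / `enb_fold_last_free`, and `whole_blk1`); the parents are `c.blk e.1`, `c.blk (stp ..)` (`res_blk_up`), so `φ ∈ subFaces T N0` by `T.IsEdge e`. -/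
theorem esl_pairs (hc : Whole c) (hc0 : Whole c0) (N0 : Nest c0 c) (T : Top c) :
    cellPairs (subOf T c0) = (subFaces T N0).image fun φ : Face c0 => (φ.1, fnb c0 φ) := by
  have _ := hc
  ext p
  constructor
  · intro hp
    simp only [cellPairs, Finset.mem_filter, Finset.mem_image] at hp
    obtain ⟨⟨e, -, rfl⟩, hp2⟩ := hp
    obtain ⟨⟨x, d⟩, hE⟩ := e
    have hne : c0.blk (stp x d) ≠ c0.blk x := fun h => hp2 h.symm
    have hf := enb_blk_stp hc0 x d hne
    refine Finset.mem_image.2 ⟨(c0.blk x, d), ?_, ?_⟩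
    · simp only [subFaces, Finset.mem_filter]
      refine ⟨Finset.mem_univ _, esl107_isFace hc0 x d hne, ?_, ?_, ?_⟩
      · show N0.up (c0.blk x) ∈ T.cells
        rw [← res_blk_up N0]; exact hE.2.1
      · rw [← hf, ← res_blk_up N0]; exact hE.2.2.1
      · rw [← hf]
        show N0.up (c0.blk (stp x d)) = N0.up (c0.blk x) ∨ (N0.up (c0.blk x), d) ∈ T.faces
        rw [← res_blk_up N0, ← res_blk_up N0]; exact hE.2.2.2
    · show (c0.blk x, fnb c0 (c0.blk x, d)) = (c0.blk x, c0.blk (stp x d))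
      rw [hf]
  · intro hp
    obtain ⟨φ, hφ, rfl⟩ := Finset.mem_image.1 hp
    exact esl107_mem hc0 N0 T φ hφ

/-- the average over a subcell of a present cell, in global form -/
theorem esl239_sav (hc0 : Whole c0) (N0 : Nest c0 c) (T : Top c) (h : T.graph.V → ℤ) (κ : c0.I) (hκ : N0.up κ ∈ T.cells) :
    ∑ x : T.graph.V, fibAvg (subOf T c0) κ x * (2 * Real.pi * (h x : ℝ)) = prAv c0 (prExt T h) κ := by
  classical
  unfold prAv
  rw [← car_row_sum κ]
  have h1 : ∑ x : T.graph.V, fibAvg (subOf T c0) κ x * (2 * Real.pi * (h x : ℝ)) =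
      ∑ v ∈ Finset.univ.filter (fun v : G.V => c.blk v ∈ T.cells),
        (if c0.blk v = κ then ((c0.sites {κ}).card : ℝ)⁻¹ else 0) * (2 * Real.pi * (prExt T h v : ℝ)) := by
    rw [Finset.sum_subtype (Finset.univ.filter (fun v : G.V => c.blk v ∈ T.cells)) (p := fun v => c.blk v ∈ T.cells) (by simp)]
    refine Finset.sum_congr rfl fun v _ => ?_
    rw [res_fibAvg hc0 N0 T κ hκ, pr_ext_coe T h v, whole_sites_card hc0]
    push_cast
    rfl
  rw [h1]
  refine Finset.sum_subset (Finset.subset_univ _) fun v _ hv => ?_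
  have hv' : ¬ c0.blk v = κ := by
    intro hh
    apply hv
    rw [Finset.mem_filter]
    refine ⟨Finset.mem_univ _, ?_⟩
    rw [res_blk_up N0, hh]
    exact hκ
  rw [if_neg hv', zero_mul]

/-- LEAF SL-6: the weight of `lawS` in global form.  `LSys.W`; product over `T.graph.E` = product over `Finset.univ.filter T.IsEdge` (`pr_OmR_ext` in `Ent/PropLaw.lean`); the sum over `T.law.O ⊕ {p // p ∈ cellPairs _}` splits
(`Fintype.sum_sum_type`); old rows: `pr_Av_ext`, `pr_sum_cells`; new rows: `Finset.sum_coe_sort`, `esl_pairs`, `Finset.sum_image` (`res_face_inj hc0`), `res_fibAvg`, `whole_sites_card hc0`, `esl_F_eq`; `Real.sq_sqrt hdl`. -/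
theorem esl_W (hc : Whole c) (hc0 : Whole c0) (N0 : Nest c0 c) (b dl : ℝ) (hdl : 0 ≤ dl) (T : Top c) (y : c.I → ℝ) (h : T.graph.V → ℤ) :
    ((lawS T c0 dl).sys b).W ((lawS T c0 dl).coordA b h + (affS T c0 dl y).amb b) = strOmR N0 T dl b (prExt T h) * carGs T y (prExt T h) := by
  classical
  unfold LSys.W strOmR carGs
  rw [mul_assoc, ← Real.exp_add, pr_OmR_ext]
  congr 1
  · unfold HGraph.wt
    refine Finset.prod_congr rfl fun e _ => ?_
    show bes b ((h (T.graph.tgt e) - h (T.graph.src e)) +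
      (((0 : T.graph.V → ℤ) (T.graph.tgt e) - (0 : T.graph.V → ℤ) (T.graph.src e)) + (0 : ℤ))) = _
    have h0 : T.econn (0 : Face c → ℤ) e = 0 := by
      unfold Top.econn
      split_ifs <;> rfl
    rw [h0]
    simp
  · congr 1
    have hsum : ∑ o : ((lawS T c0 dl).sys b).O, ((lawS T c0 dl).coordA b h + (affS T c0 dl y).amb b).2 o ^ 2
        = ∑ i ∈ T.cells, (prAv c (prExt T h) i - y i) ^ 2 + dl * strEn N0 T (prExt T h) := by
      have e0 : ∑ o : ((lawS T c0 dl).sys b).O, ((lawS T c0 dl).coordA b h + (affS T c0 dl y).amb b).2 o ^ 2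
          = ∑ o : T.law.O ⊕ {p : c0.I × c0.I // p ∈ cellPairs (subOf T c0)},
              ((lawS T c0 dl).coordA b h + (affS T c0 dl y).amb b).2 o ^ 2 := rfl
      rw [e0, Fintype.sum_sum_type]
      congr 1
      · rw [pr_sum_cells]
        refine Finset.sum_congr rfl fun o _ => ?_
        rw [pr_Av_ext]
        show ((∑ v, T.law.B o v * (2 * Real.pi * (h v : ℝ))) +
          ((∑ v, T.law.B o v * (2 * Real.pi * (((0 : T.graph.V → ℤ) v : ℤ) : ℝ))) + (- y o.1))) ^ 2 = _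
        simp [unfB, sub_eq_add_neg]
      · have e1 : ∀ p : {p : c0.I × c0.I // p ∈ cellPairs (subOf T c0)},
            ((lawS T c0 dl).coordA b h + (affS T c0 dl y).amb b).2 (Sum.inr p) ^ 2
            = dl * (∑ x : T.graph.V, fibAvg (subOf T c0) p.1.2 x * (2 * Real.pi * (h x : ℝ))
                - ∑ x : T.graph.V, fibAvg (subOf T c0) p.1.1 x * (2 * Real.pi * (h x : ℝ))) ^ 2 := by
          intro p
          show ((∑ v, (Real.sqrt dl * (fibAvg (subOf T c0) p.1.2 v - fibAvg (subOf T c0) p.1.1 v)) * (2 * Real.pi * (h v : ℝ))) +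
            ((∑ v, (Real.sqrt dl * (fibAvg (subOf T c0) p.1.2 v - fibAvg (subOf T c0) p.1.1 v)) * (2 * Real.pi * (((0 : T.graph.V → ℤ) v : ℤ) : ℝ))) + (- (0 : ℝ)))) ^ 2 = _
          have z1 : ∑ v, (Real.sqrt dl * (fibAvg (subOf T c0) p.1.2 v - fibAvg (subOf T c0) p.1.1 v)) * (2 * Real.pi * (((0 : T.graph.V → ℤ) v : ℤ) : ℝ)) = 0 := by
            simp
          have z2 : ∑ v, (Real.sqrt dl * (fibAvg (subOf T c0) p.1.2 v - fibAvg (subOf T c0) p.1.1 v)) * (2 * Real.pi * (h v : ℝ))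
              = Real.sqrt dl * (∑ x : T.graph.V, fibAvg (subOf T c0) p.1.2 x * (2 * Real.pi * (h x : ℝ))
                - ∑ x : T.graph.V, fibAvg (subOf T c0) p.1.1 x * (2 * Real.pi * (h x : ℝ))) := by
            rw [← Finset.sum_sub_distrib, Finset.mul_sum]
            refine Finset.sum_congr rfl fun v _ => ?_
            ring
          rw [z1, z2, neg_zero, add_zero, add_zero, mul_pow, Real.sq_sqrt hdl]
        rw [Finset.sum_congr rfl fun p _ => e1 p,
          Finset.sum_coe_sort (cellPairs (subOf T c0)) (fun p : c0.I × c0.I =>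
            dl * (∑ x : T.graph.V, fibAvg (subOf T c0) p.2 x * (2 * Real.pi * (h x : ℝ))
                - ∑ x : T.graph.V, fibAvg (subOf T c0) p.1 x * (2 * Real.pi * (h x : ℝ))) ^ 2),
          esl_pairs hc hc0 N0 T, Finset.sum_image fun x _ y _ hxy => res_face_inj hc0 hxy]
        unfold strEn
        rw [esl_F_eq hc hc0 N0 T, Finset.mul_sum]
        refine Finset.sum_congr rfl fun φ hφ => ?_
        have hφ' := (Finset.mem_filter.1 hφ).2
        simp only
        rw [esl239_sav hc0 N0 T h _ hφ'.2.2.1, esl239_sav hc0 N0 T h _ hφ'.2.1]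
    rw [hsum]
    ring

/-- LEAF SL-6: unfold `esZ`, `HLaw.Z`; `(lawS T c0 dl).Λ = ⊤` by `rfl`: `AddSubgroup.topEquiv` (as in `F4a.unf_Zobs`); `esl_W` -/
theorem esl_esZ (hc : Whole c) (hc0 : Whole c0) (N0 : Nest c0 c) (b dl : ℝ) (hdl : 0 ≤ dl) (T : Top c) (y : c.I → ℝ) :
    esZ T c0 dl b y = ∑' h : T.graph.V → ℤ, strOmR N0 T dl b (prExt T h) * carGs T y (prExt T h) := by
  unfold esZ HLaw.Z
  have hΛ : (lawS T c0 dl).Λ = ⊤ := rfl
  show ∑' h : (⊤ : AddSubgroup (T.graph.V → ℤ)), _ = _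
  rw [← (AddSubgroup.topEquiv (G := T.graph.V → ℤ)).toEquiv.tsum_eq]
  refine tsum_congr fun h => ?_
  rw [one_mul]
  exact esl_W hc hc0 N0 b dl hdl T y _

/-! ## 8. Exits -/

/-- **the factor model and the height law `lawS` have the same partition sums** -/
theorem str_Z1_eq (hc : Whole c) (hc0 : Whole c0) (N0 : Nest c0 c) (b dl : ℝ) (hdl : 0 ≤ dl) (T : Top c) (y : c.I → ℝ) :
    (mskS N0 b dl T).Z1 (datS c c0 b dl y) = esZ T c0 dl b y := by
  rw [esl_Z1 N0 b dl hdl, esl_esZ hc hc0 N0 b dl hdl]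

theorem str_Zh_real (hc : Whole c) (hc0 : Whole c0) (N0 : Nest c0 c) (dl a' b0 b : ℝ) (hdl : 0 ≤ dl) (T : Top c) (y : c.I → ℝ) :
    (strWt N0 dl a' b0 b).Zh T (fun i => (y i : ℂ)) = (esZ T c0 dl b y : ℂ) := by
  rw [← str_Z1_eq hc hc0 N0 b dl hdl]
  exact esl_Zh_eq N0 b dl hdl T y

theorem str_N_eq (hc : Whole c) (hc0 : Whole c0) (N0 : Nest c0 c) (dl a' b0 b : ℝ) (hdl : 0 ≤ dl) (T : Top c) :
    (strWt N0 dl a' b0 b).N T = esZ T c0 dl b0 0 := by
  rw [← str_Z1_eq hc hc0 N0 b0 dl hdl, esl_dat_zero]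
  rfl

theorem esl_N_mul (hc : Whole c) (hc0 : Whole c0) (N0 : Nest c0 c) (dl b0 : ℝ) (hdl : 0 ≤ dl) (T : Top c) (O₁ O₂ : Finset c.I) (hs : Splits T O₁ O₂) :
    (mskS N0 b0 dl T).Z0 = (mskS N0 b0 dl (T.restr O₁)).Z0 * (mskS N0 b0 dl (T.restr O₂)).Z0 := by
  have h := esl_Zh_mul hc hc0 N0 dl hdl b0 T O₁ O₂ hs (fun i => (((0 : c.I → ℝ) i : ℝ) : ℂ))
  rw [esl_Zh_eq N0 b0 dl hdl, esl_Zh_eq N0 b0 dl hdl, esl_Zh_eq N0 b0 dl hdl, esl_dat_zero] at h
  exact_mod_cast h

/-- **the structural hypotheses hold for the strengthened weights** -/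
theorem str_str (hc : Whole c) (hc0 : Whole c0) (N0 : Nest c0 c) (dl a' b0 b : ℝ) (hdl : 0 ≤ dl) (ha : 0 < a') (hb0 : 0 < b0) :
    (strWt N0 dl a' b0 b).Str where
  Zh_mul := fun T O₁ O₂ hs y => esl_Zh_mul hc hc0 N0 dl hdl b T O₁ O₂ hs y
  Zh_one := fun T h0 _ y => esl_Zh_one N0 dl b T h0 y
  Zh_loc := fun T y y' h _ => pr_Zg_loc T _ y y' h
  Zh_per := fun T y => pr_Zg_per hc T _ (esl_Om_loc hc hc0 N0 T dl b) (esl_Om_shift hc0 N0 T dl b) y
  Zh_hol := fun T => by
    obtain ⟨ω, hm, hle⟩ := esl_Om_maj hc N0 T dl hdl b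
    exact pr_Zg_hol T _ ω hle hm
  N_mul := fun T O₁ O₂ hs => esl_N_mul hc hc0 N0 dl b0 hdl T O₁ O₂ hs
  N_pos := fun T => fk_Z1_pos _ (esl_msk_ok hc hc0 N0 dl b0 hb0 T) _
  Q_add := fun T O₁ O₂ hs f f' => pr_Q_add hc a' ha T O₁ O₂ hs f f'
  Q_supp := fun T f f' h => pr_Q_supp a' ha T f f' h
  Q_symm := fun T f f' => pr_Q_symm a' T f f'

theorem str_isReal (N0 : Nest c0 c) (dl a' b0 b : ℝ) : (strWt N0 dl a' b0 b).IsReal := by
  intro T y
  show prZg T (strOm N0 T dl b) (fun i => conj (y i)) = conj (prZg T (strOm N0 T dl b) y)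
  rw [pr_Zg_conj]
  congr 1
  funext k
  exact (esl_Om_conj N0 T dl b k).symm

theorem str_isEven (N0 : Nest c0 c) (dl a' b0 b : ℝ) : (strWt N0 dl a' b0 b).IsEven :=
  ⟨rfl, fun T y => pr_Zg_neg T _ (esl_Om_neg N0 T dl b) y⟩

/-- **the strengthened law is represented by its factor model** -/
theorem str_phy_ok (hc : Whole c) (hc0 : Whole c0) (N0 : Nest c0 c) (R : ℕ) (dl a' b0 b : ℝ) (hdl : 0 ≤ dl) (hb : 0 < b) :
    (strPhy N0 R dl a' b0 b).Ok :=
  car_ok (esl_car hc hc0 N0 R dl a' b0 b hb)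
    (fun T _ y => by
      have h : (strPhy N0 R dl a' b0 b).Zh T y = (mskS N0 b dl T).Z1 (datS c c0 b dl y) := by
        show (∏ f ∈ T.faces, (1 : ℝ)) * _ = _
        rw [Finset.prod_const_one, one_mul]
        rfl
      rw [h]
      exact esl_Zh_eq N0 b dl hdl T y)
    (fun _ _ => one_pos) (fun _ _ => le_rfl) (fun _ => rfl)

/-- `QLoc` only sees the matrices `W.Q` -/
theorem str_qloc_congr {W W' : Wt c} (h : W.Q = W'.Q) {C cc Ds : ℝ} (hW : QLoc W C cc Ds) : QLoc W' C cc Ds := by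
  have hr : ∀ T f f', Hr W' Ds T f f' = Hr W Ds T f f' := fun T f f' => by unfold Hr; rw [h]
  refine ⟨hW.cc_pos, hW.C_nn, hW.Ds_nn, fun T T' hT hT' f f' D hD => ?_, fun G0 G1 h0 h1 O r hr' f f' D hD => ?_⟩
  · rw [hr, hr]; exact hW.df T T' hT hT' f f' D hD
  · rw [hr, hr, hr, hr]; exact hW.ge G0 G1 h0 h1 O r hr' f f' D hD

theorem str_qloc (N0 : Nest c0 c) (dl a' b0 b b0' : ℝ) (b' : ℂ) (τ : Face c → ℤ) {C cc Ds : ℝ} (h : QLoc (xyWt c a' b0' b' τ) C cc Ds) :
    QLoc (strWt N0 dl a' b0 b) C cc Ds := str_qloc_congr (W := xyWt c a' b0' b' τ) (W' := strWt N0 dl a' b0 b) rfl h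

/-- Stores the on-demand equation lemmas of the definitions above in THIS module (rule 6 hygiene). -/
theorem esl_forced : True := by
  have := @strOmR.eq_1
  trivial

end

end Claimed.Agent.R285.C5
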