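import Claimed.Agent.R285.C5.Entry
import Claimed.Agent.R285.Ent.PhysTop

/-!
# ROW 285, [C] L5.4: `StrPhysStmt` FROM THE GENERIC REDUCTION `NormGenStmt` AND THE BOX BOUNDS OF THE STRENGTHENED LAW      (architect helper262)
TWIN of `Ent/PhysTop.lean` (helper33), centred sector only.   Pure glue, no sorry.   Interfaces: `Ent/PhysIf.lean` (generic in `Y : Phy c`), `C5/Entry.lean`.
```
StrPhysStmt ⟸ NormGenStmt (229)  +  BoxStrStmt (C5-BOX + PERT)  +  XyQLocStmt, XyFaceCoStmt, XySrcStmt (NT-XY, 14: they see only `W.Q = Qmat a'`, `W.τ = 0`)  +  NGeoStmt (108)  +  StrPhyOkStmt, StrLawStmt (66)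
```
-/

set_option autoImplicit false

namespace Claimed.Agent.R285.C5

open scoped BigOperators ENNReal NNReal
open Filter Topology
open Claimed.Agent.R285 Claimed.Agent.R285.RG Claimed.Agent.R285.F4a Claimed.Agent.R285.Ent Claimed.Agent.R285.Entry

noncomputable section

/-- **POSTS C5-BOX + PERT, exit**: the box bounds of the strengthened law, base point `b`, real parameter `b'` near `b` (twin of `Ent.BoxXYStmt`, centred sector).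
Order: `c_*`, `c_g`, first `R`; `R = 2^{kR}`; `U`; `t`; `s0`; the neighbourhood of `b`; the torus. -/
def BoxStrStmt : Prop :=
  ∀ (b a dl : ℝ), 0 < b → 0 < a → aLim b = a → 0 < dl → ∃ (cstar cg : ℝ) (k1 : ℕ), 0 < cstar ∧ cstar < 1 ∧ 0 < cg ∧
  ∀ kR ≥ k1, ∀ U : ℝ, 0 ≤ U → ∀ᶠ t : ℕ in atTop, ∀ᶠ s0 : ℕ in atTop, ∀ᶠ b' in 𝓝 b,
  ∀ (G : Geom) (c0 c : Grid G) (N0 : Nest c0 c), G.bc = BC.per → EsVol c c0 t s0 → GeoOK c (2 ^ kR) → (2 ^ kR) ^ 5 ≤ c.n →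
    BoxOK (strPhy N0 (2 ^ kR) dl (aPrime a dl) b b') (aPrime a dl) ((2 ^ kR) ^ 5) ∅ 4 cstar U (Real.exp (-cg * 2 ^ kR)) 13 (1 / ((2 : ℝ) ^ kR) ^ 12) 1

/-- **the factor model represents the weights** (helper66, `C5/EntLaw.lean`: `str_phy_ok`) -/
def StrPhyOkStmt : Prop :=
  ∀ (G : Geom) (c0 c : Grid G) (N0 : Nest c0 c) (R : ℕ) (dl a' b0 b : ℝ), Whole c → Whole c0 → 0 ≤ dl → 0 < a' → 0 < b0 → 0 < b →
    (strPhy N0 R dl a' b0 b).Ok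

/-- `QLoc` sees only the matrices -/
theorem ep_qloc {G : Geom} {c : Grid G} {W W' : Wt c} (hQ : W'.Q = W.Q) {C cc Ds : ℝ} (h : QLoc W C cc Ds) : QLoc W' C cc Ds := by
  have e : ∀ T f f', Hr W' Ds T f f' = Hr W Ds T f f' := fun T f f' => by
    unfold Hr
    rw [hQ]
  refine ⟨h.cc_pos, h.C_nn, h.Ds_nn, fun T T' hT hT' f f' D hD => ?_, fun G0 G1 h0 h1 O r hO f f' D hD => ?_⟩
  · rw [e, e]
    exact h.df T T' hT hT' f f' D hD
  · rw [e, e, e, e]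
    exact h.ge G0 G1 h0 h1 O r hO f f' D hD

/-- **`StrPhysStmt` from the exits of the posts.** -/
theorem strPhys_of (hN : NormGenStmt) (hB : BoxStrStmt) (hQ : XyQLocStmt) (hF : XyFaceCoStmt) (hS : XySrcStmt) (hGe : NGeoStmt)
    (hY : StrPhyOkStmt) (hL : StrLawStmt) : StrPhysStmt := by
  intro b a dl hb ha hab hdl
  have ha' : 0 < aPrime a dl := aPrime_pos ha hdl
  obtain ⟨cstar, cg, kB, hc0, hc1, hcg, hB1⟩ := hB b a dl hb ha hab hdl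
  generalize aPrime a dl = a' at ha' hB1 ⊢
  refine ⟨cstar, hc0, hc1, fun cb θ hcb hθ => ?_⟩
  obtain ⟨Cq, cq, s1, n1, hCq, hcq, hQ1⟩ := hQ a' ha'
  obtain ⟨Cp, hCp, hF1⟩ := hF a' ha'
  obtain ⟨K, kN, hK, hN1⟩ := hN a' cstar cb θ Cp Cq cq 4 13 ha' hc0 hc1 hcb hθ hCp hCq hcq (by norm_num) (by norm_num)
  obtain ⟨C, hC0, hC⟩ := pt_num1 K cg (by linarith) hcg
  refine ⟨C, cg / 4, max kB (max kN n1), by positivity, fun kR hkR => ?_⟩
  simp only [ge_iff_le, max_le_iff] at hkR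
  obtain ⟨hkB, hkN, hkn⟩ := hkR
  have hx0 : (0 : ℝ) ≤ 2 ^ kR := by positivity
  obtain ⟨U, hU, hN2⟩ := hN1 kR hkN (Real.exp (-cg * 2 ^ kR)) (Real.exp_pos _) (Real.exp_le_one_iff.2 (by nlinarith))
  obtain ⟨CR0, hCR0, hN0⟩ := hN2 0
  refine ⟨CR0, hCR0, ?_⟩
  filter_upwards [hB1 kR hkB U hU, eventually_ge_atTop 1] with t ht ht1
  filter_upwards [ht, eventually_ge_atTop s1] with s0 hs0 hs1
  filter_upwards [hs0, Ioi_mem_nhds hb] with b' hbox hb' G c0 c N0 hper hes hgeo h5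
  have hb'0 : 0 < b' := hb'
  have hw := hgeo.whole
  have hs1' : s1 ≤ c.m := by
    rw [hes.m]
    exact hs1.trans (Nat.le_mul_of_pos_left _ ht1)
  have hn1 : n1 ≤ c.n := by
    refine le_trans ?_ h5
    calc n1 ≤ kR := hkn
      _ ≤ 2 ^ kR := pt_le_two_pow kR
      _ = (2 ^ kR) ^ 1 := (pow_one _).symm
      _ ≤ (2 ^ kR) ^ 5 := Nat.pow_le_pow_right (by positivity) (by norm_num)
  obtain ⟨Ds, hDs0, hDs, hQ2⟩ := hQ1 G c hw hs1' hn1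
  have hgm := hC ((2 : ℝ) ^ kR) hx0
  have hgm0 : 0 ≤ K * ((2 : ℝ) ^ kR) ^ 8 * Real.sqrt (Real.exp (-cg * 2 ^ kR)) := by positivity
  have hea : (0 : ℝ) ≤ 1 / ((2 : ℝ) ^ kR) ^ 12 := by positivity
  have hq : QLoc (strPhy N0 (2 ^ kR) dl a' b b').W Cq cq Ds := ep_qloc (W := xyWt c a' b b' 0) (W' := (strPhy N0 (2 ^ kR) dl a' b b').W) rfl (hQ2 b b' 0)
  obtain ⟨p1, p2⟩ := hN0 G c (strPhy N0 (2 ^ kR) dl a' b b') rfl hw h5 (hY G c0 c N0 _ dl a' b b' hw hes.hc0 hdl.le ha' hb hb'0)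
    (hL G c0 c N0 dl a' b b' hw hes.hc0 hdl.le ha' hb hb'0).1 (hGe G c _ hgeo) (hF1 G c hw) Ds hq ∅ ∅ 0 4 _ 1 le_rfl hea le_rfl le_rfl
    (hbox G c0 c N0 hper hes hgeo h5) (hS G c (2 ^ kR) a' b b' hw).1 (pt_zone_empty c _ _)
  exact ⟨pt_phys_mono hgm0 hgm zero_le_one le_rfl (pt_phys_empty 1 p1), pt_pos_empty 1 p2⟩

end

end Claimed.Agent.R285.C5
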