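import Claimed.Agent.R285.C5.Entry
import Claimed.Agent.R285.C5.EntPhys
import Claimed.Agent.R285.C5.EntLaw

/-!
# ROW 285, [C] s5: the exit `str_law : StrLawStmt` of the contract `C5.str_law` (helper66).   Glue only: everything is in `C5/EntLaw.lean`.
-/

set_option autoImplicit false

namespace Claimed.Agent.R285.C5

open Claimed.Agent.R285 Claimed.Agent.R285.RG Claimed.Agent.R285.F4a Claimed.Agent.R285.Ent Claimed.Agent.R285.Entry

/-- **POST LAW** -/
theorem str_law : StrLawStmt := fun _ _ _ N0 dl a' b0 b hc hc0 hdl ha hb0 _ =>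
  ⟨str_str hc hc0 N0 dl a' b0 b hdl ha hb0, str_isReal N0 dl a' b0 b, str_isEven N0 dl a' b0 b,
    fun T y _ => str_Zh_real hc hc0 N0 dl a' b0 b hdl T y⟩

/-- **the factor model represents the weights** -/
theorem str_phyOk : StrPhyOkStmt := fun _ _ _ N0 R dl a' b0 b hc hc0 hdl _ _ hb => str_phy_ok hc hc0 N0 R dl a' b0 b hdl hb

end Claimed.Agent.R285.C5
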