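import Claimed.Agent.R285.C5.Entry
import Claimed.Agent.R285.C5.EntLaw
import Claimed.Agent.R285.Ent.Maj

/-!
# ROW 285, [C] L5.4, ENTRY OF THE STRENGTHENED LAW, POST MAJ: THE TRIVIAL MAJORANT OF COMPLEX OBSERVATIONS      (architect + prover helper90, chief helper262)
PAPER-FREE.   Exit: `str_maj : StrMajStmt` (`C5/Entry.lean`).   Twin of `Ent/Maj.lean` (helper291), whose generic part (`mj_bd`, `mj_weight`, the geometry of the halos, `mj_En_re`) is cited.   All names: prefix `smj_`.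
The parameter `b` is real, the sector is `τ = 0`, there is no cutoff and no zone: the weights `strOmR ≥ 0` are untouched and `|prGs T (y + i k)| = e^{∑ k²/2} prGs T y` termwise (`mj_Gs_norm`);
the divisors do not shrink (`Re E (y + i k) = E (y) - E (k)`; the energies of `strWt` and of `xyWt` are the same function: `rfl`).
-/

set_option autoImplicit false

namespace Claimed.Agent.R285.C5

open scoped BigOperators
open Claimed.Agent.R285 Claimed.Agent.R285.RG Claimed.Agent.R285.F4a Claimed.Agent.R285.Ent Claimed.Agent.R285.Entry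

noncomputable section

variable {G : Geom} {c0 c : Grid G}

/-! ## 1. The height sum -/

theorem smj_OmR_nonneg (N0 : Nest c0 c) (T : Top c) (dl b : ℝ) (hb : 0 ≤ b) (K : G.V → ℤ) : 0 ≤ strOmR N0 T dl b K :=
  mul_nonneg (mj_OmR_nonneg T b hb 0 K) (Real.exp_pos _).le

theorem smj_OmR_pos (N0 : Nest c0 c) (T : Top c) (dl b : ℝ) (hb : 0 < b) (K : G.V → ℤ) : 0 < strOmR N0 T dl b K := by
  classical
  refine mul_pos ?_ (Real.exp_pos _)
  unfold prOmR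
  exact Finset.prod_pos fun e _ => bes_pos b hb _

theorem smj_term (N0 : Nest c0 c) (T : Top c) (dl b : ℝ) (y : c.I → ℝ) (K : G.V → ℤ) :
    strOm N0 T dl b K * prGs T (mjZ y 0) K = ((strOmR N0 T dl b K * mjGr T y K : ℝ) : ℂ) := by
  rw [esl_Om_real, mj_Gs_real]
  push_cast
  ring

theorem smj_summable (hc : Whole c) (N0 : Nest c0 c) (T : Top c) (dl b : ℝ) (hdl : 0 ≤ dl) (hb : 0 ≤ b) (y : c.I → ℝ) :
    Summable fun h : T.graph.V → ℤ => strOmR N0 T dl b (prExt T h) * mjGr T y (prExt T h) := by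
  refine (esl_summable hc N0 T dl hdl b (mjZ y 0)).congr fun h => ?_
  have hnn : 0 ≤ strOmR N0 T dl b (prExt T h) * mjGr T y (prExt T h) :=
    mul_nonneg (smj_OmR_nonneg N0 T dl b hb _) (Real.exp_pos _).le
  rw [smj_term, Complex.norm_real, Real.norm_of_nonneg hnn]

/-- the height sum at a real observation is a positive real number -/
theorem smj_Zh_real (N0 : Nest c0 c) (T : Top c) (dl b : ℝ) (y : c.I → ℝ) :
    prZg T (strOm N0 T dl b) (mjZ y 0)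
      = ((∑' h : T.graph.V → ℤ, strOmR N0 T dl b (prExt T h) * mjGr T y (prExt T h) : ℝ) : ℂ) := by
  unfold prZg
  rw [tsum_congr fun h => smj_term N0 T dl b y (prExt T h), ← Complex.ofReal_tsum]

theorem smj_Zh_pos (hc : Whole c) (N0 : Nest c0 c) (T : Top c) (dl b : ℝ) (hdl : 0 ≤ dl) (hb : 0 < b) (y : c.I → ℝ) :
    0 < ∑' h : T.graph.V → ℤ, strOmR N0 T dl b (prExt T h) * mjGr T y (prExt T h) :=
  (smj_summable hc N0 T dl b hdl hb.le y).tsum_pos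
    (fun _ => mul_nonneg (smj_OmR_nonneg N0 T dl b hb.le _) (Real.exp_pos _).le) 0
    (mul_pos (smj_OmR_pos N0 T dl b hb _) (Real.exp_pos _))

/-- **the majorant of the height sum** -/
theorem smj_Zg_le (hc : Whole c) (N0 : Nest c0 c) (T : Top c) (dl b : ℝ) (hdl : 0 ≤ dl) (hb : 0 ≤ b) (y k : c.I → ℝ) :
    ‖prZg T (strOm N0 T dl b) (mjZ y k)‖
      ≤ Real.exp ((∑ i ∈ T.cells, k i ^ 2) / 2) * ‖prZg T (strOm N0 T dl b) (mjZ y 0)‖ := by
  have hnn : ∀ h : T.graph.V → ℤ, 0 ≤ strOmR N0 T dl b (prExt T h) * mjGr T y (prExt T h) := fun h =>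
    mul_nonneg (smj_OmR_nonneg N0 T dl b hb _) (Real.exp_pos _).le
  rw [smj_Zh_real, Complex.norm_real, Real.norm_of_nonneg (tsum_nonneg hnn), ← tsum_mul_left]
  unfold prZg
  have hs1 := esl_summable hc N0 T dl hdl b (mjZ y k)
  refine (norm_tsum_le_tsum_norm hs1).trans
    (hs1.tsum_le_tsum (fun h => ?_) ((smj_summable hc N0 T dl b hdl hb y).mul_left _))
  rw [norm_mul, mj_Gs_norm, esl_Om_real, Complex.norm_real, Real.norm_of_nonneg (smj_OmR_nonneg N0 T dl b hb _)]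
  exact le_of_eq (by ring)

/-! ## 2. The divisors -/

theorem smj_N_pos (hc : Whole c) (hc0 : Whole c0) (N0 : Nest c0 c) (dl a' b0 b : ℝ) (hdl : 0 ≤ dl) (ha : 0 < a') (hb0 : 0 < b0) (T : Top c) :
    0 < (strWt N0 dl a' b0 b).N T := (str_str hc hc0 N0 dl a' b0 b hdl ha hb0).N_pos T

/-- the energies only see `Q` and `τ` -/
theorem smj_En_re (N0 : Nest c0 c) (dl a' b0 b : ℝ) (ha : 0 < a') (T : Top c) (y k : c.I → ℝ) :
    ((strWt N0 dl a' b0 b).En T (mjZ y k)).re = T.Qf a' (wf c 0 y) - T.Qf a' (mjD c k) :=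
  mj_En_re a' b0 ha (b : ℂ) 0 T y k

theorem smj_prox_le (hc : Whole c) (hc0 : Whole c0) (N0 : Nest c0 c) (dl a' b0 b : ℝ) (hdl : 0 ≤ dl) (ha : 0 < a') (hb0 : 0 < b0)
    (R : ℕ) (e : EvId) (y k : c.I → ℝ) :
    ‖(strWt N0 dl a' b0 b).prox R e (mjZ y 0)‖ ≤ ‖(strWt N0 dl a' b0 b).prox R e (mjZ y k)‖ := by
  have hN := smj_N_pos hc hc0 N0 dl a' b0 b hdl ha hb0
  rw [mj_prox_norm _ R hN, mj_prox_norm _ R hN, smj_En_re N0 dl a' b0 b ha, smj_En_re N0 dl a' b0 b ha,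
    smj_En_re N0 dl a' b0 b ha, smj_En_re N0 dl a' b0 b ha, mj_D_zero, mj_Qf_zero a' ha, mj_Qf_zero a' ha]
  have h1 := mj_Qf_mono a' ha _ _ (mj_topC_le (c := c) R e).1 (mj_topC_le (c := c) R e).2 (mjD c k)
  refine mul_le_mul_of_nonneg_left (Real.exp_le_exp.2 ?_) (div_pos (hN _) (hN _)).le
  linarith

theorem smj_prox_pos (hc : Whole c) (hc0 : Whole c0) (N0 : Nest c0 c) (dl a' b0 b : ℝ) (hdl : 0 ≤ dl) (ha : 0 < a') (hb0 : 0 < b0)
    (R : ℕ) (e : EvId) (z : c.I → ℂ) : 0 < ‖(strWt N0 dl a' b0 b).prox R e z‖ := by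
  have hN := smj_N_pos hc hc0 N0 dl a' b0 b hdl ha hb0
  rw [mj_prox_norm _ R hN]
  exact mul_pos (div_pos (hN _) (hN _)) (Real.exp_pos _)

theorem smj_tdiv_le (hc : Whole c) (hc0 : Whole c0) (N0 : Nest c0 c) (dl a' b0 b : ℝ) (hdl : 0 ≤ dl) (ha : 0 < a') (hb0 : 0 < b0)
    (R : ℕ) (t : Tile) (y k : c.I → ℝ) :
    ‖(strWt N0 dl a' b0 b).tdiv R t (mjZ y 0)‖ ≤ ‖(strWt N0 dl a' b0 b).tdiv R t (mjZ y k)‖ := by
  have hN := smj_N_pos hc hc0 N0 dl a' b0 b hdl ha hb0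
  rw [mj_tdiv_norm _ R hN, mj_tdiv_norm _ R hN, smj_En_re N0 dl a' b0 b ha, smj_En_re N0 dl a' b0 b ha, mj_D_zero,
    mj_Qf_zero a' ha]
  have h1 := mj_Qf_nonneg a' ha (tileTop c R t) (mjD c k)
  refine mul_le_mul_of_nonneg_left (Real.exp_le_exp.2 ?_) (hN _).le
  linarith

theorem smj_tdiv_pos (hc : Whole c) (hc0 : Whole c0) (N0 : Nest c0 c) (dl a' b0 b : ℝ) (hdl : 0 ≤ dl) (ha : 0 < a') (hb0 : 0 < b0)
    (R : ℕ) (t : Tile) (z : c.I → ℂ) : 0 < ‖(strWt N0 dl a' b0 b).tdiv R t z‖ := by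
  have hN := smj_N_pos hc hc0 N0 dl a' b0 b hdl ha hb0
  rw [mj_tdiv_norm _ R hN]
  exact mul_pos (hN _) (Real.exp_pos _)

/-! ## 3. The pointwise majorants -/

/-- the height sum on a restricted cut topology, imaginary part in `imK` -/
theorem smj_Zh_le (hc : Whole c) (N0 : Nest c0 c) (dl a' b0 b : ℝ) (hdl : 0 ≤ dl) (hb : 0 ≤ b) (E : Finset (Face c)) (D : Finset c.I)
    (y k : c.I → ℝ) (H : ℝ) (R : ℕ) (hk : k ∈ imK c D H R) :
    ‖(strWt N0 dl a' b0 b).Zh (((Top.full c).cut E).restr D) (mjZ y k)‖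
      ≤ Real.exp (mjC0 H R * D.card) * ‖(strWt N0 dl a' b0 b).Zh (((Top.full c).cut E).restr D) (mjZ y 0)‖ := by
  obtain ⟨-, h2, -⟩ := mj_restr_ok (c := c) E D
  refine (smj_Zg_le hc N0 _ dl b hdl hb y k).trans (mul_le_mul_of_nonneg_right (Real.exp_le_exp.2 ?_) (norm_nonneg _))
  rw [h2]
  have a4 : ∑ i ∈ D, k i ^ 2 ≤ D.card * H ^ 2 := by
    rw [← nsmul_eq_mul, ← Finset.sum_const]
    refine Finset.sum_le_sum fun i hi => ?_
    have h3 := abs_le.1 (hk.1 i hi)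
    exact sq_le_sq' h3.1 h3.2
  have a5 : (0 : ℝ) ≤ D.card := Nat.cast_nonneg _
  have a6 : 0 ≤ (4 + (H / R) ^ 2) * (D.card : ℝ) := by positivity
  unfold mjC0
  nlinarith

theorem smj_haloTerm_le (hc : Whole c) (hc0 : Whole c0) (N0 : Nest c0 c) (dl a' b0 b : ℝ) (hdl : 0 ≤ dl) (ha : 0 < a') (hb0 : 0 < b0)
    (hb : 0 ≤ b) (R : ℕ) (S O : Finset EvId) (y k : c.I → ℝ) (H : ℝ) (hk : k ∈ imK c (halC c R S) H R) :
    ‖(strWt N0 dl a' b0 b).haloTerm R S O (mjZ y k)‖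
      ≤ Real.exp (mjC0 H R * (halC c R S).card) * ‖(strWt N0 dl a' b0 b).haloTerm R S O (mjZ y 0)‖ := by
  unfold Wt.haloTerm
  rw [norm_div, norm_div, norm_mul, norm_mul, norm_prod, norm_prod, norm_prod, norm_prod, ← mul_div_assoc]
  have hZ := smj_Zh_le hc N0 dl a' b0 b hdl hb ((seam c R).filter fun f => evKey c R f ∉ skp c R S ∪ O) (halC c R S) y k H R hk
  have hd1 : ∏ e ∈ skp c R S ∪ O, ‖(strWt N0 dl a' b0 b).prox R e (mjZ y 0)‖
      ≤ ∏ e ∈ skp c R S ∪ O, ‖(strWt N0 dl a' b0 b).prox R e (mjZ y k)‖ :=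
    Finset.prod_le_prod (fun _ _ => norm_nonneg _) fun e _ => smj_prox_le hc hc0 N0 dl a' b0 b hdl ha hb0 R e y k
  have hd2 : ∏ t ∈ halT c R S, ‖(strWt N0 dl a' b0 b).tdiv R t (mjZ y 0)‖
      ≤ ∏ t ∈ halT c R S, ‖(strWt N0 dl a' b0 b).tdiv R t (mjZ y k)‖ :=
    Finset.prod_le_prod (fun _ _ => norm_nonneg _) fun t _ => smj_tdiv_le hc hc0 N0 dl a' b0 b hdl ha hb0 R t y k
  have hp1 : 0 < ∏ e ∈ skp c R S ∪ O, ‖(strWt N0 dl a' b0 b).prox R e (mjZ y 0)‖ :=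
    Finset.prod_pos fun e _ => smj_prox_pos hc hc0 N0 dl a' b0 b hdl ha hb0 R e _
  have hp2 : 0 < ∏ t ∈ halT c R S, ‖(strWt N0 dl a' b0 b).tdiv R t (mjZ y 0)‖ :=
    Finset.prod_pos fun t _ => smj_tdiv_pos hc hc0 N0 dl a' b0 b hdl ha hb0 R t _
  exact div_le_div₀ (by positivity) hZ (mul_pos hp1 hp2) (mul_le_mul hd1 hd2 hp2.le (hp1.le.trans hd1))

theorem smj_tfac_le (hc : Whole c) (hc0 : Whole c0) (N0 : Nest c0 c) (dl a' b0 b : ℝ) (hdl : 0 ≤ dl) (ha : 0 < a') (hb0 : 0 < b0)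
    (hb : 0 ≤ b) (R : ℕ) (t : Tile) (y k : c.I → ℝ) (H : ℝ) (hk : k ∈ imK c (cellsOf c R {t}) H R) :
    ‖(strWt N0 dl a' b0 b).tfac R t (mjZ y k)‖
      ≤ Real.exp (mjC0 H R * (cellsOf c R {t}).card) * ‖(strWt N0 dl a' b0 b).tfac R t (mjZ y 0)‖ := by
  unfold Wt.tfac
  rw [norm_div, norm_div, ← mul_div_assoc]
  have hZ := smj_Zh_le hc N0 dl a' b0 b hdl hb ∅ (cellsOf c R {t}) y k H R hk
  rw [mj_cut_empty] at hZ
  exact div_le_div₀ (by positivity) hZ (smj_tdiv_pos hc hc0 N0 dl a' b0 b hdl ha hb0 R t _)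
    (smj_tdiv_le hc hc0 N0 dl a' b0 b hdl ha hb0 R t y k)

theorem smj_halo_le (hc : Whole c) (hc0 : Whole c0) (N0 : Nest c0 c) (dl a' b0 b : ℝ) (hdl : 0 ≤ dl) (ha : 0 < a') (hb0 : 0 < b0)
    (hb : 0 ≤ b) (R : ℕ) (S : Finset EvId) (y k : c.I → ℝ) (H : ℝ) (hk : k ∈ imK c (halC c R S) H R) :
    ‖(strWt N0 dl a' b0 b).halo R S (mjZ y k)‖
      ≤ Real.exp (mjC0 H R * (halC c R S).card)
        * ‖∑ O ∈ S.powerset, ((‖(strWt N0 dl a' b0 b).haloTerm R S O (mjZ y 0)‖ : ℝ) : ℂ)‖ := by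
  have e1 : ‖∑ O ∈ S.powerset, ((‖(strWt N0 dl a' b0 b).haloTerm R S O (mjZ y 0)‖ : ℝ) : ℂ)‖
      = ∑ O ∈ S.powerset, ‖(strWt N0 dl a' b0 b).haloTerm R S O (mjZ y 0)‖ := by
    rw [← Complex.ofReal_sum, Complex.norm_real, Real.norm_of_nonneg (Finset.sum_nonneg fun _ _ => norm_nonneg _)]
  rw [e1, Finset.mul_sum]
  unfold Wt.halo
  refine (norm_sum_le _ _).trans (Finset.sum_le_sum fun O _ => ?_)
  rw [norm_mul, norm_pow, norm_neg, norm_one, one_pow, one_mul]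
  exact smj_haloTerm_le hc hc0 N0 dl a' b0 b hdl ha hb0 hb R S O y k H hk

theorem smj_tfac_ne (hc : Whole c) (hc0 : Whole c0) (N0 : Nest c0 c) (dl a' b0 b : ℝ) (hdl : 0 ≤ dl) (ha : 0 < a') (hb0 : 0 < b0)
    (hb : 0 < b) (R : ℕ) (t : Tile) (y : c.I → ℝ) : (strWt N0 dl a' b0 b).tfac R t (mjZ y 0) ≠ 0 := by
  unfold Wt.tfac
  refine div_ne_zero ?_ (norm_pos_iff.1 (smj_tdiv_pos hc hc0 N0 dl a' b0 b hdl ha hb0 R t _))
  show prZg (tileTop c R t) (strOm N0 (tileTop c R t) dl b) (mjZ y 0) ≠ 0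
  rw [smj_Zh_real]
  exact Complex.ofReal_ne_zero.2 (smj_Zh_pos hc N0 _ dl b hdl hb y).ne'

/-! ## 4. Exit -/

/-- **POST MAJ of the strengthened law, exit** -/
theorem str_maj : StrMajStmt := by
  intro a' H R ha hH hR
  have hK1 := mjK1_ge H R
  have hC1 := mjCM_ge1 H R 0
  have hC2 := mjCM_ge2 H R 0
  refine ⟨mjCM H R 0, by linarith, ?_⟩
  intro G c0 c N0 dl b0 b cb θ CR hc0 hg hdl hb0 hb hθ hCR hP
  have hc := hg.whole
  have hadm := hg.adm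
  refine ⟨?_, ?_, ?_⟩
  · intro S hS
    have h1 := mj_bd (H := H) (F := (strWt N0 dl a' b0 b).halo R S) (Real.exp_pos (mjC0 H R * (halC c R S).card)) (hP.halo S hS)
      (fun y k hk => smj_halo_le hc hc0 N0 dl a' b0 b hdl ha hb0 hb.le R S y k H hk)
    have hd : Disjoint (halC c R S) (∅ : Finset c.I) := Finset.disjoint_empty_right _
    have hw := mj_weight (Real.exp (mjC0 H R * (halC c R S).card)) (mjK1 H R) (mjCM H R 0) CR 1
      (S.filter fun k => Disjoint (halC c R {k}) (∅ : Finset c.I)).card 0 0 (Disjoint (halC c R S) (∅ : Finset c.I)) hK1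
      (by linarith) hC2 hCR le_rfl ?_ le_rfl (fun _ => rfl)
    · rw [if_pos hd, if_pos hd] at hw
      rw [if_pos hd] at h1 ⊢
      exact mj_bd_mono h1 hw
    · rw [add_zero, Finset.filter_true_of_mem fun k _ => Finset.disjoint_empty_right _]
      exact mj_exp_le H R _ _ (mj_halC_card hadm S hS.1)
  · intro t ht hd
    have h0 := hP.tile t ht
    rw [if_pos hd] at h0
    have h1 := mj_bd (H := H) (F := (strWt N0 dl a' b0 b).tfac R t) (Real.exp_pos (mjC0 H R * (cellsOf c R {t}).card)) h0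
      (fun y k hk => smj_tfac_le hc hc0 N0 dl a' b0 b hdl ha hb0 hb.le R t y k H hk)
    obtain ⟨i0, -, -⟩ := Finset.mem_image.1 ht
    have hcb : 0 ≤ cb := mj_load_nonneg h0 i0 0 (smj_tfac_ne hc hc0 N0 dl a' b0 b hdl ha hb0 hb R t 0)
    have h2 := (av_cost G c a' (strWt N0 dl a' b0 b).τ R H θ hθ).1 (cellsOf c R {t}) cb (-1) hcb
    have h3 := (av_cost G c a' (strWt N0 dl a' b0 b).τ R H θ hθ).2.2.1 _ _ _ _ _ _ h1 h2
    have e : (fun y => (strWt N0 dl a' b0 b).tfac R t y - 1) = fun y => (strWt N0 dl a' b0 b).tfac R t y + (-1) := by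
      funext y
      ring
    rw [e]
    refine mj_bd_mono h3 ?_
    have h4 := mj_exp_le H R _ 1 (by simpa using mj_tile_card hadm t)
    rw [pow_one] at h4
    rw [norm_neg, norm_one]
    have h5 : Real.exp (mjC0 H R * (cellsOf c R {t}).card) * CR ≤ mjK1 H R * CR := mul_le_mul_of_nonneg_right h4 (by linarith)
    nlinarith
  · intro t _ hd
    exact absurd (Finset.disjoint_empty_right _) hd

end

end Claimed.Agent.R285.C5
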