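import Claimed.Agent.R285.C5.ResL
import Claimed.Agent.R285.Ent.TrDefs
import Claimed.Agent.R285.F4a.EnB

/-!
# ROW 285, [C] s5, ENTRY OF THE STRENGTHENED LAW: a morphism of volumes respects the subcells      (helper155)
PAPER-FREE.  `esy_sub : SubOk Φ c0 c0'` for EVERY `Φ : Mor N N'` with `Φ.Ok R`, whole grids `c0`, `c0'` of the same side nested in the cells.
Inside one cell `Φ.ψ` maps the step `v → stp v d` to a step of direction `Φ.δ d`, reversed iff `Φ.rv d` (`Mor.Ok.bond`); hence the offset of `Φ.ψ v` in its cell,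
in the direction `Φ.δ d`, is the offset `a` of `v` in the direction `d`, or `s - 1 - a` (`esy_off`); both are compatible with `x ↦ x / s0` because `s0 ∣ s`.
-/

set_option autoImplicit false

namespace Claimed.Agent.R285.C5

open scoped BigOperators
open Claimed.Agent.R285 Claimed.Agent.R285.RG Claimed.Agent.R285.F4a Claimed.Agent.R285.Ent

noncomputable section

/-! ## 1. Arithmetic -/

theorem esy_ar {s s0 t : ℕ} (hs : 0 < s) (hs0 : 0 < s0) (ht : s = t * s0) (x : ℕ) :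
    x / s0 = t * (x / s) + (x % s) / s0 ∧ (x % s) / s0 < t := by
  constructor
  · have h1 : x = s0 * (t * (x / s)) + x % s := by
      have := (Nat.div_add_mod x s).symm
      calc x = s * (x / s) + x % s := this
        _ = s0 * (t * (x / s)) + x % s := by rw [ht]; ring
    conv_lhs => rw [h1]
    rw [Nat.mul_add_div hs0]
  · rw [Nat.div_lt_iff_lt_mul hs0, ← ht]
    exact Nat.mod_lt _ hs

theorem esy_ar_iff {s s0 t : ℕ} (hs : 0 < s) (hs0 : 0 < s0) (ht : s = t * s0) (x x' : ℕ) :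
    x / s0 = x' / s0 ↔ x / s = x' / s ∧ (x % s) / s0 = (x' % s) / s0 := by
  obtain ⟨h1, h2⟩ := esy_ar hs hs0 ht x
  obtain ⟨h1', h2'⟩ := esy_ar hs hs0 ht x'
  have ht0 : 0 < t := Nat.pos_of_ne_zero fun h0 => by rw [h0] at h2; exact absurd h2 (Nat.not_lt_zero _)
  rw [h1, h1']
  constructor
  · intro h
    have h3 := congrArg (· / t) h
    simp only [Nat.mul_add_div ht0, Nat.div_eq_of_lt h2, Nat.div_eq_of_lt h2', add_zero] at h3
    rw [h3] at h
    exact ⟨h3, by omega⟩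
  · rintro ⟨h3, h4⟩
    rw [h3, h4]

theorem esy_ar_rev {s s0 t : ℕ} (hs0 : 0 < s0) (ht : s = t * s0) {a : ℕ} (ha : a < s) : (s - 1 - a) / s0 = t - 1 - a / s0 := by
  have hq : a / s0 < t := by rw [Nat.div_lt_iff_lt_mul hs0, ← ht]; exact ha
  have hr : a % s0 < s0 := Nat.mod_lt _ hs0
  have ha' := Nat.div_add_mod a s0
  obtain ⟨e, he⟩ : ∃ e, t = a / s0 + 1 + e := ⟨t - (a / s0 + 1), by omega⟩
  have h1 : s - 1 - a = s0 * e + (s0 - 1 - a % s0) := by
    have : s = s0 * (a / s0) + s0 + s0 * e := by rw [ht, he]; ring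
    omega
  rw [h1, Nat.mul_add_div hs0, Nat.div_eq_of_lt (by omega)]
  omega

theorem esy_ar_rev_iff {s s0 t : ℕ} (hs0 : 0 < s0) (ht : s = t * s0) {a a' : ℕ} (ha : a < s) (ha' : a' < s) :
    (s - 1 - a) / s0 = (s - 1 - a') / s0 ↔ a / s0 = a' / s0 := by
  have hq : a / s0 < t := by rw [Nat.div_lt_iff_lt_mul hs0, ← ht]; exact ha
  have hq' : a' / s0 < t := by rw [Nat.div_lt_iff_lt_mul hs0, ← ht]; exact ha'
  rw [esy_ar_rev hs0 ht ha, esy_ar_rev hs0 ht ha']
  omega

/-! ## 2. One axis of a whole grid -/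

section axis

variable {G : Geom} {c : Grid G}

/-- a step inside an interval -/
theorem esy_in (hc : Whole c) (i : Fin G.M) (h : (i : ℕ) % c.m + 1 < c.m) :
    ((G.fold ((i : ℕ) + 1 : ℤ) : Fin G.M) : ℕ) = i + 1 ∧ c.blk1 (G.fold ((i : ℕ) + 1 : ℤ)) = c.blk1 i ∧ ((i : ℕ) + 1) % c.m = (i : ℕ) % c.m + 1 := by
  have hM := whole_card hc
  have hq : (i : ℕ) / c.m < c.n := by rw [← whole_blk1 hc i]; exact (c.blk1 i).2
  have hd := Nat.div_add_mod (i : ℕ) c.m
  have h1 : c.m * ((i : ℕ) / c.m + 1) ≤ c.m * c.n := Nat.mul_le_mul_left _ hq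
  have h2 : (i : ℕ) + 1 < G.M := by
    have e0 : c.m * ((i : ℕ) / c.m + 1) = c.m * ((i : ℕ) / c.m) + c.m := by ring
    have e1 : c.n * c.m = c.m * c.n := mul_comm _ _
    omega
  have h3 := enb_fold_succ i h2
  have h4 : (i : ℕ) + 1 = c.m * ((i : ℕ) / c.m) + ((i : ℕ) % c.m + 1) := by omega
  refine ⟨h3, ?_, ?_⟩
  · apply Fin.ext
    rw [whole_blk1 hc, whole_blk1 hc, h3, h4, Nat.mul_add_div hc.pos, Nat.div_eq_of_lt h, add_zero]
  · conv_lhs => rw [h4]
    rw [Nat.mul_add_mod, Nat.mod_eq_of_lt h]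

/-- a step between two different points of one interval -/
theorem esy_st (hc : Whole c) (i : Fin G.M) (h1 : G.fold ((i : ℕ) + 1 : ℤ) ≠ i) (h2 : c.blk1 (G.fold ((i : ℕ) + 1 : ℤ)) = c.blk1 i) :
    ((G.fold ((i : ℕ) + 1 : ℤ) : Fin G.M) : ℕ) % c.m = (i : ℕ) % c.m + 1 := by
  have hM := whole_card hc
  have hi := i.2
  have h3 : ((G.fold ((i : ℕ) + 1 : ℤ) : Fin G.M) : ℕ) = i + 1 := by
    by_cases h : (i : ℕ) + 1 < G.M
    · exact enb_fold_succ i h
    · exfalso
      have h' : (i : ℕ) + 1 = G.M := by omega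
      cases hG : G.bc with
      | free => exact h1 (enb_fold_last_free hG i h')
      | per =>
        have h4 := enb_fold_last_per hG i h'
        have h5 := congrArg (fun x : Fin c.n => (x : ℕ)) h2
        simp only [whole_blk1 hc, h4, Nat.zero_div] at h5
        have h6 : c.m ≤ (i : ℕ) := by
          have := hc.two
          have h7 : 2 * c.m ≤ c.n * c.m := Nat.mul_le_mul_right _ this
          have := hc.pos
          omega
        have := Nat.div_pos h6 hc.pos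
        omega
  have h5 := congrArg (fun x : Fin c.n => (x : ℕ)) h2
  simp only [whole_blk1 hc, h3] at h5
  rw [h3]
  have e1 := Nat.div_add_mod ((i : ℕ) + 1) c.m
  have e2 := Nat.div_add_mod (i : ℕ) c.m
  rw [h5] at e1
  omega

/-- the predecessor inside an interval -/
theorem esy_pred (hc : Whole c) (i : Fin G.M) (h : 0 < (i : ℕ) % c.m) :
    ∃ u : Fin G.M, G.fold ((u : ℕ) + 1 : ℤ) = i ∧ (u : ℕ) % c.m + 1 = (i : ℕ) % c.m := by
  have hi := i.2
  have hpos : 0 < (i : ℕ) := by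
    rcases Nat.eq_zero_or_pos (i : ℕ) with h0 | h0
    · rw [h0] at h; simp at h
    · exact h0
  refine ⟨⟨(i : ℕ) - 1, by omega⟩, ?_, ?_⟩
  · apply Fin.ext
    have := enb_fold_succ (⟨(i : ℕ) - 1, by omega⟩ : Fin G.M) (by show (i : ℕ) - 1 + 1 < G.M; omega)
    rw [this]
    show (i : ℕ) - 1 + 1 = i
    omega
  · show ((i : ℕ) - 1) % c.m + 1 = _
    have e2 := Nat.div_add_mod (i : ℕ) c.m
    have h4 : (i : ℕ) - 1 = c.m * ((i : ℕ) / c.m) + ((i : ℕ) % c.m - 1) := by omega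
    have h5 : (i : ℕ) % c.m < c.m := Nat.mod_lt _ hc.pos
    rw [h4, Nat.mul_add_mod, Nat.mod_eq_of_lt (by omega)]
    omega

/-- a counter which increases along the steps inside the intervals is the offset -/
theorem esy_Z1 (hc : Whole c) (σ : Fin G.M → ℕ) (h1 : ∀ i, σ i < c.m)
    (h2 : ∀ i : Fin G.M, (i : ℕ) % c.m + 1 < c.m → σ (G.fold ((i : ℕ) + 1 : ℤ)) = σ i + 1) (i : Fin G.M) : σ i = (i : ℕ) % c.m := by
  have hP : ∀ (r : ℕ) (i : Fin G.M), (i : ℕ) % c.m = r → r ≤ σ i := by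
    intro r
    induction r with
    | zero => intro i _; exact Nat.zero_le _
    | succ r ih =>
      intro i hi
      obtain ⟨u, hu1, hu2⟩ := esy_pred hc i (by omega)
      have h3 : (i : ℕ) % c.m < c.m := Nat.mod_lt _ hc.pos
      have := h2 u (by omega)
      rw [hu1] at this
      have := ih u (by omega)
      omega
  have hQ : ∀ (r : ℕ) (i : Fin G.M), (i : ℕ) % c.m + r + 1 = c.m → σ i + r + 1 ≤ c.m := by
    intro r
    induction r with
    | zero => intro i _; have := h1 i; omega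
    | succ r ih =>
      intro i hi
      obtain ⟨e1, -, e3⟩ := esy_in hc i (by omega)
      have := h2 i (by omega)
      have := ih (G.fold ((i : ℕ) + 1 : ℤ)) (by rw [e1, e3]; omega)
      omega
  have h3 : (i : ℕ) % c.m < c.m := Nat.mod_lt _ hc.pos
  have a1 := hP _ i rfl
  have a2 := hQ (c.m - 1 - (i : ℕ) % c.m) i (by omega)
  omega

end axis

/-! ## 3. Sites -/

section sites

variable {G : Geom} {c : Grid G}

theorem esy_stp (v : G.V) (d : Bool) : resP d (stp v d) = G.fold ((resP d v : ℕ) + 1 : ℤ) ∧ resQ d (stp v d) = resQ d v := by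
  cases d
  · rw [stp_false]; exact ⟨rfl, rfl⟩
  · rw [stp_true]; exact ⟨rfl, rfl⟩

theorem esy_PQ_ext {n : ℕ} (d : Bool) {v w : Fin n × Fin n} (h1 : resP d v = resP d w) (h2 : resQ d v = resQ d w) : v = w := by
  rw [← resSw_PQ d v, ← resSw_PQ d w, h1, h2]

theorem esy_blk_PQ (c : Grid G) (d : Bool) (v : G.V) : resP d (c.blk v) = c.blk1 (resP d v) ∧ resQ d (c.blk v) = c.blk1 (resQ d v) := by
  cases d <;> exact ⟨rfl, rfl⟩

/-- a step inside a cell -/
theorem esy_in_site (hc : Whole c) (v : G.V) (d : Bool) (h : (resP d v : ℕ) % c.m + 1 < c.m) : stp v d ≠ v ∧ c.blk (stp v d) = c.blk v := by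
  obtain ⟨e1, e2, -⟩ := esy_in hc (resP d v) h
  obtain ⟨s1, s2⟩ := esy_stp v d
  constructor
  · intro h0
    rw [h0] at s1
    rw [← s1] at e1
    omega
  · refine esy_PQ_ext d ?_ ?_
    · rw [(esy_blk_PQ c d _).1, (esy_blk_PQ c d _).1, s1, e2]
    · rw [(esy_blk_PQ c d _).2, (esy_blk_PQ c d _).2, s2]

/-- a step between two different sites of one cell -/
theorem esy_st_site (hc : Whole c) (v : G.V) (d : Bool) (h1 : stp v d ≠ v) (h2 : c.blk (stp v d) = c.blk v) :
    (resP d (stp v d) : ℕ) % c.m = (resP d v : ℕ) % c.m + 1 := by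
  obtain ⟨s1, s2⟩ := esy_stp v d
  rw [s1]
  refine esy_st hc _ (fun h0 => h1 (esy_PQ_ext d (s1.trans h0) s2)) ?_
  rw [← s1, ← (esy_blk_PQ c d _).1, h2, (esy_blk_PQ c d _).1]

/-- a counter which increases along the steps of direction `d` inside the cells is the offset -/
theorem esy_Z (hc : Whole c) (d : Bool) (σ : G.V → ℕ) (h1 : ∀ v, σ v < c.m)
    (h2 : ∀ v, (resP d v : ℕ) % c.m + 1 < c.m → σ (stp v d) = σ v + 1) (v : G.V) : σ v = (resP d v : ℕ) % c.m := by
  cases d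
  · exact esy_Z1 hc (fun i => σ (v.1, i)) (fun i => h1 _) (fun i hi => by
      have := h2 (v.1, i) hi
      rwa [stp_false] at this) v.2
  · exact esy_Z1 hc (fun i => σ (i, v.2)) (fun i => h1 _) (fun i hi => by
      have := h2 (i, v.2) hi
      rwa [stp_true] at this) v.1

theorem esy_blk_iff (hc : Whole c) (δ : Bool → Bool) (hδ : Function.Injective δ) (v w : G.V) :
    c.blk v = c.blk w ↔ ∀ d, (resP (δ d) v : ℕ) / c.m = (resP (δ d) w : ℕ) / c.m := by
  have hs : Function.Surjective δ := Finite.injective_iff_surjective.1 hδ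
  constructor
  · intro h d
    rw [← whole_blk1 hc, ← whole_blk1 hc, ← (esy_blk_PQ c _ _).1, ← (esy_blk_PQ c _ _).1, h]
  · intro h
    have h' : ∀ d, c.blk1 (resP d v) = c.blk1 (resP d w) := by
      intro d
      obtain ⟨d0, rfl⟩ := hs d
      apply Fin.ext
      rw [whole_blk1 hc, whole_blk1 hc]
      exact h d0
    exact Prod.ext (h' true) (h' false)

/-- the side of nested whole cells divides -/
theorem esy_dvd (hc : Whole c) {c0 : Grid G} (hc0 : Whole c0) (N0 : Nest c0 c) : ∃ t, c.m = t * c0.m := by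
  have hM := whole_card hc
  have h2 : 2 * c.m ≤ c.n * c.m := Nat.mul_le_mul_right _ hc.two
  have hpos := hc.pos
  have hlt : c.m < G.M := by omega
  have hlt' : c.m - 1 < G.M := by omega
  have e1 := N0.comm ⟨c.m, hlt⟩
  have e2 := N0.comm ⟨c.m - 1, hlt'⟩
  have hne : c0.blk1 ⟨c.m, hlt⟩ ≠ c0.blk1 ⟨c.m - 1, hlt'⟩ := by
    intro h
    rw [h, ← e2] at e1
    have := congrArg (fun x : Fin c.n => (x : ℕ)) e1
    simp only [whole_blk1 hc, Nat.div_self hpos, Nat.div_eq_of_lt (by omega : c.m - 1 < c.m)] at this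
    omega
  have hne' : c.m / c0.m ≠ (c.m - 1) / c0.m := by
    intro h
    apply hne
    apply Fin.ext
    rw [whole_blk1 hc0, whole_blk1 hc0]
    exact h
  have h3 := @Nat.succ_div (c.m - 1) c0.m
  have h4 : c.m - 1 + 1 = c.m := by omega
  rw [h4] at h3
  by_cases hd : c0.m ∣ c.m
  · obtain ⟨t, ht⟩ := hd
    exact ⟨t, by rw [ht, mul_comm]⟩
  · rw [if_neg hd] at h3
    exact absurd h3 hne'

end sites

/-! ## 4. Morphisms -/

section mor

variable {G G' : Geom} {c g : Grid G} {c' g' : Grid G'} {N : Nest c g} {N' : Nest c' g'} {c0 : Grid G} {c0' : Grid G'}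

/-- the morphism respects the subcells -/
def SubOk (Φ : Mor N N') (c0 : Grid G) (c0' : Grid G') : Prop := ∀ v w, c0'.blk (Φ.ψ v) = c0'.blk (Φ.ψ w) ↔ c0.blk v = c0.blk w

/-- **the offsets in the cells** -/
theorem esy_off (Φ : Mor N N') {R : ℕ} (hΦ : Φ.Ok R) (hc : Whole c) (hc' : Whole c') (d : Bool) (v : G.V) :
    (resP (Φ.δ d) (Φ.ψ v) : ℕ) % c.m = if Φ.rv d then c.m - 1 - (resP d v : ℕ) % c.m else (resP d v : ℕ) % c.m := by
  have hm := hΦ.m_eq
  have hpos := hc.pos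
  have hX : ∀ v, (resP (Φ.δ d) (Φ.ψ v) : ℕ) % c.m < c.m := fun v => Nat.mod_lt _ hpos
  have key := esy_Z hc d (fun v => if Φ.rv d then c.m - 1 - (resP (Φ.δ d) (Φ.ψ v) : ℕ) % c.m else (resP (Φ.δ d) (Φ.ψ v) : ℕ) % c.m)
    (fun v => by
      have := hX v
      show (if Φ.rv d then _ else _) < c.m
      split_ifs <;> omega)
    (fun v hv => by
      obtain ⟨a1, a2⟩ := esy_in_site hc v d hv
      have hb := hΦ.bond v d a1
      show (if Φ.rv d then _ else _) = (if Φ.rv d then _ else _) + 1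
      cases hr : Φ.rv d
      · rw [hr] at hb
        simp only [Bool.false_eq_true, if_false] at hb ⊢
        have := esy_st_site hc' (Φ.ψ v) (Φ.δ d) (by rw [hb]; exact fun h => a1 (hΦ.ψ_inj h)) (by rw [hb, hΦ.blk, hΦ.blk, a2])
        rw [hb, hm] at this
        exact this
      · rw [hr] at hb
        simp only [if_true] at hb ⊢
        have := esy_st_site hc' (Φ.ψ (stp v d)) (Φ.δ d) (by rw [hb]; exact fun h => a1 (hΦ.ψ_inj h).symm) (by rw [hb, hΦ.blk, hΦ.blk, a2])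
        rw [hb, hm] at this
        have := hX v
        omega) v
  have h1 := hX v
  have h2 : (resP d v : ℕ) % c.m < c.m := Nat.mod_lt _ hpos
  cases hr : Φ.rv d
  · rw [hr] at key
    simpa using key
  · rw [hr] at key
    simp only [if_true] at key ⊢
    omega

/-- **a morphism respects the subcells** -/
theorem esy_sub (Φ : Mor N N') {R : ℕ} (hΦ : Φ.Ok R) (hc : Whole c) (hc' : Whole c') (hc0 : Whole c0) (hc0' : Whole c0') (hm : c0'.m = c0.m)
    (N0 : Nest c0 c) : SubOk Φ c0 c0' := by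
  intro v w
  obtain ⟨t, ht⟩ := esy_dvd hc hc0 N0
  have hpos := hc.pos
  have hpos0 := hc0.pos
  have hid : Function.Injective (id : Bool → Bool) := Function.injective_id
  have hoff : ∀ d, ((resP (Φ.δ d) (Φ.ψ v) : ℕ) % c.m) / c0.m = ((resP (Φ.δ d) (Φ.ψ w) : ℕ) % c.m) / c0.m ↔
      ((resP d v : ℕ) % c.m) / c0.m = ((resP d w : ℕ) % c.m) / c0.m := by
    intro d
    rw [esy_off Φ hΦ hc hc' d v, esy_off Φ hΦ hc hc' d w]
    cases Φ.rv d
    · simp
    · simp only [if_true]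
      exact esy_ar_rev_iff hpos0 ht (Nat.mod_lt _ hpos) (Nat.mod_lt _ hpos)
  have hcell : c.blk v = c.blk w ↔ ∀ d, (resP (Φ.δ d) (Φ.ψ v) : ℕ) / c.m = (resP (Φ.δ d) (Φ.ψ w) : ℕ) / c.m := by
    rw [← hΦ.m_eq, ← esy_blk_iff hc' Φ.δ hΦ.δ_inj, hΦ.blk, hΦ.blk]
    exact ⟨fun h => by rw [h], fun h => hΦ.φ_inj h⟩
  rw [esy_blk_iff hc0' Φ.δ hΦ.δ_inj, esy_blk_iff hc0 id hid, hm]
  have hL : (∀ d, (resP (Φ.δ d) (Φ.ψ v) : ℕ) / c0.m = (resP (Φ.δ d) (Φ.ψ w) : ℕ) / c0.m) ↔
      (∀ d, (resP (Φ.δ d) (Φ.ψ v) : ℕ) / c.m = (resP (Φ.δ d) (Φ.ψ w) : ℕ) / c.m) ∧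
        ∀ d, ((resP (Φ.δ d) (Φ.ψ v) : ℕ) % c.m) / c0.m = ((resP (Φ.δ d) (Φ.ψ w) : ℕ) % c.m) / c0.m := by
    rw [← forall_and]
    exact forall_congr' fun d => esy_ar_iff hpos hpos0 ht _ _
  have hR : (∀ d, (resP (id d) v : ℕ) / c0.m = (resP (id d) w : ℕ) / c0.m) ↔
      (∀ d, (resP (id d) v : ℕ) / c.m = (resP (id d) w : ℕ) / c.m) ∧
        ∀ d, ((resP d v : ℕ) % c.m) / c0.m = ((resP d w : ℕ) % c.m) / c0.m := by
    rw [← forall_and]
    exact forall_congr' fun d => esy_ar_iff hpos hpos0 ht _ _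
  rw [hL, hR, ← hcell, ← esy_blk_iff hc id hid]
  exact and_congr Iff.rfl (forall_congr' hoff)

/-- Stores the on-demand equation lemmas of the definitions above in THIS module (rule 6 hygiene). -/
theorem esy_sub_eqns_cite : True := by
  have := @SubOk.eq_1
  trivial

end mor

end

end Claimed.Agent.R285.C5
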