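import Claimed.Agent.R285.Entry.PhyCar
import Claimed.Agent.R285.Ent.PropLaw

/-!
# ROW 285, [C] s5, ENTRY OF THE STRENGTHENED LAW: DEFINITIONS (architect helper66, chief helper262).   Nothing is proved or sorried here.

`c` = observation cells (side `s`), `c0` = subcells (side `s0`), `N0 : Nest c0 c`.   The strengthened law (5.2) on a cut topology `T : Top c`:
Bessel bonds `T.IsEdge`, observation rows of the cells of `T`, and the AVERAGED BONDS `√δ (avg_{k'} - avg_k)` over the faces `f = (k, d)`, `k' = fnb c0 f`, of the SUBCELL grid which are retained in `T`: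
`carS N0 f` = carrier of the averaged bond = the parent cell if both subcells have the same parent, else the face `(parent k, d)` of `c`; dead if `f` is not a face of `c0` (free wall).
A cut of a face of `c` deletes the averaged bonds through it (the convention of l.72-78 = `C5.cellPairs`).   NO cutoff (`Xf = 1`), sector `τ = 0`.
* `strF N0 T` retained subcell faces, `strEn N0 T k = ∑ (avg_{k'} (2π k) - avg_k (2π k))²`, `strOm N0 T δ b k = prOm T b 0 k * exp (-δ strEn / 2)`;
* **`strWt N0 δ a' b0 b : Wt c`** : `Zh T = prZg T (strOm ..)` (generic height sum of `Ent/PropLaw`), `Q T = T.Qmat a'`, `N T` = the real sum at `(b0, y = 0)`;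
* `facS c c0 b δ`, `mskS`, `datS`, **`strPhy N0 R δ a' b0 b : Phy c`** : the factor model.
Proofs: `C5/EntLaw.lean`.
-/

set_option autoImplicit false

namespace Claimed.Agent.R285.C5

open scoped BigOperators
open Claimed.Agent.R285 Claimed.Agent.R285.RG Claimed.Agent.R285.F4a Claimed.Agent.R285.Ent Claimed.Agent.R285.Entry

noncomputable section

variable {G : Geom} {c0 c : Grid G}

open Classical in
/-- the carrier of the averaged bond over the subcell face `f` -/
def carS (N0 : Nest c0 c) (f : Face c0) : Car c :=
  if IsFace c0 f then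
    (if N0.up (fnb c0 f) = N0.up f.1 then some (Sum.inl (N0.up f.1)) else some (Sum.inr (N0.up f.1, f.2)))
  else none

/-- the carriers of the real forms: observation rows and averaged bonds -/
def carO (N0 : Nest c0 c) : c.I ⊕ Face c0 → Car c
  | Sum.inl i => some (Sum.inl i)
  | Sum.inr f => carS N0 f

open Classical in
/-- the subcell faces retained in `T` -/
def strF (N0 : Nest c0 c) (T : Top c) : Finset (Face c0) := Finset.univ.filter fun f => carIn T (carS N0 f)

/-- the averaged gradient energy of the physical height `2π k` on `T` -/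
def strEn (N0 : Nest c0 c) (T : Top c) (k : G.V → ℤ) : ℝ := ∑ f ∈ strF N0 T, (prAv c0 k (fnb c0 f) - prAv c0 k f.1) ^ 2

/-- the weight of a height without the observation rows: Bessel bonds and averaged bonds -/
def strOm (N0 : Nest c0 c) (T : Top c) (dl : ℝ) (b : ℂ) (k : G.V → ℤ) : ℂ :=
  prOm T b 0 k * Complex.exp (-((dl * strEn N0 T k : ℝ) : ℂ) / 2)

/-- the factor model: sites `G.V`, integer forms = all oriented pairs, real forms = rows of all cells and averaged bonds over all subcell faces -/
abbrev facS (c c0 : Grid G) (b dl : ℝ) : Fac where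
  V := G.V
  E := G.V × Bool
  O := c.I ⊕ Face c0
  b := fun _ => b
  d := fun e v => (if v = stp e.1 e.2 then 1 else 0) - (if v = e.1 then 1 else 0)
  r := fun o v => match o with
    | Sum.inl i => if c.blk v = i then ((c.sites {i}).card : ℝ)⁻¹ else 0
    | Sum.inr f => Real.sqrt dl * ((if c0.blk v = fnb c0 f then ((c0.sites {fnb c0 f}).card : ℝ)⁻¹ else 0)
        - (if c0.blk v = f.1 then ((c0.sites {f.1}).card : ℝ)⁻¹ else 0))

open Classical in
/-- the mask of a cut topology -/
def mskS (N0 : Nest c0 c) (b dl : ℝ) (T : Top c) : (facS c c0 b dl).Msk :=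
  ⟨c.sites T.cells, Finset.univ.filter fun e : G.V × Bool => T.IsEdge e, Finset.univ.filter fun o : c.I ⊕ Face c0 => carIn T (carO N0 o)⟩

/-- zero background, zero connection, observation `y`, centre `0` on the averaged bonds -/
def datS (c c0 : Grid G) (b dl : ℝ) (y : c.I → ℝ) : (facS c c0 b dl).Dat := ⟨0, 0, Sum.elim y fun _ => 0⟩

open Classical in
/-- the factors through a face of `c`: primary bonds and averaged bonds -/
def ffS (N0 : Nest c0 c) (b dl : ℝ) (f : Face c) : (facS c c0 b dl).Fs :=
  (bondsF c {f}, Finset.univ.filter fun o : c.I ⊕ Face c0 => carO N0 o = some (Sum.inr f))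

/-- **the weights of the strengthened law**: added precision `δ = dl`, reference stiffness `a'`, base point `b0`, parameter `b` -/
def strWt (N0 : Nest c0 c) (dl a' b0 b : ℝ) : Wt c where
  τ := 0
  Q := fun T => T.Qmat a'
  Zh := fun T => prZg T (strOm N0 T dl b)
  N := fun T => (mskS N0 b0 dl T).Z0

/-- **the strengthened law as a factor model** -/
def strPhy (N0 : Nest c0 c) (R : ℕ) (dl a' b0 b : ℝ) : Phy c where
  W := strWt N0 dl a' b0 b
  R := R
  Fc := facS c c0 b dl
  blk := c.blk
  M := mskS N0 b dl
  D := datS c c0 b dl
  FF := ffS N0 b dl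
  Xf := fun _ _ => 1

/-- Stores the on-demand equation lemmas of the definitions above in THIS module (rule 6 hygiene). -/
theorem str_defs_forced : True := by
  have := @carS.eq_1
  have := @carO.eq_1
  have := @carO.eq_2
  have := @strF.eq_1
  have := @strEn.eq_1
  have := @strOm.eq_1
  have := @facS.eq_1
  have := @mskS.eq_1
  have := @datS.eq_1
  have := @ffS.eq_1
  have := @strWt.eq_1
  have := @strPhy.eq_1
  trivial

end

end Claimed.Agent.R285.C5
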