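import Claimed.Agent.R285.C5.ResL
import Claimed.Agent.R285.Rdo.Defs
import Claimed.Agent.R285.Ent.Vol

/-!
# ROW 285, [C] s5.4: THE WEIGHT OF THE STRENGTHENED LAW ON THE OBSERVATIONS; the format of its entry theorem      (architect helper75)

DEFINITIONS ONLY (no sorry).  Shared by BRIDGE (`C5/GBr.lean`), ENTRY (`C5/Entry.lean`, helper262), ENT-SPACE (`C5/GEnt.lean`), READ-OUT (`C5/GRead.lean`) and the assembly (`C5/GAsm.lean`).
* `WS δ b c c0 y` = `Z_{full}(y; b)` of the law (5.2) on the whole torus: Bessel bonds, observation rows of the cells `c`, averaged bonds `√δ (avg_κ' - avg_κ)` over the subcells `c0`.  NO cutoff.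
  It takes the place of `(Top.full c).Zhat b 0` in `Rdo.PhW`, `Rdo.EhW`, `Rdo.cVW`, `Rdo.HavW`.
* `StrData`, `BulkS`, `CopyS` = `F4b.EntryData`, `BulkOK`, `CopyOK.bulk` for this weight: REAL temperature in a set `I`, no holomorphy in the temperature, no unit sector.
-/

set_option autoImplicit false

namespace Claimed.Agent.R285.C5

open scoped BigOperators ENNReal NNReal
open Claimed.Agent.R285.RG Claimed.Agent.R285.B4 Claimed.Agent.R285.F4a Claimed.Agent.R285.F4b

noncomputable section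

/-- **the weight**: the partition sum of the strengthened law on the full topology with observation data `y` -/
def WS {G : Geom} (δ b : ℝ) (c c0 : Grid G) (y : c.I → ℝ) : ℝ :=
  (lawS (Top.full c) c0 δ).Z b (affS (Top.full c) c0 δ y) fun _ => 1

open Classical in
/-- the full-block grid of side `s0` (junk: side one) -/
def subGrid (G : Geom) (s0 : ℕ) : Grid G := if hd : s0 ∣ G.M then torusGrid G s0 hd else torusGrid G 1 (one_dvd _)

theorem subGrid_eq (G : Geom) {s0 : ℕ} (hd : s0 ∣ G.M) : subGrid G s0 = torusGrid G s0 hd := dif_pos hd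

/-- the objects produced by the entry construction of L5.4; arguments: the volume (`s = 𝒱.s`, `m = 𝒱.m = q R s`), the side `s0` of the subcells, the REAL temperature.  Chosen BEFORE the norms. -/
structure StrData where
  K0 : (𝒱 : Vol) → ℕ → ℝ → Act 𝒱.g

/-- **L5.4 in one volume**: `δs` = added precision, `a'` = reference coefficient, `I` = set of temperatures, `ε` = bound of the norm, `s0` = side of the subcells -/
structure BulkS (D : StrData) (δs a' : ℝ) (p : Par) (o : ObsPar) (I : Set ℝ) (ε : ℝ) (s0 : ℕ) (𝒱 : Vol) : Prop where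
  ok : ∀ b ∈ I, Act.Ok p 0 RR (D.K0 𝒱 s0 b)
  even : ∀ b ∈ I, Act.Even p.h0 (D.K0 𝒱 s0 b)
  sym : ∀ b ∈ I, Act.Sym p.h0 𝒱.c (D.K0 𝒱 s0 b)
  norm : ∀ b ∈ I, NormLE 𝒱 p o (D.K0 𝒱 s0 b) ε
  /-- (5.13)/(ent:ordinary-subset) for the weight `WS` -/
  ident : ∀ b ∈ I, ∃ cG : ℝ, 0 < cG ∧ ∀ ψ : 𝒱.G.V → ℝ,
    (Rdo.HavW a' 𝒱.c 𝒱.m (WS δs b 𝒱.c (subGrid 𝒱.G s0)) ψ : ℂ) = cG * ZA 𝒱.g RR (D.K0 𝒱 s0 b) (toC ψ)

/-- the copy statement between two volumes with the same `s`, `m` (charts with origin `0`) -/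
def CopyS (D : StrData) (h0 : ℝ≥0) (c0 : ℕ) (I : Set ℝ) (s0 : ℕ) (𝒱 𝒱' : Vol) : Prop :=
  ∀ b ∈ I, CopyAt h0 (c0 * 𝒱.m) 𝒱.g 𝒱'.g 0 0 (D.K0 𝒱 s0 b) (D.K0 𝒱' s0 b)

end

end Claimed.Agent.R285.C5
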