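import Claimed.Agent.R285.Ent.Main
import Claimed.Agent.R285.Ent.LocMain
import Claimed.Agent.R285.C5.EntDefs
import Claimed.Agent.R285.C5.EsDefs
import Claimed.Agent.R285.C5.GW

/-!
# ROW 285, [C] L5.4 (`lem:op-entry`, 50-openness.tex l.313-867): ENTRY FOR THE STRENGTHENED LAW.   THE CONSTRUCTION, THE EXIT STATEMENTS OF THE POSTS, THE ASSEMBLY      (architect helper262)

Nothing is sorried here (style of `Ent/If.lean`): the exit of a post is a `def …Stmt : Prop`, proved in the file of the post; `gentry_of` (the format of `C5/GW.lean`, helper75) is PROVED from the `Stmt`s.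
Third run of the ENGINE `R285/Ent/*` (helper56), with the weights `strWt N0 δ a' b0 b` (`C5/EntDefs.lean`, helper66): base point `b0`, REAL parameter `b` near `b0`, reference stiffness `a' = aPrime (aLim b0) δ`, sector `τ = 0`, no cutoff, tori only.
The engine is used with the CONSTANT family `W (z) := strWt .. b` (nothing is differentiated in the temperature).
```
gentry_of ⟸ engine: NormStmt, HolStmt (15, 140, 161), LinkStmt (273, 251), ent_identW, scal_pos (273), pr_Kact_* (66)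
            StrLawStmt   C5/EntLaw.lean  (66)    Str, IsReal, IsEven, bridge Zh = esZ on real data
            StrPhysStmt  C5/EntPhys.lean         Phys + PhysPos  ⟸ generic `Phys ⟸ BoxOK` (229, 33) + PERT (221, 118) + BoxOK (strPhy .. b0 b0) (C5/EsFac.lean ⟸ C5/EsGood.lean)
            StrMajStmt   C5/EntMaj.lean          trivial majorant of complex OBSERVATIONS (twin of Ent/Maj.lean, real parameter: only `|prGs T (y + ik)| = e^{∑ k²/2} prGs T y`)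
            StrSymStmt, StrCopyStmt  C5/EntSym.lean (155)   transport (twin of SymStmt, CopyStmt)
```
-/

set_option autoImplicit false

namespace Claimed.Agent.R285.C5

open scoped BigOperators ENNReal NNReal
open Filter Topology MeasureTheory ProbabilityTheory
open Claimed.Agent.R285 Claimed.Agent.R285.RG Claimed.Agent.R285.B4 Claimed.Agent.R285.F4a Claimed.Agent.R285.F4b Claimed.Agent.R285.Ent
  Claimed.Agent.R285.Entry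

noncomputable section

/-! ## 1. The construction -/

/-- the grid of subcells of side `s0` of a volume -/
def vC0 (𝒱 : Vol) (s0 : ℕ) (h : s0 ∣ 𝒱.s) : Grid 𝒱.G := torusGrid 𝒱.G s0 (dvd_trans h (dvd_trans 𝒱.hsm 𝒱.hmM))

/-- the subcells are nested in the observation cells -/
def vN0 (𝒱 : Vol) (s0 : ℕ) (h : s0 ∣ 𝒱.s) : Nest (vC0 𝒱 s0 h) 𝒱.c := vNest ⟨𝒱.G, s0, 𝒱.s, h, dvd_trans 𝒱.hsm 𝒱.hmM⟩

/-- the weights of a volume -/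
def vWS (dl a' b0 : ℝ) (s0 : ℕ) (𝒱 : Vol) (h : s0 ∣ 𝒱.s) (b : ℝ) : Wt 𝒱.c := strWt (vN0 𝒱 s0 h) dl a' b0 b

open Classical in
/-- **the activities `K_m (b')` of L5.4** -/
def strK0 (dl a' b0 : ℝ) (s0 : ℕ) (𝒱 : Vol) (b : ℝ) : Act 𝒱.g :=
  if h : s0 ∣ 𝒱.s then (vWS dl a' b0 s0 𝒱 h b).Kact a' (vNest 𝒱) (vR 𝒱) else 0

/-- the objects of L5.4 in the format of `C5/GW.lean` -/
def strData (dl a' b0 : ℝ) : StrData := ⟨fun 𝒱 s0 b => strK0 dl a' b0 s0 𝒱 b⟩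

theorem strK0_of_dvd (dl a' b0 : ℝ) {s0 : ℕ} {𝒱 : Vol} (h : s0 ∣ 𝒱.s) (b : ℝ) :
    strK0 dl a' b0 s0 𝒱 b = (vWS dl a' b0 s0 𝒱 h b).Kact a' (vNest 𝒱) (vR 𝒱) := by
  unfold strK0
  rw [dif_pos h]

/-! ## 2. The exit statements of the posts -/

/-- **POST LAW** (helper66, `C5/EntLaw.lean`) -/
def StrLawStmt : Prop :=
  ∀ (G : Geom) (c0 c : Grid G) (N0 : Nest c0 c) (dl a' b0 b : ℝ), Whole c → Whole c0 → 0 ≤ dl → 0 < a' → 0 < b0 → 0 < b →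
    (strWt N0 dl a' b0 b).Str ∧ (strWt N0 dl a' b0 b).IsReal ∧ (strWt N0 dl a' b0 b).IsEven ∧
    ∀ (T : Top c) (y : c.I → ℝ), T.Ok → (strWt N0 dl a' b0 b).Zh T (fun i => (y i : ℂ)) = (esZ T c0 dl b y : ℂ)

/-- **POST PHYS: the physical input** (twin of `Ent.PhysRStmt`).   Order: `c_*`; the load `cb`, the trace constant `θ`; `C, c_g`; `R = 2^{kR}`; `C_R`; `t`; `s0`; the neighbourhood of `b`; the torus. -/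
def StrPhysStmt : Prop :=
  ∀ (b a dl : ℝ), 0 < b → 0 < a → aLim b = a → 0 < dl → ∃ cstar : ℝ, 0 < cstar ∧ cstar < 1 ∧
  ∀ (cb θ : ℝ), 1 - cstar < cb → 0 ≤ θ → ∃ (C cg : ℝ) (k1 : ℕ), 0 < cg ∧ ∀ kR ≥ k1, ∃ CR : ℝ, 1 ≤ CR ∧
  ∀ᶠ t : ℕ in atTop, ∀ᶠ s0 : ℕ in atTop, ∀ᶠ b' in 𝓝 b, ∀ (G : Geom) (c0 c : Grid G) (N0 : Nest c0 c), G.bc = BC.per → EsVol c c0 t s0 →
    GeoOK c (2 ^ kR) → (2 ^ kR) ^ 5 ≤ c.n →
      Phys (strWt N0 dl (aPrime a dl) b b') (2 ^ kR) ∅ (aPrime a dl) cb θ 0 (C * Real.exp (-cg * 2 ^ kR)) 1 ∧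
      PhysPos (strWt N0 dl (aPrime a dl) b b') (2 ^ kR) ∅ (aPrime a dl) cb θ CR 1

/-- **POST MAJ: the trivial majorant of complex observations** (twin of `Ent.MajStmt`; the parameter is real, no zone) -/
def StrMajStmt : Prop :=
  ∀ (a' H : ℝ) (R : ℕ), 0 < a' → 0 ≤ H → 0 < R → ∃ CM : ℝ, 1 ≤ CM ∧
  ∀ (G : Geom) (c0 c : Grid G) (N0 : Nest c0 c) (dl b0 b cb θ CR : ℝ), Whole c0 → GeoOK c R → 0 ≤ dl → 0 < b0 → 0 < b → 0 ≤ θ → 1 ≤ CR →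
    PhysPos (strWt N0 dl a' b0 b) R ∅ a' cb θ CR 1 → Phys (strWt N0 dl a' b0 b) R ∅ a' cb θ H (CM * CR) 1

/-- **POST TRANSPORT, exit 1** (twin of `Ent.SymStmt`): a symmetry of the blocks which preserves the cells preserves the subcells (`s0 ∣ s`, common origin) -/
def StrSymStmt : Prop :=
  ∀ (dl a' b0 b : ℝ) (h0 : ℝ≥0) (s0 : ℕ) (𝒱 : Vol), 𝒱.G.bc = BC.per → 0 < s0 → s0 ∣ 𝒱.s → GeoOK 𝒱.c (vR 𝒱) → 𝒱.g.Ok → NestOK (vNest 𝒱) (vR 𝒱) →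
    0 ≤ dl → 0 < a' → 0 < b0 → Act.Sym h0 𝒱.c (strK0 dl a' b0 s0 𝒱 b)

/-- **POST TRANSPORT, exit 2** (twin of `Ent.CopyStmt`; two tori, charts with origin `0`) -/
def StrCopyStmt : Prop :=
  ∃ c0 : ℕ, ∀ (dl a' b0 b : ℝ) (h0 : ℝ≥0) (s0 : ℕ) (𝒱 𝒱' : Vol), 0 ≤ dl → 0 < a' → 0 < b0 → 𝒱.G.bc = BC.per → 𝒱'.G.bc = BC.per → 𝒱.s = 𝒱'.s → 𝒱.m = 𝒱'.m →
    0 < s0 → s0 ∣ 𝒱.s → GeoOK 𝒱.c (vR 𝒱) → GeoOK 𝒱'.c (vR 𝒱') →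
      CopyAt h0 (c0 * 𝒱.m) 𝒱.g 𝒱'.g 0 0 (strK0 dl a' b0 s0 𝒱 b) (strK0 dl a' b0 s0 𝒱' b)

/-! ## 3. The geometry of an admissible torus (`Ent.main_vol` for an arbitrary side `s`) -/

theorem ent_whole (G : Geom) (s : ℕ) (h : s ∣ G.M) (hs : 0 < s) (h2 : 2 ≤ G.M / s) : Whole (torusGrid G s h) :=
  ⟨hs, (B8.torusGrid_ok G s h hs).mono, B8.torusGrid_card G s h hs, h2⟩

theorem ent_vol (𝒱 : Vol) (kR s : ℕ) (hkR : 6 ≤ kR) (hs0 : 0 < s) (h : 𝒱.Adm 1 (2 ^ kR) s) :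
    vR 𝒱 = 2 ^ kR ∧ 𝒱.c.m = s ∧ GeoOK 𝒱.c (2 ^ kR) ∧ 𝒱.g.Ok ∧ NestOK (vNest 𝒱) (2 ^ kR) ∧ (2 ^ kR) ^ 5 ≤ 𝒱.c.n := by
  have hs : 𝒱.s = s := h.hs
  have hm : 𝒱.m = 2 ^ kR * s := by rw [h.hm]; ring
  have hs0' : 0 < 𝒱.s := by rw [hs]; exact hs0
  have hm0 : 0 < 𝒱.m := by rw [hm]; positivity
  have hR0 : 0 < 2 ^ kR := by positivity
  have hR64 : 64 ≤ 2 ^ kR := by
    calc 64 = 2 ^ 6 := by norm_num
      _ ≤ 2 ^ kR := Nat.pow_le_pow_right (by norm_num) hkR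
  have hn : 𝒱.c.n = 𝒱.G.M / 𝒱.s := rfl
  have h5 : (2 ^ kR) ^ 5 ≤ 𝒱.c.n := by
    rw [hn, Nat.le_div_iff_mul_le hs0', mul_comm, hs]
    exact h.side
  have h8 : 8 * 2 ^ kR ≤ (2 ^ kR) ^ 5 := by
    have : 8 ≤ (2 ^ kR) ^ 4 := by
      calc 8 ≤ 64 ^ 4 := by norm_num
        _ ≤ (2 ^ kR) ^ 4 := Nat.pow_le_pow_left hR64 4
    calc 8 * 2 ^ kR ≤ (2 ^ kR) ^ 4 * 2 ^ kR := Nat.mul_le_mul_right _ this
      _ = (2 ^ kR) ^ 5 := by ring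
  have hvR : vR 𝒱 = 2 ^ kR := by
    unfold vR
    rw [hm, hs]
    exact Nat.mul_div_cancel _ hs0
  refine ⟨hvR, hs, ⟨⟨hs0', (B8.torusGrid_ok 𝒱.G 𝒱.s _ hs0').mono, B8.torusGrid_card 𝒱.G 𝒱.s _ hs0', ?_⟩, ?_, hR0, ?_, h8.trans h5⟩,
    B8.torusGrid_ok 𝒱.G 𝒱.m _ hm0, ⟨?_, fun i => ?_⟩, h5⟩
  · have : 2 ≤ 8 * 2 ^ kR := by omega
    exact this.trans (h8.trans h5)
  · calc 64 = 2 ^ 6 := by norm_num
      _ ∣ 2 ^ kR := pow_dvd_pow 2 hkR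
  · obtain ⟨k, hk⟩ := 𝒱.hmM
    refine ⟨k, ?_⟩
    rw [hn, hk, hm, hs, mul_assoc, mul_comm (2 ^ kR), mul_assoc]
    rw [Nat.mul_div_cancel_left _ hs0, mul_comm]
  · show 𝒱.m = 2 ^ kR * 𝒱.s
    rw [hm, hs]
  · show ((i : ℕ) * 𝒱.s) / 𝒱.m = (i : ℕ) / 2 ^ kR
    rw [hm, hs]
    exact Nat.mul_div_mul_right _ _ hs0

/-- the two grids of cells of an admissible torus -/
theorem ent_esVol (𝒱 : Vol) (t s0 : ℕ) (hs0 : 0 < s0) (hs : 𝒱.s = t * s0) (hc : Whole 𝒱.c) (h : s0 ∣ 𝒱.s) :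
    EsVol 𝒱.c (vC0 𝒱 s0 h) t s0 := by
  refine ⟨hc, ent_whole _ _ _ hs0 ?_, ⟨vN0 𝒱 s0 h⟩, rfl, hs⟩
  have h2 : 2 ≤ 𝒱.G.M / 𝒱.s := hc.two
  have hpos : 0 < 𝒱.s := hc.pos
  have h3 : 𝒱.G.M / 𝒱.s ≤ 𝒱.G.M / s0 := Nat.div_le_div_left (Nat.le_of_dvd hpos h) hs0
  exact h2.trans h3

/-! ## 4. One weight in one volume (general `W`; the constant family) -/

/-- the constant family -/
theorem ent_famOK {G : Geom} {c : Grid G} (W : Wt c) (R : ℕ) (a cb θ H gm CR Cl cl : ℝ) (hS : W.Str) (hτ : W.τ = 0) (hL : LinkOK W R Cl cl)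
    (hr : Phys W R ∅ a cb θ 0 gm 1) (hc : Phys W R ∅ a cb θ H CR 1) : FamOK (fun _ => W) R 0 1 a cb θ H gm CR Cl cl where
  str := fun _ _ => hS
  tau := fun _ => hτ
  Qc := fun _ => rfl
  Nc := fun _ => rfl
  hol := fun _ _ => differentiableOn_const _
  link := hL
  real := fun _ _ => hr
  cplx := fun _ _ => hc

/-- analytic properties of the activities of ONE weight (twin of `Ent.main_bulk`) -/
theorem ent_bulkW (a : ℝ) (ha : 0 < a) (o : ObsPar) (hoa : o.a = a) (δ κ : ℝ) (hδ : 0 < δ) (hκ : 0 < κ) (h0 : ℝ≥0) (A : ℝ) (hA : 1 ≤ A)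
    (𝒱 : Vol) (hgeo : GeoOK 𝒱.c (vR 𝒱)) (W : Wt 𝒱.c) (hS : W.Str) (hR : W.IsReal) (hE : W.IsEven) (ε Ct : ℝ) (hε : 0 ≤ ε) (hCt : 0 ≤ Ct)
    (hHol : ∀ π ⊆ items 𝒱.c (vR 𝒱), Hol h0 𝒱.g (cover (vNest 𝒱) (vR 𝒱) π) (W.EF a 𝒱.g.m (vR 𝒱) π))
    (hNorm : ∀ X : Finset 𝒱.g.I, X.Nonempty → ∀ (φ lam : 𝒱.G.V → ℝ) (f : 𝒱.G.V → ℂ), tnorm 𝒱.g X f < h0 →
      ∑ π ∈ (items 𝒱.c (vR 𝒱)).powerset.filter (fun π => cover (vNest 𝒱) (vR 𝒱) π = X), ‖W.EF a 𝒱.g.m (vR 𝒱) π (toC φ + toC lam + f)‖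
        ≤ ε * (A ^ X.card)⁻¹ * Real.exp (Vobs a o.hstar o.p1 𝒱.c 𝒱.g (Cless 𝒱.G 𝒱.g.m) X φ
          + Ct * openE a 𝒱.c (𝒱.g.Dm X) (fun i => avg 𝒱.c (fun x => Real.sqrt a * lam x) i))) :
    Act.Ok ⟨δ, κ, h0, A, 2 * Real.pi / Real.sqrt a⟩ 0 RR (W.Kact a (vNest 𝒱) (vR 𝒱)) ∧ Act.Real (W.Kact a (vNest 𝒱) (vR 𝒱)) ∧
      Act.Even h0 (W.Kact a (vNest 𝒱) (vR 𝒱)) ∧ NormLE 𝒱 ⟨δ, κ, h0, A, 2 * Real.pi / Real.sqrt a⟩ o (W.Kact a (vNest 𝒱) (vR 𝒱)) ε := by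
  have hA0 : 0 < A := by linarith
  refine ⟨⟨fun X => ⟨?_, ?_, ?_⟩, fun X hX => ?_⟩, pr_Kact_real hR a _ _, fun X z _ => pr_Kact_even hE a _ _ X z, fun V hV => ?_⟩
  · show Hol h0 𝒱.g X (W.Kact a (vNest 𝒱) (vR 𝒱) X)
    unfold Wt.Kact
    split_ifs with hc
    · refine DifferentiableOn.sum fun π hπ => ?_
      obtain ⟨h1, h2⟩ := Finset.mem_filter.1 hπ
      have := hHol π (Finset.mem_powerset.1 h1)
      rw [h2] at this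
      exact this
    · exact differentiableOn_const _
  · intro z _ z' _ h
    exact pr_Kact_loc hgeo hS a _ X z z' fun v hv => h v ⟨v, hv, by rw [Reg.reg_dist_self]⟩
  · intro z _
    exact pr_Kact_per hgeo hS a ha _ X z
  · show W.Kact a (vNest 𝒱) (vR 𝒱) X = 0
    unfold Wt.Kact
    rw [if_neg hX]
  · refine main_norm_of_bound _ V _ ε hδ.le hκ.le hA0 fun X φ f hf => ?_
    show ‖W.Kact a (vNest 𝒱) (vR 𝒱) X (toC φ + f)‖ ≤ ε * (A ^ X.card)⁻¹ * Real.exp (V.V X φ)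
    have h3 : V.V X φ = Vobs a o.hstar o.p1 𝒱.c 𝒱.g (Cless 𝒱.G 𝒱.g.m) X φ := by rw [hV X φ, hoa]
    rw [h3]
    rcases X.eq_empty_or_nonempty with rfl | hX
    · have : W.Kact a (vNest 𝒱) (vR 𝒱) ∅ = 0 := by
        unfold Wt.Kact
        rw [if_neg]
        exact fun h => by simpa using h.1
      rw [this]
      simp only [Pi.zero_apply, norm_zero]
      positivity
    · have h1 := (main_Kact_norm_le W a (vNest 𝒱) (vR 𝒱) X (toC φ + toC (0 : 𝒱.G.V → ℝ) + f)).trans (hNorm X hX φ 0 f hf)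
      have h2 : toC φ + toC (0 : 𝒱.G.V → ℝ) + f = toC φ + f := by
        funext v; simp [toC]
      rw [h2] at h1
      refine h1.trans ?_
      have h4 := main_openE_zero a ha 𝒱.c (𝒱.g.Dm X)
      have h6 : Ct * openE a 𝒱.c (𝒱.g.Dm X) (fun i => avg 𝒱.c (fun x => Real.sqrt a * (0 : 𝒱.G.V → ℝ) x) i) ≤ 0 :=
        mul_nonpos_of_nonneg_of_nonpos hCt h4
      gcongr
      linarith

/-- the entry average of the read-out as a complex average (twin of `Ent.id_Hav_eq`) -/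
theorem ent_HavW_eq {G : Geom} (a : ℝ) (c : Grid G) (m : ℕ) (W : Wt c) (Z : (c.I → ℝ) → ℝ) (hτ : W.τ = 0)
    (hEn : ∀ y : c.I → ℝ, W.En (Top.full c) (fun i => (y i : ℂ)) = ((Top.full c).Eobs a W.τ y : ℂ))
    (hZh : ∀ y : c.I → ℝ, W.Zh (Top.full c) (fun i => (y i : ℂ)) = (Z y : ℂ)) (ψ : G.V → ℝ) :
    (Rdo.HavW a c m Z ψ : ℂ) = eav a c m (fun y => Complex.exp (W.En (Top.full c) y / 2) * W.Zh (Top.full c) y) (toC ψ) := by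
  unfold Rdo.HavW eav conv nav
  rw [← integral_complex_ofReal]
  refine integral_congr_ae (Filter.Eventually.of_forall fun ζ => ?_)
  show ((∫ e, _ ∂(noise c) : ℝ) : ℂ) = ∫ e, _ ∂(noise c)
  rw [← integral_complex_ofReal]
  refine integral_congr_ae (Filter.Eventually.of_forall fun e => ?_)
  beta_reduce
  rw [id_obsv_real, hEn, hZh, hτ]
  have e1 : (fun i => avg c (fun x => (0 : G.V → ℝ) x + Real.sqrt a * (ψ x + ζ x)) i + e i) = Rdo.obsY a c (fun x => ψ x + ζ x) e := by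
    funext i
    unfold Rdo.obsY
    simp
  rw [e1]
  push_cast
  rfl

/-! ## 5. One torus, one real parameter -/

/-- everything about ONE weight in ONE torus, from the engine -/
theorem ent_oneW (a : ℝ) (ha : 0 < a) (o : ObsPar) (hoa : o.a = a) (δ κ : ℝ) (hδ : 0 < δ) (hκ : 0 < κ) (h0 : ℝ≥0) (A : ℝ) (hA : 1 ≤ A)
    (𝒱 : Vol) (R : ℕ) (hvR : vR 𝒱 = R) (hgeo : GeoOK 𝒱.c R) (hg : 𝒱.g.Ok) (hnest : NestOK (vNest 𝒱) R)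
    (W : Wt 𝒱.c) (hS : W.Str) (hR : W.IsReal) (hE : W.IsEven) (hτ : W.τ = 0) (hQ : ∀ T, W.Q T = T.Qmat a)
    (Z : (𝒱.c.I → ℝ) → ℝ) (hZh : ∀ y : 𝒱.c.I → ℝ, W.Zh (Top.full 𝒱.c) (fun i => (y i : ℂ)) = (Z y : ℂ))
    (ε Ct : ℝ) (hε : 0 ≤ ε) (hCt : 0 ≤ Ct)
    (hHol : ∀ π ⊆ items 𝒱.c R, Hol h0 𝒱.g (cover (vNest 𝒱) R π) (W.EF a 𝒱.g.m R π) ∧
      ∀ z : 𝒱.G.V → ℂ, tnorm 𝒱.g (cover (vNest 𝒱) R π) (fun v => (z v).im) ≤ h0 → Itg a 𝒱.c 𝒱.g.m (W.pfac R π) z)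
    (hNorm : ∀ X : Finset 𝒱.g.I, X.Nonempty → ∀ (φ lam : 𝒱.G.V → ℝ) (f : 𝒱.G.V → ℂ), tnorm 𝒱.g X f < h0 →
      ∑ π ∈ (items 𝒱.c R).powerset.filter (fun π => cover (vNest 𝒱) R π = X), ‖W.EF a 𝒱.g.m R π (toC φ + toC lam + f)‖
        ≤ ε * (A ^ X.card)⁻¹ * Real.exp (Vobs a o.hstar o.p1 𝒱.c 𝒱.g (Cless 𝒱.G 𝒱.g.m) X φ
          + Ct * openE a 𝒱.c (𝒱.g.Dm X) (fun i => avg 𝒱.c (fun x => Real.sqrt a * lam x) i))) :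
    Act.Ok ⟨δ, κ, h0, A, 2 * Real.pi / Real.sqrt a⟩ 0 RR (W.Kact a (vNest 𝒱) (vR 𝒱)) ∧ Act.Real (W.Kact a (vNest 𝒱) (vR 𝒱)) ∧
      Act.Even h0 (W.Kact a (vNest 𝒱) (vR 𝒱)) ∧ NormLE 𝒱 ⟨δ, κ, h0, A, 2 * Real.pi / Real.sqrt a⟩ o (W.Kact a (vNest 𝒱) (vR 𝒱)) ε ∧
      ∃ cG : ℝ, 0 < cG ∧ ∀ ψ : 𝒱.G.V → ℝ, (Rdo.HavW a 𝒱.c 𝒱.m Z ψ : ℂ) = cG * ZA 𝒱.g RR (W.Kact a (vNest 𝒱) (vR 𝒱)) (toC ψ) := by
  subst hvR
  obtain ⟨k1, k2, k3, k4⟩ := ent_bulkW a ha o hoa δ κ hδ hκ h0 A hA 𝒱 hgeo W hS hR hE ε Ct hε hCt (fun π hπ => (hHol π hπ).1) hNorm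
  refine ⟨k1, k2, k3, k4, W.scal (vR 𝒱), scal_pos hS _, fun ψ => ?_⟩
  rw [ent_HavW_eq a 𝒱.c 𝒱.m W Z hτ (id_En_real hgeo.whole ha W hQ _ (id_full_ok _)) hZh ψ]
  refine ent_identW hgeo hg hnest a hS (toC ψ) fun π hπ => (hHol π hπ).2 (toC ψ) ?_
  have : (fun v => (toC ψ v).im) = (0 : 𝒱.G.V → ℝ) := by
    funext v; simp [toC]
  rw [this, Hol.tnorm_zero]
  exact zero_le

/-! ## 6. The theorem -/

theorem aPrime_pos {a dl : ℝ} (ha : 0 < a) (hdl : 0 < dl) : 0 < aPrime a dl := by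
  unfold aPrime
  positivity

/-- **L5.4 from the exit statements of the posts**, in the format of `C5/GW.lean` (quantifiers of `F4b.initialization`; `t = 2^kt`, `s0 = 2^k0`, `s = t s0`, `q = 1`, `m = R s`). -/
theorem gentry_of (hNorm : NormStmt) (hHol : HolStmt) (hLink : LinkStmt) (hLaw : StrLawStmt) (hPhys : StrPhysStmt) (hMaj : StrMajStmt)
    (hSym : StrSymStmt) (hCopy : StrCopyStmt) (b0 dl : ℝ) (hb0 : 0 < b0) (hdl : 0 < dl) (ha : 0 < aLim b0) :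
    ∃ (cstar δ0 : ℝ) (kq c0 : ℕ) (D : StrData), 0 < cstar ∧ cstar < 1 ∧ 0 < δ0 ∧
    ∀ o : ObsPar, o.a = aPrime (aLim b0) dl → 1 - cstar < o.hstar → ∀ δ ∈ Set.Ioc 0 δ0, ∃ κ0 > (0 : ℝ), ∀ κ ∈ Set.Ioc 0 κ0,
    ∀ (h0 : ℝ≥0) (A : ℝ), 1 ≤ A →
    ∃ (C c : ℝ) (k1 : ℕ), 0 < c ∧ ∀ kR ≥ k1, ∃ kt0 : ℕ, ∀ kt ≥ kt0, ∃ k00 : ℕ, ∀ k0 ≥ k00, ∃ I ∈ 𝓝 b0,
      ∀ 𝒱 : Vol, 𝒱.G.bc = BC.per → 𝒱.Adm (2 ^ kq) (2 ^ kR) (2 ^ (kt + k0)) →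
        BulkS D dl (aPrime (aLim b0) dl) ⟨δ, κ, h0, A, 2 * Real.pi / Real.sqrt (aPrime (aLim b0) dl)⟩ o I (C * Real.exp (-c * 2 ^ kR)) (2 ^ k0) 𝒱 ∧
        ∀ 𝒱' : Vol, 𝒱'.G.bc = BC.per → 𝒱'.Adm (2 ^ kq) (2 ^ kR) (2 ^ (kt + k0)) → CopyS D h0 c0 I (2 ^ k0) 𝒱 𝒱' := by
  have ha' : 0 < aPrime (aLim b0) dl := aPrime_pos ha hdl
  generalize haa : aPrime (aLim b0) dl = a' at ha'
  obtain ⟨cstar, hc0, hc1, hPh⟩ := hPhys b0 (aLim b0) dl hb0 ha rfl hdl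
  rw [haa] at hPh
  obtain ⟨c0, hCp⟩ := hCopy
  obtain ⟨Cl, cl, kL, hcl, hLk⟩ := hLink a' ha'
  refine ⟨cstar, 1, 0, c0, strData dl a' b0, hc0, hc1, one_pos, fun o hoa hhs δ hδ => ⟨1, one_pos, fun κ hκ h0 A hA => ?_⟩⟩
  -- the loads
  obtain ⟨cb, h1, h2, hcbs, hcb0, hcb1, h12, h2s⟩ : ∃ cb h1 h2 : ℝ, 1 - cstar < cb ∧ 0 < cb ∧ cb < h1 ∧ h1 < h2 ∧ h2 < o.hstar :=
    ⟨1 - cstar + (o.hstar - (1 - cstar)) / 4, 1 - cstar + (o.hstar - (1 - cstar)) / 2, 1 - cstar + 3 * (o.hstar - (1 - cstar)) / 4,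
      by linarith, by linarith, by linarith, by linarith, by linarith⟩
  have hp2 : 0 < o.p2 := by linarith [o.one_lt, o.p_lt]
  have hp : o.p1 * o.hstar < 1 := by
    calc o.p1 * o.hstar < o.p2 * (1 / o.p2) := mul_lt_mul'' o.p_lt o.h_lt (by linarith [o.one_lt]) o.h_pos.le
      _ = 1 := by field_simp
  have hs1 : o.hstar < 1 := by
    have h3 : 1 / o.p2 < 1 := by
      rw [div_lt_one hp2]
      linarith [o.one_lt, o.p_lt]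
    linarith [o.h_lt]
  have hθ : 0 ≤ thetaOf h1 h2 := by
    unfold thetaOf
    have : 0 < 1 - h2 := by linarith
    have : 0 < h1 := by linarith
    have : 0 < h2 := by linarith
    positivity
  have hH : 0 ≤ 5 * Real.sqrt a' * h0 := by positivity
  obtain ⟨Ct, hCt, hNm⟩ := hNorm a' o.hstar o.p1 cb h1 h2 ha' o.one_lt hp hcb0 hcb1 h12 h2s
  obtain ⟨C, cg, kP, hcg, hPh2⟩ := hPh cb (thetaOf h1 h2) hcbs hθ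
  obtain ⟨C1, c1, kN, hc1', hNm2⟩ := hNm h0 A hA C cg Cl cl hcg hcl
  obtain ⟨kH, hHl⟩ := hHol a' o.hstar o.p1 cb h1 h2 ha' o.one_lt hp hcb0 hcb1 h12 h2s h0 Cl cl hcl
  refine ⟨max C1 0, c1, max 6 (max kP (max kL (max kN kH))), hc1', fun kR hkR => ?_⟩
  simp only [ge_iff_le, max_le_iff] at hkR
  obtain ⟨hk6, hkP, hkL, hkN, hkH⟩ := hkR
  obtain ⟨CR, hCR, hPh3⟩ := hPh2 kR hkP
  obtain ⟨CM, hCM, hMj⟩ := hMaj a' (5 * Real.sqrt a' * h0) (2 ^ kR) ha' hH (by positivity)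
  obtain ⟨ρ, hρ0, hρ1, hNm3⟩ := hNm2 kR hkN (CM * CR)
  obtain ⟨T0, hT0⟩ := eventually_atTop.1 hPh3
  refine ⟨T0, fun kt hkt => ?_⟩
  obtain ⟨S0, hS0⟩ := eventually_atTop.1 (hT0 (2 ^ kt) (hkt.trans Nat.lt_two_pow_self.le))
  refine ⟨S0, fun k0 hk0 => ?_⟩
  refine ⟨_, Filter.inter_mem (Ioi_mem_nhds hb0) (hS0 (2 ^ k0) (hk0.trans Nat.lt_two_pow_self.le)), fun 𝒱 hper hV => ?_⟩
  -- one torus
  have hV1 : 𝒱.Adm 1 (2 ^ kR) (2 ^ kt * 2 ^ k0) := by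
    rw [← pow_add, ← pow_zero 2]
    exact hV
  obtain ⟨hvR, hcm, hgeo, hg, hnest, h5⟩ := ent_vol 𝒱 kR (2 ^ kt * 2 ^ k0) hk6 (by positivity) hV1
  have hgeo' : GeoOK 𝒱.c (vR 𝒱) := by rw [hvR]; exact hgeo
  have hnest' : NestOK (vNest 𝒱) (vR 𝒱) := by rw [hvR]; exact hnest
  have hd : 2 ^ k0 ∣ 𝒱.s := by
    rw [hV1.hs]
    exact Dvd.intro_left _ rfl
  have hdM : 2 ^ k0 ∣ 𝒱.G.M := dvd_trans hd (dvd_trans 𝒱.hsm 𝒱.hmM)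
  have hes : EsVol 𝒱.c (vC0 𝒱 (2 ^ k0) hd) (2 ^ kt) (2 ^ k0) := ent_esVol 𝒱 _ _ (by positivity) hV1.hs hgeo.whole hd
  have hkLR : 2 ^ kL ≤ 2 ^ kR := Nat.pow_le_pow_right (by norm_num) hkL
  have hε0 : 0 ≤ max C1 0 * Real.exp (-c1 * 2 ^ kR) := mul_nonneg (le_max_right _ _) (Real.exp_pos _).le
  have key : ∀ b ∈ Set.Ioi (0 : ℝ) ∩ {b' : ℝ | ∀ (G : Geom) (c0 c : Grid G) (N0 : Nest c0 c), G.bc = BC.per → EsVol c c0 (2 ^ kt) (2 ^ k0) →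
      GeoOK c (2 ^ kR) → (2 ^ kR) ^ 5 ≤ c.n →
        Phys (strWt N0 dl a' b0 b') (2 ^ kR) ∅ a' cb (thetaOf h1 h2) 0 (C * Real.exp (-cg * 2 ^ kR)) 1 ∧
        PhysPos (strWt N0 dl a' b0 b') (2 ^ kR) ∅ a' cb (thetaOf h1 h2) CR 1},
      Act.Ok ⟨δ, κ, h0, A, 2 * Real.pi / Real.sqrt a'⟩ 0 RR (strK0 dl a' b0 (2 ^ k0) 𝒱 b) ∧ Act.Real (strK0 dl a' b0 (2 ^ k0) 𝒱 b) ∧
      Act.Even h0 (strK0 dl a' b0 (2 ^ k0) 𝒱 b) ∧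
      NormLE 𝒱 ⟨δ, κ, h0, A, 2 * Real.pi / Real.sqrt a'⟩ o (strK0 dl a' b0 (2 ^ k0) 𝒱 b) (max C1 0 * Real.exp (-c1 * 2 ^ kR)) ∧
      ∃ cG : ℝ, 0 < cG ∧ ∀ ψ : 𝒱.G.V → ℝ, (Rdo.HavW a' 𝒱.c 𝒱.m (WS dl b 𝒱.c (subGrid 𝒱.G (2 ^ k0))) ψ : ℂ)
        = cG * ZA 𝒱.g RR (strK0 dl a' b0 (2 ^ k0) 𝒱 b) (toC ψ) := by
    rintro b ⟨hbpos, hP⟩
    have hbpos' : 0 < b := hbpos
    obtain ⟨hPr, hPp⟩ := hP 𝒱.G (vC0 𝒱 (2 ^ k0) hd) 𝒱.c (vN0 𝒱 (2 ^ k0) hd) hper hes hgeo h5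
    obtain ⟨hS, hRe, hEv, hZh⟩ := hLaw 𝒱.G (vC0 𝒱 (2 ^ k0) hd) 𝒱.c (vN0 𝒱 (2 ^ k0) hd) dl a' b0 b hgeo.whole hes.hc0 hdl.le ha' hb0 hbpos'
    have hlink : LinkOK (strWt (vN0 𝒱 (2 ^ k0) hd) dl a' b0 b) (2 ^ kR) Cl cl := hLk 𝒱.G 𝒱.c (2 ^ kR) hgeo hkLR _ (fun T => rfl)
    have hcx := hMj 𝒱.G (vC0 𝒱 (2 ^ k0) hd) 𝒱.c (vN0 𝒱 (2 ^ k0) hd) dl b0 b cb (thetaOf h1 h2) CR hes.hc0 hgeo hdl.le hb0 hbpos' hθ hCR hPp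
    have hfam := ent_famOK (strWt (vN0 𝒱 (2 ^ k0) hd) dl a' b0 b) (2 ^ kR) a' cb (thetaOf h1 h2) (5 * Real.sqrt a' * h0)
      (C * Real.exp (-cg * 2 ^ kR)) (CM * CR) Cl cl hS rfl hlink hPr hcx
    have hHolW := hHl kR hkH 𝒱.G 𝒱.c 𝒱.g (vNest 𝒱) hgeo hg hnest 0 1 _ _ _ one_pos hfam
    have hNormW := hNm3 𝒱.G 𝒱.c 𝒱.g (vNest 𝒱) hgeo hg hnest 0 1 _ one_pos hfam ((0 : ℝ) : ℂ) (Metric.mem_ball_self (by positivity))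
    rw [strK0_of_dvd dl a' b0 hd b, subGrid_eq 𝒱.G hdM]
    refine ent_oneW a' ha' o hoa δ κ hδ.1 hκ.1 h0 A hA 𝒱 (2 ^ kR) hvR hgeo hg hnest _ hS hRe hEv rfl (fun _ => rfl) _
      (fun y => hZh (Top.full 𝒱.c) y (id_full_ok _)) _ Ct hε0 hCt
      (fun π hπ => ⟨(hHolW π hπ).1 ((0 : ℝ) : ℂ) (Metric.mem_ball_self one_pos), (hHolW π hπ).2.2 ((0 : ℝ) : ℂ) (Metric.mem_ball_self one_pos)⟩)
      fun X hX φ lam f hf => (hNormW X hX φ lam f hf).trans ?_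
    have : C1 ≤ max C1 0 := le_max_left _ _
    have hA0 : 0 < A := by linarith
    gcongr
  refine ⟨⟨fun b hb => (key b hb).1, fun b hb => (key b hb).2.2.1, fun b _ => ?_, fun b hb => (key b hb).2.2.2.1, fun b hb => (key b hb).2.2.2.2⟩,
    fun 𝒱' hper' hV' b _ => ?_⟩
  · exact hSym dl a' b0 b h0 (2 ^ k0) 𝒱 hper (by positivity) hd hgeo' hg hnest' hdl.le ha' hb0
  · have hV1' : 𝒱'.Adm 1 (2 ^ kR) (2 ^ kt * 2 ^ k0) := by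
      rw [← pow_add, ← pow_zero 2]
      exact hV'
    obtain ⟨hvR', _, hgeoV', _, _, _⟩ := ent_vol 𝒱' kR (2 ^ kt * 2 ^ k0) hk6 (by positivity) hV1'
    exact hCp dl a' b0 b h0 (2 ^ k0) 𝒱 𝒱' hdl.le ha' hb0 hper hper' (hV1.hs.trans hV1'.hs.symm) (hV1.hm.trans hV1'.hm.symm) (by positivity) hd hgeo'
      (by rw [hvR']; exact hgeoV')

end

end Claimed.Agent.R285.C5
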