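import Claimed.Agent.R285.C5.EntDefs
import Claimed.Agent.R285.C5.EntSub
import Claimed.Agent.R285.C5.GW
import Claimed.Agent.R285.C5.Entry
import Claimed.Agent.R285.C5.EntLaw
import Claimed.Agent.R285.Ent.TrCopy
import Claimed.Agent.R285.Entry.PhyXY

/-!
# ROW 285, [C] s5, ENTRY OF THE STRENGTHENED LAW: SYMMETRIES AND COPIES      (architect helper155, chief helper262)
PAPER-FREE.   **`esy_iso`** : EVERY morphism of volumes `Φ : Mor N N'` (`Ent/TrDefs.lean`, helper238) carries the weights of the strengthened law: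
`WtIso Φ (strWt N0 dl a' b0 b) (strWt N0' dl a' b0 b)`, for whole subcell grids `c0`, `c0'` of the same side nested in the cells.  NO further hypothesis on `Φ`:
`esy_sub` (`C5/EntSub.lean`) shows that `Φ.ψ` respects the subcells (inside one cell `Φ.ψ` is a translation composed with a symmetry of the square, by `Mor.Ok.bond`).
* s1 transport of the generic height sum `prZg` along `EtlIso`;   s2 the subcells: `SubMap`, faces, `strEn`;   s3 `N`;   s4 `esy_iso`;   s5 exits `esy_sym`, `esy_copy`.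
All helper names: prefix `esy`.
-/

set_option autoImplicit false

namespace Claimed.Agent.R285.C5

open scoped BigOperators ENNReal NNReal
open Claimed.Agent.R285 Claimed.Agent.R285.RG Claimed.Agent.R285.F4a Claimed.Agent.R285.F4b Claimed.Agent.R285.Ent Claimed.Agent.R285.Entry

noncomputable section

/-! ## 1. Transport of the generic height sum along an isomorphism of cut topologies -/

section iso

variable {G G' : Geom} {c : Grid G} {c' : Grid G'} {T : Top c} {T' : Top c'}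

theorem esy_Av (I : EtlIso T T') {k : G.V → ℤ} {k' : G'.V → ℤ} (hk : I.VRel k k') {i : c.I} (hi : i ∈ T.cells) :
    prAv c' k' (I.φ i) = prAv c k i := by
  unfold prAv avg cellAvg
  rw [etl_sum_sites I hi (fun v => 2 * Real.pi * (k v : ℝ)) (fun v' => 2 * Real.pi * (k' v' : ℝ)) (fun v => by
    show 2 * Real.pi * (k' (I.eV v).1 : ℝ) = _
    rw [hk v]), etl_card I hi]

theorem esy_Gs (I : EtlIso T T') {k : G.V → ℤ} {k' : G'.V → ℤ} (hk : I.VRel k k') (y : c.I → ℂ) (y' : c'.I → ℂ) (hy : I.CRel y y') :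
    prGs T' y' k' = prGs T y k := by
  unfold prGs
  rw [I.cells, Finset.sum_image I.φ_inj]
  congr 3
  refine Finset.sum_congr rfl fun i hi => ?_
  rw [esy_Av I hk hi, hy i hi]

theorem esy_Om (I : EtlIso T T') (b : ℂ) {k : G.V → ℤ} {k' : G'.V → ℤ} (hk : I.VRel k k') : prOm T' b 0 k' = prOm T b 0 k := by
  classical
  unfold prOm
  rw [Finset.prod_subtype (Finset.univ.filter T'.IsEdge) (p := T'.IsEdge) (by simp),
    Finset.prod_subtype (Finset.univ.filter T.IsEdge) (p := T.IsEdge) (by simp)]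
  have h0 : ∀ (G₀ : Geom) (c₀ : Grid G₀) (e : G₀.V × Bool), prEc c₀ (0 : Face c₀ → ℤ) e = 0 := by
    intro G₀ c₀ e
    unfold prEc
    split_ifs <;> rfl
  simp only [h0, add_zero]
  have key : ∏ e' : T'.graph.E, besC b (k' (T'.graph.tgt e').1 - k' (T'.graph.src e').1)
      = ∏ e : T.graph.E, besC b (k (T.graph.tgt e).1 - k (T.graph.src e).1) := by
    rw [← I.eE.prod_comp]
    refine Finset.prod_congr rfl fun e _ => ?_
    rw [I.src, I.tgt, hk, hk]
    cases I.rv e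
    · rfl
    · simp only [if_true]
      rw [← pr_besC_neg]
      congr 1
      ring
  exact key

theorem esy_ext (I : EtlIso T T') (h : T.graph.V → ℤ) : I.VRel (prExt T h) (prExt T' fun v' => h (I.eV.symm v')) := by
  intro v
  rw [pr_ext_coe, pr_ext_coe, Equiv.symm_apply_apply]

/-- sums over the heights on the retained sites -/
theorem esy_tsum {β : Type} [AddCommMonoid β] [TopologicalSpace β] (I : EtlIso T T') (F : (G.V → ℤ) → β) (F' : (G'.V → ℤ) → β)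
    (hF : ∀ k k', I.VRel k k' → F' k' = F k) : ∑' h' : T'.graph.V → ℤ, F' (prExt T' h') = ∑' h : T.graph.V → ℤ, F (prExt T h) := by
  rw [← (Equiv.arrowCongr I.eV (Equiv.refl ℤ)).tsum_eq]
  refine tsum_congr fun h => ?_
  exact hF _ _ (esy_ext I h)

/-- **transport of the generic height sum** -/
theorem esy_Zg (I : EtlIso T T') (om : (G.V → ℤ) → ℂ) (om' : (G'.V → ℤ) → ℂ) (hom : ∀ k k', I.VRel k k' → om' k' = om k)
    (y : c.I → ℂ) (y' : c'.I → ℂ) (hy : I.CRel y y') : prZg T' om' y' = prZg T om y := by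
  unfold prZg
  exact esy_tsum I (fun k => om k * prGs T y k) (fun k' => om' k' * prGs T' y' k') fun k k' hk => by
    show om' k' * _ = om k * _
    rw [hom k k' hk, esy_Gs I hk y y' hy]

end iso

/-! ## 2. The subcells -/

section sub

variable {G G' : Geom} {c g : Grid G} {c' g' : Grid G'} {N : Nest c g} {N' : Nest c' g'} {c0 : Grid G} {c0' : Grid G'}

/-- the map of the subcells -/
structure SubMap (Φ : Mor N N') (c0 : Grid G) (c0' : Grid G') where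
  φ0 : c0.I → c0'.I
  blk : ∀ v, c0'.blk (Φ.ψ v) = φ0 (c0.blk v)
  inj : Function.Injective φ0

theorem esy_blk_surj (hc0 : Whole c0) (j : c0.I) : ∃ v, c0.blk v = j := by
  obtain ⟨x, hx⟩ := enb_blk1_surj hc0 j.1
  obtain ⟨y, hy⟩ := enb_blk1_surj hc0 j.2
  exact ⟨(x, y), Prod.ext hx hy⟩

theorem esy_map_exists {Φ : Mor N N'} (hS : SubOk Φ c0 c0') (hc0 : Whole c0) : Nonempty (SubMap Φ c0 c0') := by
  choose r hr using esy_blk_surj hc0
  refine ⟨⟨fun j => c0'.blk (Φ.ψ (r j)), fun v => (hS _ _).2 (hr _).symm, fun j j' h => ?_⟩⟩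
  have := (hS _ _).1 h
  rwa [hr, hr] at this

/-- the image of a face of the subcell grid -/
def SubMap.F {Φ : Mor N N'} (S : SubMap Φ c0 c0') (f : Face c0) : Face c0' := (if Φ.rv f.2 then S.φ0 (fnb c0 f) else S.φ0 f.1, Φ.δ f.2)

variable {Φ : Mor N N'} (S : SubMap Φ c0 c0') {R : ℕ} (hΦ : Φ.Ok R)

include hΦ in
theorem esy_up (hc0 : Whole c0) (N0 : Nest c0 c) (N0' : Nest c0' c') (j : c0.I) : N0'.up (S.φ0 j) = Φ.φ (N0.up j) := by
  obtain ⟨v, rfl⟩ := esy_blk_surj hc0 j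
  rw [← S.blk, ← res_blk_up, ← res_blk_up, hΦ.blk]

include hΦ in
theorem esy_sites (hc0 : Whole c0) (N0 : Nest c0 c) (N0' : Nest c0' c') (j : c0.I) : c0'.sites {S.φ0 j} = (c0.sites {j}).image Φ.ψ := by
  ext v'
  simp only [Grid.sites, Finset.mem_filter, Finset.mem_univ, true_and, Finset.mem_singleton, Finset.mem_image]
  constructor
  · intro h
    have h1 : c'.blk v' = Φ.φ (N0.up j) := by rw [res_blk_up N0', h, esy_up S hΦ hc0 N0 N0']
    obtain ⟨v, rfl⟩ := hΦ.blk_lift _ v' h1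
    exact ⟨v, S.inj (by rw [← S.blk, h]), rfl⟩
  · rintro ⟨v, hv, rfl⟩
    rw [S.blk, hv]

include hΦ in
/-- averages over corresponding subcells -/
theorem esy_Av0 (hc0 : Whole c0) (N0 : Nest c0 c) (N0' : Nest c0' c') (j : c0.I) (k : G.V → ℤ) (k' : G'.V → ℤ)
    (hk : ∀ v, c0.blk v = j → k' (Φ.ψ v) = k v) : prAv c0' k' (S.φ0 j) = prAv c0 k j := by
  unfold prAv avg cellAvg
  rw [esy_sites S hΦ hc0 N0 N0', Finset.sum_image hΦ.ψ_inj.injOn, Finset.card_image_of_injective _ hΦ.ψ_inj]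
  congr 1
  refine Finset.sum_congr rfl fun v hv => ?_
  rw [hk v (by simpa [Grid.sites] using hv)]

include hΦ in
/-- the image of a bond which crosses a face of the subcell grid -/
theorem esy_E_cross (hc0 : Whole c0) (e : G.V × Bool) (hne : c0.blk (stp e.1 e.2) ≠ c0.blk e.1) :
    c0'.blk (stp (Φ.E e).1 (Φ.E e).2) ≠ c0'.blk (Φ.E e).1 ∧ (c0'.blk (Φ.E e).1, (Φ.E e).2) = S.F (c0.blk e.1, e.2) := by
  have h0 : stp e.1 e.2 ≠ e.1 := fun h => hne (by rw [h])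
  have ht := etl_E_tgt Φ hΦ e h0
  have hs : (Φ.E e).1 = if Φ.rv e.2 then Φ.ψ (stp e.1 e.2) else Φ.ψ e.1 := rfl
  have hd : (Φ.E e).2 = Φ.δ e.2 := rfl
  rw [ht, hs, hd]
  unfold SubMap.F
  cases hr : Φ.rv e.2
  · simp only [Bool.false_eq_true, if_false, S.blk]
    exact ⟨fun h => hne (S.inj h), trivial⟩
  · simp only [if_true, S.blk]
    refine ⟨fun h => hne (S.inj h).symm, ?_⟩
    rw [enb_blk_stp hc0 e.1 e.2 hne]

include hΦ in
theorem esy_face (hc0 : Whole c0) (hc0' : Whole c0') (f : Face c0) (hf : IsFace c0 f) :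
    IsFace c0' (S.F f) ∧ fnb c0' (S.F f) = if Φ.rv f.2 then S.φ0 f.1 else S.φ0 (fnb c0 f) := by
  obtain ⟨v, hv1, hv2⟩ := res_cross hc0 f hf
  have hne : c0.blk (stp (v, f.2).1 (v, f.2).2) ≠ c0.blk (v, f.2).1 := by
    show c0.blk (stp v f.2) ≠ c0.blk v
    rw [hv1, hv2]
    exact res_fnb_ne hc0 f
  obtain ⟨h1, h2⟩ := esy_E_cross S hΦ hc0 (v, f.2) hne
  have h3 : S.F (c0.blk (v, f.2).1, (v, f.2).2) = S.F f := by
    show S.F (c0.blk v, f.2) = S.F f
    rw [hv1]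
  rw [h3] at h2
  rw [← h2]
  refine ⟨enc_isFace hc0' _ _ h1, ?_⟩
  rw [← enb_blk_stp hc0' _ _ h1, etl_E_tgt Φ hΦ (v, f.2) fun h => hne (by rw [h])]
  show c0'.blk (if Φ.rv f.2 then Φ.ψ v else Φ.ψ (stp v f.2)) = _
  cases Φ.rv f.2
  · simp only [Bool.false_eq_true, if_false, S.blk, hv2]
  · simp only [if_true, S.blk, hv1]

include hΦ in
theorem esy_F_inj (hc0 : Whole c0) (hc0' : Whole c0') {f f' : Face c0} (hf : IsFace c0 f) (hf' : IsFace c0 f') (h : S.F f = S.F f') : f = f' := by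
  have h2 : f.2 = f'.2 := hΦ.δ_inj (congrArg Prod.snd h)
  have h1 := congrArg Prod.fst h
  have k := (esy_face S hΦ hc0 hc0' f hf).2
  have k' := (esy_face S hΦ hc0 hc0' f' hf').2
  rw [h, k', ← h2] at k
  unfold SubMap.F at h1
  simp only [← h2] at h1
  cases hr : Φ.rv f.2
  · rw [hr] at h1
    exact Prod.ext (S.inj (by simpa using h1)) h2
  · rw [hr] at k
    exact Prod.ext (S.inj (by simpa using k.symm)) h2

/-- a subcell face is retained iff the primary bonds which cross it are retained -/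
theorem esy_car_edge (hc : Whole c) (hc0 : Whole c0) (N0 : Nest c0 c) (T : Top c) (e : G.V × Bool) (hne : c0.blk (stp e.1 e.2) ≠ c0.blk e.1) :
    carIn T (carS N0 (c0.blk e.1, e.2)) ↔ T.IsEdge e := by
  have h0 : stp e.1 e.2 ≠ e.1 := fun h => hne (by rw [h])
  have hf : IsFace c0 (c0.blk e.1, e.2) := enc_isFace hc0 _ _ hne
  have hn : fnb c0 (c0.blk e.1, e.2) = c0.blk (stp e.1 e.2) := (enb_blk_stp hc0 _ _ hne).symm
  unfold carS
  rw [if_pos hf, hn, ← res_blk_up, ← res_blk_up]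
  unfold Top.IsEdge
  by_cases h : c.blk (stp e.1 e.2) = c.blk e.1
  · rw [if_pos h, h]
    show c.blk e.1 ∈ T.cells ↔ _
    exact ⟨fun h1 => ⟨h0, h1, h1, Or.inl rfl⟩, fun h1 => h1.2.1⟩
  · rw [if_neg h]
    show ((c.blk e.1, e.2) ∈ T.faces ∧ c.blk e.1 ∈ T.cells ∧ fnb c (c.blk e.1, e.2) ∈ T.cells) ↔ _
    rw [← enb_blk_stp hc _ _ h]
    exact ⟨fun h1 => ⟨h0, h1.2.1, h1.2.2, Or.inr h1.1⟩, fun h1 => ⟨h1.2.2.2.resolve_left h, h1.2.1, h1.2.2.1⟩⟩

theorem esy_mem_strF (N0 : Nest c0 c) (T : Top c) (f : Face c0) : f ∈ strF N0 T ↔ carIn T (carS N0 f) := by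
  classical
  unfold strF
  simp

theorem esy_strF_face (N0 : Nest c0 c) (T : Top c) {f : Face c0} (hf : f ∈ strF N0 T) : IsFace c0 f := by
  rw [esy_mem_strF] at hf
  by_contra h
  unfold carS at hf
  rw [if_neg h] at hf
  exact hf

/-- the two subcells of a retained face lie in present cells -/
theorem esy_strF_cells (hc : Whole c) (hc0 : Whole c0) (N0 : Nest c0 c) (T : Top c) {f : Face c0} (hf : f ∈ strF N0 T) :
    N0.up f.1 ∈ T.cells ∧ N0.up (fnb c0 f) ∈ T.cells := by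
  obtain ⟨v, hv1, hv2⟩ := res_cross hc0 f (esy_strF_face N0 T hf)
  have hne : c0.blk (stp (v, f.2).1 (v, f.2).2) ≠ c0.blk (v, f.2).1 := by
    show c0.blk (stp v f.2) ≠ c0.blk v
    rw [hv1, hv2]
    exact res_fnb_ne hc0 f
  have h := (esy_car_edge hc hc0 N0 T (v, f.2) hne).1 (by
    show carIn T (carS N0 (c0.blk v, f.2))
    rw [hv1]
    exact (esy_mem_strF N0 T f).1 hf)
  have h1 : c.blk v ∈ T.cells := h.2.1
  have h2 : c.blk (stp v f.2) ∈ T.cells := h.2.2.1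
  rw [res_blk_up N0, hv1] at h1
  rw [res_blk_up N0, hv2] at h2
  exact ⟨h1, h2⟩

include hΦ in
/-- **the retained subcell faces of the image** -/
theorem esy_strF_image (hc : Whole c) (hc' : Whole c') (hc0 : Whole c0) (hc0' : Whole c0') (N0 : Nest c0 c) (N0' : Nest c0' c') (T : Top c) (hT : T.Ok) :
    strF N0' (Φ.top T) = (strF N0 T).image S.F := by
  ext f'
  rw [Finset.mem_image]
  constructor
  · intro hf'
    obtain ⟨v', hv1, hv2⟩ := res_cross hc0' f' (esy_strF_face N0' _ hf')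
    have hne' : c0'.blk (stp (v', f'.2).1 (v', f'.2).2) ≠ c0'.blk (v', f'.2).1 := by
      show c0'.blk (stp v' f'.2) ≠ c0'.blk v'
      rw [hv1, hv2]
      exact res_fnb_ne hc0' f'
    have hE' := (esy_car_edge hc' hc0' N0' (Φ.top T) (v', f'.2) hne').1 (by
      show carIn (Φ.top T) (carS N0' (c0'.blk v', f'.2))
      rw [hv1]
      exact (esy_mem_strF N0' _ f').1 hf')
    obtain ⟨e, he, hEe⟩ := etl_E_surj Φ hΦ hc' T hT _ hE'
    have hne : c0.blk (stp e.1 e.2) ≠ c0.blk e.1 := by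
      intro h
      apply hne'
      rw [← hEe, etl_E_tgt Φ hΦ e he.1]
      unfold Mor.E
      cases Φ.rv e.2
      · simp only [Bool.false_eq_true, if_false, S.blk, h]
      · simp only [if_true, S.blk, h]
    refine ⟨(c0.blk e.1, e.2), (esy_mem_strF N0 T _).2 ((esy_car_edge hc hc0 N0 T e hne).2 he), ?_⟩
    rw [← (esy_E_cross S hΦ hc0 e hne).2, hEe]
    exact Prod.ext hv1 rfl
  · rintro ⟨f, hf, rfl⟩
    obtain ⟨v, hv1, hv2⟩ := res_cross hc0 f (esy_strF_face N0 T hf)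
    have hne : c0.blk (stp (v, f.2).1 (v, f.2).2) ≠ c0.blk (v, f.2).1 := by
      show c0.blk (stp v f.2) ≠ c0.blk v
      rw [hv1, hv2]
      exact res_fnb_ne hc0 f
    have hE := (esy_car_edge hc hc0 N0 T (v, f.2) hne).1 (by
      show carIn T (carS N0 (c0.blk v, f.2))
      rw [hv1]
      exact (esy_mem_strF N0 T f).1 hf)
    obtain ⟨h1, h2⟩ := esy_E_cross S hΦ hc0 (v, f.2) hne
    have h3 : S.F (c0.blk (v, f.2).1, (v, f.2).2) = S.F f := by
      show S.F (c0.blk v, f.2) = S.F f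
      rw [hv1]
    rw [esy_mem_strF, ← h3, ← h2]
    exact (esy_car_edge hc' hc0' N0' (Φ.top T) _ h1).2 (etl_E_edge Φ hΦ hc T _ hE)

include S hΦ in
/-- **transport of the averaged gradient energy** -/
theorem esy_En (hc : Whole c) (hc' : Whole c') (hc0 : Whole c0) (hc0' : Whole c0') (N0 : Nest c0 c) (N0' : Nest c0' c') (T : Top c) (hT : T.Ok)
    (k : G.V → ℤ) (k' : G'.V → ℤ) (hk : ∀ v, c.blk v ∈ T.cells → k' (Φ.ψ v) = k v) : strEn N0' (Φ.top T) k' = strEn N0 T k := by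
  unfold strEn
  rw [esy_strF_image S hΦ hc hc' hc0 hc0' N0 N0' T hT,
    Finset.sum_image fun f hf f' hf' h => esy_F_inj S hΦ hc0 hc0' (esy_strF_face N0 T hf) (esy_strF_face N0 T hf') h]
  refine Finset.sum_congr rfl fun f hf => ?_
  obtain ⟨u1, u2⟩ := esy_strF_cells hc hc0 N0 T hf
  have a1 : prAv c0' k' (S.φ0 f.1) = prAv c0 k f.1 :=
    esy_Av0 S hΦ hc0 N0 N0' _ k k' fun v hv => hk v (by rw [res_blk_up N0, hv]; exact u1)
  have a2 : prAv c0' k' (S.φ0 (fnb c0 f)) = prAv c0 k (fnb c0 f) :=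
    esy_Av0 S hΦ hc0 N0 N0' _ k k' fun v hv => hk v (by rw [res_blk_up N0, hv]; exact u2)
  rw [(esy_face S hΦ hc0 hc0' f (esy_strF_face N0 T hf)).2]
  unfold SubMap.F
  cases Φ.rv f.2
  · simp only [Bool.false_eq_true, if_false, a1, a2]
  · simp only [if_true, a1, a2]
    ring

end sub

/-! ## 3. The normaliser as a sum over the heights on the retained sites -/

section norm

variable {G : Geom} {c c0 : Grid G}

theorem esy_rv_inl (b dl : ℝ) (i : c.I) (k : G.V → ℤ) : (facS c c0 b dl).rv (Sum.inl i) k = prAv c k i := by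
  unfold Fac.rv prAv
  exact car_row_sum i fun v => 2 * Real.pi * (k v : ℝ)

theorem esy_rv_inr (b dl : ℝ) (f : Face c0) (k : G.V → ℤ) :
    (facS c c0 b dl).rv (Sum.inr f) k = Real.sqrt dl * (prAv c0 k (fnb c0 f) - prAv c0 k f.1) := by
  unfold Fac.rv prAv
  rw [← car_row_sum (fnb c0 f) fun v => 2 * Real.pi * (k v : ℝ), ← car_row_sum f.1 fun v => 2 * Real.pi * (k v : ℝ),
    ← Finset.sum_sub_distrib, Finset.mul_sum]
  refine Finset.sum_congr rfl fun v _ => ?_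
  show Real.sqrt dl * _ * _ = _
  ring

theorem esy_dv (b dl : ℝ) (e : G.V × Bool) (k : G.V → ℤ) : (facS c c0 b dl).dv e k = k (stp e.1 e.2) - k e.1 := by
  unfold Fac.dv
  exact car_bond_sumZ e k

/-- the weight of a height at zero observation -/
theorem esy_wt (N0 : Nest c0 c) (b dl : ℝ) (T : Top c) (k : G.V → ℤ) :
    (mskS N0 b dl T).wt 0 k
      = prOmR T b 0 k * Real.exp (-(∑ i ∈ T.cells, prAv c k i ^ 2 + Real.sqrt dl ^ 2 * strEn N0 T k) / 2) := by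
  classical
  unfold Fac.Msk.wt Fac.rw Fac.rwE
  congr 1
  · unfold prOmR
    refine Finset.prod_congr (by unfold mskS; congr) fun e _ => ?_
    have h0 : prEc c (0 : Face c → ℤ) e = 0 := by
      unfold prEc
      split_ifs <;> rfl
    rw [esy_dv, h0]
    rfl
  · congr 3
    have h1 : ∑ o ∈ (mskS N0 b dl T).O, ((facS c c0 b dl).rv o k - (0 : (facS c c0 b dl).Dat).c o) ^ 2
        = ∑ o : c.I ⊕ Face c0, if carIn T (carO N0 o) then ((facS c c0 b dl).rv o k) ^ 2 else 0 := by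
      unfold mskS
      rw [← Finset.sum_filter]
      refine Finset.sum_congr (by congr) fun o _ => ?_
      show (_ - (0 : ℝ)) ^ 2 = _
      rw [sub_zero]
    rw [h1, Fintype.sum_sum_type]
    congr 1
    · rw [← Finset.sum_filter]
      refine Finset.sum_congr ?_ fun i _ => by rw [esy_rv_inl]
      ext i
      simp only [Finset.mem_filter, Finset.mem_univ, true_and]
      rfl
    · unfold strEn
      rw [← Finset.sum_filter, Finset.mul_sum]
      refine Finset.sum_congr ?_ fun f _ => by rw [esy_rv_inr, mul_pow]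
      ext f
      rw [esy_mem_strF]
      simp only [Finset.mem_filter, Finset.mem_univ, true_and]
      rfl

/-- **the normaliser** -/
theorem esy_N_eq (N0 : Nest c0 c) (b dl : ℝ) (T : Top c) :
    (mskS N0 b dl T).Z0 = ∑' h : T.graph.V → ℤ, prOmR T b 0 (prExt T h) *
      Real.exp (-(∑ i ∈ T.cells, prAv c (prExt T h) i ^ 2 + Real.sqrt dl ^ 2 * strEn N0 T (prExt T h)) / 2) := by
  unfold Fac.Msk.Z0 Fac.Msk.Z1 Fac.Msk.Z
  rw [← car_tsum_sup (facS c c0 b dl).b (facS c c0 b dl).d (facS c c0 b dl).r T fun k => prOmR T b 0 k *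
      Real.exp (-(∑ i ∈ T.cells, prAv c k i ^ 2 + Real.sqrt dl ^ 2 * strEn N0 T k) / 2)]
  refine tsum_congr fun g => ?_
  rw [one_mul, ← esy_wt]
  congr 1
  exact zero_add _

end norm

/-! ## 4. The weights of the strengthened law are carried by every morphism -/

section main

variable {G G' : Geom} {c g : Grid G} {c' g' : Grid G'} {N : Nest c g} {N' : Nest c' g'} {c0 : Grid G} {c0' : Grid G'}

theorem esy_OmR {T : Top c} {T' : Top c'} (I : EtlIso T T') (b : ℝ) {k : G.V → ℤ} {k' : G'.V → ℤ} (hk : I.VRel k k') :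
    prOmR T' b 0 k' = prOmR T b 0 k := by
  have h := esy_Om I (b : ℂ) hk
  rw [pr_Om_real, pr_Om_real] at h
  exact_mod_cast h

/-- **THE WEIGHTS OF THE STRENGTHENED LAW ARE CARRIED BY EVERY MORPHISM** -/
theorem esy_iso (Φ : Mor N N') {R : ℕ} (hΦ : Φ.Ok R) (hc : Whole c) (hc' : Whole c') (hn : 3 ≤ c.n) (hn' : 3 ≤ c'.n)
    (hc0 : Whole c0) (hc0' : Whole c0') (hm : c0'.m = c0.m) (N0 : Nest c0 c) (N0' : Nest c0' c') (dl a' b0 b : ℝ) (ha : 0 < a') :
    WtIso Φ (strWt N0 dl a' b0 b) (strWt N0' dl a' b0 b) := by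
  obtain ⟨S⟩ := esy_map_exists (esy_sub Φ hΦ hc hc' hc0 hc0' hm N0) hc0
  have hV : ∀ (T : Top c) (hT : T.Ok) (k : G.V → ℤ) (k' : G'.V → ℤ), (etlOf Φ hΦ hc hc' T hT).VRel k k' →
      ∀ v, c.blk v ∈ T.cells → k' (Φ.ψ v) = k v := fun T hT k k' h v hv => h ⟨v, hv⟩
  refine ⟨⟨fun T hT f f' hf hf' => ?_, fun T hT => ?_⟩, fun T hT y y' hy => ?_, fun f _ => ?_⟩
  · exact (etl_xy_iso Φ hΦ hc hc' hn hn' a' b0 ha b 0 0 (fun f _ => by simp)).Q T hT f f' hf hf'
  · show (mskS N0 b0 dl T).Z0 = (mskS N0' b0 dl (Φ.top T)).Z0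
    rw [esy_N_eq, esy_N_eq]
    refine (esy_tsum (etlOf Φ hΦ hc hc' T hT) (fun k => prOmR T b0 0 k *
      Real.exp (-(∑ i ∈ T.cells, prAv c k i ^ 2 + Real.sqrt dl ^ 2 * strEn N0 T k) / 2)) (fun k' => prOmR (Φ.top T) b0 0 k' *
      Real.exp (-(∑ i ∈ (Φ.top T).cells, prAv c' k' i ^ 2 + Real.sqrt dl ^ 2 * strEn N0' (Φ.top T) k') / 2)) fun k k' hk => ?_).symm
    show prOmR (Φ.top T) b0 0 k' * _ = prOmR T b0 0 k * _
    rw [esy_OmR _ b0 hk, esy_En S hΦ hc hc' hc0 hc0' N0 N0' T hT k k' (hV T hT k k' hk)]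
    congr 5
    show ∑ i ∈ T.cells.image Φ.φ, _ = _
    rw [Finset.sum_image hΦ.φ_inj.injOn]
    refine Finset.sum_congr rfl fun i hi => ?_
    rw [← esy_Av (etlOf Φ hΦ hc hc' T hT) hk hi]
    rfl
  · show prZg T (strOm N0 T dl b) y = prZg (Φ.top T) (strOm N0' (Φ.top T) dl b) y'
    refine (esy_Zg (etlOf Φ hΦ hc hc' T hT) _ _ (fun k k' hk => ?_) y y' hy).symm
    unfold strOm
    rw [esy_Om _ _ hk, esy_En S hΦ hc hc' hc0 hc0' N0 N0' T hT k k' (hV T hT k k' hk)]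
  · show (0 : ℤ) = Φ.sg f * 0
    rw [mul_zero]

end main

/-! ## 5. The exits -/

theorem esy_whole0 (𝒱 : Vol) (s0 : ℕ) (h : s0 ∣ 𝒱.s) (hs0 : 0 < s0) (hG : GeoOK 𝒱.c (vR 𝒱)) : Whole (vC0 𝒱 s0 h) := by
  refine ent_whole 𝒱.G s0 _ hs0 ?_
  have h1 : 2 ≤ 𝒱.G.M / 𝒱.s := hG.whole.two
  exact h1.trans (Nat.div_le_div_left (Nat.le_of_dvd hG.whole.pos h) hs0)

theorem esy_three {G : Geom} {c : Grid G} {R : ℕ} (hG : GeoOK c R) : 3 ≤ c.n := by
  have := hG.big
  have := hG.pos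
  omega

/-- the weights of two volumes with the same subcells are carried by every morphism -/
theorem esy_vol_iso (dl a' b0 b : ℝ) (ha : 0 < a') (s0 : ℕ) (hs0 : 0 < s0) (𝒱 𝒱' : Vol) (h : s0 ∣ 𝒱.s) (h' : s0 ∣ 𝒱'.s) {R : ℕ}
    (hG : GeoOK 𝒱.c (vR 𝒱)) (hG' : GeoOK 𝒱'.c (vR 𝒱')) (Φ : Mor (vNest 𝒱) (vNest 𝒱')) (hΦ : Φ.Ok R) :
    WtIso Φ (vWS dl a' b0 s0 𝒱 h b) (vWS dl a' b0 s0 𝒱' h' b) :=
  esy_iso Φ hΦ hG.whole hG'.whole (esy_three hG) (esy_three hG') (esy_whole0 𝒱 s0 h hs0 hG) (esy_whole0 𝒱' s0 h' hs0 hG') rfl _ _ dl a' b0 b ha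

theorem esy_vol_str (dl a' b0 b : ℝ) (hdl : 0 ≤ dl) (ha : 0 < a') (hb0 : 0 < b0) (s0 : ℕ) (hs0 : 0 < s0) (𝒱 : Vol) (h : s0 ∣ 𝒱.s)
    (hG : GeoOK 𝒱.c (vR 𝒱)) : (vWS dl a' b0 s0 𝒱 h b).Str :=
  str_str hG.whole (esy_whole0 𝒱 s0 h hs0 hG) _ dl a' b0 b hdl ha hb0

/-- **EXIT 1: covariance** -/
theorem str_sym : StrSymStmt := by
  intro dl a' b0 b h0 s0 𝒱 hper hs0 hd hG hg hN hdl ha hb0 s hs X z _ _
  rw [strK0_of_dvd dl a' b0 hd b]
  exact etr_sym_core (vNest 𝒱) hper hG hg hN a' (esy_vol_str dl a' b0 b hdl ha hb0 s0 hs0 𝒱 hd hG)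
    (fun Φ hΦ _ => esy_vol_iso dl a' b0 b ha s0 hs0 𝒱 𝒱 hd hd hG hG Φ hΦ) s hs X z

open Classical in
/-- the family of the weights of the strengthened law (junk if `s0 ∤ 𝒱.s`) -/
def esyW (dl a' b0 b : ℝ) (s0 : ℕ) (𝒱 : Vol) : Wt 𝒱.c := if h : s0 ∣ 𝒱.s then vWS dl a' b0 s0 𝒱 h b else xyWt 𝒱.c a' b0 b 0

theorem esyW_of_dvd (dl a' b0 b : ℝ) {s0 : ℕ} {𝒱 : Vol} (h : s0 ∣ 𝒱.s) : esyW dl a' b0 b s0 𝒱 = vWS dl a' b0 s0 𝒱 h b := by
  unfold esyW
  rw [dif_pos h]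

theorem esy_fam (dl a' b0 b : ℝ) (hdl : 0 ≤ dl) (ha : 0 < a') (hb0 : 0 < b0) (s0 : ℕ) (hs0 : 0 < s0) (s m : ℕ) (hd : s0 ∣ s) :
    WFam s m (esyW dl a' b0 b s0) where
  str := fun 𝒱 hs hm hG => by
    have h : s0 ∣ 𝒱.s := hs ▸ hd
    have hR : vR 𝒱 = m / s := by unfold vR; rw [hs, hm]
    rw [esyW_of_dvd dl a' b0 b h]
    exact esy_vol_str dl a' b0 b hdl ha hb0 s0 hs0 𝒱 h (hR ▸ hG)
  iso := fun 𝒱 𝒱' Φ hs hm hs' hm' hG hG' hΦ => by
    have h : s0 ∣ 𝒱.s := hs ▸ hd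
    have h' : s0 ∣ 𝒱'.s := hs' ▸ hd
    have hR : vR 𝒱 = m / s := by unfold vR; rw [hs, hm]
    have hR' : vR 𝒱' = m / s := by unfold vR; rw [hs', hm']
    rw [esyW_of_dvd dl a' b0 b h, esyW_of_dvd dl a' b0 b h']
    exact esy_vol_iso dl a' b0 b ha s0 hs0 𝒱 𝒱' h h' (hR ▸ hG) (hR' ▸ hG') Φ hΦ

/-- **EXIT 2: copies** -/
theorem str_copy : StrCopyStmt := by
  refine ⟨163, fun dl a' b0 b h0 s0 𝒱 𝒱' hdl ha hb0 _ _ hs hm hs0 hd hG hG' S hfit hfit' z _ z' _ hz => ?_⟩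
  have hd' : s0 ∣ 𝒱'.s := hs ▸ hd
  have hR' : vR 𝒱' = 𝒱.m / 𝒱.s := by unfold vR; rw [hs, hm]
  rw [strK0_of_dvd dl a' b0 hd b, strK0_of_dvd dl a' b0 hd' b, ← esyW_of_dvd dl a' b0 b hd, ← esyW_of_dvd dl a' b0 b hd', hR']
  exact etr_copy_core (esy_fam dl a' b0 b hdl ha hb0 s0 hs0 𝒱.s 𝒱.m hd) a' 𝒱 𝒱' rfl rfl hs.symm hm.symm hG (hR' ▸ hG') 0 0
    (dvd_zero _) (dvd_zero _) (dvd_zero _) (dvd_zero _) S hfit hfit' z z'
    fun x hx => hz x (hx.mono (Nat.le_mul_of_pos_left _ (by norm_num)))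

/-- Stores the on-demand equation lemmas of the definitions above in THIS module (rule 6 hygiene). -/
theorem esy_eqns_cite : True := by
  have := @esyW.eq_1
  have := @SubMap.F.eq_1
  trivial

end

end Claimed.Agent.R285.C5
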