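import Claimed.Agent.R285.C5.EsDefs
import Claimed.Agent.R285.Entry.GoodEx

/-!
# ROW 285, [C] s5.3, post C5-BOX, package ES-EX: ELEMENTARY AND EXACT STATEMENTS FOR THE STRENGTHENED LAW      (contract: helper262)

TWIN of `Entry/GoodEx.lean` (helper109), sections [SUM], [HOL], [ONE], [SAND], [LOC], [CS], [GAU] with `τ = τ' = 0`.   One finite volume, every `b > 0`, no limit.   COPY the proofs: they only use `Pins.T32.Gd H b` (here `es_gd`),
the generic lemmas of `Pins/T32Lat.lean` (`pn_*`, `Ext`, `pn_ext_sandwich`, `pn_ext_const`: `Ext` ALLOWS NEW ROWS supported in the core) and the generic shift lemmas `eg_gau_Z_shift`, `eg_gau_ZI_shift`.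
What is new:
* `Ext (lawS (T.cut F) c0 δ) (lawS (T.glue F) c0 δ) (egSites _ H)`: new bonds AND new averaged bonds; `iO` = `Sum.map id (inclusion of cellPairs)`; a new pair of subcells is joined by a new bond, so both subcells lie in the two cells of a face of `F`,
  which lie in `H` (`EgMark.Geo.face`): `newO`.   The fibres of `subOf` do not depend on the faces: `fibAvg` is the same in both topologies.
* [LOC] with the guard pinned the interior decouples: an averaged bond joins two subcells which are joined by a retained bond, so (`EgMark.Geo.sepG`) no row joins `D` to the complement of `D ∪ p`;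
  BUT a row may join a subcell of `D` to a subcell of `p` (then it is a function of the interior heights only, the guard heights being prescribed): same argument as for a bond from `D` to `p`.
* [GAU] the shift `h ↦ h + κ ∘ blk` with `κ` constant across the retained faces does not change the averaged bonds.
The exits below are what `C5/EsGood.lean` consumes.   **ALL PROVED, no sorry, axioms clean (helper200, 18:50Z).**   Intermediate statements (public): `es_ex_one`, `es_ex_lin`, `es_J_eq`, `es_X_log`, `es_delta_alg` (numerical step, law-free), `es_sand_ext`, `es_sandwich`,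
`es_Z0_local`, `es_cs_bound`, `es_gau_key`, `es_Z_shift`, `es_J_shift`, `es_sum_shift`, `es_gau_delta`, `es_mem_pairs` (the averaged bonds in global terms).
-/

set_option autoImplicit false

namespace Claimed.Agent.R285.C5

open scoped BigOperators
open Claimed.Agent.R285 Claimed.Agent.R285.RG Claimed.Agent.R285.F4a Claimed.Agent.R285.Entry

noncomputable section

variable {G : Geom} {c : Grid G}

theorem es_gd (hc : Whole c) (T : Top c) (c0 : Grid G) (δ : ℝ) {b : ℝ} (hb : 0 < b) : Pins.T32.Gd (lawS T c0 δ) b :=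
  ⟨hb, str_proper _ (F4a.law_proper hc T) _ _, str_ok _ (F4a.law_proper hc T) _ _ b (F4a.law_ok hc T b hb)⟩

/-! ## [SUM] -/

theorem es_sum_Z_pos {Gr : HGraph} (H : HLaw Gr) {b : ℝ} (hG : Pins.T32.Gd H b) (α : H.Aff) : 0 < H.Z b α fun _ => 1 := by
  unfold HLaw.Z
  have hs : Summable fun h : H.Λ => (1 : ℝ) * (H.sys b).W (H.coordA b (h : Gr.V → ℤ) + α.amb b) := by
    simpa using eg_SUM_summable H hG α
  exact hs.tsum_pos (fun h => by rw [one_mul]; exact (eg_SUM_W_pos H hG _).le) 0 (by rw [one_mul]; exact eg_SUM_W_pos H hG _)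

theorem es_sum_one (T : Top c) (c0 : Grid G) (δ b : ℝ) (y : c.I → ℝ) : esSum T c0 δ b y (fun _ => 1) = esZ T c0 δ b y := rfl

/-- ES-EX-SUM -/
theorem es_Z_pos (hc : Whole c) (T : Top c) (c0 : Grid G) (δ : ℝ) {b : ℝ} (hb : 0 < b) (y : c.I → ℝ) : 0 < esZ T c0 δ b y :=
  es_sum_Z_pos _ (es_gd hc T c0 δ hb) _

/-- ES-EX-SUM -/
theorem es_ex_mem (hc : Whole c) (T : Top c) (c0 : Grid G) (δ : ℝ) {b : ℝ} (hb : 0 < b) (y : c.I → ℝ) (F : (G.V → ℤ) → ℝ)
    (h01 : ∀ h, 0 ≤ F h ∧ F h ≤ 1) : 0 ≤ esEx T c0 δ b y F ∧ esEx T c0 δ b y F ≤ 1 := by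
  have hF : ∀ h, |F h| ≤ 1 := fun h => by rw [abs_of_nonneg (h01 h).1]; exact (h01 h).2
  constructor
  · unfold esEx esSum C3.ZI
    exact div_nonneg (tsum_nonneg fun h => mul_nonneg (h01 _).1 (eg_SUM_W_pos _ (es_gd hc T c0 δ hb) _).le)
      (es_Z_pos hc T c0 δ hb y).le
  · unfold esEx
    rw [div_le_one (es_Z_pos hc T c0 δ hb y), ← es_sum_one]
    unfold esSum
    exact eg_SUM_ZI_mono _ (es_gd hc T c0 δ hb) _ _ _ 1 (fun h => hF _) (fun _ => by simp) fun h => (h01 _).2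

theorem es_ex_one (hc : Whole c) (T : Top c) (c0 : Grid G) (δ : ℝ) {b : ℝ} (hb : 0 < b) (y : c.I → ℝ) : esEx T c0 δ b y (fun _ => 1) = 1 := by
  unfold esEx
  rw [es_sum_one]
  exact div_self (es_Z_pos hc T c0 δ hb y).ne'

/-- ES-EX-SUM -/
theorem es_ex_mono (hc : Whole c) (T : Top c) (c0 : Grid G) (δ : ℝ) {b : ℝ} (hb : 0 < b) (y : c.I → ℝ) (F F' : (G.V → ℤ) → ℝ) (C : ℝ)
    (hF : ∀ h, |F h| ≤ C) (hF' : ∀ h, |F' h| ≤ C) (hle : ∀ h, F h ≤ F' h) : esEx T c0 δ b y F ≤ esEx T c0 δ b y F' := by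
  unfold esEx esSum
  exact div_le_div_of_nonneg_right (eg_SUM_ZI_mono _ (es_gd hc T c0 δ hb) _ _ _ C (fun h => hF _) (fun h => hF' _) fun h => hle _)
    (es_Z_pos hc T c0 δ hb y).le

theorem es_ex_lin (hc : Whole c) (T : Top c) (c0 : Grid G) (δ : ℝ) {b : ℝ} (hb : 0 < b) (y : c.I → ℝ) {ι : Type} (s : Finset ι) (w : ι → ℝ)
    (F : ι → (G.V → ℤ) → ℝ) (C : ℝ) (hF : ∀ i ∈ s, ∀ h, |F i h| ≤ C) :
    esEx T c0 δ b y (fun h => ∑ i ∈ s, w i * F i h) = ∑ i ∈ s, w i * esEx T c0 δ b y (F i) := by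
  unfold esEx esSum
  rw [eg_SUM_ZI_lin _ (es_gd hc T c0 δ hb) _ s w (fun i h => F i (egExt T h)) C (fun i hi h => hF i hi _), Finset.sum_div]
  exact Finset.sum_congr rfl fun i _ => by ring

/-! ## [HOL] -/

/-- pointwise weighted AM-GM -/
theorem es_holder_amgm {ι : Type} [Fintype ι] (x : ι → ℝ) (hx : ∀ i, 0 ≤ x i) (r : ℕ) (hr : Fintype.card ι ≤ r) (hr1 : 1 ≤ r) :
    ∏ i, x i ≤ (1 - (Fintype.card ι : ℝ) / r) + ∑ i, (r : ℝ)⁻¹ * x i ^ r := by
  have hr0 : (0 : ℝ) < r := by exact_mod_cast hr1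
  have hjr : (Fintype.card ι : ℝ) ≤ r := by exact_mod_cast hr
  have key := Real.geom_mean_le_arith_mean_weighted (Finset.univ : Finset (Option ι))
    (fun o => o.elim (1 - (Fintype.card ι : ℝ) / r) (fun _ => (r : ℝ)⁻¹)) (fun o => o.elim 1 (fun i => x i ^ r))
    (fun o _ => ?_) ?_ (fun o _ => ?_)
  · rw [Fintype.prod_option, Fintype.sum_option] at key
    simp only [Option.elim_none, Option.elim_some, Real.one_rpow, one_mul, mul_one] at key
    refine le_trans (le_of_eq ?_) key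
    refine Finset.prod_congr rfl fun i _ => ?_
    rw [Real.pow_rpow_inv_natCast (hx i) (by omega)]
  · cases o with
    | none =>
      simp only [Option.elim_none, sub_nonneg]
      exact (div_le_one hr0).2 hjr
    | some i => simp only [Option.elim_some]; positivity
  · rw [Fintype.sum_option]
    simp only [Option.elim_none, Option.elim_some, Finset.sum_const, Finset.card_univ, nsmul_eq_mul]
    rw [div_eq_mul_inv]
    ring
  · cases o with
    | none => simp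
    | some i => simp only [Option.elim_some]; exact pow_nonneg (hx i) _

/-- ES-EX-HOL, Hölder without independence (twin of `eg_holder`) -/
theorem es_holder (hc : Whole c) (T : Top c) (c0 : Grid G) (δ : ℝ) {b : ℝ} (hb : 0 < b) (y : c.I → ℝ) {ι : Type} [Fintype ι]
    (dl : ι → (G.V → ℤ) → ℝ) (h01 : ∀ i h, 0 ≤ dl i h ∧ dl i h ≤ 1) (r : ℕ) (hr : Fintype.card ι ≤ r) (hr1 : 1 ≤ r) (κ : ℝ) (hκ : 0 < κ)
    (hm : ∀ i, esEx T c0 δ b y (fun h => dl i h ^ r) ≤ κ ^ r) : esEx T c0 δ b y (fun h => ∏ i, dl i h) ≤ κ ^ Fintype.card ι := by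
  set j := Fintype.card ι with hj
  have hr0 : (0 : ℝ) < r := by exact_mod_cast hr1
  have hjr : (j : ℝ) ≤ r := by exact_mod_cast hr
  have hjr1 : 0 ≤ 1 - (j : ℝ) / r := sub_nonneg.2 ((div_le_one hr0).2 hjr)
  set w : Option ι → ℝ := fun o => o.elim (κ ^ j * (1 - (j : ℝ) / r)) (fun _ => κ ^ j * ((r : ℝ)⁻¹ * (κ ^ r)⁻¹)) with hw
  set F : Option ι → (G.V → ℤ) → ℝ := fun o h => o.elim 1 (fun i => dl i h ^ r) with hF
  have hw0 : ∀ o, 0 ≤ w o := by
    intro o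
    cases o with
    | none => simp only [hw, Option.elim_none]; positivity
    | some i => simp only [hw, Option.elim_some]; positivity
  have hF01 : ∀ o h, 0 ≤ F o h ∧ F o h ≤ 1 := by
    intro o h
    cases o with
    | none => simp [hF]
    | some i =>
      simp only [hF, Option.elim_some]
      exact ⟨pow_nonneg (h01 i h).1 _, pow_le_one₀ (h01 i h).1 (h01 i h).2⟩
  have hpt : ∀ h, ∏ i, dl i h ≤ ∑ o, w o * F o h := by
    intro h
    have h1 := es_holder_amgm (fun i => dl i h / κ) (fun i => div_nonneg (h01 i h).1 hκ.le) r hr hr1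
    rw [Finset.prod_div_distrib, Finset.prod_const, Finset.card_univ, ← hj, div_le_iff₀ (by positivity)] at h1
    refine h1.trans (le_of_eq ?_)
    rw [Fintype.sum_option]
    simp only [hw, hF, Option.elim_none, Option.elim_some, mul_one]
    rw [add_mul, Finset.sum_mul, mul_comm]
    congr 1
    refine Finset.sum_congr rfl fun i _ => ?_
    rw [div_pow, div_eq_mul_inv]
    ring
  have hsum0 : ∀ h, 0 ≤ ∑ o, w o * F o h := fun h => Finset.sum_nonneg fun o _ => mul_nonneg (hw0 o) (hF01 o h).1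
  have hsum1 : ∀ h, ∑ o, w o * F o h ≤ ∑ o, w o := fun h =>
    Finset.sum_le_sum fun o _ => mul_le_of_le_one_right (hw0 o) (hF01 o h).2
  have hW0 : 0 ≤ ∑ o, w o := Finset.sum_nonneg fun o _ => hw0 o
  have hp01 : ∀ h, 0 ≤ ∏ i, dl i h ∧ ∏ i, dl i h ≤ 1 := fun h =>
    ⟨Finset.prod_nonneg fun i _ => (h01 i h).1, Finset.prod_le_one (fun i _ => (h01 i h).1) fun i _ => (h01 i h).2⟩
  have h1 := es_ex_mono hc T c0 δ hb y (fun h => ∏ i, dl i h) (fun h => ∑ o, w o * F o h) (1 + ∑ o, w o)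
    (fun h => by rw [abs_of_nonneg (hp01 h).1]; linarith [(hp01 h).2])
    (fun h => by rw [abs_of_nonneg (hsum0 h)]; linarith [hsum1 h]) hpt
  have h2 := es_ex_lin hc T c0 δ hb y Finset.univ w F 1 (fun o _ h => by rw [abs_of_nonneg (hF01 o h).1]; exact (hF01 o h).2)
  rw [h2, Fintype.sum_option] at h1
  refine h1.trans ?_
  have h3 : esEx T c0 δ b y (F none) = 1 := es_ex_one hc T c0 δ hb y
  have h4 : ∀ i, w (some i) * esEx T c0 δ b y (F (some i)) ≤ κ ^ j * (r : ℝ)⁻¹ := by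
    intro i
    have h5 : esEx T c0 δ b y (F (some i)) ≤ κ ^ r := hm i
    calc w (some i) * esEx T c0 δ b y (F (some i)) ≤ w (some i) * κ ^ r := mul_le_mul_of_nonneg_left h5 (hw0 _)
      _ = κ ^ j * (r : ℝ)⁻¹ := by
        simp only [hw, Option.elim_some]
        have : κ ^ r ≠ 0 := by positivity
        field_simp
  have h6 : ∑ i, w (some i) * esEx T c0 δ b y (F (some i)) ≤ (j : ℝ) * (κ ^ j * (r : ℝ)⁻¹) := by
    refine (Finset.sum_le_sum fun i _ => h4 i).trans (le_of_eq ?_)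
    rw [Finset.sum_const, Finset.card_univ, nsmul_eq_mul]
  rw [h3]
  have h7 : w none = κ ^ j * (1 - (j : ℝ) / r) := rfl
  rw [h7]
  have h8 : κ ^ j * (1 - (j : ℝ) / r) * 1 + (j : ℝ) * (κ ^ j * (r : ℝ)⁻¹) = κ ^ j := by
    rw [div_eq_mul_inv]; ring
  linarith

/-! ## [ONE] -/

theorem es_Z0_pos (hc : Whole c) (T : Top c) (c0 : Grid G) (δ : ℝ) {b : ℝ} (hb : 0 < b) (p : Finset c.I) (h : G.V → ℤ) : 0 < esZ0 T c0 δ b p h :=
  Pins.T32.pn_ZC_one_pos _ (es_gd hc T c0 δ hb) _ _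

theorem es_one_J_nonneg (T : Top c) (c0 : Grid G) (δ : ℝ) {b : ℝ} (hb : 0 < b) (y : c.I → ℝ) (p : Finset c.I) (h : G.V → ℤ) :
    0 ≤ esJ T c0 δ b y p h := by
  unfold esJ HLaw.Z
  exact tsum_nonneg fun k => mul_nonneg zero_le_one (Rsd.kit_W_pos _ (fun _ => hb) _).le

theorem es_one_C_pos (hc : Whole c) (T : Top c) (c0 : Grid G) (δ : ℝ) (M : EgMark c) {b : ℝ} (hb : 0 < b) : 0 < esC T c0 δ M b :=
  div_pos (es_Z_pos hc _ c0 δ hb 0) (es_Z_pos hc _ c0 δ hb 0)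

/-- ES-EX-ONE -/
theorem es_delta_mem (hc : Whole c) (T : Top c) (c0 : Grid G) (δ : ℝ) (M : EgMark c) {b : ℝ} (hb : 0 < b) (a' : ℝ) (y : c.I → ℝ) (h : G.V → ℤ) :
    0 ≤ esDelta T c0 δ M b a' y h ∧ esDelta T c0 δ M b a' y h ≤ 1 := by
  refine eg_dl_mem _ ?_
  unfold esX
  refine div_nonneg (es_one_J_nonneg _ c0 δ hb _ _ _) (mul_nonneg ?_ (es_one_J_nonneg _ c0 δ hb _ _ _))
  exact mul_nonneg (es_one_C_pos hc T c0 δ M hb).le (Real.exp_pos _).le

/-- "discard the conditional rarity" -/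
theorem es_Q_le_A (hc : Whole c) (T : Top c) (c0 : Grid G) (δ : ℝ) {ι : Type} [Fintype ι] (Ms : ι → EgMark c) {b : ℝ} (hb : 0 < b) (a' : ℝ) (y : c.I → ℝ) :
    0 ≤ esQ T c0 δ Ms b a' y ∧ esQ T c0 δ Ms b a' y ≤ esA T c0 δ b a' y := by
  have hA : 0 ≤ esA T c0 δ b a' y := by
    unfold esA
    exact div_nonneg (mul_nonneg (Real.exp_pos _).le (es_Z_pos hc T c0 δ hb y).le) (es_Z_pos hc T c0 δ hb 0).le
  have hE := es_ex_mem hc T c0 δ hb y (fun h => ∏ i, esDelta T c0 δ (Ms i) b a' y h) fun h =>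
    ⟨Finset.prod_nonneg fun i _ => (es_delta_mem hc T c0 δ (Ms i) hb a' y h).1,
      Finset.prod_le_one (fun i _ => (es_delta_mem hc T c0 δ (Ms i) hb a' y h).1) fun i _ => (es_delta_mem hc T c0 δ (Ms i) hb a' y h).2⟩
  unfold esQ
  exact ⟨mul_nonneg hA hE.1, mul_le_of_le_one_right hA hE.2⟩

theorem es_aff_zero (T : Top c) (c0 : Grid G) (δ b : ℝ) : (affS T c0 δ 0).amb b = 0 := by
  unfold HLaw.Aff.amb affS strAff
  simp only [map_zero, zero_add]
  refine Prod.ext rfl (funext fun o => ?_)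
  rcases o with o | o
  · show -(0 : ℝ) = 0
    simp
  · show -(0 : ℝ) = 0
    simp

/-- the bridge to L5.3: `Z (y) / Z (0) = ratS` (`HLaw.Z_eq_w`, proper) -/
theorem es_ratS (hc : Whole c) (T : Top c) (c0 : Grid G) (δ : ℝ) {b : ℝ} (hb : 0 < b) (y : c.I → ℝ) :
    esZ T c0 δ b y / esZ T c0 δ b 0 = ratS T c0 δ b y := by
  unfold esZ ratS HLaw.ratioL
  rw [HLaw.Z_eq_w _ (es_gd hc T c0 δ hb).proper, HLaw.Z_eq_w _ (es_gd hc T c0 δ hb).proper, es_aff_zero]

/-- the pairing of `egTest` with a physical height is the pairing of the centres with the rows (the centres of the averaged bonds vanish) -/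
theorem es_one_pair (T : Top c) (c0 : Grid G) (δ : ℝ) (y : c.I → ℝ) (φ : T.graph.V → ℝ) :
    HLaw.pair (egTest T y) φ = ∑ o : (lawS T c0 δ).O, (affS T c0 δ y).c o * ∑ v, (lawS T c0 δ).B o v * φ v := by
  rw [eg_one_pair]
  have : (∑ o : (lawS T c0 δ).O, (affS T c0 δ y).c o * ∑ v, (lawS T c0 δ).B o v * φ v)
      = ∑ o : T.law.O ⊕ {p : c0.I × c0.I // p ∈ cellPairs (subOf T c0)}, (affS T c0 δ y).c o * ∑ v, (lawS T c0 δ).B o v * φ v := rfl
  rw [this, Fintype.sum_sum_type]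
  have h2 : ∀ o : {p : c0.I × c0.I // p ∈ cellPairs (subOf T c0)},
      (affS T c0 δ y).c (Sum.inr o) * ∑ v, (lawS T c0 δ).B (Sum.inr o) v * φ v = 0 := fun o => zero_mul _
  rw [Finset.sum_congr rfl fun o _ => h2 o, Finset.sum_const_zero, add_zero]
  rfl

theorem es_one_norm (T : Top c) (c0 : Grid G) (δ : ℝ) (y : c.I → ℝ) : ∑ o : (lawS T c0 δ).O, (affS T c0 δ y).c o ^ 2 = egNorm T y := by
  have : (∑ o : (lawS T c0 δ).O, (affS T c0 δ y).c o ^ 2)
      = ∑ o : T.law.O ⊕ {p : c0.I × c0.I // p ∈ cellPairs (subOf T c0)}, (affS T c0 δ y).c o ^ 2 := rfl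
  rw [this, Fintype.sum_sum_type]
  have h2 : ∀ o : {p : c0.I × c0.I // p ∈ cellPairs (subOf T c0)}, (affS T c0 δ y).c (Sum.inr o) ^ 2 = 0 := fun o => by
    show (0 : ℝ) ^ 2 = 0
    simp
  rw [Finset.sum_congr rfl fun o _ => h2 o, Finset.sum_const_zero, add_zero]
  exact Finset.sum_coe_sort T.cells (fun i => y i ^ 2)

/-- the observation as a tilt, unnormalised and with pins -/
theorem es_one_J (T : Top c) (c0 : Grid G) (δ b : ℝ) (p : Finset c.I) (y : c.I → ℝ) (h : G.V → ℤ) :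
    esJ T c0 δ b y p h = Real.exp (-(egNorm T y) / 2)
      * C3.ZC (lawS T c0 δ) b (egSites T p) (egRes T h) (fun φ => Real.exp (HLaw.pair (egTest T y) φ)) := by
  rw [Pins.T32.pn_ZC_eq, ← tsum_mul_left]
  unfold esJ HLaw.Z
  refine tsum_congr fun k => ?_
  rw [one_mul]
  have e1 : ((lawS T c0 δ).addPin (egSites T p)).coordA b (k : T.graph.V → ℤ)
        + HLaw.Aff.amb (H := (lawS T c0 δ).addPin (egSites T p)) ⟨C3.resZ (egSites T p) (egRes T h), 0, (affS T c0 δ y).c⟩ b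
      = (lawS T c0 δ).coordA b ((k : T.graph.V → ℤ) + C3.resZ (egSites T p) (egRes T h))
        + (show ((lawS T c0 δ).sys b).Amb from ((0 : ((lawS T c0 δ).sys b).E → ℤ), fun o => - (affS T c0 δ y).c o)) := by
    rw [map_add, add_assoc]
    rfl
  have e2 := eg_one_W ((lawS T c0 δ).sys b) ((lawS T c0 δ).coordA b ((k : T.graph.V → ℤ) + C3.resZ (egSites T p) (egRes T h)))
    (fun o => (affS T c0 δ y).c o)
  have e3 : (∑ o : ((lawS T c0 δ).sys b).O, (affS T c0 δ y).c o ^ 2) = egNorm T y := es_one_norm T c0 δ y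
  rw [e3] at e2
  rw [es_one_pair T c0 δ]
  exact (congrArg _ e1).trans e2

theorem es_J_eq (hc : Whole c) (T : Top c) (c0 : Grid G) (δ : ℝ) {b : ℝ} (hb : 0 < b) (p : Finset c.I) (y : c.I → ℝ) (h : G.V → ℤ) :
    esJ T c0 δ b y p h = Real.exp (-(egNorm T y) / 2) * esZ0 T c0 δ b p h * Real.exp (esCL T c0 δ b p y h) := by
  have h0 := es_Z0_pos hc T c0 δ hb p h
  have h1 := eg_one_ZC_exp_pos _ (es_gd hc T c0 δ hb) (egSites T p) (egRes T h) (egTest T y)
  rw [es_one_J]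
  unfold esCL C3.cLap
  unfold esZ0 at h0 ⊢
  rw [Real.exp_log (div_pos h1 h0), mul_assoc]
  congr 1
  field_simp

theorem es_one_alg (n zo zc zo0 zc0 C eo ec d : ℝ) (hn : 0 < n) (hzc : 0 < zc) (hzo0 : 0 < zo0) (hzc0 : 0 < zc0)
    (hC : 0 < C) (hec : 0 < ec) (hd : 0 < d) :
    (n * zo * eo) / (C * d⁻¹ * (n * zc * ec)) = (zo0 / (C * zc0)) * ((zo / zc) / (zo0 / zc0)) * (eo / ec * d) := by
  field_simp

/-- the one-mark identity -/
theorem es_X_log (hc : Whole c) (T : Top c) (c0 : Grid G) (δ : ℝ) (M : EgMark c) {b : ℝ} (hb : 0 < b) (a' : ℝ) (y : c.I → ℝ) (h : G.V → ℤ) :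
    0 < esX T c0 δ M b a' y h ∧
      Real.log (esX T c0 δ M b a' y h) = esCs T c0 δ M b + Real.log (esRD T c0 δ M b h) + esLam T c0 δ M b a' y h := by
  have hzo := es_Z0_pos hc (T.glue M.F) c0 δ hb M.p h
  have hzc := es_Z0_pos hc (T.cut M.F) c0 δ hb M.p h
  have hzo0 := es_Z0_pos hc (T.glue M.F) c0 δ hb M.p 0
  have hzc0 := es_Z0_pos hc (T.cut M.F) c0 δ hb M.p 0
  have hC := es_one_C_pos hc T c0 δ M hb
  have hN : egNorm (T.glue M.F) y = egNorm (T.cut M.F) y := rfl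
  have key : esX T c0 δ M b a' y h = (esZ0 (T.glue M.F) c0 δ b M.p 0 / (esC T c0 δ M b * esZ0 (T.cut M.F) c0 δ b M.p 0)) * esRD T c0 δ M b h
      * Real.exp (esLam T c0 δ M b a' y h) := by
    have hd : Real.exp (-(egDE T M a' 0 y) / 2) = (Real.exp (egDE T M a' 0 y / 2))⁻¹ := by rw [neg_div, Real.exp_neg]
    unfold esX esB esRD esLam
    rw [es_J_eq hc _ c0 δ hb, es_J_eq hc _ c0 δ hb, hN, hd, Real.exp_add, Real.exp_sub]
    exact es_one_alg _ _ _ _ _ _ _ _ _ (Real.exp_pos _) hzc hzo0 hzc0 hC (Real.exp_pos _) (Real.exp_pos _)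
  have p1 : 0 < esZ0 (T.glue M.F) c0 δ b M.p 0 / (esC T c0 δ M b * esZ0 (T.cut M.F) c0 δ b M.p 0) := div_pos hzo0 (mul_pos hC hzc0)
  have p2 : 0 < esRD T c0 δ M b h := div_pos (div_pos hzo hzc) (div_pos hzo0 hzc0)
  have p3 := Real.exp_pos (esLam T c0 δ M b a' y h)
  rw [key]
  refine ⟨mul_pos (mul_pos p1 p2) p3, ?_⟩
  rw [Real.log_mul (mul_pos p1 p2).ne' p3.ne', Real.log_mul p1.ne' p2.ne', Real.log_exp]
  rfl

/-- the numerical step of `δ_i ≤ Θ_i` -/
theorem es_delta_alg (x cs ds rd rp lam xc xo θ : ℝ) (r : ℕ) (hx : 0 < x) (hlog : Real.log x = cs + Real.log rd + lam) (hcs : 0 ≤ cs) (hds : cs ≤ ds)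
    (hrp : 0 < rp) (hrd : rp ≤ rd) (hrd1 : rd ≤ 1) (hlam : lam = xo - xc + θ) : egDl x ^ r ≤ egPhi ds θ r xc xo rp := by
  unfold egPhi
  have h0 := eg_dl_mem x hx.le
  refine pow_le_pow_left₀ h0.1 (le_min h0.2 ?_) r
  have h1 := eg_dl_le_log x hx
  have hrp1 : rp ≤ 1 := hrd.trans hrd1
  have hlg := eg_lg_eq rp hrp hrp1
  have hab : 0 ≤ |xo - xc + θ| := abs_nonneg _
  have hl1 : Real.log rp ≤ Real.log rd := Real.log_le_log hrp hrd
  have hl2 : Real.log rd ≤ 0 := Real.log_nonpos (hrp.trans_le hrd).le hrd1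
  by_cases hc1 : 1 ≤ -Real.log rp
  · rw [hlg, min_eq_left hc1]
    linarith [h0.2]
  · rw [hlg, min_eq_right (not_le.1 hc1).le]
    refine h1.trans ?_
    rw [hlog, hlam]
    have t1 := abs_add_le (cs + Real.log rd) (xo - xc + θ)
    have t2 := abs_add_le cs (Real.log rd)
    rw [abs_of_nonneg hcs, abs_of_nonpos hl2] at t2
    linarith

/-! ## [SAND] -/

theorem es_mem_cellPairs {Gr : HGraph} {C : Type} (κ : Gr.V → C) (p : C × C) :
    p ∈ cellPairs κ ↔ (∃ e : Gr.E, κ (Gr.src e) = p.1 ∧ κ (Gr.tgt e) = p.2) ∧ p.1 ≠ p.2 := by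
  classical
  unfold cellPairs
  rw [Finset.mem_filter, Finset.mem_image]
  refine and_congr_left fun _ => ⟨?_, ?_⟩
  · rintro ⟨e, _, rfl⟩
    exact ⟨e, rfl, rfl⟩
  · rintro ⟨e, h1, h2⟩
    exact ⟨e, Finset.mem_univ _, Prod.ext h1 h2⟩

/-- the pairs of subcells of a topology, in global terms -/
theorem es_mem_pairs (T : Top c) (c0 : Grid G) (p : c0.I × c0.I) :
    p ∈ cellPairs (subOf T c0) ↔ (∃ e : G.V × Bool, T.IsEdge e ∧ c0.blk e.1 = p.1 ∧ c0.blk (stp e.1 e.2) = p.2) ∧ p.1 ≠ p.2 := by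
  rw [es_mem_cellPairs]
  refine and_congr_left fun _ => ⟨?_, ?_⟩
  · rintro ⟨e, h1, h2⟩
    exact ⟨e.1, e.2, h1, h2⟩
  · rintro ⟨e, he, h1, h2⟩
    exact ⟨⟨e, he⟩, h1, h2⟩

theorem es_sand_pairs (T : Top c) (c0 : Grid G) (F : Finset (Face c)) {p : c0.I × c0.I} (hp : p ∈ cellPairs (subOf (T.cut F) c0)) :
    p ∈ cellPairs (subOf (T.glue F) c0) := by
  rw [es_mem_pairs] at hp ⊢
  obtain ⟨⟨e, he, h1, h2⟩, h3⟩ := hp
  exact ⟨⟨e, eg_sand_edge T F he, h1, h2⟩, h3⟩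

/-- restoring the designated faces is an extension supported in the core: new bonds AND new averaged bonds -/
def es_sand_ext (hc : Whole c) {c0 : Grid G} (N : Nest c0 c) (δ : ℝ) (T : Top c) (M : EgMark c) (hface : ∀ f ∈ M.F, f.1 ∈ M.H ∧ fnb c f ∈ M.H) :
    Pins.T32.Ext (lawS (T.cut M.F) c0 δ) (lawS (T.glue M.F) c0 δ) (egSites (T.cut M.F) M.H) where
  e := Equiv.refl _
  iE := ⟨fun x => ⟨x.1, eg_sand_edge T M.F x.2⟩, fun x y hxy => Subtype.ext (congrArg (fun z => z.1) hxy)⟩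
  iO := ⟨Sum.map id fun p => ⟨p.1, es_sand_pairs T c0 M.F p.2⟩, by
    rintro (x | x) (y | y) hxy
    · exact congrArg Sum.inl (Sum.inl_injective hxy)
    · exact absurd hxy Sum.inl_ne_inr
    · exact absurd hxy Sum.inr_ne_inl
    · exact congrArg Sum.inr (Subtype.ext (congrArg (fun z => z.1) (Sum.inr_injective hxy)))⟩
  src_eq _ := rfl
  tgt_eq _ := rfl
  row_eq o _ := by
    rcases o with o | o
    · rfl
    · rfl
  lam _ := Iff.rfl
  newE x' hx' := by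
    have hn : ¬ (T.cut M.F).IsEdge x'.1 := fun h => hx' ⟨⟨x'.1, h⟩, rfl⟩
    obtain ⟨h1, h2⟩ := eg_sand_new hc T M.F x'.2 hn
    obtain ⟨h3, h4⟩ := hface _ h1
    refine ⟨h3, ?_⟩
    show c.blk (stp x'.1.1 x'.1.2) ∈ M.H
    rw [h2]
    exact h4
  newO o' ho' v hv := by
    rcases o' with o | o
    · exact (ho' ⟨Sum.inl o, rfl⟩).elim
    · obtain ⟨⟨e, he, h1, h2⟩, h3⟩ := (es_mem_pairs (T.glue M.F) c0 o.1).1 o.2
      have hn : ¬ (T.cut M.F).IsEdge e := fun h =>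
        ho' ⟨Sum.inr ⟨o.1, (es_mem_pairs (T.cut M.F) c0 o.1).2 ⟨⟨e, h, h1, h2⟩, h3⟩⟩, rfl⟩
      obtain ⟨g1, g2⟩ := eg_sand_new hc T M.F he hn
      obtain ⟨g3, g4⟩ := hface _ g1
      have hv' : c.blk v.1 ∉ M.H := hv
      have n1 : ¬ subOf (T.glue M.F) c0 v = o.1.1 := by
        intro h
        apply hv'
        have : c0.blk v.1 = c0.blk e.1 := h.trans h1.symm
        rw [res_blk_up N, this, ← res_blk_up N]
        exact g3
      have n2 : ¬ subOf (T.glue M.F) c0 v = o.1.2 := by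
        intro h
        apply hv'
        have : c0.blk v.1 = c0.blk (stp e.1 e.2) := h.trans h2.symm
        rw [res_blk_up N, this, ← res_blk_up N, g2]
        exact g4
      show Real.sqrt δ * (fibAvg (subOf (T.glue M.F) c0) o.1.2 v - fibAvg (subOf (T.glue M.F) c0) o.1.1 v) = 0
      unfold fibAvg
      rw [if_neg n1, if_neg n2, sub_zero, mul_zero]

/-- **`r_H ≤ r_Δ ≤ 1`** -/
theorem es_sandwich (hc : Whole c) {c0 : Grid G} (N : Nest c0 c) (δ : ℝ) (T : Top c) (M : EgMark c) (R : ℕ) (hM : M.Geo T R) {b : ℝ} (hb : 0 < b) (h : G.V → ℤ) :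
    0 < esRP (T.cut M.F) c0 δ b M.p M.H h ∧ esRP (T.cut M.F) c0 δ b M.p M.H h ≤ esRD T c0 δ M b h ∧ esRD T c0 δ M b h ≤ 1 := by
  have hG := es_gd hc (T.cut M.F) c0 δ hb
  have hd : Disjoint (egSites (T.cut M.F) M.H) (egSites (T.cut M.F) M.p) := by
    rw [Set.disjoint_left]
    intro v hv hv'
    exact (Finset.disjoint_left.1 hM.disj) (hM.H_sub hv) hv'
  have hs := Pins.T32.pn_ext_sandwich _ (es_sand_ext hc N δ T M fun f hf => (hM.face f hf).2) hG
    (egSites (T.cut M.F) M.p) hd (egRes (T.cut M.F) h)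
  have e : (es_sand_ext hc N δ T M fun f hf => (hM.face f hf).2).rr b (egSites (T.cut M.F) M.p) (egRes (T.cut M.F) h) = esRD T c0 δ M b h := rfl
  rw [e] at hs
  exact ⟨(Pins.T32.pn_rPin_mem _ hG _ _ _).1, hs.1, hs.2.1⟩

/-! ## [LOC] -/

/-- the weight of the strengthened law = the weight of the law times the weight of the averaged bonds -/
theorem es_loc_str_hW {Gr : HGraph} (H : HLaw Gr) {C : Type} (κ₀ : Gr.V → C) (w b : ℝ) (h : Gr.V → ℤ) :
    Pins.T32.hW (str H κ₀ w) b h = Pins.T32.hW H b h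
      * Real.exp (-(∑ p ∈ cellPairs κ₀, (w * (HLaw.pair (fibAvg κ₀ p.2) (C3.phys h) - HLaw.pair (fibAvg κ₀ p.1) (C3.phys h))) ^ 2) / 2) := by
  have h1 : ∀ p : {p : C × C // p ∈ cellPairs κ₀},
      (∑ v, (str H κ₀ w).B (Sum.inr p) v * (2 * Real.pi * (h v : ℝ)))
        = w * (HLaw.pair (fibAvg κ₀ p.1.2) (C3.phys h) - HLaw.pair (fibAvg κ₀ p.1.1) (C3.phys h)) := by
    intro p
    unfold HLaw.pair C3.phys
    rw [← Finset.sum_sub_distrib, Finset.mul_sum]
    refine Finset.sum_congr rfl fun v _ => ?_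
    show w * (fibAvg κ₀ p.1.2 v - fibAvg κ₀ p.1.1 v) * _ = _
    ring
  have h2 : (∑ o : H.O ⊕ {p : C × C // p ∈ cellPairs κ₀}, (∑ v, (str H κ₀ w).B o v * (2 * Real.pi * (h v : ℝ))) ^ 2)
      = (∑ o : H.O, (∑ v, H.B o v * (2 * Real.pi * (h v : ℝ))) ^ 2)
        + ∑ p ∈ cellPairs κ₀, (w * (HLaw.pair (fibAvg κ₀ p.2) (C3.phys h) - HLaw.pair (fibAvg κ₀ p.1) (C3.phys h))) ^ 2 := by
    rw [Fintype.sum_sum_type]
    congr 1
    rw [Finset.sum_congr rfl fun p _ => by rw [h1 p]]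
    exact Finset.sum_coe_sort (cellPairs κ₀)
      (fun p => (w * (HLaw.pair (fibAvg κ₀ p.2) (C3.phys h) - HLaw.pair (fibAvg κ₀ p.1) (C3.phys h))) ^ 2)
  show (∏ e : Gr.E, bes b (h (Gr.tgt e) - h (Gr.src e)))
      * Real.exp (-(∑ o : H.O ⊕ {p : C × C // p ∈ cellPairs κ₀}, (∑ v, (str H κ₀ w).B o v * (2 * Real.pi * (h v : ℝ))) ^ 2) / 2)
    = (∏ e : Gr.E, bes b (h (Gr.tgt e) - h (Gr.src e))) * Real.exp (-(∑ o : H.O, (∑ v, H.B o v * (2 * Real.pi * (h v : ℝ))) ^ 2) / 2) * _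
  rw [h2, mul_assoc, ← Real.exp_add]
  congr 2
  ring

/-- the average of the physical height over the subcell `κ`, for a global field -/
def es_loc_sav (c0 : Grid G) (κ : c0.I) (g : G.V → ℤ) : ℝ :=
  ∑ v : G.V, (if c0.blk v = κ then ((c0.m : ℝ) ^ 2)⁻¹ else 0) * (2 * Real.pi * (g v : ℝ))

/-- the weight carried by a set of averaged bonds -/
def es_loc_s (c0 : Grid G) (δ : ℝ) (Pr : Finset (c0.I × c0.I)) (g : G.V → ℤ) : ℝ :=
  Real.exp (-(∑ q ∈ Pr, (Real.sqrt δ * (es_loc_sav c0 q.2 g - es_loc_sav c0 q.1 g)) ^ 2) / 2)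

theorem es_loc_sav_eq {c0 : Grid G} (hc0 : Whole c0) (N : Nest c0 c) (T : Top c) (κ : c0.I) (hκ : N.up κ ∈ T.cells) (g : G.V → ℤ) :
    HLaw.pair (fibAvg (subOf T c0) κ) (C3.phys (egRes T g)) = es_loc_sav c0 κ g := by
  classical
  unfold HLaw.pair C3.phys es_loc_sav
  rw [Finset.sum_congr rfl fun v _ => by rw [res_fibAvg hc0 N T κ hκ v]]
  refine (Finset.sum_subtype (p := fun v : G.V => c.blk v ∈ T.cells)
    (Finset.univ.filter fun v : G.V => c.blk v ∈ T.cells) (fun x => by simp)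
    fun v => (if c0.blk v = κ then ((c0.m : ℝ) ^ 2)⁻¹ else 0) * (2 * Real.pi * ((g v : ℤ) : ℝ))).symm.trans ?_
  refine Finset.sum_subset (Finset.subset_univ _) fun v _ hv => ?_
  have hv' : c0.blk v ≠ κ := fun h => hv (by
    rw [Finset.mem_filter]
    refine ⟨Finset.mem_univ _, ?_⟩
    rw [res_blk_up N, h]
    exact hκ)
  rw [if_neg hv', zero_mul]

theorem es_loc_pair_cells {c0 : Grid G} (N : Nest c0 c) (T : Top c) {q : c0.I × c0.I} (hq : q ∈ cellPairs (subOf T c0)) :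
    N.up q.1 ∈ T.cells ∧ N.up q.2 ∈ T.cells := by
  obtain ⟨⟨e, he, h1, h2⟩, _⟩ := (es_mem_pairs T c0 q).1 hq
  rw [← h1, ← h2, ← res_blk_up N, ← res_blk_up N]
  exact ⟨he.2.1, he.2.2.1⟩

open Classical in
theorem es_loc_hW {c0 : Grid G} (hc0 : Whole c0) (N : Nest c0 c) (T : Top c) (δ b : ℝ) (g : G.V → ℤ) :
    Pins.T32.hW (lawS T c0 δ) b (egRes T g)
      = eg_loc_w c b (Finset.univ.filter T.IsEdge) T.cells g * es_loc_s c0 δ (cellPairs (subOf T c0)) g := by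
  unfold lawS
  rw [es_loc_str_hW, eg_loc_hW]
  unfold es_loc_s
  congr 4
  refine Finset.sum_congr rfl fun q hq => ?_
  obtain ⟨h1, h2⟩ := es_loc_pair_cells N T hq
  rw [es_loc_sav_eq hc0 N T q.1 h1, es_loc_sav_eq hc0 N T q.2 h2]

open Classical in
theorem es_loc_Z0 {c0 : Grid G} (hc0 : Whole c0) (N : Nest c0 c) (T : Top c) (δ b : ℝ) (p : Finset c.I) :
    esZ0 T c0 δ b p 0 = ∑' g : eg_loc_Fld c (T.cells \ p),
      eg_loc_w c b (Finset.univ.filter T.IsEdge) T.cells g.1 * es_loc_s c0 δ (cellPairs (subOf T c0)) g.1 := by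
  unfold esZ0
  rw [Pins.T32.pn_ZC_eq]
  have h0 : C3.resZ (egSites T p) (egRes T (0 : G.V → ℤ)) = 0 := Pins.T32.pn_resZ_zero _
  rw [h0]
  show ∑' h : ↥(T.law.Λ ⊓ HLaw.pinned (egSites T p)), 1 * Pins.T32.hW (lawS T c0 δ) b ((h : T.graph.V → ℤ) + 0) = _
  rw [← (eg_loc_equiv T p).symm.tsum_eq]
  refine tsum_congr fun g => ?_
  rw [one_mul, add_zero, ← es_loc_hW hc0 N]
  rfl

open Classical in
theorem es_loc_summable (hc : Whole c) {c0 : Grid G} (hc0 : Whole c0) (N : Nest c0 c) (T : Top c) (δ : ℝ) {b : ℝ} (hb : 0 < b) (p : Finset c.I) :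
    Summable fun g : eg_loc_Fld c (T.cells \ p) =>
      eg_loc_w c b (Finset.univ.filter T.IsEdge) T.cells g.1 * es_loc_s c0 δ (cellPairs (subOf T c0)) g.1 := by
  have := Pins.T32.pn_summable ((lawS T c0 δ).addPin (egSites T p)) (Pins.T32.pn_gd_addPin _ (es_gd hc T c0 δ hb) _) 0 0
  simp only [Pins.T32.pn_lin_zero_left, Real.exp_zero, one_mul, add_zero] at this
  have h2 : Summable fun h : ↥(T.law.Λ ⊓ HLaw.pinned (egSites T p)) => Pins.T32.hW (lawS T c0 δ) b (h : T.graph.V → ℤ) := this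
  rw [← (eg_loc_equiv T p).symm.summable_iff] at h2
  refine h2.congr fun g => ?_
  rw [← es_loc_hW hc0 N]
  rfl

theorem es_loc_s_pos (c0 : Grid G) (δ : ℝ) (Pr : Finset (c0.I × c0.I)) (g : G.V → ℤ) : 0 < es_loc_s c0 δ Pr g := Real.exp_pos _

theorem es_loc_s_congr (c0 : Grid G) (δ : ℝ) (Pr : Finset (c0.I × c0.I)) (g g' : G.V → ℤ)
    (h : ∀ q ∈ Pr, ∀ v, (c0.blk v = q.1 ∨ c0.blk v = q.2) → g v = g' v) : es_loc_s c0 δ Pr g = es_loc_s c0 δ Pr g' := by
  have h1 : ∀ κ : c0.I, (∀ v, c0.blk v = κ → g v = g' v) → es_loc_sav c0 κ g = es_loc_sav c0 κ g' := by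
    intro κ hκ
    unfold es_loc_sav
    refine Finset.sum_congr rfl fun v _ => ?_
    by_cases hv : c0.blk v = κ
    · rw [hκ v hv]
    · rw [if_neg hv, zero_mul, zero_mul]
  unfold es_loc_s
  rw [Finset.sum_congr rfl fun q hq => by
    rw [h1 q.1 fun v hv => h q hq v (Or.inl hv), h1 q.2 fun v hv => h q hq v (Or.inr hv)]]

/-- an averaged bond touches the cells of `D` -/
def es_loc_tch {c0 : Grid G} (N : Nest c0 c) (D : Finset c.I) (q : c0.I × c0.I) : Prop := N.up q.1 ∈ D ∨ N.up q.2 ∈ D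

theorem es_loc_s_split {c0 : Grid G} (N : Nest c0 c) (δ : ℝ) (Pr Pin Pout : Finset (c0.I × c0.I)) (D : Finset c.I)
    (hin : ∀ q, q ∈ Pin ↔ q ∈ Pr ∧ es_loc_tch N D q) (hout : ∀ q, q ∈ Pout ↔ q ∈ Pr ∧ ¬ es_loc_tch N D q) (g : G.V → ℤ) :
    es_loc_s c0 δ Pr g = es_loc_s c0 δ Pin g * es_loc_s c0 δ Pout g := by
  classical
  have e1 : Pin = Pr.filter (es_loc_tch N D) := by
    ext q
    rw [hin, Finset.mem_filter]
  have e2 : Pout = Pr.filter fun q => ¬ es_loc_tch N D q := by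
    ext q
    rw [hout, Finset.mem_filter]
  unfold es_loc_s
  rw [e1, e2, ← Finset.sum_filter_add_sum_filter_not Pr (es_loc_tch N D), ← Real.exp_add]
  congr 1
  ring

theorem es_loc_Z0_factor (hc : Whole c) {c0 : Grid G} (hc0 : Whole c0) (N : Nest c0 c) (T : Top c) (δ : ℝ) {b : ℝ} (hb : 0 < b) (D p C : Finset c.I)
    (hC : T.cells = C) (hD : D ⊆ C) (hDp : Disjoint D p) (Ein Eout : Finset (G.V × Bool)) (Pin Pout : Finset (c0.I × c0.I))
    (hin : ∀ e, e ∈ Ein ↔ T.IsEdge e ∧ eg_loc_tch D e) (hout : ∀ e, e ∈ Eout ↔ T.IsEdge e ∧ ¬ eg_loc_tch D e)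
    (hpin : ∀ q, q ∈ Pin ↔ q ∈ cellPairs (subOf T c0) ∧ es_loc_tch N D q)
    (hpout : ∀ q, q ∈ Pout ↔ q ∈ cellPairs (subOf T c0) ∧ ¬ es_loc_tch N D q)
    (hsep : ∀ e, T.IsEdge e → eg_loc_tch D e → c.blk e.1 ∈ D ∪ p ∧ c.blk (stp e.1 e.2) ∈ D ∪ p) :
    esZ0 T c0 δ b p 0 = (∑' a : eg_loc_Fld c D, eg_loc_w c b Ein D a.1 * es_loc_s c0 δ Pin a.1)
      * ∑' x : eg_loc_Fld c (C \ (D ∪ p)), eg_loc_w c b Eout (C \ D) x.1 * es_loc_s c0 δ Pout x.1 := by
  classical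
  subst hC
  have hU : T.cells \ p = D ∪ (T.cells \ (D ∪ p)) := by
    ext i
    simp only [Finset.mem_sdiff, Finset.mem_union]
    constructor
    · rintro ⟨h1, h2⟩
      by_cases h3 : i ∈ D
      · exact Or.inl h3
      · exact Or.inr ⟨h1, fun h => h.elim h3 h2⟩
    · rintro (h | ⟨h1, h2⟩)
      · exact ⟨hD h, Finset.disjoint_left.1 hDp h⟩
      · exact ⟨h1, fun h => h2 (Or.inr h)⟩
  have hdis : Disjoint D (T.cells \ (D ∪ p)) := by
    rw [Finset.disjoint_left]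
    intro i h1 h2
    exact (Finset.mem_sdiff.1 h2).2 (Finset.mem_union_left _ h1)
  have hsepP : ∀ q ∈ Pin, N.up q.1 ∈ D ∪ p ∧ N.up q.2 ∈ D ∪ p := by
    intro q hq
    obtain ⟨h1, h2⟩ := (hpin q).1 hq
    obtain ⟨⟨e, he, g1, g2⟩, _⟩ := (es_mem_pairs T c0 q).1 h1
    have ht : eg_loc_tch D e := by
      unfold eg_loc_tch
      rw [res_blk_up N, res_blk_up N, g1, g2]
      exact h2
    have := hsep e he ht
    rw [res_blk_up N, res_blk_up N (stp e.1 e.2), g1, g2] at this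
    exact this
  have hs := es_loc_summable hc hc0 N T δ hb p
  rw [es_loc_Z0 hc0 N]
  rw [hU] at hs ⊢
  refine eg_loc_factor D (T.cells \ (D ∪ p)) hdis
    (fun g => eg_loc_w c b (Finset.univ.filter T.IsEdge) T.cells g * es_loc_s c0 δ (cellPairs (subOf T c0)) g)
    (fun g => eg_loc_w c b Ein D g * es_loc_s c0 δ Pin g) (fun g => eg_loc_w c b Eout (T.cells \ D) g * es_loc_s c0 δ Pout g)
    (fun g => mul_pos (eg_loc_w_pos hb _ _ g) (es_loc_s_pos _ _ _ g))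
    (fun g => mul_pos (eg_loc_w_pos hb _ _ g) (es_loc_s_pos _ _ _ g)) ?_ hs
  intro a x
  show eg_loc_w c b (Finset.univ.filter T.IsEdge) T.cells (a.1 + x.1) * es_loc_s c0 δ (cellPairs (subOf T c0)) (a.1 + x.1)
    = eg_loc_w c b Ein D a.1 * es_loc_s c0 δ Pin a.1 * (eg_loc_w c b Eout (T.cells \ D) x.1 * es_loc_s c0 δ Pout x.1)
  rw [eg_loc_w_split b (Finset.univ.filter T.IsEdge) Ein Eout T.cells D hD (fun e => by rw [hin]; simp)
    (fun e => by rw [hout]; simp), es_loc_s_split N δ _ Pin Pout D hpin hpout, mul_mul_mul_comm]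
  congr 1
  · congr 1
    · refine eg_loc_w_congr b Ein D _ _ (fun e he => ?_) fun v hv => ?_
      · obtain ⟨h1, h2⟩ := (hin e).1 he
        obtain ⟨s1, s2⟩ := hsep e h1 h2
        constructor
        · show a.1 e.1 + x.1 e.1 = _
          rw [x.2 e.1 fun h => (Finset.mem_sdiff.1 h).2 s1, add_zero]
        · show a.1 (stp e.1 e.2) + x.1 (stp e.1 e.2) = _
          rw [x.2 _ fun h => (Finset.mem_sdiff.1 h).2 s2, add_zero]
      · show a.1 v + x.1 v = _
        rw [x.2 v fun h => (Finset.mem_sdiff.1 h).2 (Finset.mem_union_left _ hv), add_zero]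
    · refine es_loc_s_congr c0 δ Pin _ _ fun q hq v hv => ?_
      obtain ⟨s1, s2⟩ := hsepP q hq
      have hv' : c.blk v ∈ D ∪ p := by
        rw [res_blk_up N]
        rcases hv with hv | hv
        · rw [hv]; exact s1
        · rw [hv]; exact s2
      show a.1 v + x.1 v = _
      rw [x.2 v fun h => (Finset.mem_sdiff.1 h).2 hv', add_zero]
  · congr 1
    · refine eg_loc_w_congr b Eout (T.cells \ D) _ _ (fun e he => ?_) fun v hv => ?_
      · obtain ⟨_, h2⟩ := (hout e).1 he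
        constructor
        · show a.1 e.1 + x.1 e.1 = _
          rw [a.2 e.1 fun h => h2 (Or.inl h), zero_add]
        · show a.1 (stp e.1 e.2) + x.1 (stp e.1 e.2) = _
          rw [a.2 _ fun h => h2 (Or.inr h), zero_add]
      · show a.1 v + x.1 v = _
        rw [a.2 v (Finset.mem_sdiff.1 hv).2, zero_add]
    · refine es_loc_s_congr c0 δ Pout _ _ fun q hq v hv => ?_
      obtain ⟨_, h2⟩ := (hpout q).1 hq
      have hv' : c.blk v ∉ D := by
        rw [res_blk_up N]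
        rcases hv with hv | hv
        · rw [hv]; exact fun h => h2 (Or.inl h)
        · rw [hv]; exact fun h => h2 (Or.inr h)
      show a.1 v + x.1 v = _
      rw [a.2 v hv', zero_add]

/-- two topologies with the same bonds over a pair of subcells have this averaged bond at the same time -/
theorem es_loc_pairs_iff (T T' : Top c) (c0 : Grid G) (q : c0.I × c0.I)
    (h : ∀ e : G.V × Bool, c0.blk e.1 = q.1 → c0.blk (stp e.1 e.2) = q.2 → (T.IsEdge e ↔ T'.IsEdge e)) :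
    q ∈ cellPairs (subOf T c0) ↔ q ∈ cellPairs (subOf T' c0) := by
  rw [es_mem_pairs, es_mem_pairs]
  refine and_congr_left fun _ => ⟨?_, ?_⟩
  · rintro ⟨e, he, h1, h2⟩
    exact ⟨e, (h e h1 h2).1 he, h1, h2⟩
  · rintro ⟨e, he, h1, h2⟩
    exact ⟨e, (h e h1 h2).2 he, h1, h2⟩

theorem es_loc_tch_iff {c0 : Grid G} (N : Nest c0 c) (D : Finset c.I) (q : c0.I × c0.I) (e : G.V × Bool) (h1 : c0.blk e.1 = q.1)
    (h2 : c0.blk (stp e.1 e.2) = q.2) : eg_loc_tch D e ↔ es_loc_tch N D q := by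
  unfold eg_loc_tch es_loc_tch
  rw [res_blk_up N, res_blk_up N (stp e.1 e.2), h1, h2]

/-- "factors exterior to the full guard cancel" -/
theorem es_Z0_local (hc : Whole c) {c0 : Grid G} (hc0 : Whole c0) (N : Nest c0 c) (δ : ℝ) (T : Top c) (M : EgMark c) (R : ℕ) (hM : M.Geo T R)
    {b : ℝ} (hb : 0 < b) :
    esZ0 (T.glue M.F) c0 δ b M.p 0 / esZ0 (T.cut M.F) c0 δ b M.p 0 = esZ0 (egPo T M) c0 δ b M.p 0 / esZ0 (egPc T M) c0 δ b M.p 0 := by
  classical
  have fo : (T.glue M.F).faces ⊆ T.faces ∪ M.F := Finset.Subset.refl _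
  have fc : (T.cut M.F).faces ⊆ T.faces ∪ M.F := fun f hf => Finset.mem_union_left _ (Finset.mem_sdiff.1 hf).1
  have fPo : (egPo T M).faces ⊆ T.faces ∪ M.F := fun f hf => fo (Finset.mem_filter.1 hf).1
  have fPc : (egPc T M).faces ⊆ T.faces ∪ M.F := fun f hf => fc (Finset.mem_filter.1 hf).1
  have hDT : M.D ⊆ T.cells := hM.D_sub.trans hM.O_sub
  have hDO : M.D ⊆ T.cells ∩ M.O := fun i hi => Finset.mem_inter.2 ⟨hDT hi, hM.D_sub hi⟩
  have z1 := es_loc_Z0_factor hc hc0 N (T.glue M.F) δ hb M.D M.p T.cells rfl hDT hM.disj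
    (Finset.univ.filter fun e => (T.glue M.F).IsEdge e ∧ eg_loc_tch M.D e)
    (Finset.univ.filter fun e => (T.cut M.F).IsEdge e ∧ ¬ eg_loc_tch M.D e)
    (Finset.univ.filter fun q => q ∈ cellPairs (subOf (T.glue M.F) c0) ∧ es_loc_tch N M.D q)
    (Finset.univ.filter fun q => q ∈ cellPairs (subOf (T.cut M.F) c0) ∧ ¬ es_loc_tch N M.D q)
    (fun e => by simp)
    (fun e => by
      simp only [Finset.mem_filter, Finset.mem_univ, true_and]
      exact and_congr_left fun h => (eg_loc_out T M R hM e h).1.symm)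
    (fun q => by simp)
    (fun q => by
      simp only [Finset.mem_filter, Finset.mem_univ, true_and]
      exact and_congr_left fun h => es_loc_pairs_iff _ _ c0 q fun e h1 h2 =>
        (eg_loc_out T M R hM e fun ht => h ((es_loc_tch_iff N M.D q e h1 h2).1 ht)).1.symm)
    (eg_loc_sep hc T M R hM _ fo)
  have z2 := es_loc_Z0_factor hc hc0 N (T.cut M.F) δ hb M.D M.p T.cells rfl hDT hM.disj
    (Finset.univ.filter fun e => (T.cut M.F).IsEdge e ∧ eg_loc_tch M.D e)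
    (Finset.univ.filter fun e => (T.cut M.F).IsEdge e ∧ ¬ eg_loc_tch M.D e)
    (Finset.univ.filter fun q => q ∈ cellPairs (subOf (T.cut M.F) c0) ∧ es_loc_tch N M.D q)
    (Finset.univ.filter fun q => q ∈ cellPairs (subOf (T.cut M.F) c0) ∧ ¬ es_loc_tch N M.D q)
    (fun e => by simp) (fun e => by simp) (fun q => by simp) (fun q => by simp)
    (eg_loc_sep hc T M R hM _ fc)
  have z3 := es_loc_Z0_factor hc hc0 N (egPo T M) δ hb M.D M.p (T.cells ∩ M.O) rfl hDO hM.disj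
    (Finset.univ.filter fun e => (T.glue M.F).IsEdge e ∧ eg_loc_tch M.D e)
    (Finset.univ.filter fun e => (egPc T M).IsEdge e ∧ ¬ eg_loc_tch M.D e)
    (Finset.univ.filter fun q => q ∈ cellPairs (subOf (T.glue M.F) c0) ∧ es_loc_tch N M.D q)
    (Finset.univ.filter fun q => q ∈ cellPairs (subOf (egPc T M) c0) ∧ ¬ es_loc_tch N M.D q)
    (fun e => by
      simp only [Finset.mem_filter, Finset.mem_univ, true_and]
      exact and_congr_left fun h => (eg_loc_restr hc T M R hM _ fo e h).symm)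
    (fun e => by
      simp only [Finset.mem_filter, Finset.mem_univ, true_and]
      exact and_congr_left fun h => (eg_loc_out T M R hM e h).2.symm)
    (fun q => by
      simp only [Finset.mem_filter, Finset.mem_univ, true_and]
      exact and_congr_left fun h => es_loc_pairs_iff _ _ c0 q fun e h1 h2 =>
        (eg_loc_restr hc T M R hM _ fo e ((es_loc_tch_iff N M.D q e h1 h2).2 h)).symm)
    (fun q => by
      simp only [Finset.mem_filter, Finset.mem_univ, true_and]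
      exact and_congr_left fun h => es_loc_pairs_iff _ _ c0 q fun e h1 h2 =>
        (eg_loc_out T M R hM e fun ht => h ((es_loc_tch_iff N M.D q e h1 h2).1 ht)).2.symm)
    (eg_loc_sep hc T M R hM _ fPo)
  have z4 := es_loc_Z0_factor hc hc0 N (egPc T M) δ hb M.D M.p (T.cells ∩ M.O) rfl hDO hM.disj
    (Finset.univ.filter fun e => (T.cut M.F).IsEdge e ∧ eg_loc_tch M.D e)
    (Finset.univ.filter fun e => (egPc T M).IsEdge e ∧ ¬ eg_loc_tch M.D e)
    (Finset.univ.filter fun q => q ∈ cellPairs (subOf (T.cut M.F) c0) ∧ es_loc_tch N M.D q)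
    (Finset.univ.filter fun q => q ∈ cellPairs (subOf (egPc T M) c0) ∧ ¬ es_loc_tch N M.D q)
    (fun e => by
      simp only [Finset.mem_filter, Finset.mem_univ, true_and]
      exact and_congr_left fun h => (eg_loc_restr hc T M R hM _ fc e h).symm)
    (fun e => by simp)
    (fun q => by
      simp only [Finset.mem_filter, Finset.mem_univ, true_and]
      exact and_congr_left fun h => es_loc_pairs_iff _ _ c0 q fun e h1 h2 =>
        (eg_loc_restr hc T M R hM _ fc e ((es_loc_tch_iff N M.D q e h1 h2).2 h)).symm)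
    (fun q => by simp)
    (eg_loc_sep hc T M R hM _ fPc)
  have p2 : 0 < esZ0 (T.cut M.F) c0 δ b M.p 0 := es_Z0_pos hc _ c0 δ hb _ _
  have p4 : 0 < esZ0 (egPc T M) c0 δ b M.p 0 := es_Z0_pos hc _ c0 δ hb _ _
  rw [z2] at p2
  rw [z4] at p4
  rw [z1, z2, z3, z4, mul_div_mul_right _ _ (right_ne_zero_of_mul p2.ne'), mul_div_mul_right _ _ (right_ne_zero_of_mul p4.ne')]

/-! ## [CS] -/

theorem es_cs_Z (T : Top c) (c0 : Grid G) (δ b : ℝ) : C3.ZC (lawS T c0 δ) b ∅ 0 (fun _ => 1) = esZ T c0 δ b 0 := by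
  rw [Pins.T32.pn_ZC_eq]
  rw [Pins.T32.pn_l11_tsum_nopin (lawS T c0 δ) fun h => (1 : ℝ) * Pins.T32.hW (lawS T c0 δ) b h]
  unfold esZ HLaw.Z
  refine tsum_congr fun h => ?_
  rw [es_aff_zero, add_zero]
  rfl

/-- **`0 ≤ c_i ≤ d_i`** -/
theorem es_cs_bound (hc : Whole c) {c0 : Grid G} (hc0 : Whole c0) (N : Nest c0 c) (δ : ℝ) (T : Top c) (M : EgMark c) (R : ℕ) (hM : M.Geo T R)
    {b : ℝ} (hb : 0 < b) : 0 ≤ esCs T c0 δ M b ∧ esCs T c0 δ M b ≤ esDs T c0 δ M b := by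
  have hHO : M.H ⊆ M.O := hM.H_sub.trans hM.D_sub
  have hPc := eg_cs_Pc T M
  have hPo := eg_cs_Po T M fun f hf => ⟨hHO (hM.face f hf).2.1, hHO (hM.face f hf).2.2⟩
  have hloc := es_Z0_local hc hc0 N δ T M R hM hb
  unfold esCs esDs esC
  rw [div_mul_eq_div_div_swap, hloc, hPc, hPo]
  obtain ⟨T', hT'⟩ : ∃ T', T' = T.restr M.O := ⟨_, rfl⟩
  rw [← hT']
  have hG := es_gd hc (T'.cut M.F) c0 δ hb
  have hd : Disjoint (egSites (T'.cut M.F) M.H) (egSites (T'.cut M.F) M.p) := by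
    rw [Set.disjoint_left]
    intro v hv hv'
    exact (Finset.disjoint_left.1 hM.disj) (hM.H_sub hv) hv'
  have hk := Pins.T32.pn_ext_const _ (es_sand_ext hc N δ T' M fun f hf => (hM.face f hf).2) hG
    (egSites (T'.cut M.F) M.p) (fun _ _ => trivial) hd
  have e1 : (es_sand_ext hc N δ T' M fun f hf => (hM.face f hf).2).zr b (egSites (T'.cut M.F) M.p) 0
      = esZ0 (T'.glue M.F) c0 δ b M.p 0 / esZ0 (T'.cut M.F) c0 δ b M.p 0 := rfl
  have e2 : (es_sand_ext hc N δ T' M fun f hf => (hM.face f hf).2).zr b ∅ 0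
      = esZ (T'.glue M.F) c0 δ b 0 / esZ (T'.cut M.F) c0 δ b 0 := by
    rw [← es_cs_Z, ← es_cs_Z]
    rfl
  rw [e1, e2] at hk
  constructor
  · exact Real.log_nonneg hk.1
  · rw [Real.log_le_iff_le_exp (lt_of_lt_of_le one_pos hk.1)]
    exact hk.2

/-- ES-EX-DELTA, **the one-mark identity + sandwich + locality + `0 ≤ c_i ≤ d_i`** (twin of `eg_delta_le`, no cutoff term) -/
theorem es_delta_le (hc : Whole c) {c0 : Grid G} (hc0 : Whole c0) (N : Nest c0 c) (δ : ℝ) (T : Top c) (hT : T.Ok) (M : EgMark c) (R : ℕ) (hM : M.Geo T R)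
    {b : ℝ} (hb : 0 < b) (a' : ℝ) (y : c.I → ℝ) (h : G.V → ℤ) (r : ℕ) :
    esDelta T c0 δ M b a' y h ^ r ≤ egPhi (esDs T c0 δ M b) (egDE T M a' 0 y / 2) r
      (esCL (T.cut M.F) c0 δ b M.p y h) (esCL (T.glue M.F) c0 δ b M.p y h) (esRP (T.cut M.F) c0 δ b M.p M.H h) := by
  have _ := hT
  obtain ⟨hx, hlog⟩ := es_X_log hc T c0 δ M hb a' y h
  obtain ⟨hcs, hds⟩ := es_cs_bound hc hc0 N δ T M R hM hb
  obtain ⟨hrp, hrd, hrd1⟩ := es_sandwich hc N δ T M R hM hb h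
  exact es_delta_alg _ _ _ _ _ _ _ _ _ r hx hlog hcs hds hrp hrd hrd1 rfl

/-! ## [GAU] -/

/-- the average over a non-empty fibre of a field which is constant on it -/
theorem es_gau_fib {Gr : HGraph} {C : Type} (κ₀ : Gr.V → C) (κ : C) (φ : Gr.V → ℝ) (a : ℝ) (hne : ∃ v, κ₀ v = κ) (h : ∀ v, κ₀ v = κ → φ v = a) :
    HLaw.pair (fibAvg κ₀ κ) φ = a := by
  classical
  unfold HLaw.pair fibAvg
  have e : ∀ v, (if κ₀ v = κ then ((Finset.univ.filter fun w => κ₀ w = κ).card : ℝ)⁻¹ else 0) * φ v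
      = if κ₀ v = κ then ((Finset.univ.filter fun w => κ₀ w = κ).card : ℝ)⁻¹ * a else 0 := by
    intro v
    by_cases hv : κ₀ v = κ
    · rw [if_pos hv, if_pos hv, h v hv]
    · rw [if_neg hv, if_neg hv, zero_mul]
  have hcard : ((Finset.univ.filter fun w => κ₀ w = κ).card : ℝ) ≠ 0 := by
    obtain ⟨v, hv⟩ := hne
    have : 0 < (Finset.univ.filter fun w => κ₀ w = κ).card := Finset.card_pos.2 ⟨v, Finset.mem_filter.2 ⟨Finset.mem_univ _, hv⟩⟩
    positivity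
  calc _ = ∑ v, (if κ₀ v = κ then ((Finset.univ.filter fun w => κ₀ w = κ).card : ℝ)⁻¹ * a else 0) := by
        refine Finset.sum_congr rfl fun v _ => ?_
        convert e v
    _ = a := by
        rw [← Finset.sum_filter, Finset.sum_const, nsmul_eq_mul]
        field_simp

theorem es_amb (T : Top c) (c0 : Grid G) (δ b : ℝ) (y : c.I → ℝ) :
    (affS T c0 δ y).amb b = (show ((lawS T c0 δ).sys b).Amb from ((0 : ((lawS T c0 δ).sys b).E → ℤ), fun o => - (affS T c0 δ y).c o)) := by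
  unfold HLaw.Aff.amb
  have : (affS T c0 δ y).x = 0 := rfl
  rw [this, map_zero, zero_add]
  rfl

/-- a shift which is constant across the retained faces does not see the bonds nor the averaged bonds -/
theorem es_gau_key (hc : Whole c) {c0 : Grid G} (N : Nest c0 c) (δ : ℝ) (T : Top c) (b : ℝ) (κ : c.I → ℤ) (y : c.I → ℝ)
    (h : ∀ f ∈ T.faces, κ (fnb c f) = κ f.1) :
    (show ((lawS T c0 δ).sys b).Amb from ((0 : ((lawS T c0 δ).sys b).E → ℤ), fun o => - (affS T c0 δ y).c o)) =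
      (lawS T c0 δ).coordA b (egRes T fun v => κ (c.blk v))
        + (show ((lawS T c0 δ).sys b).Amb from ((0 : ((lawS T c0 δ).sys b).E → ℤ), fun o => - (affS T c0 δ (egSh2 y κ)).c o)) := by
  have hedge : ∀ e : G.V × Bool, T.IsEdge e → κ (c.blk (stp e.1 e.2)) = κ (c.blk e.1) := by
    intro e he
    by_cases hs : c.blk (stp e.1 e.2) = c.blk e.1
    · rw [hs]
    · have hf : (c.blk e.1, e.2) ∈ T.faces := he.2.2.2.resolve_left hs
      rw [enb_blk_stp hc e.1 e.2 hs]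
      exact h _ hf
  refine Prod.ext (funext fun e => ?_) (funext fun o => ?_)
  · show (0 : ℤ) = (κ (c.blk (stp e.1.1 e.1.2)) - κ (c.blk e.1.1)) + 0
    rw [hedge e.1 e.2]
    ring
  · rcases o with o | q
    · show - y o.1 = (∑ v, T.law.B o v * (2 * Real.pi * ((egRes T (fun v => κ (c.blk v)) v : ℤ) : ℝ))) + - egSh2 y κ o.1
      rw [eg_gau_row hc T κ o]
      unfold egSh2
      ring
    · show -(0 : ℝ) = (∑ v, Real.sqrt δ * (fibAvg (subOf T c0) q.1.2 v - fibAvg (subOf T c0) q.1.1 v)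
          * (2 * Real.pi * ((egRes T (fun v => κ (c.blk v)) v : ℤ) : ℝ))) + -(0 : ℝ)
      obtain ⟨⟨e, he, h1, h2⟩, _⟩ := (es_mem_pairs T c0 q.1).1 q.2
      have a1 : HLaw.pair (fibAvg (subOf T c0) q.1.1) (fun v => 2 * Real.pi * ((egRes T (fun v => κ (c.blk v)) v : ℤ) : ℝ))
          = 2 * Real.pi * (κ (c.blk e.1) : ℝ) := by
        refine es_gau_fib _ _ _ _ ⟨⟨e.1, he.2.1⟩, h1⟩ fun v hv => ?_
        have : c0.blk v.1 = c0.blk e.1 := (show c0.blk v.1 = q.1.1 from hv).trans h1.symm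
        show 2 * Real.pi * ((κ (c.blk v.1) : ℤ) : ℝ) = _
        rw [res_blk_up N v.1, this, ← res_blk_up N]
      have a2 : HLaw.pair (fibAvg (subOf T c0) q.1.2) (fun v => 2 * Real.pi * ((egRes T (fun v => κ (c.blk v)) v : ℤ) : ℝ))
          = 2 * Real.pi * (κ (c.blk e.1) : ℝ) := by
        refine es_gau_fib _ _ _ _ ⟨⟨stp e.1 e.2, he.2.2.1⟩, h2⟩ fun v hv => ?_
        have : c0.blk v.1 = c0.blk (stp e.1 e.2) := (show c0.blk v.1 = q.1.2 from hv).trans h2.symm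
        show 2 * Real.pi * ((κ (c.blk v.1) : ℤ) : ℝ) = _
        rw [res_blk_up N v.1, this, ← res_blk_up N, hedge e he]
      have a3 : (∑ v, Real.sqrt δ * (fibAvg (subOf T c0) q.1.2 v - fibAvg (subOf T c0) q.1.1 v)
          * (2 * Real.pi * ((egRes T (fun v => κ (c.blk v)) v : ℤ) : ℝ)))
          = Real.sqrt δ * (HLaw.pair (fibAvg (subOf T c0) q.1.2) (fun v => 2 * Real.pi * ((egRes T (fun v => κ (c.blk v)) v : ℤ) : ℝ))
            - HLaw.pair (fibAvg (subOf T c0) q.1.1) (fun v => 2 * Real.pi * ((egRes T (fun v => κ (c.blk v)) v : ℤ) : ℝ))) := by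
        unfold HLaw.pair
        rw [← Finset.sum_sub_distrib, Finset.mul_sum]
        exact Finset.sum_congr rfl fun v _ => by ring
      rw [a3, a1, a2]
      ring

theorem es_Z_shift (hc : Whole c) {c0 : Grid G} (N : Nest c0 c) (δ : ℝ) (T : Top c) (b : ℝ) (κ : c.I → ℤ) (y : c.I → ℝ)
    (h : ∀ f ∈ T.faces, κ (fnb c f) = κ f.1) : esZ T c0 δ b y = esZ T c0 δ b (egSh2 y κ) := by
  unfold esZ
  refine eg_gau_Z_shift (lawS T c0 δ) b _ _ (egRes T fun v => κ (c.blk v)) (AddSubgroup.mem_top _) ?_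
  rw [es_amb, es_amb]
  exact es_gau_key hc N δ T b κ y h

theorem es_J_shift (hc : Whole c) {c0 : Grid G} (N : Nest c0 c) (δ : ℝ) (T : Top c) (b : ℝ) (κ : c.I → ℤ) (y : c.I → ℝ)
    (h : ∀ f ∈ T.faces, κ (fnb c f) = κ f.1) (p : Finset c.I) (γ : G.V → ℤ) :
    esJ T c0 δ b y p γ = esJ T c0 δ b (egSh2 y κ) p (fun v => γ v + κ (c.blk v)) := by
  unfold esJ
  set P := egSites T p with hP
  set g : T.graph.V → ℤ := egRes T fun v => κ (c.blk v) with hg
  have hres : C3.resZ P (egRes T fun v => γ v + κ (c.blk v)) = C3.resZ P (egRes T γ) + C3.resZ P g := by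
    funext v
    simp only [C3.resZ, egRes, Pi.add_apply, hg]
    split_ifs <;> simp
  refine eg_gau_Z_shift ((lawS T c0 δ).addPin P) b _ _ (g - C3.resZ P g) ⟨AddSubgroup.mem_top _, ?_⟩ ?_
  · intro v hv
    simp only [C3.resZ, Pi.sub_apply, if_pos hv, sub_self]
  · have key := es_gau_key hc N δ T b κ y h
    show (lawS T c0 δ).coordA b (C3.resZ P (egRes T γ))
        + (show ((lawS T c0 δ).sys b).Amb from ((0 : ((lawS T c0 δ).sys b).E → ℤ), fun o => - (affS T c0 δ y).c o)) =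
      (lawS T c0 δ).coordA b (g - C3.resZ P g) + ((lawS T c0 δ).coordA b (C3.resZ P (egRes T fun v => γ v + κ (c.blk v))) +
        (show ((lawS T c0 δ).sys b).Amb from ((0 : ((lawS T c0 δ).sys b).E → ℤ), fun o => - (affS T c0 δ (egSh2 y κ)).c o)))
    rw [key, hres, map_add, map_sub]
    abel

theorem es_sum_shift (hc : Whole c) {c0 : Grid G} (N : Nest c0 c) (δ : ℝ) (T : Top c) (b : ℝ) (κ : c.I → ℤ) (y : c.I → ℝ)
    (h : ∀ f ∈ T.faces, κ (fnb c f) = κ f.1) (F : (G.V → ℤ) → ℝ) (hF : ∀ γ γ' : G.V → ℤ, (∀ v, c.blk v ∈ T.cells → γ v = γ' v) → F γ = F γ') :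
    esSum T c0 δ b y F = esSum T c0 δ b (egSh2 y κ) fun γ => F fun v => γ v - κ (c.blk v) := by
  unfold esSum
  refine eg_gau_ZI_shift (lawS T c0 δ) b _ _ (egRes T fun v => κ (c.blk v)) (AddSubgroup.mem_top _) ?_ _ _ ?_
  · rw [es_amb, es_amb]
    exact es_gau_key hc N δ T b κ y h
  · intro z
    refine hF _ _ fun v hv => ?_
    have e1 : (affS T c0 δ y).x = 0 := rfl
    have e2 : (affS T c0 δ (egSh2 y κ)).x = 0 := rfl
    rw [e1, e2]
    simp only [egExt, dif_pos hv, add_zero]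
    show z ⟨v, hv⟩ = (z ⟨v, hv⟩ + κ (c.blk v)) - κ (c.blk v)
    ring

theorem es_gau_zero (κ : c.I → ℤ) {E : Finset (Face c)} (h : ∀ f ∈ E, κ (fnb c f) = κ f.1) :
    ∀ f ∈ E, (0 : Face c → ℤ) f = (0 : Face c → ℤ) f + κ (fnb c f) - κ f.1 := by
  intro f hf
  rw [h f hf]
  simp

/-- ES-EX-GAU: component periods -/
theorem es_A_shift (hc : Whole c) {c0 : Grid G} (hc0 : Whole c0) (N : Nest c0 c) (δ : ℝ) (T : Top c) (hT : T.Ok) (b a' : ℝ) (κ : c.I → ℤ)
    (h : ∀ f ∈ T.faces, κ (fnb c f) = κ f.1) (y : c.I → ℝ) : esA T c0 δ b a' y = esA T c0 δ b a' (egSh2 y κ) := by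
  have _ := hc0
  unfold esA
  rw [eg_Eobs_gauge hc T hT a' 0 0 κ y (es_gau_zero κ h), es_Z_shift hc N δ T b κ y h]

theorem es_gau_delta (hc : Whole c) {c0 : Grid G} (N : Nest c0 c) (δ : ℝ) (T : Top c) (hT : T.Ok) (M : EgMark c)
    (hF : ∀ f ∈ M.F, IsFace c f ∧ f.1 ∈ T.cells ∧ fnb c f ∈ T.cells) (b a' : ℝ) (κ : c.I → ℤ)
    (h : ∀ f, (f ∈ T.faces ∨ f ∈ M.F) → κ (fnb c f) = κ f.1) (y : c.I → ℝ) (γ : G.V → ℤ) :
    esDelta T c0 δ M b a' y (fun v => γ v - κ (c.blk v)) = esDelta T c0 δ M b a' (egSh2 y κ) γ := by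
  have hg : (T.glue M.F).Ok := eg_gau_ok_glue T hT M.F hF
  have hcu : (T.cut M.F).Ok := eg_gau_ok_cut T hT M.F
  have hhg : ∀ f ∈ (T.glue M.F).faces, κ (fnb c f) = κ f.1 := fun f hf => h f (Finset.mem_union.1 hf)
  have hhc : ∀ f ∈ (T.cut M.F).faces, κ (fnb c f) = κ f.1 := fun f hf => h f (Or.inl (Finset.mem_sdiff.1 hf).1)
  have hγ : (fun v => γ v - κ (c.blk v) + κ (c.blk v)) = γ := funext fun v => sub_add_cancel _ _
  have e1 := es_J_shift hc N δ (T.glue M.F) b κ y hhg M.p (fun v => γ v - κ (c.blk v))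
  have e2 := es_J_shift hc N δ (T.cut M.F) b κ y hhc M.p (fun v => γ v - κ (c.blk v))
  rw [hγ] at e1 e2
  have e3 := eg_Eobs_gauge hc (egPo T M) (eg_gau_ok_restr _ hg M.O) a' 0 0 κ y
    (es_gau_zero κ fun f hf => hhg f (Finset.mem_filter.1 hf).1)
  have e4 := eg_Eobs_gauge hc (egPc T M) (eg_gau_ok_restr _ hcu M.O) a' 0 0 κ y
    (es_gau_zero κ fun f hf => hhc f (Finset.mem_filter.1 hf).1)
  unfold esDelta esX esB egDE
  rw [e1, e2, e3, e4]

theorem es_gau_J_congr (T : Top c) (c0 : Grid G) (δ b : ℝ) (y : c.I → ℝ) (p : Finset c.I) (γ γ' : G.V → ℤ)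
    (h : ∀ v, c.blk v ∈ T.cells → γ v = γ' v) : esJ T c0 δ b y p γ = esJ T c0 δ b y p γ' := by
  have : egRes T γ = egRes T γ' := funext fun v => h v.1 v.2
  unfold esJ
  rw [this]

theorem es_gau_delta_congr (T : Top c) (c0 : Grid G) (δ : ℝ) (M : EgMark c) (b a' : ℝ) (y : c.I → ℝ) (γ γ' : G.V → ℤ)
    (h : ∀ v, c.blk v ∈ T.cells → γ v = γ' v) : esDelta T c0 δ M b a' y γ = esDelta T c0 δ M b a' y γ' := by
  unfold esDelta esX
  rw [es_gau_J_congr (T.glue M.F) c0 δ b y M.p γ γ' h, es_gau_J_congr (T.cut M.F) c0 δ b y M.p γ γ' h]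

/-- ES-EX-GAU: component periods (twin of `eg_Q_gauge` with `τ = τ' = 0`) -/
theorem es_Q_shift (hc : Whole c) {c0 : Grid G} (hc0 : Whole c0) (N : Nest c0 c) (δ : ℝ) (T : Top c) (hT : T.Ok) {ι : Type} [Fintype ι] (Ms : ι → EgMark c)
    (hF : ∀ i, ∀ f ∈ (Ms i).F, IsFace c f ∧ f.1 ∈ T.cells ∧ fnb c f ∈ T.cells) (hp : ∀ i, (Ms i).p ⊆ T.cells) (b a' : ℝ) (κ : c.I → ℤ)
    (h : ∀ f, (f ∈ T.faces ∨ ∃ i, f ∈ (Ms i).F) → κ (fnb c f) = κ f.1) (y : c.I → ℝ) :
    esQ T c0 δ Ms b a' y = esQ T c0 δ Ms b a' (egSh2 y κ) := by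
  have _ := hp
  have hT' : ∀ f ∈ T.faces, κ (fnb c f) = κ f.1 := fun f hf => h f (Or.inl hf)
  unfold esQ esEx
  rw [es_A_shift hc hc0 N δ T hT b a' κ hT' y, es_Z_shift hc N δ T b κ y hT',
    es_sum_shift hc N δ T b κ y hT' _ (fun γ γ' hγ => Finset.prod_congr rfl fun i _ => es_gau_delta_congr T c0 δ (Ms i) b a' y γ γ' hγ)]
  congr 3
  funext γ
  refine Finset.prod_congr rfl fun i _ => ?_
  exact es_gau_delta hc N δ T hT (Ms i) (hF i) b a' κ (fun f hf => h f (hf.imp id fun hf => ⟨i, hf⟩)) y γ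

end

end Claimed.Agent.R285.C5
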