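import Claimed.Agent.R285.C5.EntLaw
import Claimed.Agent.R285.C5.EsEx
import Claimed.Agent.R285.Entry.GoodFac

/-!
# ROW 285, [C] s5.3, post C5-BOX, package ES-FAC: THE BRIDGE  factor model `strPhy` (`C5/EntDefs.lean`, helper66)  ⟷  height laws `lawS T c0 δ` (`C5/EsDefs.lean`)      (architect helper60, chief helper262)

TWIN of `Entry/GoodFac.lean` (helper109).   All statements are EXACT identities of absolutely convergent sums.   Prefix `es_fac_`.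
```
s1 GENERIC (any `Y : Phy c` with carriers `CarOk Y cE cO`, `Entry/PhyCar.lean`):
   es_fac_g_glue   restoring faces = adding the factors through them        es_fac_g_cE_inv   the interior conditional expectation sees only the guard
   es_fac_g_ratio  Markov property at the guard                              es_fac_g_loc      patch = box inside the guard
   es_fac_g_delta  `dlt = egDl ((J_o / J_c) / β)`
s2 MASTER IDENTITY  es_fac_wt, es_fac_Z  (pins on cells, any background, any functional)  ⟹  es_fac_sum, es_fac_Z1, es_fac_Z0, es_fac_Ex, es_fac_J, es_fac_pin0, es_fac_xPin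
s3 ENERGIES         es_fac_E, es_fac_AT, es_fac_tfac
s4 EXITS            es_fac_ratio, es_fac_delta, es_fac_delta_patch
```
-/

set_option autoImplicit false

namespace Claimed.Agent.R285.C5

open scoped BigOperators
open Claimed.Agent.R285 Claimed.Agent.R285.RG Claimed.Agent.R285.F4a Claimed.Agent.R285.Ent Claimed.Agent.R285.Entry

noncomputable section

variable {G : Geom} {c0 c : Grid G}

/-! ## 1. Generic part: factor models with carriers -/

section generic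

variable {Y : Phy c} {cE : Y.Fc.E → Car c} {cO : Y.Fc.O → Car c}

/-- restoring faces = adding the factors through them -/
theorem es_fac_g_glue (h : CarOk Y cE cO) (T : Top c) (hT : T.Ok) (F : Finset (Face c))
    (hF : ∀ f ∈ F, IsFace c f ∧ f.1 ∈ T.cells ∧ fnb c f ∈ T.cells) :
    Y.M (T.glue F) = (Y.M (T.cut F)).add (Y.FFs F) ∧ (Y.M (T.cut F)).New (Y.FFs F) := by
  classical
  have e : T.glue F = ⟨(T.cut F).cells, (T.cut F).faces ∪ F⟩ := by
    unfold Top.glue Top.cut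
    simp only [Finset.sdiff_union_self_eq_union]
  constructor
  · rw [e]
    refine car_glue h (T.cut F) F ?_
    rw [← e]
    exact eg_gau_ok_glue T hT F hF
  · refine ⟨Finset.disjoint_left.2 fun x h1 h2 => ?_, Finset.disjoint_left.2 fun x h1 h2 => ?_⟩
    · obtain ⟨f, hf, hx⟩ := Finset.mem_biUnion.1 h1
      exact Finset.disjoint_left.1 (car_FF_new h (T.cut F) f fun hh => (Finset.mem_sdiff.1 hh).2 hf).1 hx h2
    · obtain ⟨f, hf, hx⟩ := Finset.mem_biUnion.1 h1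
      exact Finset.disjoint_left.1 (car_FF_new h (T.cut F) f fun hh => (Finset.mem_sdiff.1 hh).2 hf).2 hx h2

/-- the restored factors see only sites of the cells at the restored faces -/
theorem es_fac_g_off (h : CarOk Y cE cO) (F : Finset (Face c)) (H J : Finset c.I) (hF : ∀ f ∈ F, f.1 ∈ H ∧ fnb c f ∈ H) (hJ : Disjoint H J) :
    (Y.FFs F).Off (Y.st J) := by
  classical
  have key : ∀ f ∈ F, ∀ v ∈ Y.st J, v ∉ Y.st {f.1, fnb c f} := by
    intro f hf v hv hv'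
    rw [car_mem_st] at hv hv'
    rcases Finset.mem_insert.1 hv' with h1 | h1
    · exact Finset.disjoint_left.1 hJ (h1 ▸ (hF f hf).1) hv
    · exact Finset.disjoint_left.1 hJ ((Finset.mem_singleton.1 h1) ▸ (hF f hf).2) hv
  refine ⟨fun x hx v hv => ?_, fun x hx v hv => ?_⟩
  · obtain ⟨f, hf, hx'⟩ := Finset.mem_biUnion.1 hx
    by_contra hne
    exact key f hf v hv ((car_FF_sup h f).1 x hx' v (Finset.mem_univ _) hne)
  · obtain ⟨f, hf, hx'⟩ := Finset.mem_biUnion.1 hx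
    by_contra hne
    exact key f hf v hv ((car_FF_sup h f).2 x hx' v (Finset.mem_univ _) hne)

theorem es_fac_g_pos (h : CarOk Y cE cO) (F : Finset (Face c)) : (Y.FFs F).Pos := fun e _ => h.pos e

/-- the conditional expectation of the restored factors in the interior depends only on the heights on the guard -/
theorem es_fac_g_cE_inv (h : CarOk Y cE cO) (T : Top c) (M : EgMark c) (R : ℕ) (hM : M.Geo T R) (D0 : Y.Fc.Dat) :
    Y.Fc.Inv (Finset.univ \ Y.st M.p) ((Y.M (T.cut M.F)).cE (Y.st M.D) D0 (Fac.rw (Y.FFs M.F) D0)) := by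
  classical
  obtain ⟨J, hJ⟩ : ∃ J : Finset c.I, J = Finset.univ \ (M.D ∪ M.p) := ⟨_, rfl⟩
  have hJm : ∀ i, i ∈ J ↔ i ∉ M.D ∪ M.p := fun i => by rw [hJ]; simp
  have hdis : Disjoint M.D J := Finset.disjoint_left.2 fun i h1 h2 => (hJm i).1 h2 (Finset.mem_union_left _ h1)
  have hsep : (Y.M (T.cut M.F)).Sep (Y.st M.D) (Y.st J) := car_sep h (T.cut M.F) M.D J hdis fun f hf => by
    have hf' : f ∈ T.faces ∪ M.F := Finset.mem_union_left _ (Finset.mem_sdiff.1 hf).1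
    exact ⟨fun hh => (hJm _).1 hh.2 ((hM.sepG f hf').1 hh.1), fun hh => (hJm _).1 hh.1 ((hM.sepG f hf').2 hh.2)⟩
  have hoff : (Y.FFs M.F).Off (Y.st J) := es_fac_g_off h M.F M.D J
    (fun f hf => ⟨hM.H_sub (hM.face f hf).2.1, hM.H_sub (hM.face f hf).2.2⟩) hdis
  have h1 := fk_cE_inv_self (Y.M (T.cut M.F)) (Y.st M.D) D0 (Fac.rw (Y.FFs M.F) D0)
  have h2 := fk_cE_inv (Y.M (T.cut M.F)) (Y.st M.D) (Y.st J) hsep D0 _ (fk_mkv_rw_inv _ (Y.st J) hoff D0)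
  refine eg_fac_inv_mono22 ?_ (fk_spl_inv_union _ _ _ h1 h2)
  intro v hv
  rw [Finset.mem_sdiff, car_mem_st] at hv
  rw [Finset.mem_union, car_mem_st, car_mem_st, hJm, Finset.mem_union]
  by_cases hvD : Y.blk v ∈ M.D
  · exact Or.inl hvD
  · exact Or.inr fun hh => hh.elim hvD hv.2

/-- **Markov property at the guard**: the quotient of the joint densities of the two adjacent topologies is the conditional expectation of the restored factors in the interior model. -/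
theorem es_fac_g_ratio (h : CarOk Y cE cO) (T : Top c) (hT : T.Ok) (M : EgMark c) (R : ℕ) (hM : M.Geo T R) (D0 : Y.Fc.Dat) (x g : Y.Fc.Ht)
    (hx : ∀ v, Y.blk v ∈ M.p → x v = g v) :
    ((Y.M (T.glue M.F)).pin (Y.st M.p)).Z1 (D0.bk x) / ((Y.M (T.cut M.F)).pin (Y.st M.p)).Z1 (D0.bk x)
      = (Y.M (T.cut M.F)).cE (Y.st M.D) D0 (Fac.rw (Y.FFs M.F) D0) g := by
  classical
  have hsub : M.H ⊆ T.cells := hM.H_sub.trans (hM.D_sub.trans hM.O_sub)
  have hF : ∀ f ∈ M.F, IsFace c f ∧ f.1 ∈ T.cells ∧ fnb c f ∈ T.cells :=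
    fun f hf => ⟨(hM.face f hf).1, hsub (hM.face f hf).2.1, hsub (hM.face f hf).2.2⟩
  obtain ⟨hadd, hnew⟩ := es_fac_g_glue h T hT M.F hF
  have hN : ((Y.M (T.cut M.F)).pin (Y.st M.p)).Ok := fk_ok_pin _ (car_msk_ok h (T.cut M.F)) _
  have hK := es_fac_g_cE_inv h T M R hM D0
  obtain ⟨Φ, hΦ⟩ : ∃ Φ : Y.Fc.Ht → ℝ, Φ = (Y.M (T.cut M.F)).cE (Y.st M.D) D0 (Fac.rw (Y.FFs M.F) D0) := ⟨_, rfl⟩
  rw [← hΦ] at hK ⊢
  obtain ⟨Dp, hDp⟩ : ∃ Dp : Y.Fc.Dat, Dp = D0.bk x := ⟨_, rfl⟩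
  rw [← hDp]
  have hI : Y.st M.D ⊆ ((Y.M (T.cut M.F)).pin (Y.st M.p)).A := by
    intro v hv
    show v ∈ (Y.M (T.cut M.F)).A \ Y.st M.p
    rw [car_mem_st] at hv
    rw [h.A_eq, Finset.mem_sdiff, car_mem_st, car_mem_st]
    exact ⟨hM.O_sub (hM.D_sub hv), fun hp => (Finset.disjoint_left.1 hM.disj hv) hp⟩
  have hpos : (Y.FFs M.F).Pos := es_fac_g_pos h M.F
  have hgb : Y.Fc.Bdd (Fac.rw (Y.FFs M.F) Dp) :=
    ⟨1, fun z => by rw [abs_of_pos (fk_rw_mem _ hpos Dp z).1]; exact (fk_rw_mem _ hpos Dp z).2⟩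
  have hmk := fk_markov ((Y.M (T.cut M.F)).pin (Y.st M.p)) hN (Y.st M.D) hI Dp (fun _ => 1)
    (Fac.rw (Y.FFs M.F) Dp) ⟨1, fun _ => by simp⟩ hgb (fun _ _ _ => rfl)
  have hcE : ((Y.M (T.cut M.F)).pin (Y.st M.p)).cE (Y.st M.D) Dp (Fac.rw (Y.FFs M.F) Dp) = Φ := by
    rw [hΦ, hDp]
    rfl
  rw [hcE] at hmk
  have hinvA : Y.Fc.Inv ((Y.M (T.cut M.F)).pin (Y.st M.p)).A Φ :=
    eg_fac_inv_mono22 (fun v hv => Finset.mem_sdiff.2 ⟨Finset.mem_univ _, (Finset.mem_sdiff.1 hv).2⟩) hK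
  have hZ := fk_Z_inv ((Y.M (T.cut M.F)).pin (Y.st M.p)) Dp Φ (fun _ => 1) hinvA
  have hp := fk_Z1_pos _ hN Dp
  have e2 : ((Y.M (T.glue M.F)).pin (Y.st M.p)).Z1 Dp = Φ Dp.x * ((Y.M (T.cut M.F)).pin (Y.st M.p)).Z1 Dp := by
    rw [hadd, fk_add_pin]
    unfold Fac.Msk.Z1
    rw [fk_add_eq ((Y.M (T.cut M.F)).pin (Y.st M.p)) _ (show ((Y.M (T.cut M.F)).pin (Y.st M.p)).New _ from hnew), hmk, ← hZ]
    refine congrArg _ (funext fun z => ?_)
    ring
  rw [e2, mul_div_assoc, div_self hp.ne', mul_one, hDp]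
  have hn : g - x ∈ Y.Fc.sup (Finset.univ \ Y.st M.p) := by
    intro v hv
    have hv' : Y.blk v ∈ M.p := by
      rw [Finset.mem_sdiff, not_and, not_not, car_mem_st] at hv
      exact hv (Finset.mem_univ _)
    show g v - x v = 0
    rw [hx v hv', sub_self]
  have := hK x _ hn
  rw [add_sub_cancel] at this
  exact this.symm

/-- the factors which touch the interior of the guard are the same in the box and in the open patch -/
theorem es_fac_g_loc (h : CarOk Y cE cO) (T : Top c) (hT : T.Ok) (M : EgMark c) (R : ℕ) (hM : M.Geo T R) :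
    (Y.M (egPc T M)).loc (Y.st M.D) = (Y.M (T.cut M.F)).loc (Y.st M.D) := by
  classical
  refine car_loc h _ _ M.D (eg_gau_ok_restr _ (eg_gau_ok_cut T hT _) _) (eg_gau_ok_cut T hT _) ?_
  have hU : M.D ∪ M.p ⊆ M.O := Finset.union_subset hM.D_sub hM.p_sub
  refine Finset.disjoint_left.2 fun j hj hd => ?_
  rcases (Finset.mem_filter.1 hd).2 with h1 | ⟨f, h1, h2⟩
  · apply h1
    have hjO := hM.D_sub hj
    exact ⟨fun _ => hM.O_sub hjO, fun _ => Finset.mem_inter.2 ⟨hM.O_sub hjO, hjO⟩⟩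
  · apply h2
    constructor
    · intro hf
      exact (Finset.mem_filter.1 hf).1
    · intro hf
      have hf' : f ∈ T.faces ∪ M.F := Finset.mem_union_left _ (Finset.mem_sdiff.1 hf).1
      refine Finset.mem_filter.2 ⟨hf, ?_⟩
      rcases h1 with h1 | h1
      · have h3 : f.1 ∈ M.D := h1 ▸ hj
        exact ⟨hM.D_sub h3, hU ((hM.sepG f hf').1 h3)⟩
      · have h3 : fnb c f ∈ M.D := h1 ▸ hj
        exact ⟨hU ((hM.sepG f hf').2 h3), hM.D_sub h3⟩

/-- **`δ` of NORM through the joint densities** (no cutoff), ambient = the cut box -/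
theorem es_fac_g_delta (h : CarOk Y cE cO) (T : Top c) (hT : T.Ok) (M : EgMark c) (R : ℕ) (hM : M.Geo T R) (D0 : Y.Fc.Dat) (x g : Y.Fc.Ht)
    (hx : ∀ v, Y.blk v ∈ M.p → x v = g v) (β : ℝ) (hβ : 0 < β) :
    dlt (Y.M (T.cut M.F)) (Y.st M.D) (Y.FFs M.F) 1 β D0 g
      = egDl ((((Y.M (T.glue M.F)).pin (Y.st M.p)).Z1 (D0.bk x) / ((Y.M (T.cut M.F)).pin (Y.st M.p)).Z1 (D0.bk x)) / β) := by
  unfold dlt
  rw [eg_fac_rho, one_mul, ← es_fac_g_ratio h T hT M R hM D0 x g hx, eg_fac_dl_alg _ _ hβ]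

/-- the same with the cut open patch as ambient -/
theorem es_fac_g_delta_patch (h : CarOk Y cE cO) (T : Top c) (hT : T.Ok) (M : EgMark c) (R : ℕ) (hM : M.Geo T R) (D0 : Y.Fc.Dat) (x g : Y.Fc.Ht)
    (hx : ∀ v, Y.blk v ∈ M.p → x v = g v) (β : ℝ) (hβ : 0 < β) :
    dlt (Y.M (egPc T M)) (Y.st M.D) (Y.FFs M.F) 1 β D0 g
      = egDl ((((Y.M (T.glue M.F)).pin (Y.st M.p)).Z1 (D0.bk x) / ((Y.M (T.cut M.F)).pin (Y.st M.p)).Z1 (D0.bk x)) / β) := by
  rw [← es_fac_g_delta h T hT M R hM D0 x g hx β hβ]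
  exact congrFun (nm_dlt_congr _ _ _ _ (es_fac_g_loc h T hT M R hM) _ _ _ _ (fun _ _ => rfl) (fun _ _ => rfl)) g

end generic

/-! ## 2. The master identity and its corollaries -/

theorem es_fac_OmR_loc (hc : Whole c) (hc0 : Whole c0) (N0 : Nest c0 c) (T : Top c) (dl b : ℝ) : prLoc T (strOmR N0 T dl b) := by
  intro k k' h
  have h1 := esl_Om_loc hc hc0 N0 T dl (b : ℂ) k k' h
  rw [esl_Om_real, esl_Om_real] at h1
  exact Complex.ofReal_injective h1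

theorem es_fac_Gs_loc (T : Top c) (y : c.I → ℝ) : prLoc T (carGs T y) := by
  intro k k' h
  unfold carGs
  congr 3
  refine Finset.sum_congr rfl fun i hi => ?_
  rw [pr_Av_congr k k' i fun v hv => h v (hv ▸ hi)]

/-- the weights agree -/
theorem es_fac_wt (hc : Whole c) (hc0 : Whole c0) (N0 : Nest c0 c) (b dl : ℝ) (hdl : 0 ≤ dl) (T : Top c) (x : G.V → ℤ) (y : c.I → ℝ) (h : G.V → ℤ) :
    ((lawS T c0 dl).sys b).W ((lawS T c0 dl).coordA b (egRes T h) + (affS T c0 dl y).amb b)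
      = (mskS N0 b dl T).wt (⟨x, 0, Sum.elim y fun _ => 0⟩ : (facS c c0 b dl).Dat) h := by
  have e : (mskS N0 b dl T).wt (⟨x, 0, Sum.elim y fun _ => 0⟩ : (facS c c0 b dl).Dat) h = (mskS N0 b dl T).wt (datS c c0 b dl y) h := rfl
  have hl : ∀ v, c.blk v ∈ T.cells → prExt T (egRes T h) v = h v := fun v hv => pr_ext_of_mem T _ hv
  rw [e, esl_W hc hc0 N0 b dl hdl T y, esl_wt N0 b dl hdl, es_fac_OmR_loc hc hc0 N0 T dl b _ _ hl, es_fac_Gs_loc T y _ _ hl]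

/-- the two descriptions of the free fields -/
def es_fac_Z_equiv (N0 : Nest c0 c) (T : Top c) (b dl : ℝ) (p : Finset c.I) :
    ↥((facS c c0 b dl).sup ((mskS N0 b dl T).pin (c.sites p)).A) ≃ eg_loc_Fld c (T.cells \ p) :=
  Equiv.subtypeEquivRight fun g => by
    have hm : ∀ v : G.V, v ∈ ((mskS N0 b dl T).pin (c.sites p)).A ↔ c.blk v ∈ T.cells \ p := by
      intro v
      have e0 : ((mskS N0 b dl T).pin (c.sites p)).A = c.sites T.cells \ c.sites p := rfl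
      rw [e0, Finset.mem_sdiff, Finset.mem_sdiff]
      simp [Grid.sites]
    constructor
    · intro hg v hv
      exact hg v fun h => hv ((hm v).1 h)
    · intro hg v hv
      exact hg v fun h => hv ((hm v).2 h)

/-- **The master reindexing** (pins on cells, any background, any functional). -/
theorem es_fac_Z (hc : Whole c) (hc0 : Whole c0) (N0 : Nest c0 c) (b dl : ℝ) (hdl : 0 ≤ dl) (T : Top c) (p : Finset c.I) (x : G.V → ℤ) (y : c.I → ℝ)
    (Ψ : (G.V → ℤ) → ℝ) :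
    ((mskS N0 b dl T).pin (c.sites p)).Z (⟨x, 0, Sum.elim y fun _ => 0⟩ : (facS c c0 b dl).Dat) Ψ
      = C3.ZI ((lawS T c0 dl).addPin (egSites T p)) b ⟨egRes T x, 0, (affS T c0 dl y).c⟩ fun k => Ψ (egMix T x k) := by
  have hL : ((mskS N0 b dl T).pin (c.sites p)).Z (⟨x, 0, Sum.elim y fun _ => 0⟩ : (facS c c0 b dl).Dat) Ψ =
      ∑' g : ↥((facS c c0 b dl).sup ((mskS N0 b dl T).pin (c.sites p)).A),
        Ψ (x + (g : G.V → ℤ)) * (mskS N0 b dl T).wt (⟨x, 0, Sum.elim y fun _ => 0⟩ : (facS c c0 b dl).Dat) (x + (g : G.V → ℤ)) := rfl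
  have hR : C3.ZI ((lawS T c0 dl).addPin (egSites T p)) b ⟨egRes T x, 0, (affS T c0 dl y).c⟩ (fun k => Ψ (egMix T x k)) =
      ∑' k : ↥(T.law.Λ ⊓ HLaw.pinned (egSites T p)), Ψ (egMix T x ((k : T.graph.V → ℤ) + egRes T x)) *
        ((lawS T c0 dl).sys b).W ((lawS T c0 dl).coordA b (k : T.graph.V → ℤ) + ((lawS T c0 dl).coordA b (egRes T x) +
          (show ((lawS T c0 dl).sys b).Amb from ((0 : ((lawS T c0 dl).sys b).E → ℤ), fun o => - (affS T c0 dl y).c o)))) := rfl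
  rw [hL, hR, ← ((eg_loc_equiv T p).trans (es_fac_Z_equiv N0 T b dl p).symm).tsum_eq]
  refine tsum_congr fun k => ?_
  have hk : ((((eg_loc_equiv T p).trans (es_fac_Z_equiv N0 T b dl p).symm) k :
      ↥((facS c c0 b dl).sup ((mskS N0 b dl T).pin (c.sites p)).A)) : G.V → ℤ) = egExt T (k : T.graph.V → ℤ) := rfl
  rw [hk]
  have e1 : egRes T (x + egExt T (k : T.graph.V → ℤ)) = (k : T.graph.V → ℤ) + egRes T x := by
    funext v
    show x v.1 + egExt T (k : T.graph.V → ℤ) v.1 = (k : T.graph.V → ℤ) v + x v.1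
    unfold egExt
    rw [dif_pos v.2, add_comm]
    rfl
  have e2 : egMix T x ((k : T.graph.V → ℤ) + egRes T x) = x + egExt T (k : T.graph.V → ℤ) := by
    funext v
    show egMix T x ((k : T.graph.V → ℤ) + egRes T x) v = x v + egExt T (k : T.graph.V → ℤ) v
    unfold egMix egExt
    by_cases hv : c.blk v ∈ T.cells
    · rw [dif_pos hv, dif_pos hv]
      show (k : T.graph.V → ℤ) ⟨v, hv⟩ + x v = _
      rw [add_comm]
    · rw [dif_neg hv, dif_neg hv, add_zero]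
  rw [e2, ← es_fac_wt hc hc0 N0 b dl hdl T x y, e1, map_add, add_assoc, es_amb]

theorem es_fac_addPin_empty (T : Top c) (c0 : Grid G) (dl : ℝ) : ((lawS T c0 dl).Λ ⊓ HLaw.pinned (egSites T ∅)) = (lawS T c0 dl).Λ := by
  apply inf_eq_left.2
  intro h _ v hv
  simp [egSites] at hv

/-- `p = ∅` -/
theorem es_fac_sum (hc : Whole c) (hc0 : Whole c0) (N0 : Nest c0 c) (b dl : ℝ) (hdl : 0 ≤ dl) (T : Top c) (y : c.I → ℝ) (Ψ : (G.V → ℤ) → ℝ) :
    (mskS N0 b dl T).Z (datS c c0 b dl y) Ψ = esSum T c0 dl b y Ψ := by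
  have h := es_fac_Z hc hc0 N0 b dl hdl T ∅ 0 y Ψ
  rw [eg_fac_sites_empty, eg_fac_pin_empty] at h
  unfold datS esSum
  rw [h]
  have h2 := eg_fac_ZI_congr (lawS T c0 dl) _ (es_fac_addPin_empty T c0 dl) b (egRes T (0 : G.V → ℤ)) 0 (affS T c0 dl y).c (fun k => Ψ (egMix T 0 k))
  refine Eq.trans h2 ?_
  simp only [eg_fac_mix_zero]
  rfl

theorem es_fac_Z1 (hc : Whole c) (hc0 : Whole c0) (N0 : Nest c0 c) (b dl : ℝ) (hdl : 0 ≤ dl) (T : Top c) (y : c.I → ℝ) :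
    (mskS N0 b dl T).Z1 (datS c c0 b dl y) = esZ T c0 dl b y := str_Z1_eq hc hc0 N0 b dl hdl T y

theorem es_fac_Z0 (hc : Whole c) (hc0 : Whole c0) (N0 : Nest c0 c) (b dl : ℝ) (hdl : 0 ≤ dl) (T : Top c) :
    (mskS N0 b dl T).Z0 = esZ T c0 dl b 0 := by
  rw [← str_Z1_eq hc hc0 N0 b dl hdl, esl_dat_zero]
  rfl

theorem es_fac_Ex (hc : Whole c) (hc0 : Whole c0) (N0 : Nest c0 c) (b dl : ℝ) (hdl : 0 ≤ dl) (T : Top c) (y : c.I → ℝ) (Ψ : (G.V → ℤ) → ℝ) :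
    (mskS N0 b dl T).Ex (datS c c0 b dl y) Ψ = esEx T c0 dl b y Ψ := by
  unfold Fac.Msk.Ex esEx
  rw [es_fac_sum hc hc0 N0 b dl hdl, es_fac_Z1 hc hc0 N0 b dl hdl]

/-- the joint density -/
theorem es_fac_J (hc : Whole c) (hc0 : Whole c0) (N0 : Nest c0 c) (b dl : ℝ) (hdl : 0 ≤ dl) (T : Top c) (y : c.I → ℝ) (p : Finset c.I) (h : G.V → ℤ) :
    ((mskS N0 b dl T).pin (c.sites p)).Z1 ((datS c c0 b dl y).bk (egCl c p h)) = esJ T c0 dl b y p h := by
  have e : (datS c c0 b dl y).bk (egCl c p h) = (⟨egCl c p h, 0, Sum.elim y fun _ => 0⟩ : (facS c c0 b dl).Dat) := rfl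
  unfold Fac.Msk.Z1 esJ
  rw [e, es_fac_Z hc hc0 N0 b dl hdl, eg_fac_res_cl]
  rfl

theorem es_fac_aff_c_zero (T : Top c) (c0 : Grid G) (dl : ℝ) : (affS T c0 dl 0).c = 0 := by
  funext o
  rcases o with o | o <;> rfl

/-- centred pinned sums -/
theorem es_fac_pin0 (hc : Whole c) (hc0 : Whole c0) (N0 : Nest c0 c) (b dl : ℝ) (hdl : 0 ≤ dl) (T : Top c) (p : Finset c.I) :
    ((mskS N0 b dl T).pin (c.sites p)).Z0
      = ((lawS T c0 dl).addPin (egSites T p)).Z b (HLaw.Aff.zero ((lawS T c0 dl).addPin (egSites T p))) fun _ => 1 := by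
  have h := es_fac_Z hc hc0 N0 b dl hdl T p 0 0 (fun _ => 1)
  have e : (⟨0, 0, Sum.elim (0 : c.I → ℝ) fun _ => 0⟩ : (facS c c0 b dl).Dat) = 0 := esl_dat_zero b dl
  rw [e, es_fac_aff_c_zero] at h
  exact h

theorem es_fac_Z0_law (hc : Whole c) (hc0 : Whole c0) (N0 : Nest c0 c) (b dl : ℝ) (hdl : 0 ≤ dl) (T : Top c) :
    (mskS N0 b dl T).Z0 = (lawS T c0 dl).Z b (HLaw.Aff.zero (lawS T c0 dl)) fun _ => 1 := by
  rw [es_fac_Z0 hc hc0 N0 b dl hdl]
  unfold esZ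
  have e : affS T c0 dl 0 = HLaw.Aff.zero (lawS T c0 dl) := by
    have : affS T c0 dl 0 = ⟨0, 0, (affS T c0 dl 0).c⟩ := rfl
    rw [this, es_fac_aff_c_zero]
    rfl
  rw [e]

theorem es_fac_pin0_pos (hc : Whole c) (hc0 : Whole c0) (N0 : Nest c0 c) {b : ℝ} (hb : 0 < b) (dl : ℝ) (T : Top c) (B : Finset G.V) :
    0 < ((mskS N0 b dl T).pin B).Z0 := fk_Z1_pos _ (fk_ok_pin _ (esl_msk_ok hc hc0 N0 dl b hb T) _) _

/-- `e^{D(H,p)}` -/
theorem es_fac_xPin (hc : Whole c) (hc0 : Whole c0) (N0 : Nest c0 c) {b : ℝ} (hb : 0 < b) (dl : ℝ) (hdl : 0 ≤ dl) (T : Top c) (H p : Finset c.I) :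
    (mskS N0 b dl T).xPin (c.sites H) (c.sites p) = Real.exp ((lawS T c0 dl).dPin b (egSites T H) (egSites T p)) := by
  have p0 : 0 < (mskS N0 b dl T).Z0 := fk_Z1_pos _ (esl_msk_ok hc hc0 N0 dl b hb T) _
  have p1 := es_fac_pin0_pos hc hc0 N0 hb dl T (c.sites H)
  have p2 := es_fac_pin0_pos hc hc0 N0 hb dl T (c.sites p)
  have p3 := es_fac_pin0_pos hc hc0 N0 hb dl T (c.sites (H ∪ p))
  unfold Fac.Msk.xPin HLaw.dPin HLaw.pPin
  rw [eg_fac_sites_union, eg_fac_egSites_union, ← es_fac_pin0 hc hc0 N0 b dl hdl, ← es_fac_pin0 hc hc0 N0 b dl hdl,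
    ← es_fac_pin0 hc hc0 N0 b dl hdl, ← es_fac_Z0_law hc hc0 N0 b dl hdl]
  rw [Real.exp_sub, Real.exp_sub, Real.exp_log (div_pos p3 p0), Real.exp_log (div_pos p1 p0), Real.exp_log (div_pos p2 p0)]
  field_simp

/-! ## 3. Energies, positive factors -/

theorem es_fac_E (hc : Whole c) {a' : ℝ} (ha : 0 < a') (N0 : Nest c0 c) (R : ℕ) (dl b0 b : ℝ) (T : Top c) (hT : T.Ok) (y : c.I → ℝ) :
    (strPhy N0 R dl a' b0 b).E T y = T.Eobs a' 0 y := eg_fac_E hc ha R b0 b 0 T hT y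

theorem es_fac_Zh (hc : Whole c) (hc0 : Whole c0) (N0 : Nest c0 c) (R : ℕ) (dl a' b0 b : ℝ) (hdl : 0 ≤ dl) (T : Top c) (y : c.I → ℝ) :
    (strPhy N0 R dl a' b0 b).Zh T y = esZ T c0 dl b y := by
  rw [← es_fac_Z1 hc hc0 N0 b dl hdl]
  show (∏ f ∈ T.faces, (1 : ℝ)) * _ = _
  rw [Finset.prod_const_one, one_mul]
  rfl

theorem es_fac_AT (hc : Whole c) (hc0 : Whole c0) {a' : ℝ} (ha : 0 < a') (N0 : Nest c0 c) (R : ℕ) (dl b0 b : ℝ) (hdl : 0 ≤ dl) (T : Top c) (hT : T.Ok)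
    (y : c.I → ℝ) : (strPhy N0 R dl a' b0 b).AT T y = esA T c0 dl b a' y := by
  unfold Phy.AT esA
  rw [es_fac_E hc ha N0 R dl b0 b T hT y, es_fac_Zh hc hc0 N0 R dl a' b0 b hdl]
  have h0 : ((strPhy N0 R dl a' b0 b).M T).Z0 = esZ T c0 dl b 0 := es_fac_Z0 hc hc0 N0 b dl hdl T
  rw [h0]

/-- the tile factor at the base point -/
theorem es_fac_tfac (hc : Whole c) (hc0 : Whole c0) {a' : ℝ} (ha : 0 < a') (N0 : Nest c0 c) (R : ℕ) (dl b0 : ℝ) (hdl : 0 ≤ dl) (t : Tile)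
    (hT : (tileTop c R t).Ok) (y : c.I → ℝ) : (strPhy N0 R dl a' b0 b0).tfac t y = esA (tileTop c R t) c0 dl b0 a' y := by
  rw [← es_fac_AT hc hc0 ha N0 R dl b0 b0 hdl (tileTop c R t) hT y]
  unfold Phy.tfac Phy.tdiv Phy.AT
  have h0 : ((strPhy N0 R dl a' b0 b0).M (tileTop c R t)).Z0 = esZ (tileTop c R t) c0 dl b0 0 := es_fac_Z0 hc hc0 N0 b0 dl hdl _
  have h1 : (strPhy N0 R dl a' b0 b0).W.N (tileTop c (strPhy N0 R dl a' b0 b0).R t) = esZ (tileTop c R t) c0 dl b0 0 :=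
    str_N_eq hc hc0 N0 dl a' b0 b0 hdl _
  have h2 : (strPhy N0 R dl a' b0 b0).R = R := rfl
  rw [h1, h2, h0, neg_div, Real.exp_neg]
  field_simp

/-! ## 4. Exits: the conditional fractions -/

/-- **Markov property at the guard** -/
theorem es_fac_ratio (hc : Whole c) (hc0 : Whole c0) (N0 : Nest c0 c) (R' : ℕ) (dl a' b0 : ℝ) (hdl : 0 ≤ dl) (T : Top c) (hT : T.Ok) (M : EgMark c) (R : ℕ)
    (hM : M.Geo T R) {b : ℝ} (hb : 0 < b) (y : c.I → ℝ) (h : G.V → ℤ) :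
    esJ (T.glue M.F) c0 dl b y M.p h / esJ (T.cut M.F) c0 dl b y M.p h
      = (mskS N0 b dl (T.cut M.F)).cE (c.sites M.D) (datS c c0 b dl y) (Fac.rw ((strPhy N0 R' dl a' b0 b).FFs M.F) (datS c c0 b dl y)) h := by
  rw [← es_fac_J hc hc0 N0 b dl hdl, ← es_fac_J hc hc0 N0 b dl hdl]
  exact es_fac_g_ratio (esl_car hc hc0 N0 R' dl a' b0 b hb) T hT M R hM (datS c c0 b dl y) (egCl c M.p h) h
    fun v hv => if_pos hv

theorem es_fac_X (T : Top c) (c0 : Grid G) (dl : ℝ) (M : EgMark c) (b a' : ℝ) (y : c.I → ℝ) (h : G.V → ℤ) :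
    esX T c0 dl M b a' y h = (esJ (T.glue M.F) c0 dl b y M.p h / esJ (T.cut M.F) c0 dl b y M.p h) / esB T c0 dl M b a' y := by
  unfold esX
  rw [div_mul_eq_div_div_swap]

theorem es_fac_B_pos (hc : Whole c) (T : Top c) (c0 : Grid G) (dl : ℝ) (M : EgMark c) {b : ℝ} (hb : 0 < b) (a' : ℝ) (y : c.I → ℝ) :
    0 < esB T c0 dl M b a' y := mul_pos (es_one_C_pos hc T c0 dl M hb) (Real.exp_pos _)

/-- **`δ` of NORM = `δ` of GOOD** (ambient = the cut box) -/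
theorem es_fac_delta (hc : Whole c) (hc0 : Whole c0) (N0 : Nest c0 c) (R' : ℕ) (dl a' b0 : ℝ) (hdl : 0 ≤ dl) (T : Top c) (hT : T.Ok) (M : EgMark c) (R : ℕ)
    (hM : M.Geo T R) {b : ℝ} (hb : 0 < b) (y : c.I → ℝ) (h : G.V → ℤ) :
    dlt (mskS N0 b dl (T.cut M.F)) (c.sites M.D) ((strPhy N0 R' dl a' b0 b).FFs M.F) 1 (esB T c0 dl M b a' y) (datS c c0 b dl y) h
      = esDelta T c0 dl M b a' y h := by
  unfold esDelta
  rw [es_fac_X, ← es_fac_J hc hc0 N0 b dl hdl, ← es_fac_J hc hc0 N0 b dl hdl]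
  exact es_fac_g_delta (esl_car hc hc0 N0 R' dl a' b0 b hb) T hT M R hM (datS c c0 b dl y) (egCl c M.p h) h
    (fun v hv => if_pos hv) _ (es_fac_B_pos hc T c0 dl M hb a' y)

/-- the same with the cut open patch as ambient -/
theorem es_fac_delta_patch (hc : Whole c) (hc0 : Whole c0) (N0 : Nest c0 c) (R' : ℕ) (dl a' b0 : ℝ) (hdl : 0 ≤ dl) (T : Top c) (hT : T.Ok) (M : EgMark c)
    (R : ℕ) (hM : M.Geo T R) {b : ℝ} (hb : 0 < b) (y : c.I → ℝ) (h : G.V → ℤ) :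
    dlt (mskS N0 b dl (egPc T M)) (c.sites M.D) ((strPhy N0 R' dl a' b0 b).FFs M.F) 1 (esB T c0 dl M b a' y) (datS c c0 b dl y) h
      = esDelta T c0 dl M b a' y h := by
  unfold esDelta
  rw [es_fac_X, ← es_fac_J hc hc0 N0 b dl hdl, ← es_fac_J hc hc0 N0 b dl hdl]
  exact es_fac_g_delta_patch (esl_car hc hc0 N0 R' dl a' b0 b hb) T hT M R hM (datS c c0 b dl y) (egCl c M.p h) h
    (fun v hv => if_pos hv) _ (es_fac_B_pos hc T c0 dl M hb a' y)

/-- Stores the on-demand equation lemmas of the definitions above in THIS module (rule 6 hygiene). -/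
theorem es_fac_eqns_cite : True := by
  have := @es_fac_Z_equiv.eq_1
  trivial

end

end Claimed.Agent.R285.C5
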