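import Claimed.Agent.R285.C5.EsGood
import Claimed.Agent.R285.C5.EsFac
import Claimed.Agent.R285.Entry.GoodBox
import Claimed.Agent.R285.Entry.GoodGeoA

/-!
# ROW 285, [C] s5.3 (L5.4), post C5-BOX: `BoxOK` FOR THE STRENGTHENED LAW AT THE CENTRAL PARAMETER      (helper60, chief helper262)

TWIN of `Entry/GoodBox.lean` s5-6 (helper109).   Pure glue.
```
es_boxok0 : BoxOK (strPhy N0 R δ a' b b) ..   eventually in t, then in s0
   ⟸ GoodGeo c R P                 the geometry of tiles / events / P-boxes read in windows   (law-free: `Entry/GoodBox.lean`, owed by GEO)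
   ⟸ es_geoO                       `NoDiag` of the restored open patches in ANY window which carries them (`gga_nodiag_restr`, `gl_rc_pre`, `gl_pres_nbh`)
   ⟸ C5/EsGood.lean                es_good_box, es_good_tile, es_reserve, es_pin_small          (analysis)
   ⟸ C5/EsFac.lean                 Y.AT = esA, Y.dl = esDelta, xPin = exp dPin                   (bridge)
   ⟸ eg_temp_fixed                 EgTemp a (fun _ => {b})
```
Real `b' ≠ b`: post PERT.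
-/

set_option autoImplicit false

namespace Claimed.Agent.R285.C5

open scoped BigOperators
open Filter Topology
open Claimed.Agent.R285 Claimed.Agent.R285.RG Claimed.Agent.R285.F4a Claimed.Agent.R285.Ent Claimed.Agent.R285.Entry

noncomputable section

variable {G : Geom} {c0 c : Grid G}

/-! ## 1. The restored open patches -/

/-- the restored open patch of an event has Lipschitz components in every window which carries it -/
theorem es_geoO {R : ℕ} (h : GeoOK c R) (k : EvId) (hk : k ∈ events c R) {m₁ m₂ : ℕ} (W : EgWin c m₁ m₂) (hf : W.Fits (topO c R k)) :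
    (W.shape (topO c R k)).NoDiag := by
  obtain ⟨q, hq⟩ := h.r64
  have hpos := h.pos
  refine gga_nodiag_restr h.adm h.whole (gl_rc_pre h.adm k) W (patch c R k) hf fun z h1 h2 =>
    gl_pres_nbh h.adm hk (by omega) (by omega) z h1 h2

/-- a window which carries a box carries the restored open patches of its marks -/
theorem es_box_fitsO {m₁ m₂ : ℕ} (W : EgWin c m₁ m₂) (T : Top c) (hf : W.Fits T) (M : EgMark c) (hE : ∀ f ∈ M.F, W.FaceIn f) : W.Fits (egPo T M) :=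
  eg_fits_restr W _ (eg_fits_glue W T hf M.F hE) M.O

/-! ## 2. The four fields of `BoxOK` -/

/-- `δ_k` of NORM = `δ` of GOOD for a kept mark of a piece, at the base point -/
theorem es_box_dl (hc : Whole c) (hc0 : Whole c0) (N0 : Nest c0 c) {a' b0 : ℝ} (ha : 0 < a') (hb0 : 0 < b0) (R : ℕ) (dl : ℝ) (hdl : 0 ≤ dl) (T : Top c)
    (hT : T.Ok) (k : EvId) (r : ℕ) (hM : (evMark c R k).Geo T r) (hO : egPo T (evMark c R k) = topO c R k) (hC : egPc T (evMark c R k) = topC c R k)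
    (y : c.I → ℝ) (h : G.V → ℤ) :
    (strPhy N0 R dl a' b0 b0).dl k y h = esDelta T c0 dl (evMark c R k) b0 a' y h := by
  have hsub : (evMark c R k).H ⊆ T.cells := hM.H_sub.trans (hM.D_sub.trans hM.O_sub)
  have hOk : (topO c R k).Ok := by
    rw [← hO]
    exact eg_gau_ok_restr _ (eg_gau_ok_glue T hT _ fun f hf => ⟨(hM.face f hf).1, hsub (hM.face f hf).2.1, hsub (hM.face f hf).2.2⟩) _
  have hCk : (topC c R k).Ok := by
    rw [← hC]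
    exact eg_gau_ok_restr _ (eg_gau_ok_cut T hT _) _
  rw [← es_fac_delta_patch hc hc0 N0 R dl a' b0 hdl T hT (evMark c R k) r hM hb0 y h]
  have hB : (strPhy N0 R dl a' b0 b0).prox k y = esB T c0 dl (evMark c R k) b0 a' y := by
    unfold Phy.prox esB esC egDE Phy.Ck
    rw [hO, hC]
    have e1 := es_fac_E hc ha N0 R dl b0 b0 (topO c R k) hOk y
    have e2 := es_fac_E hc ha N0 R dl b0 b0 (topC c R k) hCk y
    have n1 := str_N_eq hc hc0 N0 dl a' b0 b0 hdl (topO c R k)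
    have n2 := str_N_eq hc hc0 N0 dl a' b0 b0 hdl (topC c R k)
    have hR : (strPhy N0 R dl a' b0 b0).R = R := rfl
    have hW : (strPhy N0 R dl a' b0 b0).W = strWt N0 dl a' b0 b0 := rfl
    rw [hR, e1, e2, hW, n1, n2]
  have hX : (strPhy N0 R dl a' b0 b0).chiE k y = 1 := Finset.prod_const_one
  unfold Phy.dl
  rw [hB, hX, hC]
  rfl

/-- `Q_b` of NORM = `esQ` -/
theorem es_box_QT (hc : Whole c) (hc0 : Whole c0) (N0 : Nest c0 c) {a' b0 : ℝ} (ha : 0 < a') (hb0 : 0 < b0) (R : ℕ) (dl : ℝ) (hdl : 0 ≤ dl) (T : Top c)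
    (hT : T.Ok) (K : Finset EvId) (r : ℕ)
    (hM : ∀ k ∈ K, (evMark c R k).Geo T r ∧ egPo T (evMark c R k) = topO c R k ∧ egPc T (evMark c R k) = topC c R k) (y : c.I → ℝ) :
    (strPhy N0 R dl a' b0 b0).QT T K y = esQ T c0 dl (fun k : K => evMark c R k.1) b0 a' y := by
  unfold Phy.QT esQ Phy.ET
  rw [es_fac_AT hc hc0 ha N0 R dl b0 b0 hdl T hT y]
  congr 1
  have h1 : (strPhy N0 R dl a' b0 b0).dls K y = fun h => ∏ i : K, esDelta T c0 dl (evMark c R i.1) b0 a' y h := by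
    funext h
    unfold Phy.dls
    rw [← Finset.prod_coe_sort K]
    exact Finset.prod_congr rfl fun i _ =>
      es_box_dl hc hc0 N0 ha hb0 R dl hdl T hT i.1 r (hM i.1 i.2).1 (hM i.1 i.2).2.1 (hM i.1 i.2).2.2 y h
  rw [h1]
  exact es_fac_Ex hc hc0 N0 b0 dl hdl T y _

theorem es_bp_Ds (T : Top c) (c0 : Grid G) (dl : ℝ) (M : EgMark c) (b : ℝ) (h : egPc T M = T) :
    esDs T c0 dl M b = (lawS T c0 dl).dPin b (egSites T M.H) (egSites T M.p) := by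
  unfold esDs
  rw [h]

/-- the three pin interactions of every event and the (trivial at `b = b0`) normaliser ratios -/
theorem es_box_pins (hc : Whole c) (hc0 : Whole c0) (N0 : Nest c0 c) {a' b0 : ℝ} (hb0 : 0 < b0) (R P : ℕ) (hG : GoodGeo c R P) (dl : ℝ) (hdl : 0 ≤ dl)
    (d : ℝ) (hd0 : 0 ≤ d)
    (hd : ∀ m₁ ≤ 2 * R, ∀ m₂ ≤ 2 * R, ∀ (W : EgWin c m₁ m₂) (T : Top c), T.Ok → W.Fits T → ∀ M : EgMark c, M.Ok W T (R / 64) → esDs T c0 dl M b0 ≤ d) :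
    (strPhy N0 R dl a' b0 b0).Pins (Real.exp d) := by
  have h1 : (1 : ℝ) ≤ Real.exp d := Real.one_le_exp hd0
  refine ⟨h1, ?_, ?_, ?_, ?_, ?_⟩
  · intro k hk
    obtain ⟨m₁, m₂, W, hm1, hm2, ⟨o1, o2, o3, o4⟩, -, -⟩ := hG.ev k hk
    have e := es_fac_xPin hc hc0 N0 hb0 dl hdl (topC c R k) (core c R k) (guard c R k)
    have e2 := es_bp_Ds (topC c R k) c0 dl (evMark c R k) b0 o4
    have e3 := hd m₁ hm1 m₂ hm2 W _ o1 o2 _ o3
    rw [e2] at e3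
    refine le_trans (le_of_eq e) (Real.exp_le_exp.2 e3)
  · intro k hk
    obtain ⟨m₁, m₂, W, hm1, hm2, -, ⟨o1, o2, o3, o4⟩, -⟩ := hG.ev k hk
    have e := es_fac_xPin hc hc0 N0 hb0 dl hdl (tstO c R k) (guard c R k) (tpatch c R k \ nbh c (3 * (R / 64)) (core c R k))
    have e2 := es_bp_Ds (tstO c R k) c0 dl (tsMark c R k) b0 o4
    have e3 := hd m₁ hm1 m₂ hm2 W _ o1 o2 _ o3
    rw [e2] at e3
    rw [← eg_bp_tp] at e
    refine le_trans (le_of_eq e) (Real.exp_le_exp.2 ?_)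
    rw [eg_bp_tp]
    exact e3
  · intro k hk
    obtain ⟨m₁, m₂, W, hm1, hm2, -, -, ⟨o1, o2, o3, o4⟩⟩ := hG.ev k hk
    have e := es_fac_xPin hc hc0 N0 hb0 dl hdl (tstC c R k) (guard c R k) (tpatch c R k \ nbh c (3 * (R / 64)) (core c R k))
    have e2 := es_bp_Ds (tstC c R k) c0 dl (tsMark c R k) b0 o4
    have e3 := hd m₁ hm1 m₂ hm2 W _ o1 o2 _ o3
    rw [e2] at e3
    rw [← eg_bp_tp] at e
    refine le_trans (le_of_eq e) (Real.exp_le_exp.2 ?_)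
    rw [eg_bp_tp]
    exact e3
  · intro k hk
    have e1 : ((strPhy N0 R dl a' b0 b0).M (topO c R k)).Z0 = esZ (topO c R k) c0 dl b0 0 := es_fac_Z0 hc hc0 N0 b0 dl hdl _
    have e2 : ((strPhy N0 R dl a' b0 b0).M (topC c R k)).Z0 = esZ (topC c R k) c0 dl b0 0 := es_fac_Z0 hc hc0 N0 b0 dl hdl _
    have e3 : (strPhy N0 R dl a' b0 b0).Ck k = esZ (topO c R k) c0 dl b0 0 / esZ (topC c R k) c0 dl b0 0 := by
      rw [← str_N_eq hc hc0 N0 dl a' b0 b0 hdl, ← str_N_eq hc hc0 N0 dl a' b0 b0 hdl]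
      rfl
    change ((strPhy N0 R dl a' b0 b0).M (topO c R k)).Z0 / ((strPhy N0 R dl a' b0 b0).M (topC c R k)).Z0 ≤ _
    rw [e1, e2, e3]
    have p : 0 ≤ esZ (topO c R k) c0 dl b0 0 / esZ (topC c R k) c0 dl b0 0 :=
      (div_pos (es_Z_pos hc _ c0 dl hb0 0) (es_Z_pos hc _ c0 dl hb0 0)).le
    nlinarith
  · intro t ht
    have e1 : ((strPhy N0 R dl a' b0 b0).M (tileTop c R t)).Z0 = esZ (tileTop c R t) c0 dl b0 0 := es_fac_Z0 hc hc0 N0 b0 dl hdl _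
    have e3 : (strPhy N0 R dl a' b0 b0).W.N (tileTop c R t) = esZ (tileTop c R t) c0 dl b0 0 := str_N_eq hc hc0 N0 dl a' b0 b0 hdl _
    change ((strPhy N0 R dl a' b0 b0).M (tileTop c R t)).Z0 ≤ _ * (strPhy N0 R dl a' b0 b0).W.N (tileTop c R t)
    rw [e1, e3]
    have p := (es_Z_pos hc (tileTop c R t) c0 dl hb0 0).le
    nlinarith

/-- **the reserve at every real parameter** (input of PERT too) -/
theorem es_box_reserve (dl a' : ℝ) (hdl : 0 < dl) (ha : 0 < a') : ∃ (cstar : ℝ) (n1 : ℕ), 0 < cstar ∧ cstar < 1 ∧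
    ∀ (G : Geom) (c0 c : Grid G) (N0 : Nest c0 c) (t s0 : ℕ), EsVol c c0 t s0 → n1 ≤ c.n → ∀ (R : ℕ) (b0 b : ℝ), 0 < b → ∀ T : Top c, T.Ok → ∀ y : c.I → ℝ,
      (strPhy N0 R dl a' b0 b).AT T y ≤ Real.exp ((1 - cstar) / 2 * T.Eobs a' 0 y) := by
  obtain ⟨cs, n1, h0, h1, h⟩ := es_reserve dl a' hdl ha
  refine ⟨cs / 2, n1, by positivity, by linarith, fun G c0 c N0 t s0 hV hn R b0 b hb T hT y => ?_⟩
  rw [es_fac_AT hV.hc hV.hc0 ha N0 R dl b0 b hdl.le T hT y]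
  refine (h G c c0 t s0 hV hn T hT b hb y).trans (Real.exp_le_exp.2 ?_)
  exact mul_le_mul_of_nonneg_right (by linarith) (eg_glue_Eobs_nonneg T ha 0 y)

/-! ## 3. Exit -/

/-- the assembly of `BoxOK` at the base point in ONE volume, from the analytic bounds read in this volume -/
theorem es_boxok_core {R : ℕ} (hgeo : GeoOK c R) (hc0 : Whole c0) (N0 : Nest c0 c) {a' b0 : ℝ} (ha : 0 < a') (hb0 : 0 < b0) (P : ℕ) (hG : GoodGeo c R P)
    (dl : ℝ) (hdl : 0 ≤ dl) (x cstar U γ ea : ℝ) (hx : 1 ≤ x)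
    (hres : ∀ T : Top c, T.Ok → ∀ y : c.I → ℝ, (strPhy N0 R dl a' b0 b0).AT T y ≤ Real.exp ((1 - cstar) / 2 * T.Eobs a' 0 y))
    (hbox : ∀ m₁ ≤ 2 * P, ∀ m₂ ≤ 2 * P, ∀ (W : EgWin c m₁ m₂) (T : Top c), T.Ok → W.Fits T → (W.shape T).NoDiag →
      ∀ {ι : Type} [Fintype ι] (Ms : ι → EgMark c), (∀ i, (Ms i).Ok W T (R / 64)) → (∀ i, (W.shape (egPo T (Ms i))).NoDiag) →
      Fintype.card ι ≤ (2 * P) ^ 2 →
      ∀ 𝓕 : Finset (Face c), T.faces ⊆ 𝓕 → (∀ i, (Ms i).F ⊆ 𝓕) → 𝓕.card ≤ 2 * (2 * P) ^ 2 → ∀ y : c.I → ℝ, egE 𝓕 0 y ≤ U ^ 2 →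
        esQ T c0 dl Ms b0 a' y ≤ 6 * γ ^ Fintype.card ι * Real.exp (ea * egE 𝓕 0 y))
    (htile : ∀ m₁ ≤ 2 * R, ∀ m₂ ≤ 2 * R, ∀ (W : EgWin c m₁ m₂) (T : Top c), T.Ok → W.Fits T → (W.shape T).NoDiag →
      ∀ 𝓕 : Finset (Face c), T.faces ⊆ 𝓕 → 𝓕.card ≤ 2 * (2 * R) ^ 2 → ∀ y : c.I → ℝ, egE 𝓕 0 y ≤ U ^ 2 → |esA T c0 dl b0 a' y - 1| ≤ γ)
    (hpin : ∀ m₁ ≤ 2 * R, ∀ m₂ ≤ 2 * R, ∀ (W : EgWin c m₁ m₂) (T : Top c), T.Ok → W.Fits T → ∀ M : EgMark c, M.Ok W T (R / 64) →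
      esDs T c0 dl M b0 ≤ Real.log x) :
    BoxOK (strPhy N0 R dl a' b0 b0) a' P ∅ x cstar U γ 6 ea 1 := by
  have hc : Whole c := hgeo.whole
  refine ⟨?_, ?_, ?_, ?_, ?_⟩
  · have h := es_box_pins (a' := a') hc hc0 N0 hb0 R P hG dl hdl (Real.log x) (Real.log_nonneg hx) hpin
    rwa [Real.exp_log (by linarith)] at h
  · intro S O t b hV hO ht _ y hE
    obtain ⟨hOk, m₁, m₂, W, h1, h2, hfit, hnd, hmk⟩ := hG.box S O t b hV hO ht
    obtain ⟨hf1, hf2, hf3, hf4⟩ := hG.faces S O t b hV hO ht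
    have hQ := es_box_QT hc hc0 N0 ha hb0 R dl hdl (hPiece c R P S O t b) hOk ((pcut c P t).keptB R S b) (R / 64)
      (fun k hk => ⟨(hmk k hk).1.geo, (hmk k hk).2.1, (hmk k hk).2.2⟩) y
    have hNo : ∀ k : ((pcut c P t).keptB R S b), (W.shape (egPo (hPiece c R P S O t b) (evMark c R k.1))).NoDiag := by
      intro k
      have hfo := es_box_fitsO W (hPiece c R P S O t b) hfit (evMark c R k.1) (hmk k.1 k.2).1.faceW
      rw [(hmk k.1 k.2).2.1] at hfo ⊢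
      have hkS : k.1 ∈ S := by
        classical
        have h3 := k.2
        unfold Cut.keptB at h3
        exact (Finset.mem_filter.1 h3).1
      exact es_geoO hgeo k.1 (hV.1 hkS) W hfo
    have h := hbox m₁ h1 m₂ h2 W (hPiece c R P S O t b) hOk hfit hnd (fun k : ((pcut c P t).keptB R S b) => evMark c R k.1)
      (fun k => (hmk k.1 k.2).1) hNo (by rw [Fintype.card_coe]; exact hf4) (hFaces c R P S t b) hf1 (fun k => hf2 k.1 k.2) hf3 y hE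
    rw [Fintype.card_coe] at h
    exact hQ.trans_le h
  · intro T hT _ y
    exact hres T hT y
  · intro T hT y
    rw [one_mul]
    exact hres T hT y
  · intro t ht _ y hE
    obtain ⟨hOk, m₁, m₂, W, h1, h2, hfit, hnd⟩ := hG.tile t ht
    have e : (strPhy N0 R dl a' b0 b0).tfac t y = esA (tileTop c R t) c0 dl b0 a' y := es_fac_tfac hc hc0 ha N0 R dl b0 hdl t hOk y
    rw [e]
    refine htile m₁ h1 m₂ h2 W _ hOk hfit hnd _ (Finset.Subset.refl _) ?_ y hE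
    refine (eg_fits_card hc W _ hfit).2.trans ?_
    have : m₁ * m₂ ≤ (2 * R) * (2 * R) := Nat.mul_le_mul h1 h2
    nlinarith

/-- **`BoxOK` at the central parameter, eventually in `t`, then in `s0`, together with the reserve at every real parameter (same `c_*`).**
Order: `c_*`; the exponent `kE` of the allowance; `c_g`; the bound `x > 1` of the pins; `R` large; `U`; `t` large; `s0` large; the volume. -/
theorem es_boxok1 (b a dl : ℝ) (hb : 0 < b) (ha : 0 < a) (hab : aLim b = a) (hdl : 0 < dl) : ∃ (cstar : ℝ) (n1 : ℕ), 0 < cstar ∧ cstar < 1 ∧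
    (∀ (G : Geom) (c0 c : Grid G) (N0 : Nest c0 c) (t s0 : ℕ), EsVol c c0 t s0 → n1 ≤ c.n → ∀ (R : ℕ) (b0 b' : ℝ), 0 < b' → ∀ T : Top c, T.Ok →
      ∀ y : c.I → ℝ, (strPhy N0 R dl (aPrime a dl) b0 b').AT T y ≤ Real.exp ((1 - cstar) / 2 * T.Eobs (aPrime a dl) 0 y)) ∧
    ∀ kE : ℕ, ∃ cg : ℝ, 0 < cg ∧ ∀ x : ℝ, 1 < x → ∃ k1 : ℕ, n1 ≤ k1 ∧ ∀ kR ≥ k1, ∀ U : ℝ, ∀ᶠ t : ℕ in atTop, ∀ᶠ s0 : ℕ in atTop,
      ∀ (G : Geom) (c0 c : Grid G) (N0 : Nest c0 c), EsVol c c0 t s0 → GeoOK c (2 ^ kR) → (2 ^ kR) ^ 5 ≤ c.n → GoodGeo c (2 ^ kR) ((2 ^ kR) ^ 5) →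
      BoxOK (strPhy N0 (2 ^ kR) dl (aPrime a dl) b b) (aPrime a dl) ((2 ^ kR) ^ 5) ∅ x cstar U (Real.exp (-cg * 2 ^ kR)) 6
        (1 / ((2 : ℝ) ^ kR) ^ kE) 1 := by
  have hT := eg_temp_fixed b a hb ha hab
  have ha' : 0 < aPrime a dl := by
    unfold aPrime
    positivity
  obtain ⟨cstar, n1, hcs0, hcs1, hres⟩ := es_box_reserve dl (aPrime a dl) hdl ha'
  obtain ⟨Kp, cp, kp, R1, hKp, hcp, hpin⟩ := es_pin_small hT ha hb dl hdl.le
  refine ⟨cstar, n1, hcs0, hcs1, hres, fun kE => ?_⟩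
  obtain ⟨cg', R0, hcg', hbox⟩ := es_good_box hT ha hb dl hdl.le 36 (7 * kE)
  refine ⟨cg' / 64, by positivity, fun x hx => ?_⟩
  have hL : 0 < Real.log x := Real.log_pos hx
  obtain ⟨R2, hR21, hR2⟩ := eg_numeric_R0 (Kp * 128 ^ kp * (2 / Real.log x)) cp kp (by positivity) hcp
  refine ⟨R0 + R1 + R2 + n1 + 7, by omega, fun kR hkR U => ?_⟩
  obtain ⟨j, rfl⟩ : ∃ j, kR = j + 6 := ⟨kR - 6, by omega⟩
  have hj1 : 1 ≤ j := by omega
  have hjr : j ≤ 2 ^ j := Nat.lt_two_pow_self.le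
  filter_upwards [hbox (2 ^ j) (by omega) U,
    es_good_tile hT ha hb dl hdl.le (2 * 2 ^ (j + 6)) U (Real.exp (-(cg' / 64) * 2 ^ (j + 6))) (Real.exp_pos _),
    hpin (2 * 2 ^ (j + 6)) (Real.log x / 2) (by positivity)] with t hB1 hT1 hP1
  filter_upwards [hB1, hT1, hP1] with s0 hsB hsT hsP G c0 c N0 hV hgeo hn hG
  have hn1 : n1 ≤ c.n := by
    have h1 : j + 6 ≤ 2 ^ (j + 6) := Nat.lt_two_pow_self.le
    have h2 : 2 ^ (j + 6) ≤ (2 ^ (j + 6)) ^ 5 := Nat.le_self_pow (by norm_num) _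
    omega
  have hP2 : (2 * (2 ^ (j + 6)) ^ 5) ^ 2 ≤ (2 ^ j) ^ (2 * 36) := by
    rw [mul_comm 2 36, pow_mul]
    exact Nat.pow_le_pow_left (eg_boxok_num1 j hj1) 2
  refine es_boxok_core hgeo hV.hc0 N0 ha' hb _ hG dl hdl.le x cstar U _ _ hx.le
    (fun T hT' y => hres G c0 c N0 t s0 hV hn1 _ b b hb T hT' y) ?_ ?_ ?_
  · intro m₁ h1 m₂ h2 W T hT' hfit hnd ι _ Ms hMs hNo hcard 𝓕 hT𝓕 hM𝓕 h𝓕 y hE
    rw [eg_boxok_div] at hMs
    have h := hsB G c c0 hV m₁ (h1.trans (eg_boxok_num1 j hj1)) m₂ (h2.trans (eg_boxok_num1 j hj1))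
      W T hT' hfit hnd Ms hMs hNo (hcard.trans hP2) 𝓕 hT𝓕 hM𝓕 (h𝓕.trans (Nat.mul_le_mul_left 2 hP2)) y hE
    refine h.trans ?_
    have hE0 : 0 ≤ egE 𝓕 0 y := Finset.sum_nonneg fun f _ => sq_nonneg _
    have e0 : 6 * Real.exp (-(cg' / 64) * 2 ^ (j + 6)) ^ Fintype.card ι * Real.exp (1 / ((2 : ℝ) ^ (j + 6)) ^ kE * egE 𝓕 0 y)
        = 6 * Real.exp ((Fintype.card ι : ℝ) * (-(cg' / 64) * 2 ^ (j + 6)) + 1 / ((2 : ℝ) ^ (j + 6)) ^ kE * egE 𝓕 0 y) := by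
      rw [Real.exp_add, Real.exp_nat_mul, mul_assoc]
    rw [e0]
    refine mul_le_mul_of_nonneg_left (Real.exp_le_exp.2 ?_) (by norm_num)
    have e1 : -cg' * ((2 ^ j : ℕ) : ℝ) * (Fintype.card ι : ℝ) = (Fintype.card ι : ℝ) * (-(cg' / 64) * 2 ^ (j + 6)) := by
      push_cast; rw [pow_add]; ring
    have e2 : egE 𝓕 0 y / (((2 ^ j : ℕ) : ℝ)) ^ (7 * kE) ≤ 1 / ((2 : ℝ) ^ (j + 6)) ^ kE * egE 𝓕 0 y := by
      rw [div_eq_mul_inv, mul_comm, one_div]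
      refine mul_le_mul_of_nonneg_right ?_ hE0
      exact inv_anti₀ (by positivity) (eg_boxok_num2 j kE hj1)
    rw [e1]
    linarith
  · intro m₁ h1 m₂ h2 W T hT' hfit hnd 𝓕 hT𝓕 h𝓕 y hE
    exact hsT G c c0 hV m₁ h1 m₂ h2 W T hT' hfit hnd 𝓕 hT𝓕 h𝓕 y hE
  · intro m₁ h1 m₂ h2 W T hT' hfit M hM
    rw [eg_boxok_div] at hM
    have h := (hsP G c c0 hV m₁ h1 m₂ h2 W T hT' hfit M (2 ^ j) (by omega) hM).2
    have h3 := hR2 (2 ^ j) (by omega)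
    have h4 : Real.exp (-(cp / 2) * ((2 ^ j : ℕ) : ℝ)) ≤ 1 := by
      rw [Real.exp_le_one_iff]
      have : (0 : ℝ) ≤ ((2 ^ j : ℕ) : ℝ) := Nat.cast_nonneg _
      nlinarith
    have h5 : Kp * ((2 * 2 ^ (j + 6) : ℕ) : ℝ) ^ kp * Real.exp (-cp * ((2 ^ j : ℕ) : ℝ)) ≤ Real.log x / 2 := by
      have e : Kp * ((2 * 2 ^ (j + 6) : ℕ) : ℝ) ^ kp * Real.exp (-cp * ((2 ^ j : ℕ) : ℝ))
          = (Kp * 128 ^ kp * (2 / Real.log x) * ((2 ^ j : ℕ) : ℝ) ^ kp * Real.exp (-cp * ((2 ^ j : ℕ) : ℝ))) * (Real.log x / 2) := by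
        have e0 : ((2 * 2 ^ (j + 6) : ℕ) : ℝ) = 128 * ((2 ^ j : ℕ) : ℝ) := by push_cast; rw [pow_add]; ring
        rw [e0, mul_pow]
        field_simp
      rw [e]
      calc _ ≤ 1 * (Real.log x / 2) := mul_le_mul_of_nonneg_right (h3.trans h4) (by positivity)
        _ = _ := one_mul _
    linarith

/-- **`BoxOK` at the central parameter** (format of the ruling of helper262, pins `x` for every `x > 1` as in `Entry.eg_boxok0`) -/
theorem es_boxok0 (b a dl : ℝ) (hb : 0 < b) (ha : 0 < a) (hab : aLim b = a) (hdl : 0 < dl) : ∃ cstar : ℝ, 0 < cstar ∧ cstar < 1 ∧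
    ∀ kE : ℕ, ∃ cg : ℝ, 0 < cg ∧ ∀ x : ℝ, 1 < x → ∃ k1 : ℕ, ∀ kR ≥ k1, ∀ U : ℝ, ∀ᶠ t : ℕ in atTop, ∀ᶠ s0 : ℕ in atTop,
      ∀ (G : Geom) (c0 c : Grid G) (N0 : Nest c0 c), EsVol c c0 t s0 → GeoOK c (2 ^ kR) → (2 ^ kR) ^ 5 ≤ c.n → GoodGeo c (2 ^ kR) ((2 ^ kR) ^ 5) →
      BoxOK (strPhy N0 (2 ^ kR) dl (aPrime a dl) b b) (aPrime a dl) ((2 ^ kR) ^ 5) ∅ x cstar U (Real.exp (-cg * 2 ^ kR)) 6
        (1 / ((2 : ℝ) ^ kR) ^ kE) 1 := by
  obtain ⟨cstar, n1, h0, h1, -, h⟩ := es_boxok1 b a dl hb ha hab hdl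
  refine ⟨cstar, h0, h1, fun kE => ?_⟩
  obtain ⟨cg, hcg, h2⟩ := h kE
  refine ⟨cg, hcg, fun x hx => ?_⟩
  obtain ⟨k1, -, h3⟩ := h2 x hx
  exact ⟨k1, h3⟩

end

end Claimed.Agent.R285.C5
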