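import Claimed.Agent.R285.C5.EsPertTop
import Claimed.Agent.R285.C5.EsBox
import Claimed.Agent.R285.Entry.GoodGeo
import Claimed.Agent.R285.C5.EntSym
import Claimed.Agent.R285.Entry.NtGeoS
import Claimed.Agent.R285.C5.EntLawTop
import Claimed.Agent.R285.C5.EntMaj
import Claimed.Agent.R285.Ent.CxNorm
import Claimed.Agent.R285.Ent.CxHol
import Claimed.Agent.R285.Ent.Phys
import Claimed.Agent.R285.Entry.NtXY

/-!
# ROW 285, [C] L5.4 (`lem:op-entry`): **`gentry_top`**, the entry theorem of the strengthened law without hypotheses      (architect helper262)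
LINKS ONLY.   `gentry_of` (`C5/Entry.lean`) + `strPhys_of` (`C5/EntPhys.lean`) applied to the exits of the posts.   No `sorry` in this file.
-/

set_option autoImplicit false

namespace Claimed.Agent.R285.C5

open scoped BigOperators ENNReal NNReal
open Filter Topology
open Claimed.Agent.R285 Claimed.Agent.R285.RG Claimed.Agent.R285.B4 Claimed.Agent.R285.F4a Claimed.Agent.R285.F4b Claimed.Agent.R285.Ent
  Claimed.Agent.R285.Entry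

theorem et_phys : StrPhysStmt := strPhys_of norm_gen (boxStr_of es_boxok1 Entry.good_geo) xy_qloc xy_faceco xy_src ngeo_stmt str_phyOk str_law

/-- **[C] L5.4** in the format of `C5/GW.lean` -/
theorem gentry_top (b0 dl : ℝ) (hb0 : 0 < b0) (hdl : 0 < dl) (ha : 0 < aLim b0) :
    ∃ (cstar δ0 : ℝ) (kq c0 : ℕ) (D : StrData), 0 < cstar ∧ cstar < 1 ∧ 0 < δ0 ∧
    ∀ o : ObsPar, o.a = aPrime (aLim b0) dl → 1 - cstar < o.hstar → ∀ δ ∈ Set.Ioc 0 δ0, ∃ κ0 > (0 : ℝ), ∀ κ ∈ Set.Ioc 0 κ0,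
    ∀ (h0 : ℝ≥0) (A : ℝ), 1 ≤ A →
    ∃ (C c : ℝ) (k1 : ℕ), 0 < c ∧ ∀ kR ≥ k1, ∃ kt0 : ℕ, ∀ kt ≥ kt0, ∃ k00 : ℕ, ∀ k0 ≥ k00, ∃ I ∈ 𝓝 b0,
      ∀ 𝒱 : Vol, 𝒱.G.bc = BC.per → 𝒱.Adm (2 ^ kq) (2 ^ kR) (2 ^ (kt + k0)) →
        BulkS D dl (aPrime (aLim b0) dl) ⟨δ, κ, h0, A, 2 * Real.pi / Real.sqrt (aPrime (aLim b0) dl)⟩ o I (C * Real.exp (-c * 2 ^ kR)) (2 ^ k0) 𝒱 ∧
        ∀ 𝒱' : Vol, 𝒱'.G.bc = BC.per → 𝒱'.Adm (2 ^ kq) (2 ^ kR) (2 ^ (kt + k0)) → CopyS D h0 c0 I (2 ^ k0) 𝒱 𝒱' :=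
  gentry_of cx_norm_main cx_hol_main ent_link str_law et_phys str_maj str_sym str_copy b0 dl hb0 hdl ha

end Claimed.Agent.R285.C5
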