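import Claimed.Agent.R285.C5.GW
import Claimed.Agent.R285.Asm.EntRdo

/-!
# ROW 285, [C] s5.4: the entries of the strengthened law as points of the Banach spaces of MAP      (architect helper75)

TWIN of `Asm/EntSp.lean` + `Asm/EntRdo.lean` (helper38) for the weight `WS` (`C5/GW.lean`): REAL temperatures in a set `I`, no holomorphy, no reality, no `Ops`.  Generic in `K : Cfg` (free `ω`, any `cosOn`).
* `strAct` = `Asm.entAct`;  `GEntIn` = `EntSp.EntIn`;  `GEntOK` = what the dynamics (`GDynOK.K0_bd`, `T0_bd`) and READ-OUT (`Rdo.EntOK.copy`, `ident`) consume.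
* LEAF **L-C5-GENT**: `gent_space`, `gentIn_mk`.  PLAN: copy the proofs of `EntSp.EntIn.act_eq/cls/norm_le/copy_cut`, `ent_space_torus` (2nd, 3rd item), `ent_space_plane` (2nd, 4th item), `ent_space_copy`, `ent_space_rdo`, `entIn_mk`;
  the kit `esp_*` (`esp_toMk_spec`, `esp_plMk_spec`, `esp_cutW_cls`, `esp_copy_of_copyAt`, `esp_copyAt_mono`, `esp_actNorm_cutW_le`, `esp_ZA_congr`, `esp_single_zero`, `esp_toC_mem_strip`, `esp_vol_adm`) is generic and is cited, not copied.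
-/

set_option autoImplicit false

namespace Claimed.Agent.R285.C5

open scoped BigOperators ENNReal NNReal
open Claimed.Agent.R285 Claimed.Agent.R285.RG Claimed.Agent.R285.B4 Claimed.Agent.R285.B8 Claimed.Agent.R285.F4a Claimed.Agent.R285.F4b
  Claimed.Agent.R285.EntSp

noncomputable section

open Classical in
/-- the entry activity of the strengthened law on the torus `h` at the level `j` (junk `0` if the cells do not divide the blocks) -/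
def strAct (s : Sc) (D : StrData) (sd s0 h j : ℕ) (b : ℝ) : Act (s.lev h j) :=
  if hsd : sd ∣ s.L ^ (min j h) then D.K0 (Asm.vol s sd h j hsd) s0 b else 0

/-- **what ENTRY (L5.4 at fixed `R, t, s0`) and TOWER give** on the retained tori `h ≥ max j0 hmin` -/
structure GEntIn (K : Cfg) (𝓡 : Reg K.s) (D : StrData) (δs : ℝ) (o : ObsPar) (I : Set ℝ) (ε : ℝ) (sd s0 j0 c0' : ℕ) : Prop where
  hA : 0 < K.p.A
  hh : 0 < K.p.h0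
  hR : K.c.R = RR
  hε : 0 ≤ ε
  hc0 : c0' ≤ K.c0
  hsd : sd ∣ K.s.L ^ j0
  hM : ∀ h, j0 < h → 3 ≤ (K.s.T h).M
  cells : ∀ h, j0 ≤ h → 𝓡.hmin ≤ h → ∀ hd, 𝓡.gs h = (Asm.vol K.s sd h j0 hd).c
  obs : ∀ h, j0 ≤ h → 𝓡.hmin ≤ h → IsObs o (𝓡.gs h) (K.s.lev h j0) (𝓡.V h j0)
  bulk : ∀ h, j0 ≤ h → 𝓡.hmin ≤ h → ∀ hd, BulkS D δs (Rdo.aa K) K.p o I ε s0 (Asm.vol K.s sd h j0 hd)
  copy : ∀ h h', j0 ≤ h → 𝓡.hmin ≤ h → j0 ≤ h' → 𝓡.hmin ≤ h' → ∀ hd hd',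
    CopyS D K.p.h0 c0' I s0 (Asm.vol K.s sd h j0 hd) (Asm.vol K.s sd h' j0 hd')

/-- **the entries in the spaces** -/
structure GEntOK (K : Cfg) (𝓡 : Reg K.s) (j0 : ℕ) (δs : ℝ) (s0 : ℕ) (I : Set ℝ) (ε : ℝ) (K0 : ℝ → K.Pl 𝓡 j0) (T0 : ∀ h, ℝ → K.To 𝓡 j0 h) : Prop where
  K0_bd : ∀ b ∈ I, ‖K0 b‖ ≤ ε
  T0_bd : ∀ h, j0 ≤ h → ∀ b ∈ I, ‖T0 h b‖ ≤ ε
  copy : ∀ b ∈ I, ∀ h (hj : j0 < h) (hm : 𝓡.hmin ≤ h), EqOn K.p.h0 (cutW K.c0 (K.toAct 𝓡 (T0 h b))) (K.plAct 𝓡 (K0 b) ⟨h, hj, hm⟩)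
  ident : ∀ b ∈ I, ∀ h, j0 ≤ h → 𝓡.hmin ≤ h → ∃ cG : ℝ, 0 < cG ∧ ∀ ψ : (K.s.T h).V → ℝ,
    (Rdo.HavW (Rdo.aa K) (𝓡.gs h) (K.s.L ^ j0) (WS δs b (𝓡.gs h) (subGrid (K.s.T h) s0)) ψ : ℂ)
      = cG * Rdo.Zlev K 𝓡 j0 h ((0, 0), T0 h b) (toC ψ)

variable {K : Cfg} {𝓡 : Reg K.s} {D : StrData} {δs : ℝ} {o : ObsPar} {I : Set ℝ} {ε : ℝ} {sd s0 j0 c0' : ℕ}

theorem GEntIn.dvd (H : GEntIn K 𝓡 D δs o I ε sd s0 j0 c0') {h : ℕ} (hj : j0 ≤ h) : sd ∣ K.s.L ^ (min j0 h) := by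
  rw [min_eq_left hj]; exact H.hsd

theorem GEntIn.act_eq (H : GEntIn K 𝓡 D δs o I ε sd s0 j0 c0') {h : ℕ} (hj : j0 ≤ h) (b : ℝ) :
    strAct K.s D sd s0 h j0 b = D.K0 (Asm.vol K.s sd h j0 (H.dvd hj)) s0 b := dif_pos (H.dvd hj)

theorem GEntIn.cls (H : GEntIn K 𝓡 D δs o I ε sd s0 j0 c0') {h : ℕ} (hj : j0 ≤ h) (hh : 𝓡.hmin ≤ h) {b : ℝ}
    (hb : b ∈ I) : (strAct K.s D sd s0 h j0 b).Cls K.p K.c.col K.c.R (𝓡.gs h) := by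
  rw [H.act_eq hj]
  exact ⟨esp_ok_mono (Nat.zero_le _) H.hR.ge ((H.bulk h hj hh _).ok b hb), (H.bulk h hj hh _).even b hb, by
    rw [H.cells h hj hh (H.dvd hj)]; exact (H.bulk h hj hh _).sym b hb⟩

theorem GEntIn.norm_le (H : GEntIn K 𝓡 D δs o I ε sd s0 j0 c0') {h : ℕ} (hj : j0 ≤ h) (hh : 𝓡.hmin ≤ h) {b : ℝ}
    (hb : b ∈ I) :
    actNorm K.p (K.s.lev h j0) (𝓡.V h j0) (strAct K.s D sd s0 h j0 b) ≤ ENNReal.ofReal ε := by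
  rw [H.act_eq hj]
  refine (H.bulk h hj hh _).norm b hb (𝓡.V h j0) ?_
  rw [← H.cells h hj hh (H.dvd hj)]; exact H.obs h hj hh

theorem GEntIn.copy_cut (H : GEntIn K 𝓡 D δs o I ε sd s0 j0 c0') {h h' : ℕ} (hj : j0 ≤ h) (hh : 𝓡.hmin ≤ h) (hj' : j0 ≤ h')
    (hh' : 𝓡.hmin ≤ h') {b : ℝ} (hb : b ∈ I) :
    Copy K.p.h0 K.c0 (K.s.lev h j0) (K.s.lev h' j0) (cutW K.c0 (strAct K.s D sd s0 h j0 b))
      (cutW K.c0 (strAct K.s D sd s0 h' j0 b)) := by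
  rw [H.act_eq hj, H.act_eq hj']
  have h1 := H.copy h h' hj hh hj' hh' (H.dvd hj) (H.dvd hj') b hb
  have h2 := esp_copyAt_mono (Nat.mul_le_mul_right (Asm.vol K.s sd h j0 (H.dvd hj)).m H.hc0) h1
  refine esp_copy_of_copyAt rfl rfl ?_ h2
  show K.s.L ^ min j0 h' = K.s.L ^ min j0 h
  rw [min_eq_left hj, min_eq_left hj']

/-- the torus entries (bound, dictionary) -/
theorem gent_space_torus (H : GEntIn K 𝓡 D δs o I ε sd s0 j0 c0') {h : ℕ} (hj : j0 ≤ h) (hh : 𝓡.hmin ≤ h) :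
    (∀ b ∈ I, ‖K.toMk 𝓡 j0 h (strAct K.s D sd s0 h j0 b)‖ ≤ ε) ∧
    ∀ b ∈ I, EqOn K.p.h0 (K.toAct 𝓡 (K.toMk 𝓡 j0 h (strAct K.s D sd s0 h j0 b))) (strAct K.s D sd s0 h j0 b) := by
  have hfin : ∀ b ∈ I, actNorm K.p (K.s.lev h j0) (𝓡.V h j0) (strAct K.s D sd s0 h j0 b) ≠ ⊤ :=
    fun b hb => ne_top_of_le_ne_top ENNReal.ofReal_ne_top (H.norm_le hj hh hb)
  have hsp := fun b hb => esp_toMk_spec K 𝓡 H.hA j0 h (strAct K.s D sd s0 h j0 b) (H.cls hj hh hb) (hfin b hb)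
  refine ⟨fun b hb => ?_, fun b hb => (hsp b hb).1⟩
  rw [(hsp b hb).2.2]
  exact ENNReal.toReal_le_of_le_ofReal H.hε (H.norm_le hj hh hb)

/-- the plane entry (bound, dictionary) -/
theorem gent_space_plane (H : GEntIn K 𝓡 D δs o I ε sd s0 j0 c0') :
    (∀ b ∈ I, ‖K.plMk 𝓡 j0 fun i => cutW K.c0 (strAct K.s D sd s0 i.1 j0 b)‖ ≤ ε) ∧
    ∀ b ∈ I, ∀ i, EqOn K.p.h0 (K.plAct 𝓡 (K.plMk 𝓡 j0 fun i => cutW K.c0 (strAct K.s D sd s0 i.1 j0 b)) i)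
      (cutW K.c0 (strAct K.s D sd s0 i.1 j0 b)) := by
  have hj : ∀ i : 𝓡.Ix j0, j0 ≤ i.1 := fun i => i.2.1.le
  have hi : ∀ i : 𝓡.Ix j0, 𝓡.hmin ≤ i.1 := fun i => i.2.2
  have hsp := fun b (hb : b ∈ I) => esp_plMk_spec K 𝓡 H.hA j0
    (fun i => cutW K.c0 (strAct K.s D sd s0 i.1 j0 b)) (fun i => esp_cutW_cls rfl (H.hM i.1 i.2.1) K.c0 (H.cls (hj i) (hi i) hb))
    (fun i X hX => esp_cutW_neg _ hX) (fun i i' => H.copy_cut (hj i) (hi i) (hj i') (hi i') hb) H.hε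
    (fun i => (esp_actNorm_cutW_le _ _ _ _ _).trans (H.norm_le (hj i) (hi i) hb))
  exact ⟨fun b hb => (hsp b hb).2.2, fun b hb => (hsp b hb).1⟩

/-- **L-C5-GENT (1)** -/
theorem gent_space (H : GEntIn K 𝓡 D δs o I ε sd s0 j0 c0') :
    GEntOK K 𝓡 j0 δs s0 I ε (fun b => K.plMk 𝓡 j0 fun i => cutW K.c0 (strAct K.s D sd s0 i.1 j0 b))
      (fun h b => if 𝓡.hmin ≤ h then K.toMk 𝓡 j0 h (strAct K.s D sd s0 h j0 b) else 0) := by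
  exact {
  K0_bd := (gent_space_plane H).1
  T0_bd := fun h hj b hb => by
    show ‖(if 𝓡.hmin ≤ h then K.toMk 𝓡 j0 h (strAct K.s D sd s0 h j0 b) else 0)‖ ≤ ε
    by_cases hm : 𝓡.hmin ≤ h
    · rw [if_pos hm]; exact (gent_space_torus H hj hm).1 b hb
    · rw [if_neg hm, norm_zero]; exact H.hε
  copy := fun b hb h hj hm => by
    simp only [if_pos hm]
    exact esp_eqOn_trans (esp_cutW_eqOn K.c0 ((gent_space_torus H hj.le hm).2 b hb))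
      (esp_eqOn_symm ((gent_space_plane H).2 b hb ⟨h, hj, hm⟩))
  ident := fun b hb h hj hm => by
    obtain ⟨cG, hc, hid⟩ := (H.bulk h hj hm (H.dvd hj)).ident b hb
    refine ⟨cG, hc, fun ψ => ?_⟩
    have h1 := hid ψ
    rw [← H.cells h hj hm (H.dvd hj)] at h1
    have hm' : (Asm.vol K.s sd h j0 (H.dvd hj)).m = K.s.L ^ j0 := by
      show K.s.L ^ (min j0 h) = K.s.L ^ j0
      rw [min_eq_left hj]
    rw [hm'] at h1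
    refine h1.trans ?_
    congr 1
    simp only [if_pos hm]
    unfold Rdo.Zlev
    rw [H.hR]
    refine esp_ZA_congr _ _ _ _ _ fun X => ?_
    have h2 := (gent_space_torus H hj hm).2 b hb X (toC ψ) (esp_toC_mem_strip H.hh _ X ψ)
    unfold Kof
    rw [esp_single_zero, zero_add]
    refine Eq.trans ?_ h2.symm
    rw [H.act_eq hj]
    rfl }

/-- **L-C5-GENT (2)**: `hE` is the last line of the entry theorem (all admissible periodic volumes), `hgs`, `hobs` come from TOWER -/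
theorem gentIn_mk (K : Cfg) (𝓡 : Reg K.s) (D : StrData) (δs : ℝ) (o : ObsPar) (I : Set ℝ) (ε : ℝ) (q R sd s0 j0 c0' : ℕ)
    (hA : 0 < K.p.A) (hh : 0 < K.p.h0) (hR : K.c.R = RR) (hε : 0 ≤ ε) (hc0 : c0' ≤ K.c0) (hℓ : 1 ≤ K.s.ℓ) (hD : 2 ≤ K.s.D0) (hq : q * R * sd = K.s.L ^ j0)
    (hmin : 𝓡.hmin = Asm.hmin K.s sd (R ^ 5))
    (hgs : ∀ h, j0 ≤ h → 𝓡.hmin ≤ h → ∀ hd : sd ∣ (K.s.T h).M, 𝓡.gs h = torusGrid (K.s.T h) sd hd)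
    (hobs : ∀ h, j0 ≤ h → 𝓡.hmin ≤ h → IsObs o (𝓡.gs h) (K.s.lev h j0) (𝓡.V h j0))
    (hE : ∀ 𝒱 : Vol, 𝒱.G.bc = BC.per → 𝒱.Adm q R sd → BulkS D δs (Rdo.aa K) K.p o I ε s0 𝒱 ∧
      ∀ 𝒱' : Vol, 𝒱'.G.bc = BC.per → 𝒱'.Adm q R sd → CopyS D K.p.h0 c0' I s0 𝒱 𝒱') :
    GEntIn K 𝓡 D δs o I ε sd s0 j0 c0' := by
  exact {
  hA := hA
  hh := hh
  hR := hR
  hε := hε
  hc0 := hc0
  hsd := ⟨q * R, by rw [← hq]; ring⟩
  hM := fun h hj => by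
    have h1 : 2 ^ 1 ≤ K.s.L ^ h := by
      have h2 : 2 ^ 1 ≤ 2 ^ (K.s.ℓ * h) := Nat.pow_le_pow_right (by norm_num) (Nat.mul_pos hℓ (Nat.zero_lt_of_lt hj))
      rwa [pow_mul] at h2
    have h3 : 2 * 2 ^ 1 ≤ K.s.D0 * K.s.L ^ h := Nat.mul_le_mul hD h1
    exact le_trans (by norm_num) h3
  cells := fun h hj hh hd => hgs h hj hh _
  obs := hobs
  bulk := fun h hj hh hd => (hE _ rfl (esp_vol_adm K.s hℓ hq hj (hmin ▸ hh) hd)).1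
  copy := fun h h' hj hh hj' hh' hd hd' =>
    (hE _ rfl (esp_vol_adm K.s hℓ hq hj (hmin ▸ hh) hd)).2 _ rfl (esp_vol_adm K.s hℓ hq hj' (hmin ▸ hh') hd') }

end

end Claimed.Agent.R285.C5
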