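import Claimed.Agent.R285.C5.GReadDefs
import Claimed.Agent.R285.C5.GEnt
import Claimed.Agent.R285.Asm.ConcDefs
import Claimed.Agent.R285.Map.Tower

/-!
# ROW 285, [C] s5.3-5.4: ASSEMBLY OF `C5.graw_system`, part 1: THE CONCRETE GAPPED SYSTEM.  DEFINITIONS ONLY (no sorry)      (owner helper211)

Twin of `Asm/ConcDefs.lean` (helper27).  `C5.graw_system` (`Read/C5.lean`) asks, for every `ε`, for ONE `GRawSys`.  This file fixes WHICH system it is, so that the producers state their top contracts against the same object.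
* spaces, maps, pure entries: MAP (`C5/GMap.lean`: `cfgG`, `rawG`, `PsiG`, `GMapSys`; `Cfg.eExp`, `Cfg.eExpT` at `z = 0`);
* torus data and read-out: READ-OUT (`C5/GReadDefs.lean`: `torG`, `grd_v0`, `grd_bV`, `sysG`);
* physical entries: ENTRY (L5.4; format `C5/GW.lean`: `StrData`, `BulkS`, `CopyS`), put into the spaces by `Cfg.plMk`, `Cfg.toMk` (`C5/GEnt.lean`: `strAct`, `GEntIn`, `GEntOK`, `gent_space`), exactly as in `Asm.concSys`;
* regulators: `Asm.obsReg` = observation cells of side `sd = t s0` on every torus, observation regulator (reference stiffness `o.a = a'`) at every level; retained tori `h ≥ hmin` = side `≥ sd P₀`, `P₀ = R⁵`.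

## TWO DIFFERENT `δ`:   `dl` = the ADDED PRECISION of (5.2) (`δ` of [C] s5, of `strTorVar`, `aPrime`);   `δ = K.p.δ` = the parameter of the gradient regulator of [B] s4.

## THE PARAMETER PROTOCOL (order of ALL choices; a top contract may let its constants depend only on what is chosen BEFORE them)
 G0  READ-OUT-0: the absolute threshold `D1G` for `D₀`.    `b`, `a = aLim b > 8π`;  `dl := ((8π)⁻¹ - a⁻¹)/2`,  `a' := aPrime a dl > 8π`,  `ω := 2π/√a'` (`Step.alpha ω ^ 2 = a'`).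
 G1  ENTRY-1 (`b, dl`): `cstar` (L5.3), `δ0E`, `kq`, padding `c0E`, THE CONSTRUCTION `D : StrData`.
 G2  `o : ObsPar`, `o.a = a'`, `1 - cstar < o.hstar`   (5.12).
 G3  TOWER-1 (`o`): `Ck, ck, n0, D1R, δ0R`.                    `δ := min δ0E δ0R`.
 G4  ENTRY-2: `κ0E`;  TOWER-2: `κ0R`.                          `κ := min κ0E κ0R`.
 G5  TOWER-3: `cst, cT, ℓ0R`.                                  `c := Tow.geoObs Ck ck 1 n0 cst`;  `c0 := max c0E (max (2 (c.ρ + 4)) c.R)`.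
 G6  MAP-1 (`gmap_system c c0`, window `[a', a']`): `C1`.      `h0 := max C1 1`.
 G7  MAP-2 (`δ, κ, h0, θ := 1/2`): `ℓ0M`.                      `ℓ := max (max ℓ0R ℓ0M) 1`.
 G8  MAP-3 (`ℓ`): `A0, D1M`.                                   `A := max A0 1`;  `D0 := 2 (max (max D1R D1M) D1G + 2)`.      `X : GFixed` is complete now.
 G9  MAP-4 (`A`): thresholds `Cm, ρm, dm`.                     `κm := ⟨ρm, 1/2, max Cm 1, 1⟩` = REFERENCE constants of MAP.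
 G10 READ-OUT-1 (`X, κm, dm, cT`): `ρr, Cr, dr, jr`.           `K : GRawK` := `⟨⟨ρr, 1/2, max (max Cm 1) Cr, 1⟩, L, D0, dr⟩` is complete now.     MAP-5 (`κm`, `K.κ`): `jmin`.
 G11 ENTRY-3 (`h0, A`): `C, c, k1`.
 --- given `ε > 0` ---
 G12 `kR ≥ k1` with `C e^{-c 2^kR} ≤ ε`.
 G13 ENTRY-4 (`kR`): `kt0`; `kt := kt0` (`t = 2^kt`);  ENTRY-5 (`kt`): `k00`;  `k0 ≥ k00` (`s0 = 2^k0`) with `kq + kR + kt + k0 = ℓ j0`, `j0 ≥ max jmin jr`;  ENTRY-6: the neighbourhood `I` of `b` (intersected with `(0, ∞)`).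
 G14 `sd := 2^(kt + k0)`, `𝓡 := obsReg X.K.s X.o sd (2^kR)^5`;  TOWER-4: `TowerOK`, `TermOK`, `IsObsTower`;  MAP-6: `GMapSys` (for `κm` and for `K.κ`);  ENT-SPACE: `GEntOK`;  `S := X.sys kR kt k0 j0`.
 Hypotheses available to READ-OUT at G14 = `GSideOK`.
-/

set_option autoImplicit false

namespace Claimed.Agent.R285.C5

open scoped BigOperators ENNReal NNReal
open Filter Topology
open Claimed.Agent.R285 Claimed.Agent.R285.RG Claimed.Agent.R285.B4 Claimed.Agent.R285.B8 Claimed.Agent.R285.F4a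

noncomputable section

/-- **THE CONCRETE GAPPED SYSTEM**: observation side `sd`, subcell side `s0`, entry index `j0`  (`sysG` of `C5/GReadDefs.lean` with the physical entries of `C5/GEnt.lean`) -/
def gSys (K : Cfg) (𝓡 : Reg K.s) (hA : 0 < K.p.A) (j0 : ℕ) (D : StrData) (sd s0 : ℕ) : GRawSys :=
  sysG K 𝓡 hA j0 (fun j b => K.plMk 𝓡 j fun i => cutW K.c0 (strAct K.s D sd s0 i.1 j b))
    (fun j h b => if 𝓡.hmin ≤ h then K.toMk 𝓡 j h (strAct K.s D sd s0 h j b) else 0)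

/-- everything which is fixed BEFORE the entry size `ε` (G0-G8 of the protocol) -/
structure GFixed where
  K : Cfg
  hA : 0 < K.p.A
  o : ObsPar
  D : StrData
  kq : ℕ
  /-- the added precision -/
  dl : ℝ
  /-- the reference stiffness -/
  a' : ℝ

/-- the standing assumptions on the fixed data -/
structure GFixed.Ok (X : GFixed) : Prop where
  geo : X.K.c.Ok
  hR : X.K.c.R = RR
  hcol : X.K.c.col = 1
  hρ : X.K.c.ρ = pp + 1
  hsep : X.K.c.sepV = 2 * pp + 8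
  hF : X.K.F = Fam.entry
  hcos : X.K.cosOn = false
  hω : X.K.p.ω = 2 * Real.pi / Real.sqrt X.a'
  haa : Rdo.aa X.K = X.a'
  ha' : k0 < X.a'
  hdl : 0 < X.dl
  hδ : 0 < X.K.p.δ
  hκ : 0 < X.K.p.κ
  hh0 : 0 < X.K.p.h0
  hA1 : 1 ≤ X.K.p.A
  oa : X.o.a = X.a'
  hℓ : 1 ≤ X.K.s.ℓ
  hD2 : Even X.K.s.D0
  hD3 : 3 ≤ X.K.s.D0

/-- the regulators of the side `2^ks` for the entry parameter `R = 2^kR` -/
abbrev GFixed.reg (X : GFixed) (kR ks : ℕ) : Reg X.K.s := Asm.obsReg X.K.s X.o (2 ^ ks) ((2 ^ kR) ^ 5)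

/-- the system for `R = 2^kR`, `t = 2^kt`, `s0 = 2^k0`, entry index `j0` -/
abbrev GFixed.sys (X : GFixed) (kR kt k0 j0 : ℕ) : GRawSys := gSys X.K (X.reg kR (kt + k0)) X.hA j0 X.D (2 ^ (kt + k0)) (2 ^ k0)

/-- **everything which is known about the chosen side at G14**; `t = 2^kt`, `s0 = 2^k0`, `sd = 2^(kt + k0)`; `κm, dm` = reference constants of MAP -/
structure GSideOK (X : GFixed) (I : Set ℝ) (ε : ℝ) (κm : B10.RawC) (dm : ℝ) (cT : ℝ≥0) (kR kt k0 j0 : ℕ) : Prop where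
  side : 2 ^ X.kq * 2 ^ kR * 2 ^ (kt + k0) = X.K.s.L ^ j0
  Ipos : ∀ b ∈ I, 0 < b
  tower : X.K.TowerOK (X.reg kR (kt + k0)) j0
  term : X.K.TermOK (X.reg kR (kt + k0)) j0 cT
  obs : Tow.IsObsTower X.K.s X.o (2 ^ (kt + k0)) j0 (X.reg kR (kt + k0))
  map : GMapSys X.K (X.reg kR (kt + k0)) j0 X.hA κm dm
  /-- the entries in the spaces: bounds, copying, exact representation -/
  ent : GEntOK X.K (X.reg kR (kt + k0)) j0 X.dl (2 ^ k0) I ε ((X.sys kR kt k0 j0).K0 j0) ((X.sys kR kt k0 j0).T0 j0)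

/-- **what READ-OUT delivers for the chosen side**: the read-out fields of `GDynOK` (`TorOK.rV_bd`, `kV_bd`, `GDynOK.kV_up`, `PureOK.resp`) and of `GReadOK'` (`v0_lim`, `β_bd`, `rep`) -/
structure GReadTop (K : GRawK) (a' dl : ℝ) (s0 s : ℕ) (I : Set ℝ) (S : GRawSys) : Prop where
  rV_bd : ∀ h, S.F.j0 ≤ h → ∀ X ∈ Metric.ball (0 : (ℂ × ℂ) × S.𝒯.T h h) K.κ.ρ,
    ‖S.𝒯.rV h X - S.𝒯.kV h * X.1.1‖ ≤ K.κ.C * (‖X.2‖ + ‖X‖ ^ 2)
  kV_bd : ∀ h, S.F.j0 ≤ h → 1 / K.κ.C ≤ S.𝒯.kV h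
  kV_up : ∀ h, S.F.j0 ≤ h → S.𝒯.kV h ≤ K.κ.C
  resp : ∀ h, S.F.j0 ≤ h → ∀ d ∈ Metric.ball (0 : ℂ) K.d1,
    (∀ j, S.F.j0 ≤ j → j ≤ h → ‖B10.pl S.F S.e j d‖ < K.κ.ρ ∧ ‖B10.tr S.F S.𝒯 S.e S.eT h j d‖ < K.κ.ρ) →
    ‖S.𝒯.rV h (((B10.pl S.F S.e h d).1, (B10.pl S.F S.e h d).2.1), B10.tr S.F S.𝒯 S.e S.eT h h d)‖ ≤ K.κ.C * ‖d‖
  v0_lim : Tendsto S.v0 atTop (𝓝 (a' / (8 * Real.pi ^ 2)))
  β_bd : ∀ h, S.F.j0 ≤ h → |S.βV h| ≤ K.κ.C
  rep : ∀ᶠ h : ℕ in atTop, ∀ b ∈ I, S.Inside K.κ.ρ b h →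
    strTorVar dl s0 s b (K.D0 * K.L ^ h) = S.v0 h + S.βV h * (S.𝒯.rV h (S.ts b h h)).re

/-- Stores the on-demand equation lemmas of the definitions above in THIS module (rule 6 hygiene). -/
theorem gasm_defs_forced : True := by
  have := @gSys.eq_1
  have := @GFixed.reg.eq_1
  have := @GFixed.sys.eq_1
  trivial

end

end Claimed.Agent.R285.C5
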