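import Claimed.Agent.R285.C5.GRead
import Claimed.Agent.R285.C5.GAsmDefs
import Claimed.Agent.R285.Rdo.ExGeo

/-!
# ROW 285, [C] s5.4: READ-OUT of the gapped tower, THE EXIT in the vocabulary of the assembly (`C5/GAsmDefs.lean`, helper211)      (architect helper143)

`gread_exit` = `C5.gread_top` of `C5/GAsm.lean` with ONE more hypothesis: `grdD1 ≤ D₀` (the terminal package `Rdo.rdo_gok` needs `D₀ ≥ D₁`, an absolute constant).   No own `sorry`.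
Constants: `ρr = min κm.ρ ρ₁`, `Cr = max (2 (4 C₁)/ρ₁ + 4 (4 C₁)/ρ₁²) (max 40 C_g)`, `dr = min (min dm dst) (1/2)`, `jr = 0`; `(ρ₁, C₁)` = `Rdo.rdo_gok`, `dst` = `Rdo.rdo_pure`, `C_g` = `grl_gam_bd`.
-/

set_option autoImplicit false

namespace Claimed.Agent.R285.C5

open scoped BigOperators ENNReal NNReal
open Filter Topology
open Claimed.Agent.R285 Claimed.Agent.R285.RG Claimed.Agent.R285.B4 Claimed.Agent.R285.B8 Claimed.Agent.R285.F4a Claimed.Agent.R285.Pack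

noncomputable section

/-- the threshold for `D₀` of the terminal package (an absolute constant) -/
def grdD1 : ℕ := grd_gokG.choose

theorem grdD1_spec : ∀ (δ κ : ℝ) (h0 : ℝ≥0) (A αmax : ℝ) (cT : ℝ≥0) (D0 : ℕ), 0 < δ → 0 < κ → 0 < h0 → 1 ≤ A → grdD1 ≤ D0 →
    ∃ ρ1 C1 : ℝ, 0 < ρ1 ∧ 0 ≤ C1 ∧ ∀ K : Cfg, K.p.δ = δ → K.p.κ = κ → K.p.h0 = h0 → K.p.A = A → K.s.D0 = D0 → K.F = Fam.entry → 1 ≤ K.s.ℓ →
      0 < K.p.ω → Step.alpha K.p.ω ≤ αmax → ∀ (𝓡 : Reg K.s) (j0 : ℕ), Rdo.TermGeo K 𝓡 j0 cT → ∀ h, j0 ≤ h →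
      Rdo.GOK K 𝓡 h (sigT K 𝓡 h h) ρ1 C1 := grd_gokG.choose_spec

/-- the arithmetic of the sides -/
theorem grd_side_arith (s : Sc) (q sd j0 : ℕ) (hside : q * sd = s.L ^ j0) (hD : 3 ≤ s.D0) :
    0 < sd ∧ sd ∣ s.L ^ j0 ∧ ∀ h, j0 ≤ h → 3 * sd ≤ (s.T h).M := by
  have hsd : sd ∣ s.L ^ j0 := ⟨q, by rw [← hside]; ring⟩
  have hsd0 : 0 < sd := by
    rcases Nat.eq_zero_or_pos sd with h0 | h0
    · exfalso
      have := Nat.pow_pos (n := j0) s.L_pos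
      rw [← hside, h0] at this
      simp at this
    · exact h0
  refine ⟨hsd0, hsd, fun h hj => ?_⟩
  have h1 : sd ≤ s.L ^ j0 := Nat.le_of_dvd (Nat.pow_pos s.L_pos) hsd
  have h2 : s.L ^ j0 ≤ s.L ^ h := Nat.pow_le_pow_right s.L_pos hj
  show 3 * sd ≤ s.D0 * s.L ^ h
  exact Nat.mul_le_mul hD (h1.trans h2)

theorem grd_fixed_pos (X : GFixed) (hX : X.Ok) : 0 < X.a' ∧ 0 < X.K.p.ω := by
  have hk0 : 0 < k0 := by unfold k0; have := Real.pi_pos; positivity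
  have ha' : 0 < X.a' := hk0.trans hX.ha'
  refine ⟨ha', ?_⟩
  rw [hX.hω]
  have := Real.pi_pos
  have := Real.sqrt_pos.2 ha'
  positivity

/-- **the standing hypotheses of the generic core** for the chosen side -/
theorem grd_in (X : GFixed) (hX : X.Ok) (κm : B10.RawC) (dm : ℝ) (cT : ℝ≥0) (hdm : 0 < dm) (ρ1 C1 dst : ℝ) (hρ1 : 0 < ρ1) (hdst : 0 < dst)
    (hgok : ∀ (𝓡 : Reg X.K.s) (j0 : ℕ), Rdo.TermGeo X.K 𝓡 j0 cT → ∀ h, j0 ≤ h → Rdo.GOK X.K 𝓡 h (sigT X.K 𝓡 h h) ρ1 C1)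
    (hpure : Rdo.PureAt X.K dst) (I : Set ℝ) (ε : ℝ) (kR kt k0 j0 : ℕ) (S : GSideOK X I ε κm dm cT kR kt k0 j0) :
    ∃ Ce : ℝ, GRdIn X.K (X.reg kR (kt + k0)) j0 cT ρ1 C1 κm.ρ dm Ce dst := by
  obtain ⟨θ, C, ε0, Ce, dm', h1, h2, -, P, E⟩ := S.map.pack
  obtain ⟨hsd0, hsd, h3⟩ := grd_side_arith X.K.s (2 ^ X.kq * 2 ^ kR) (2 ^ (kt + k0)) j0 S.side hX.hD3
  have hD2 : 2 ≤ X.K.s.D0 := by have := hX.hD3; omega
  obtain ⟨ha', hω⟩ := grd_fixed_pos X hX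
  have geo : Rdo.TermGeo X.K (X.reg kR (kt + k0)) j0 cT :=
    Rdo.rdo_x_termGeo X.K X.o (2 ^ (kt + k0)) ((2 ^ kR) ^ 5) j0 cT hX.hR hD2 hsd0 hsd S.term
  refine ⟨Ce, ?_⟩
  exact
    { cos := hX.hcos
      base := ⟨hX.hF, hω, hX.hh0, hX.hA1, hX.hδ, hX.hκ, S.tower, geo⟩
      chain := pk_chainOK P E κm.ρ dm h1 h2
      gok := hgok _ j0 geo
      pure := hpure
      hρ1 := hρ1
      hdc := hdm
      hdst := hdst
      hD := hX.hD3
      hℓ := hX.hℓ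
      n3 := fun h hj => by
        show 3 ≤ ((Asm.obsReg X.K.s X.o (2 ^ (kt + k0)) ((2 ^ kR) ^ 5)).gs h).n
        rw [Rdo.rdo_x_gs X.K.s X.o (2 ^ (kt + k0)) ((2 ^ kR) ^ 5) j0 hsd h hj]
        show 3 ≤ (X.K.s.T h).M / 2 ^ (kt + k0)
        rw [Nat.le_div_iff_mul_le hsd0]
        exact h3 h hj }

/-- **READ-OUT, THE EXIT** -/
theorem gread_exit (X : GFixed) (hX : X.Ok) (hD1 : grdD1 ≤ X.K.s.D0) (κm : B10.RawC) (dm : ℝ) (cT : ℝ≥0) (hdm : 0 < dm) :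
    ∃ (ρr Cr dr : ℝ) (jr : ℕ), 0 < ρr ∧ ρr ≤ κm.ρ ∧ 0 < dr ∧ dr ≤ dm ∧
    ∀ K : GRawK, K.L = X.K.s.L → K.D0 = X.K.s.D0 → K.κ.ρ ≤ ρr → Cr ≤ K.κ.C → K.d1 ≤ dr →
    ∀ (I : Set ℝ) (ε : ℝ) (kR kt k0 j0 : ℕ), 0 ≤ ε → jr ≤ j0 → GSideOK X I ε κm dm cT kR kt k0 j0 →
      GReadTop K X.a' X.dl (2 ^ k0) (2 ^ (kt + k0)) I (X.sys kR kt k0 j0) := by
  obtain ⟨ha', hω⟩ := grd_fixed_pos X hX
  have hD2 : 2 ≤ X.K.s.D0 := by have := hX.hD3; omega
  obtain ⟨ρ1, C1, hρ1, hC1, hgok⟩ := grdD1_spec X.K.p.δ X.K.p.κ X.K.p.h0 X.K.p.A (Step.alpha X.K.p.ω) cT X.K.s.D0 hX.hδ hX.hκ hX.hh0 hX.hA1 hD1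
  have hgok' := hgok X.K rfl rfl rfl rfl rfl hX.hF hX.hℓ hω le_rfl
  obtain ⟨dst, hdst, hpure⟩ := Rdo.rdo_pure
  have hpure' : Rdo.PureAt X.K dst := hpure X.K hX.hF hω hD2
  obtain ⟨Cg, hCg, hgam⟩ := grl_gam_bd X.a' X.a' ha'
  refine ⟨min κm.ρ ρ1, max (2 * (4 * C1) / ρ1 + 4 * (4 * C1) / ρ1 ^ 2) (max 40 Cg), min (min dm dst) (1 / 2), 0,
    lt_min κm.hρ hρ1, min_le_left _ _, lt_min (lt_min hdm hdst) (by norm_num), (min_le_left _ _).trans (min_le_left _ _), ?_⟩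
  intro K hKL hKD hKρ hKC hKd I ε kR kt k0 j0 _ _ S
  obtain ⟨Ce, H⟩ := grd_in X hX κm dm cT hdm ρ1 C1 dst hρ1 hdst hgok' hpure' I ε kR kt k0 j0 S
  obtain ⟨hsd0, hsd, h3⟩ := grd_side_arith X.K.s (2 ^ X.kq * 2 ^ kR) (2 ^ (kt + k0)) j0 S.side hX.hD3
  have hρa : K.κ.ρ ≤ κm.ρ := hKρ.trans (min_le_left _ _)
  have hρb : K.κ.ρ ≤ ρ1 := hKρ.trans (min_le_right _ _)
  have hC1' : 2 * (4 * C1) / ρ1 + 4 * (4 * C1) / ρ1 ^ 2 ≤ K.κ.C := (le_max_left _ _).trans hKC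
  have hC40 : 40 ≤ K.κ.C := ((le_max_left _ _).trans (le_max_right _ _)).trans hKC
  have hCg' : Cg ≤ K.κ.C := ((le_max_right _ _).trans (le_max_right _ _)).trans hKC
  have hd1 : K.d1 ≤ dm := hKd.trans ((min_le_left _ _).trans (min_le_left _ _))
  have hd2 : K.d1 ≤ dst := hKd.trans ((min_le_left _ _).trans (min_le_right _ _))
  have hd3 : K.d1 ≤ 1 / 2 := hKd.trans (min_le_right _ _)
  exact
    { rV_bd := fun h hj Y hY => by
        refine (grd_rV_bd H h hj Y (Metric.ball_subset_ball hρb hY)).trans ?_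
        exact mul_le_mul_of_nonneg_right hC1' (by positivity)
      kV_bd := fun h _ => by
        have h1 := (grd_kV X.K hX.hD3 h).1
        have h2 : 1 / K.κ.C ≤ 1 / 20 := one_div_le_one_div_of_le (by norm_num) (by linarith)
        exact h2.trans h1
      kV_up := fun h _ => (grd_kV X.K hX.hD3 h).2.trans (by linarith)
      resp := fun h hj d hd hin => by
        have hd' : ‖d‖ < K.d1 := by simpa using hd
        refine (grd_resp H X.hA K.κ.ρ hρb hρa h hj d (hd'.trans_le hd1) (hd'.trans_le hd2) (hd'.le.trans hd3) hin).trans ?_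
        exact mul_le_mul_of_nonneg_right hC40 (norm_nonneg _)
      v0_lim := by
        have := grd_v0_lim H
        rw [hX.haa] at this
        exact this
      β_bd := fun h hj => by
        refine le_trans ?_ hCg'
        have := hgam (Rdo.aa X.K) (le_of_eq hX.haa.symm) (le_of_eq hX.haa) (X.K.s.T h) rfl ((X.reg kR (kt + k0)).gs h) (H.base.geo.cells h hj) (H.n3 h hj)
        exact this
      rep := by
        filter_upwards [eventually_ge_atTop (max (j0 + 1) (X.reg kR (kt + k0)).hmin)] with h hh b hb hin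
        have hj : j0 < h := lt_of_lt_of_le (Nat.lt_succ_self j0) ((le_max_left _ _).trans hh)
        have hm : (X.reg kR (kt + k0)).hmin ≤ h := (le_max_right _ _).trans hh
        have hdv : 2 ^ k0 ∣ (X.K.s.T h).M := by
          have e1 : 2 ^ k0 ∣ 2 ^ (kt + k0) := pow_dvd_pow 2 (Nat.le_add_left _ _)
          exact e1.trans (Tow.tw_sd_dvd X.K.s hsd hj.le)
        have h2k : 2 * 2 ^ k0 ≤ (X.K.s.T h).M := by
          have e1 : 2 ^ k0 ≤ 2 ^ (kt + k0) := Nat.pow_le_pow_right (by norm_num) (Nat.le_add_left _ _)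
          have := h3 h hj.le
          omega
        have hs0 : Whole (subGrid (X.K.s.T h) (2 ^ k0)) := by
          rw [subGrid_eq _ hdv]
          exact Tow.tw_whole _ _ _ (by positivity) h2k
        have key := grd_rep H X.hA _ _ X.dl (2 ^ k0) I ε S.ent K.κ.ρ hρb hρa h hj hm hs0 b hb (S.Ipos b hb) hin
        have e1 : (subGrid (X.K.s.T h) (2 ^ k0)).m = 2 ^ k0 := by rw [subGrid_eq _ hdv]; rfl
        have e2 : ((X.reg kR (kt + k0)).gs h).m = 2 ^ (kt + k0) := by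
          show ((Asm.obsReg X.K.s X.o (2 ^ (kt + k0)) ((2 ^ kR) ^ 5)).gs h).m = _
          rw [Rdo.rdo_x_gs X.K.s X.o (2 ^ (kt + k0)) ((2 ^ kR) ^ 5) j0 hsd h hj.le]
          rfl
        have e3 : (X.K.s.T h).M = K.D0 * K.L ^ h := by rw [hKD, hKL]; rfl
        rw [e1, e2, e3] at key
        exact key }

/-- Stores the on-demand equation lemmas of the definitions above in THIS module (rule 6 hygiene). -/
theorem grd_top_forced : True := by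
  have := @grdD1.eq_1
  trivial

end

end Claimed.Agent.R285.C5
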