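import Claimed.Agent.R285.C5.GAsmDefs
import Claimed.Agent.R285.C5.GReadTop
import Claimed.Agent.R285.C5.EntTop
import Claimed.Agent.R285.Asm.TowConc

/-!
# ROW 285, [C] s5.3-5.4: ASSEMBLY OF `C5.graw_system`, part 2: the construction contract from the TOP CONTRACTS of the producers      (owner helper211)

Twin of `Asm/Concrete.lean` (helper27).  `graw_system_asm` (= the statement of `C5.graw_system`, `Read/C5.lean`) is PROVED here from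
  `gasm_entry` (ENTRY = L5.4, chief helper262: LINKED to `gentry_top`, `C5/EntTop.lean`),
  `gmap_system` (MAP, `C5/GMap.lean`, helper75),  `gtower` (TOWER: PROVED here from `Tow.tower_obs`),  `gent_space`, `gentIn_mk` (ENT-SPACE, `C5/GEnt.lean`, proved),
  `gread_top` (READ-OUT: LINKED to `gread_exit`, `C5/GReadTop.lean`, helper143; core `C5/GRead.lean`, helper57's `C5/GReadLaw.lean`, helper212's `C5/GBr.lean`)
along the parameter protocol G0-G14 of `C5/GAsmDefs.lean`.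
No `sorry` in this file: both top contracts below are LINKS.
-/

set_option autoImplicit false

namespace Claimed.Agent.R285.C5

open scoped BigOperators ENNReal NNReal
open Filter Topology
open Claimed.Agent.R285 Claimed.Agent.R285.RG Claimed.Agent.R285.B4 Claimed.Agent.R285.B8 Claimed.Agent.R285.F4a Claimed.Agent.R285.B10
  Claimed.Agent.R285.Pack

noncomputable section

/-! ## 1. The expected top contracts -/

/-- **ENTRY** = [C] L5.4 (chief helper262), protocol steps G1, G2, G4, G11, G13.   VERBATIM the conclusion of `C5.gentry_of` (`C5/Entry.lean`).   Twin of `F4b.initialization`, tori only, REAL temperature.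
Order of the choices ((5.12) and l.375-380): `c_*` (L5.3), `δ₀`, `q = 2^kq`, the padding `c0`, THE CONSTRUCTION `D`; the norm (`o`, `δ`, `κ`, `h₀`, `A`); `C, c`; `R = 2^kR` large; `t = 2^kt` large; `s0 = 2^k0` large (depending on `t`);
then the real neighbourhood `I` of `b`; then the volumes. -/
theorem gasm_entry (b0 dl : ℝ) (hb0 : 0 < b0) (hdl : 0 < dl) (ha : 0 < aLim b0) :
    ∃ (cstar δ0 : ℝ) (kq c0 : ℕ) (D : StrData), 0 < cstar ∧ cstar < 1 ∧ 0 < δ0 ∧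
    ∀ o : ObsPar, o.a = aPrime (aLim b0) dl → 1 - cstar < o.hstar → ∀ δ ∈ Set.Ioc 0 δ0, ∃ κ0 > (0 : ℝ), ∀ κ ∈ Set.Ioc 0 κ0,
    ∀ (h0 : ℝ≥0) (A : ℝ), 1 ≤ A →
    ∃ (C c : ℝ) (k1 : ℕ), 0 < c ∧ ∀ kR ≥ k1, ∃ kt0 : ℕ, ∀ kt ≥ kt0, ∃ k00 : ℕ, ∀ k0 ≥ k00, ∃ I ∈ 𝓝 b0,
      ∀ 𝒱 : F4b.Vol, 𝒱.G.bc = BC.per → 𝒱.Adm (2 ^ kq) (2 ^ kR) (2 ^ (kt + k0)) →
        BulkS D dl (aPrime (aLim b0) dl) ⟨δ, κ, h0, A, 2 * Real.pi / Real.sqrt (aPrime (aLim b0) dl)⟩ o I (C * Real.exp (-c * 2 ^ kR)) (2 ^ k0) 𝒱 ∧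
        ∀ 𝒱' : F4b.Vol, 𝒱'.G.bc = BC.per → 𝒱'.Adm (2 ^ kq) (2 ^ kR) (2 ^ (kt + k0)) → CopyS D h0 c0 I (2 ^ k0) 𝒱 𝒱' := gentry_top b0 dl hb0 hdl ha

/-- **READ-OUT** (helper143, helper57, helper212: `C5/GRead*.lean`, `C5/GBr.lean`; exit `C5/GReadTop.lean`), protocol steps G8, G10, G14.   FIRST the absolute threshold `D1` for `D₀` (terminal package).   Then the read-out constants `ρr, Cr, dr` and a first scale `jr`:
they depend on the fixed data `X`, on the reference constants `κm, dm` of MAP and on `cT` only (NOT on the entry size, the side, the entry index, the regulators);   then, for EVERY admissible choice of the side, all read-out fields. -/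
theorem gread_top : ∃ D1 : ℕ, ∀ X : GFixed, X.Ok → D1 ≤ X.K.s.D0 → ∀ (κm : RawC) (dm : ℝ) (cT : ℝ≥0), 0 < dm →
    ∃ (ρr Cr dr : ℝ) (jr : ℕ), 0 < ρr ∧ ρr ≤ κm.ρ ∧ 0 < dr ∧ dr ≤ dm ∧
    ∀ K : GRawK, K.L = X.K.s.L → K.D0 = X.K.s.D0 → K.κ.ρ ≤ ρr → Cr ≤ K.κ.C → K.d1 ≤ dr →
    ∀ (I : Set ℝ) (ε : ℝ) (kR kt k0 j0 : ℕ), 0 ≤ ε → jr ≤ j0 → GSideOK X I ε κm dm cT kR kt k0 j0 →
      GReadTop K X.a' X.dl (2 ^ k0) (2 ^ (kt + k0)) I (X.sys kR kt k0 j0) := ⟨grdD1, gread_exit⟩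

/-! ## 2. TOWER for the gapped configuration (PROVED: the hypotheses on a tower do not see the period `ω` nor the flag `cosOn`) -/

theorem gstepOK_par {G : Geom} {c : Geo} {δ κ : ℝ} {h0 h0' : ℝ≥0} {A A' ω ω' : ℝ} {gs : Grid G} {D0 ℓ : ℕ} {S : Step G D0 ℓ}
    (h : StepOK c ⟨δ, κ, h0, A, ω⟩ gs S) : StepOK c ⟨δ, κ, h0', A', ω'⟩ gs S where
  per := h.per
  shell := h.shell
  reg := h.reg
  adm := ⟨h.adm.δ_pos, h.adm.κ_pos, h.adm.mono⟩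
  sep := h.sep
  sepf := h.sepf
  admf := ⟨h.admf.δ_pos, h.admf.κ_pos, h.admf.mono⟩
  col := h.col
  inv := h.inv
  diag := h.diag
  nest := h.nest
  trans := h.trans
  square := h.square
  half := h.half
  diam := h.diam

/-- **TOWER**, protocol steps G3, G4, G5, G14 -/
theorem gtower (o : ObsPar) : ∃ (Ck ck : ℝ) (n0 D1 : ℕ), 0 < ck ∧ ∃ δ0 > (0 : ℝ), ∀ δ ∈ Set.Ioc 0 δ0, ∃ κ0 > (0 : ℝ), ∀ κ ∈ Set.Ioc 0 κ0,
    ∃ (cst cT : ℝ≥0) (ℓ0 : ℕ), ∀ (h0 : ℝ≥0) (A ω : ℝ) (c0 ℓ D0 : ℕ) (hD : 0 < D0), ℓ0 ≤ ℓ → D1 ≤ D0 →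
    ∀ sd P0 j0 : ℕ, 0 < sd → sd ∣ (2 ^ ℓ) ^ j0 → 1 ≤ j0 →
      (cfgG (Tow.geoObs Ck ck 1 n0 cst) δ κ h0 A ω c0 ℓ D0 hD).TowerOK (Asm.obsReg _ o sd P0) j0 ∧
      (cfgG (Tow.geoObs Ck ck 1 n0 cst) δ κ h0 A ω c0 ℓ D0 hD).TermOK (Asm.obsReg _ o sd P0) j0 cT ∧
      Tow.IsObsTower (cfgG (Tow.geoObs Ck ck 1 n0 cst) δ κ h0 A ω c0 ℓ D0 hD).s o sd j0 (Asm.obsReg _ o sd P0) := by
  obtain ⟨n0, Ck, ck, hck, H⟩ := Tow.tower_obs
  obtain ⟨D1, δ0, hδ0, H⟩ := H o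
  refine ⟨Ck, ck, n0, D1, hck, δ0, hδ0, fun δ hδ => ?_⟩
  obtain ⟨κ0, hκ0, H⟩ := H δ hδ
  refine ⟨κ0, hκ0, fun κ hκ => ?_⟩
  obtain ⟨cst, cT, ℓ0, H, -⟩ := H κ hκ
  refine ⟨cst, cT, max ℓ0 2, fun h0 A ω c0 ℓ D0 hD hℓ hD1 sd P0 j0 hsd0 hsd hj0 => ?_⟩
  have hT := Asm.obsReg_isObsTower (cfg8 (Tow.geoObs Ck ck 1 n0 cst) δ κ h0 A c0 ℓ D0 hD).s o P0 (j0 := j0) hsd0 hsd
  have h2 : 2 * 1 < (2 ^ ℓ) ^ j0 := by
    have h3 : 2 ^ 2 ≤ 2 ^ ℓ := Nat.pow_le_pow_right (by norm_num) (le_trans (le_max_right _ _) hℓ)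
    have h4 : (2 ^ ℓ) ^ 1 ≤ (2 ^ ℓ) ^ j0 := Nat.pow_le_pow_right (by positivity) hj0
    rw [pow_one] at h4
    omega
  obtain ⟨a, b⟩ := H 1 h0 A c0 ℓ D0 hD (le_trans (le_max_left _ _) hℓ) hD1 sd j0 hsd0 hsd h2 _ hT
  exact ⟨⟨fun h j hj0 hj => gstepOK_par (a.step h j hj0 hj), a.cells⟩, b, hT⟩

/-! ## 3. Small leaves (paper-free) -/

/-- G0: the added precision -/
theorem gdl_exists (a : ℝ) (ha : 8 * Real.pi < a) : ∃ dl > 0, 8 * Real.pi < aPrime a dl := by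
  have hp : 0 < 8 * Real.pi := by positivity
  have ha0 : 0 < a := hp.trans ha
  have h1 : a⁻¹ < (8 * Real.pi)⁻¹ := (inv_lt_inv₀ ha0 hp).2 ha
  have ha1 : 0 < a⁻¹ := inv_pos.2 ha0
  refine ⟨((8 * Real.pi)⁻¹ - a⁻¹) / 2, by linarith, ?_⟩
  unfold aPrime
  rw [lt_inv_comm₀ hp (by linarith)]
  linarith

theorem galpha_sq (a' : ℝ) (ha' : 0 < a') : Step.alpha (2 * Real.pi / Real.sqrt a') ^ 2 = a' := by
  have hs : 0 < Real.sqrt a' := Real.sqrt_pos.2 ha'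
  have hp := Real.pi_pos
  have e : Step.alpha (2 * Real.pi / Real.sqrt a') = Real.sqrt a' := by
    unfold Step.alpha
    field_simp
  rw [e, Real.sq_sqrt ha'.le]

/-- G2: `hstar := 1 - cstar / 2`, `p2 := (1 + 1 / hstar) / 2`, `p1 := (1 + p2) / 2` -/
theorem gobsPar_exists (a' cstar : ℝ) (ha' : 0 < a') (h0 : 0 < cstar) (h1 : cstar < 1) : ∃ o : ObsPar, o.a = a' ∧ 1 - cstar < o.hstar := by
  have hh0 : 0 < 1 - cstar / 2 := by linarith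
  have hinv : 1 < 1 / (1 - cstar / 2) := by
    rw [lt_div_iff₀ hh0]
    linarith
  refine ⟨⟨a', 1 - cstar / 2, (1 + (1 + 1 / (1 - cstar / 2)) / 2) / 2, (1 + 1 / (1 - cstar / 2)) / 2, ha', hh0, ?_,
    by linarith, by linarith⟩, rfl, ?_⟩
  · rw [lt_div_iff₀ (by linarith)]
    have hu : (1 - cstar / 2) * (1 / (1 - cstar / 2)) = 1 := mul_one_div_cancel hh0.ne'
    have e : (1 - cstar / 2) * ((1 + 1 / (1 - cstar / 2)) / 2) = ((1 - cstar / 2) + 1) / 2 := by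
      calc (1 - cstar / 2) * ((1 + 1 / (1 - cstar / 2)) / 2)
          = ((1 - cstar / 2) + (1 - cstar / 2) * (1 / (1 - cstar / 2))) / 2 := by ring
        _ = _ := by rw [hu]
    rw [e]
    linarith
  · show 1 - cstar < 1 - cstar / 2
    linarith

/-- G12 -/
theorem gexists_kR (C c ε : ℝ) (hc : 0 < c) (hε : 0 < ε) (k1 : ℕ) : ∃ kR ≥ k1, C * Real.exp (-c * 2 ^ kR) ≤ ε := by
  have hx : Tendsto (fun k : ℕ => (2 : ℝ) ^ k) atTop atTop := tendsto_pow_atTop_atTop_of_one_lt (by norm_num)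
  have h1 : Tendsto (fun k : ℕ => -c * (2 : ℝ) ^ k) atTop atBot := hx.const_mul_atTop_of_neg (by linarith)
  have h2 : Tendsto (fun k : ℕ => C * Real.exp (-c * (2 : ℝ) ^ k)) atTop (𝓝 0) := by
    have := (Real.tendsto_exp_atBot.comp h1).const_mul C
    simpa using this
  obtain ⟨k, hk1, hk2⟩ := ((eventually_ge_atTop k1).and (h2.eventually_le_const hε)).exists
  exact ⟨k, hk1, hk2⟩

theorem gbulkS_mono {D : StrData} {dl a' : ℝ} {p : Par} {o : ObsPar} {I I' : Set ℝ} {ε ε' : ℝ} {s0 : ℕ} {𝒱 : F4b.Vol}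
    (h : BulkS D dl a' p o I ε s0 𝒱) (hε : ε ≤ ε') (hI : I' ⊆ I) : BulkS D dl a' p o I' ε' s0 𝒱 where
  ok := fun b hb => h.ok b (hI hb)
  even := fun b hb => h.even b (hI hb)
  sym := fun b hb => h.sym b (hI hb)
  norm := fun b hb V hV => (h.norm b (hI hb) V hV).trans (ENNReal.ofReal_le_ofReal hε)
  ident := fun b hb => h.ident b (hI hb)

/-! ## 4. `GDynOK` from MAP, READ-OUT and the bounds of the entries -/

theorem gdyn_of (K : Cfg) (𝓡 : Reg K.s) (hA : 0 < K.p.A) (j0 : ℕ) (D : StrData) (sd s0 : ℕ) (RK : GRawK) (a' dl : ℝ) (s : ℕ) (I : Set ℝ) (ε : ℝ)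
    (hM : GMapSys K 𝓡 j0 hA RK.κ RK.d1) (hR : GReadTop RK a' dl s0 s I (gSys K 𝓡 hA j0 D sd s0))
    (hE : GEntOK K 𝓡 j0 dl s0 I ε ((gSys K 𝓡 hA j0 D sd s0).K0 j0) ((gSys K 𝓡 hA j0 D sd s0).T0 j0)) :
    GDynOK RK ε I (gSys K 𝓡 hA j0 D sd s0) where
  raw := hM.raw
  tor :=
    { Ψ_an := hM.Ψ_an
      Ψ_par := fun _ _ _ _ _ _ => rfl
      Ψ_bd := hM.Ψ_bd
      rV_bd := hR.rV_bd
      kV_bd := hR.kV_bd }
  pure :=
    { e_an := hM.e_an j0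
      e_t := fun _ _ => rfl
      e_R := fun d hd => hM.e_R j0 d (by simpa using hd)
      e_S := fun d _ => by
        show (d, -(0 : ℂ), (K.eExp 𝓡 j0 d 0).2.2) = (d, (0 : ℂ), (K.eExp 𝓡 j0 d 0).2.2)
        rw [neg_zero]
      e_re := fun d hd => by
        show (starRingEnd ℂ d, starRingEnd ℂ (0 : ℂ), cjg K 𝓡 j0 (K.eExp 𝓡 j0 d 0).2.2)
          = (starRingEnd ℂ d, (0 : ℂ), (K.eExp 𝓡 j0 (starRingEnd ℂ d) 0).2.2)
        rw [map_zero, hM.e_re j0 d (by simpa using hd)]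
      eT_an := fun h _ => hM.eT_an j0 h
      eT_bd := fun h _ d hd => hM.eT_bd j0 h d (by simpa using hd)
      eT_S := fun _ _ _ _ => rfl
      resp := hR.resp }
  σ_id := fun _ _ => rfl
  kV_up := hR.kV_up
  K0_bd := hE.K0_bd
  T0_bd := hE.T0_bd

/-! ## 5. The assembly -/

/-- **THE CONSTRUCTION CONTRACT** (= `C5.graw_system`), proved along the protocol G0-G14 -/
theorem graw_system_asm (b : ℝ) (hb : 0 < b) (ha : 8 * Real.pi < aLim b) :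
    ∃ δ > 0, 8 * Real.pi < aPrime (aLim b) δ ∧ ∃ K : GRawK, ∀ ε > 0, ∃ (s0 s : ℕ) (I : Set ℝ) (S : GRawSys),
      I ∈ 𝓝 b ∧ GDynOK K ε I S ∧ GReadOK' K (aPrime (aLim b) δ) δ s0 s I S := by
  -- G0
  obtain ⟨D1G, hread⟩ := gread_top
  obtain ⟨dl, hdl, ha'⟩ := gdl_exists (aLim b) ha
  refine ⟨dl, hdl, ha', ?_⟩
  -- G1
  obtain ⟨cstar, δ0E, kq, c0E, D, hcs0, hcs1, hδ0E, hent⟩ := gasm_entry b dl hb hdl (lt_trans (by positivity) ha)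
  obtain ⟨a', ha'def⟩ : ∃ a' : ℝ, a' = aPrime (aLim b) dl := ⟨_, rfl⟩
  rw [← ha'def] at ha' hent ⊢
  have hk0 : k0 < a' := ha'
  have ha'0 : 0 < a' := lt_trans (by positivity) ha'
  -- G2
  obtain ⟨o, hoa, hoh⟩ := gobsPar_exists a' cstar ha'0 hcs0 hcs1
  -- G3
  obtain ⟨Ck, ck, n0, D1R, hck, δ0R, hδ0R, htow⟩ := gtower o
  have hδ : 0 < min δ0E δ0R := lt_min hδ0E hδ0R
  -- G4
  obtain ⟨κ0E, hκ0E, hent⟩ := hent o hoa hoh (min δ0E δ0R) ⟨hδ, min_le_left _ _⟩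
  obtain ⟨κ0R, hκ0R, htow⟩ := htow (min δ0E δ0R) ⟨hδ, min_le_right _ _⟩
  have hκ : 0 < min κ0E κ0R := lt_min hκ0E hκ0R
  -- G5
  obtain ⟨cst, cT, ℓ0R, htow⟩ := htow (min κ0E κ0R) ⟨hκ, min_le_right _ _⟩
  have hc : (Tow.geoObs Ck ck 1 n0 cst).Ok := Tow.geoObs_ok hck le_rfl
  -- G6
  obtain ⟨C1, hmap⟩ := gmap_system (Tow.geoObs Ck ck 1 n0 cst) hc
    (max c0E (max (2 * ((Tow.geoObs Ck ck 1 n0 cst).ρ + 4)) (Tow.geoObs Ck ck 1 n0 cst).R))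
    (le_trans (le_max_left _ _) (le_max_right _ _)) (le_trans (le_max_right _ _) (le_max_right _ _))
    (le_trans (by show pp + 4 ≤ 2 * (pp + 1 + 4); omega) (le_trans (le_max_left _ _) (le_max_right _ _))) a' a' hk0 le_rfl
  -- G7
  obtain ⟨ℓ0M, hmap⟩ := hmap (min δ0E δ0R) (min κ0E κ0R) (max C1 1) hδ hκ (le_max_left _ _) (1 / 2) (by norm_num) (by norm_num)
  -- G8
  obtain ⟨A0, D1M, hA0, hmap⟩ := hmap (max (max ℓ0R ℓ0M) 1) (le_trans (le_max_right _ _) (le_max_left _ _))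
  have hD : 0 < 2 * (max (max D1R D1M) D1G + 2) := by positivity
  have hA : 0 < max A0 1 := lt_of_lt_of_le one_pos (le_max_right _ _)
  -- G9
  obtain ⟨Cm, ρm, dm, hρm, hdm, hmap⟩ := hmap (max A0 1) (le_max_left _ _)
  obtain ⟨κm, hκmρ, hκmθ, hκmC⟩ : ∃ κm : RawC, κm.ρ = ρm ∧ κm.θ = 1 / 2 ∧ κm.C = max Cm 1 :=
    ⟨⟨ρm, 1 / 2, max Cm 1, 1, hρm, by norm_num, by norm_num, le_max_right _ _, one_pos⟩, rfl, rfl, rfl⟩
  obtain ⟨jm1, hmap1⟩ := hmap κm hκmθ (by rw [hκmC]; exact le_max_left _ _) (le_of_eq hκmρ)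
  obtain ⟨X, hXdef⟩ : ∃ X : GFixed, X = ⟨cfgG (Tow.geoObs Ck ck 1 n0 cst) (min δ0E δ0R) (min κ0E κ0R) (max C1 1) (max A0 1)
      (2 * Real.pi / Real.sqrt a') (max c0E (max (2 * ((Tow.geoObs Ck ck 1 n0 cst).ρ + 4)) (Tow.geoObs Ck ck 1 n0 cst).R))
      (max (max ℓ0R ℓ0M) 1) (2 * (max (max D1R D1M) D1G + 2)) hD, hA, o, D, kq, dl, a'⟩ := ⟨_, rfl⟩
  have hα : Step.alpha (2 * Real.pi / Real.sqrt a') ^ 2 = a' := galpha_sq a' ha'0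
  have hX : X.Ok := by
    subst hXdef
    exact ⟨hc, rfl, rfl, rfl, rfl, rfl, rfl, rfl, hα, hk0, hdl, hδ, hκ, lt_of_lt_of_le one_pos (le_max_right _ _), le_max_right _ _, hoa,
      le_max_right _ _, even_two_mul _, by show 3 ≤ 2 * (max (max D1R D1M) D1G + 2); omega⟩
  have hc0 : c0E ≤ X.K.c0 := by subst hXdef; exact le_max_left _ _
  -- G10
  have hD1G : D1G ≤ X.K.s.D0 := by
    subst hXdef
    show D1G ≤ 2 * (max (max D1R D1M) D1G + 2)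
    have := le_max_right (max D1R D1M) D1G
    omega
  obtain ⟨ρr, Cr, dr, jr, hρr, hρr', hdr, hdr', hread⟩ := hread X hX hD1G κm dm cT hdm
  have hL2 : 2 ≤ X.K.s.L := by
    have h1 := hX.hℓ
    calc 2 = 2 ^ 1 := (pow_one 2).symm
      _ ≤ 2 ^ X.K.s.ℓ := Nat.pow_le_pow_right (by norm_num) h1
  obtain ⟨K, hKρ, hKθ, hKC, hKL, hKD, hKd⟩ : ∃ K : GRawK, K.κ.ρ = ρr ∧ K.κ.θ = 1 / 2 ∧ K.κ.C = max (max Cm 1) Cr ∧ K.L = X.K.s.L ∧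
      K.D0 = X.K.s.D0 ∧ K.d1 = dr :=
    ⟨⟨⟨ρr, 1 / 2, max (max Cm 1) Cr, 1, hρr, by norm_num, by norm_num, le_trans (le_max_right _ _) (le_max_left _ _), one_pos⟩,
      X.K.s.L, X.K.s.D0, dr, hL2, X.K.s.hD, hdr⟩, rfl, rfl, rfl, rfl, rfl, rfl⟩
  obtain ⟨jm2, hmap2⟩ := hmap K.κ hKθ (by rw [hKC]; exact le_trans (le_max_left _ _) (le_max_left _ _))
    (by rw [hKρ, ← hκmρ]; exact hρr')
  -- G11
  obtain ⟨CE, cE, k1, hcE, hent⟩ := hent (min κ0E κ0R) ⟨hκ, min_le_left _ _⟩ (max C1 1) (max A0 1) (le_max_right _ _)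
  refine ⟨K, fun ε hε => ?_⟩
  -- G12
  obtain ⟨kR, hkR, hRε⟩ := gexists_kR CE cE ε hcE hε k1
  -- G13
  obtain ⟨kt, hent⟩ := hent kR hkR
  obtain ⟨k00, hent⟩ := hent kt le_rfl
  obtain ⟨j0, hj0def⟩ : ∃ j0 : ℕ, j0 = kq + kR + kt + k00 + max (max jm1 jm2) jr + 1 := ⟨_, rfl⟩
  obtain ⟨k0, hk0def⟩ : ∃ k0 : ℕ, k0 = X.K.s.ℓ * j0 - (kq + kR + kt) := ⟨_, rfl⟩
  have hℓj : j0 ≤ X.K.s.ℓ * j0 := Nat.le_mul_of_pos_left _ hX.hℓ
  have hk00 : k00 ≤ k0 := by omega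
  have hsum : kq + kR + (kt + k0) = X.K.s.ℓ * j0 := by omega
  have hjm1 : jm1 ≤ j0 := by have := le_trans (le_max_left jm1 jm2) (le_max_left _ jr); omega
  have hjm2 : jm2 ≤ j0 := by have := le_trans (le_max_right jm1 jm2) (le_max_left _ jr); omega
  have hjr : jr ≤ j0 := by have := le_max_right (max jm1 jm2) jr; omega
  have hj1 : 1 ≤ j0 := by omega
  obtain ⟨I0, hI0, hvol⟩ := hent k0 hk00
  obtain ⟨I, hIdef⟩ : ∃ I : Set ℝ, I = I0 ∩ Set.Ioi 0 := ⟨_, rfl⟩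
  have hI : I ∈ 𝓝 b := by rw [hIdef]; exact Filter.inter_mem hI0 (Ioi_mem_nhds hb)
  have hII : I ⊆ I0 := by rw [hIdef]; exact Set.inter_subset_left
  have hIpos : ∀ b' ∈ I, 0 < b' := fun b' hb' => by rw [hIdef] at hb'; exact hb'.2
  -- G14
  have hside : 2 ^ X.kq * 2 ^ kR * 2 ^ (kt + k0) = X.K.s.L ^ j0 := by
    have e : X.kq = kq := by subst hXdef; rfl
    rw [e, ← pow_add, ← pow_add, hsum, pow_mul]
    rfl
  have hsd : 2 ^ (kt + k0) ∣ (2 ^ X.K.s.ℓ) ^ j0 := ⟨2 ^ X.kq * 2 ^ kR, by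
    have : (2 ^ X.K.s.ℓ) ^ j0 = X.K.s.L ^ j0 := rfl
    rw [this, ← hside]; ring⟩
  have hω : 0 < 2 * Real.pi / Real.sqrt a' := by
    have := Real.sqrt_pos.2 ha'0
    positivity
  have hD2 : 2 ≤ X.K.s.D0 := le_trans (by norm_num) hX.hD3
  obtain ⟨hSide, hM2⟩ : GSideOK X I ε κm dm cT kR kt k0 j0 ∧ GMapSys X.K (X.reg kR (kt + k0)) j0 X.hA K.κ K.d1 := by
    subst hXdef
    obtain ⟨ht1, ht2, ht3⟩ := htow (max C1 1) (max A0 1) (2 * Real.pi / Real.sqrt a')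
      (max c0E (max (2 * ((Tow.geoObs Ck ck 1 n0 cst).ρ + 4)) (Tow.geoObs Ck ck 1 n0 cst).R)) (max (max ℓ0R ℓ0M) 1)
      (2 * (max (max D1R D1M) D1G + 2)) hD (le_trans (le_max_left _ _) (le_max_left _ _)) (by have := le_trans (le_max_left D1R D1M) (le_max_left _ D1G); omega)
      (2 ^ (kt + k0)) ((2 ^ kR) ^ 5) j0 (by positivity) hsd hj1
    have hD1 : D1M ≤ 2 * (max (max D1R D1M) D1G + 2) := by have := le_trans (le_max_right D1R D1M) (le_max_left _ D1G); omega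
    have hm1 := hmap1 dm le_rfl (2 * (max (max D1R D1M) D1G + 2)) hD hD1 (2 * Real.pi / Real.sqrt a') hω (le_of_eq hα.symm) (le_of_eq hα)
      (Asm.obsReg _ o (2 ^ (kt + k0)) ((2 ^ kR) ^ 5)) j0 hjm1 ht1 hA
    have hm2 := hmap2 K.d1 (by rw [hKd]; exact hdr') (2 * (max (max D1R D1M) D1G + 2)) hD hD1 (2 * Real.pi / Real.sqrt a') hω (le_of_eq hα.symm) (le_of_eq hα)
      (Asm.obsReg _ o (2 ^ (kt + k0)) ((2 ^ kR) ^ 5)) j0 hjm2 ht1 hA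
    have hIn := gentIn_mk _ (Asm.obsReg _ o (2 ^ (kt + k0)) ((2 ^ kR) ^ 5)) D dl o I ε (2 ^ kq) (2 ^ kR) (2 ^ (kt + k0)) (2 ^ k0) j0 c0E
      hA hX.hh0 rfl hε.le hc0 hX.hℓ hD2 hside rfl (fun h hj _ hd => ht3.gs h hj hd) (fun h hj _ => ht3.obs h j0 le_rfl hj)
      (fun 𝒱 hp h𝒱 => ⟨by rw [hX.haa]; exact gbulkS_mono (hvol 𝒱 hp h𝒱).1 hRε hII,
        fun 𝒱' hp' h𝒱' b' hb' => (hvol 𝒱 hp h𝒱).2 𝒱' hp' h𝒱' b' (hII hb')⟩)
    exact ⟨⟨hside, hIpos, ht1, ht2, ht3, hm1, gent_space hIn⟩, hm2⟩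
  have hRT := hread K hKL hKD (le_of_eq hKρ) (by rw [hKC]; exact le_max_right _ _) (le_of_eq hKd) I ε kR kt k0 j0 hε.le hjr hSide
  refine ⟨2 ^ k0, 2 ^ (kt + k0), I, X.sys kR kt k0 j0, hI, ?_, ?_⟩
  · exact gdyn_of X.K _ X.hA j0 X.D _ _ K X.a' X.dl _ I ε hM2 hRT hSide.ent
  · have e1 : X.a' = a' := by subst hXdef; rfl
    have e2 : X.dl = dl := by subst hXdef; rfl
    rw [e1, e2] at hRT
    refine ⟨⟨by positivity, ?_⟩, hRT.v0_lim, hRT.β_bd, hRT.rep⟩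
    rw [hKL]
    exact ⟨2 ^ X.kq * 2 ^ kR, by
      show X.K.s.L ^ j0 = _
      rw [← hside]; ring⟩

end

end Claimed.Agent.R285.C5
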