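import Claimed.Agent.R285.C5.Defs
import Claimed.Agent.R285.Flow.Gauss
import Claimed.Agent.R285.Flow.NForm
import Claimed.Agent.R285.Flow.Gap

/-!
# ROW 285, [C] s5.4 (50-openness.tex l.868-975): THE GAPPED CONSTRUCTION CONTRACT IN RAW COORDINATES, and the abstract dynamics      (architect helper75)

Same format as `Asm/RawSys.lean` (helper27) and `Flow/Defs.lean` (helper21): absolute index `j`, block side `L^j`, entry index `j0` (`m = L^{j0}`), torus stopped at `h`: side `D0 L^h`.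
The one-coordinate scheme `a' > 8π` is embedded in `B10.Raw` with a DUMMY `z`-slot (prescription of `Flow/Gap.lean`): `Φ (t, z, R) = (t', z, R')`, `lam = 1`, `Pz = 0`, `σ = id`; all states of the history have `z = 0`.
* `GRawOK` = what the construction side delivers:  MAP (`raw`, `tor`, `pure`, `σ_id`, `kV_up`: `C5/GMap.lean`),  ENTRY (`K0_bd`, `T0_bd`: L5.4, helper262),  READ-OUT (`side`, `v0_lim`, `rep`: `C5/GRead.lean`).
* `graw_tube` = the dynamics (l.880-930): from `B10.gauss_curve`, `B10.normal_form`, `B10.gapped_stable`; two paper-free leaves `graw_plane`, `graw_torus`.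
* `torus_lower_of_raw` = (T4), PROVED from `GRawOK` and `graw_tube`.
The temperature is REAL; nothing is differentiated in the temperature.
-/

set_option autoImplicit false

namespace Claimed.Agent.R285.C5

open Filter Topology
open Claimed.Agent.R285.B10
open scoped Classical

noncomputable section

/-- constants of the gapped map: fixed BEFORE the entry ([B] P8.3 gapped, L9.2, L10.3) -/
structure GRawK where
  κ : RawC
  L : ℕ
  D0 : ℕ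
  /-- radius of the disc of pure Gaussian entries -/
  d1 : ℝ
  hL : 2 ≤ L
  hD : 1 ≤ D0
  hd1 : 0 < d1

/-- the data of one entry, raw coordinates -/
structure GRawSys where
  F : Raw
  𝒯 : Tor
  /-- entries of the pure Gaussian interactions; only `j = F.j0` is used -/
  e : Curve F
  eT : ∀ j h, ℂ → 𝒯.T j h
  /-- physical entries, functions of the REAL temperature; only `j = F.j0` is used -/
  K0 : ∀ j, ℝ → F.A j
  T0 : ∀ j h, ℝ → 𝒯.T j h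
  /-- the reference variance of the test on the torus stopped at `h` -/
  v0 : ℕ → ℝ
  /-- the squared amplitude `β_h²` of the background `β_h w cos(2π x₁/n)` produced by the source `w ⟨y, f_n⟩` -/
  βV : ℕ → ℝ

namespace GRawSys

variable (S : GRawSys)

/-- the physical entry as a curve of states: everything sits in the remainder -/
def eK : Curve S.F := fun j b => (0, 0, S.K0 j b.re)

/-- the raw plane history -/
def pl (b : ℝ) (j : ℕ) : ℂ × ℂ × S.F.A j := B10.pl S.F S.eK j (b : ℂ)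

/-- the raw torus remainder behind the stop `h` -/
def tr (b : ℝ) (h j : ℕ) : S.𝒯.T j h := B10.tr S.F S.𝒯 S.eK (fun j h b => S.T0 j h b.re) h j (b : ℂ)

/-- the torus state -/
def ts (b : ℝ) (h j : ℕ) : (ℂ × ℂ) × S.𝒯.T j h := (((S.pl b j).1, (S.pl b j).2.1), S.tr b h j)

/-- all stages from the entry to the stop lie in the ball of radius `r` -/
def Inside (r : ℝ) (b : ℝ) (h : ℕ) : Prop := ∀ j, S.F.j0 ≤ j → j ≤ h → ‖S.pl b j‖ < r ∧ ‖S.ts b h j‖ < r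

end GRawSys

/-- MAP + ENTRY: everything the dynamics needs -/
structure GDynOK (K : GRawK) (ε : ℝ) (I : Set ℝ) (S : GRawSys) : Prop where
  raw : RawOK K.κ S.F
  tor : TorOK K.κ S.F.j0 S.𝒯
  pure : PureOK K.κ K.d1 S.F S.𝒯 S.e S.eT
  /-- dummy slot: no half-period structure -/
  σ_id : ∀ j R, S.F.σ j R = R
  kV_up : ∀ h, S.F.j0 ≤ h → S.𝒯.kV h ≤ K.κ.C
  /-- (5.13) -/
  K0_bd : ∀ b ∈ I, ‖S.K0 S.F.j0 b‖ ≤ ε
  T0_bd : ∀ h, S.F.j0 ≤ h → ∀ b ∈ I, ‖S.T0 S.F.j0 h b‖ ≤ ε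

/-- READ-OUT: the exact torus representation + [B] (10.3); the ONLY place where the activity spaces touch the model -/
structure GReadOK' (K : GRawK) (a' δ : ℝ) (s0 s : ℕ) (I : Set ℝ) (S : GRawSys) : Prop where
  side : 0 < s ∧ s ∣ K.L ^ S.F.j0
  /-- reference variance of `⟨B_s α ψ, f_n⟩` -/
  v0_lim : Tendsto S.v0 atTop (𝓝 (a' / (8 * Real.pi ^ 2)))
  β_bd : ∀ h, S.F.j0 ≤ h → |S.βV h| ≤ K.κ.C
  rep : ∀ᶠ h : ℕ in atTop, ∀ b ∈ I, S.Inside K.κ.ρ b h →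
    strTorVar δ s0 s b (K.D0 * K.L ^ h) = S.v0 h + S.βV h * (S.𝒯.rV h (S.ts b h h)).re

/-! ## The dynamics: two paper-free leaves -/

/-- the history in normal coordinates -/
def grawY (F : Raw) (nf : NF F) (g : Curve F) (X : ∀ j, ℂ × ℂ × F.A j) : ∀ j, ℂ × ℂ × F.A j
  | 0 => nf.ci 0 (X 0)
  | j + 1 => if j + 1 ≤ F.j0 then nf.ci (j + 1) (X (j + 1)) else nf.N g j (grawY F nf g X j)

theorem grawY_le (F : Raw) (nf : NF F) (g : Curve F) (X : ∀ j, ℂ × ℂ × F.A j) {j : ℕ} (h : j ≤ F.j0) :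
    grawY F nf g X j = nf.ci j (X j) := by
  cases j with
  | zero => rfl
  | succ j =>
    show (if j + 1 ≤ F.j0 then nf.ci (j + 1) (X (j + 1)) else nf.N g j (grawY F nf g X j)) = _
    rw [if_pos h]

theorem grawY_succ (F : Raw) (nf : NF F) (g : Curve F) (X : ∀ j, ℂ × ℂ × F.A j) {j : ℕ} (h : F.j0 ≤ j) :
    grawY F nf g X (j + 1) = nf.N g j (grawY F nf g X j) := by
  have hn : ¬ (j + 1 ≤ F.j0) := by omega
  show (if j + 1 ≤ F.j0 then nf.ci (j + 1) (X (j + 1)) else nf.N g j (grawY F nf g X j)) = _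
  rw [if_neg hn]

/-- **L-C5-GPLANE.**  The plane history stays small, uniformly in the entry index and in the spaces.
PLAN.  `d0, Kg` from `gauss_curve K.κ K.d1`; `κ'` from `normal_form K.κ d0`; `r1, Ks` from `gapped_stable K.κ κ'`.  `M := κ'.C1 ^ 2 * (1 + Ks)`, `ε0 := min (κ'.r' / 2) (r1 / κ'.C1)`.
Given `S`: `g := B10.pl S.F S.e` is a `CurveOK`, `nf` with `NFOK`.  `X0 = (0, 0, K0 j0 b)`, `‖X0‖ ≤ ε < κ'.r'`, `F.S j0 X0 = X0` (`σ_id`, `neg_zero`).  `Y0 = nf.ci j0 X0`: `‖Y0‖ ≤ C1 ε ≤ r1` (`ci_bd`), `F.S j0 Y0 = Y0` (`ci_par`), `nf.ch g j0 Y0 = X0` (`ch_ci`).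
Define `Y : ∀ j, _` by recursion like `B10.pl` (`Y (j+1) = if j + 1 ≤ j0 then nf.ci (j+1) (S.pl b (j+1)) else nf.N g j (Y j)`).  `gapped_stable` at `j1 = j0`: `‖Y (j0+i)‖ < κ'.r`, `S`-fixed (so the middle slot vanishes: `z = -z`),
`‖B_i‖ ≤ ‖B_0‖`, `‖u_i - u_0‖ ≤ Ks ‖Y0‖ ‖B_0‖ ≤ Ks ‖Y0‖` (`‖Y0‖ ≤ r1 ≤ κ'.r`; shrink `ε0` so that `‖Y0‖ ≤ 1`), so `‖Y (j0+i)‖ ≤ (1 + Ks) ‖Y0‖` (sup norm of the product).
Induction on `i` with `NFOK.conj`: `S.pl b (j0+i) = nf.ch g (j0+i) (Y (j0+i))` (unfold `B10.pl` at `j0+i+1 > j0`).  `ch_bd`: `‖pl‖ ≤ C1 ‖Y‖`, `< κ.ρ`.   `(pl).2.1 = 0`: `gap_fields`, last item. -/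
theorem graw_plane (K : GRawK) : ∃ ε0 M : ℝ, 0 < ε0 ∧ 1 ≤ M ∧ ∀ ε, 0 < ε → ε ≤ ε0 → ∀ (I : Set ℝ) (S : GRawSys), GDynOK K ε I S →
    ∀ b ∈ I, ∀ j, S.F.j0 ≤ j → ‖S.pl b j‖ ≤ M * ε ∧ ‖S.pl b j‖ < K.κ.ρ := by
  obtain ⟨d0, Kg, hd0, -, hgc⟩ := gauss_curve K.κ K.d1 K.hd1
  obtain ⟨κ', hnform⟩ := normal_form K.κ d0 hd0
  obtain ⟨r1, Ks, hr1, hr1r, hKs, hgap⟩ := gapped_stable K.κ κ'
  have hC1 := κ'.hC
  have hC10 : 0 < κ'.C1 := by linarith
  have hr := κ'.hr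
  have hrr := κ'.hrr
  have hrb := κ'.hrb
  refine ⟨min (κ'.r' / 2) (min (r1 / κ'.C1) (1 / κ'.C1)), κ'.C1 ^ 2 * (1 + Ks),
    lt_min (by linarith) (lt_min (by positivity) (by positivity)), ?_, ?_⟩
  · have h1 : 1 ≤ κ'.C1 ^ 2 := one_le_pow₀ hC1
    have h2 : (1 : ℝ) ≤ 1 + Ks := by linarith
    calc (1 : ℝ) = 1 * 1 := (one_mul 1).symm
      _ ≤ κ'.C1 ^ 2 * (1 + Ks) := mul_le_mul h1 h2 zero_le_one (by positivity)
  intro ε hε hle I S hS b hb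
  have hε1 : ε ≤ κ'.r' / 2 := hle.trans (min_le_left _ _)
  have hε2 : κ'.C1 * ε ≤ r1 := by
    have := hle.trans ((min_le_right _ _).trans (min_le_left _ _))
    rw [le_div_iff₀ hC10] at this
    linarith
  have hε3 : κ'.C1 * ε ≤ 1 := by
    have := hle.trans ((min_le_right _ _).trans (min_le_right _ _))
    rw [le_div_iff₀ hC10] at this
    linarith
  obtain ⟨hg, -, -⟩ := hgc S.F S.𝒯 S.e S.eT hS.raw hS.tor hS.pure
  obtain ⟨nf, hnf⟩ := hnform S.F (B10.pl S.F S.e) hS.raw hg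
  obtain ⟨g, hgdef⟩ : ∃ g : Curve S.F, g = B10.pl S.F S.e := ⟨_, rfl⟩
  rw [← hgdef] at hnf
  -- the entry
  have hX0 : S.pl b S.F.j0 = (0, 0, S.K0 S.F.j0 b) := by
    show B10.pl S.F S.eK S.F.j0 (b : ℂ) = _
    rw [gc_pl_le S.F S.eK le_rfl]
    show ((0 : ℂ), (0 : ℂ), S.K0 S.F.j0 (b : ℂ).re) = _
    rw [Complex.ofReal_re]
  have hX0n : ‖S.pl b S.F.j0‖ ≤ ε := by
    rw [hX0]
    exact gc_norm3_le (by simpa using hε.le) (by simpa using hε.le) (hS.K0_bd b hb)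
  have hX0m : S.pl b S.F.j0 ∈ Metric.ball (0 : ℂ × ℂ × S.F.A S.F.j0) κ'.r' := by
    rw [Metric.mem_ball, dist_zero_right]
    linarith
  have hX0S : S.F.S S.F.j0 (S.pl b S.F.j0) = S.pl b S.F.j0 := by
    rw [hX0]
    show ((0 : ℂ), -(0 : ℂ), S.F.σ S.F.j0 (S.K0 S.F.j0 b)) = _
    rw [hS.σ_id, neg_zero]
  obtain ⟨Y, hYdef⟩ : ∃ Y : ∀ j, ℂ × ℂ × S.F.A j, Y = grawY S.F nf g (S.pl b) := ⟨_, rfl⟩
  have hY0 : Y S.F.j0 = nf.ci S.F.j0 (S.pl b S.F.j0) := by rw [hYdef]; exact grawY_le _ _ _ _ le_rfl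
  have hYs : ∀ j, S.F.j0 ≤ j → Y (j + 1) = nf.N g j (Y j) := fun j hj => by
    rw [hYdef]; exact grawY_succ _ _ _ _ hj
  have hY0n : ‖Y S.F.j0‖ ≤ κ'.C1 * ε := by
    rw [hY0]
    exact (hnf.ci_bd _ le_rfl _ hX0m).1.trans (mul_le_mul_of_nonneg_left hX0n hC10.le)
  have hY0S : S.F.S S.F.j0 (Y S.F.j0) = Y S.F.j0 := by
    rw [hY0, ← hnf.ci_par _ le_rfl _ hX0m, hX0S]
  have hst := hgap S.F g nf hnf S.F.j0 Y le_rfl hYs hY0S (hY0n.trans hε2)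
  -- conjugacy
  have hconj : ∀ i, S.pl b (S.F.j0 + i) = nf.ch g (S.F.j0 + i) (Y (S.F.j0 + i)) := by
    intro i
    induction i with
    | zero =>
      show S.pl b S.F.j0 = nf.ch g S.F.j0 (Y S.F.j0)
      rw [hY0, hnf.ch_ci _ le_rfl _ hX0m]
    | succ i ih =>
      show S.pl b (S.F.j0 + i + 1) = nf.ch g (S.F.j0 + i + 1) (Y (S.F.j0 + i + 1))
      have e1 : S.pl b (S.F.j0 + i + 1) = S.F.Φ (S.F.j0 + i) (S.pl b (S.F.j0 + i)) :=
        gc_pl_succ S.F S.eK (Nat.le_add_right _ _) _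
      rw [e1, ih, hYs _ (Nat.le_add_right _ _)]
      refine (hnf.conj _ (Nat.le_add_right _ _) _ ?_).symm
      rw [Metric.mem_ball, dist_zero_right]
      exact (hst i).1
  intro j hj
  obtain ⟨i, rfl⟩ := Nat.exists_eq_add_of_le hj
  obtain ⟨s1, s2, s3, s4⟩ := hst i
  have hy0 : 0 ≤ ‖Y S.F.j0‖ := norm_nonneg _
  have hB0 : ‖(Y S.F.j0).2.2‖ ≤ ‖Y S.F.j0‖ := gc_n3 _
  have hy1 : ‖Y S.F.j0‖ ≤ 1 := hY0n.trans hε3
  have hKs0 : 0 ≤ Ks := by linarith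
  have hbound : ‖Y (S.F.j0 + i)‖ ≤ (1 + Ks) * ‖Y S.F.j0‖ := by
    refine gc_norm3_le ?_ ?_ ?_
    · have t1 := norm_sub_norm_le (Y (S.F.j0 + i)).1 (Y S.F.j0).1
      have t2 : ‖(Y S.F.j0).1‖ ≤ ‖Y S.F.j0‖ := gc_n1 _
      have t3 : Ks * ‖Y S.F.j0‖ * ‖(Y S.F.j0).2.2‖ ≤ Ks * ‖Y S.F.j0‖ * 1 :=
        mul_le_mul_of_nonneg_left (hB0.trans hy1) (by positivity)
      linarith
    · rw [(gap_Sfix s2).1, norm_zero]
      positivity
    · have t1 : κ'.θ1 ^ i * ‖(Y S.F.j0).2.2‖ ≤ 1 * ‖(Y S.F.j0).2.2‖ :=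
        mul_le_mul_of_nonneg_right (pow_le_one₀ κ'.hθ0.le κ'.hθ.le) (norm_nonneg _)
      have t2 : 0 ≤ Ks * ‖Y S.F.j0‖ := by positivity
      linarith
  have hmem : Y (S.F.j0 + i) ∈ Metric.ball (0 : ℂ × ℂ × S.F.A (S.F.j0 + i)) κ'.rb := by
    rw [Metric.mem_ball, dist_zero_right]
    linarith
  obtain ⟨c1, c2⟩ := hnf.ch_bd _ (Nat.le_add_right _ i) _ hmem
  rw [hconj i]
  refine ⟨c1.trans ?_, c2⟩
  calc κ'.C1 * ‖Y (S.F.j0 + i)‖ ≤ κ'.C1 * ((1 + Ks) * (κ'.C1 * ε)) :=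
        mul_le_mul_of_nonneg_left (hbound.trans (mul_le_mul_of_nonneg_left hY0n (by linarith))) hC10.le
    _ = κ'.C1 ^ 2 * (1 + Ks) * ε := by ring

/-- **L-C5-GTORUS.**  The torus remainder: own contraction with quadratic forcing (`TorOK.Ψ_bd`).  Abstract: `pl` may be ANY sequence of plane states bounded by `M ε`.
PLAN.  Induction on `j` from `j0` to `h`: `‖tr b h j‖ ≤ M ε`.  Step: `X = ts b h j`, `‖X‖ ≤ M ε < ρ` (sup norm; the scalars are components of `pl`), `‖Ψ X‖ ≤ θ M ε + C (M ε)² ≤ M ε` as soon as `C M ε ≤ 1 - θ`.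
`ε1 := min ((1 - θ) / (C M)) (ρ / (2 M))`.  Unfold `B10.tr` at `j + 1 > j0`; at `j = j0` it is `T0 j0 h b` (cases `j0 = 0` / `j0 = k + 1`, `if_pos le_rfl`). -/
theorem graw_torus (K : GRawK) (M : ℝ) (hM : 1 ≤ M) : ∃ ε1 : ℝ, 0 < ε1 ∧ ∀ ε, 0 < ε → ε ≤ ε1 → ∀ (I : Set ℝ) (S : GRawSys), GDynOK K ε I S →
    ∀ b ∈ I, (∀ j, S.F.j0 ≤ j → ‖S.pl b j‖ ≤ M * ε) → ∀ h j, S.F.j0 ≤ j → j ≤ h → ‖S.ts b h j‖ ≤ M * ε ∧ ‖S.ts b h j‖ < K.κ.ρ := by
  have hC := K.κ.hC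
  have hθ := K.κ.hθ
  have hθ0 := K.κ.hθ0
  have hρ := K.κ.hρ
  have hM0 : 0 < M := by linarith
  have hC0 : 0 < K.κ.C := by linarith
  refine ⟨min ((1 - K.κ.θ) / (K.κ.C * M)) (K.κ.ρ / (2 * M)),
    lt_min (div_pos (by linarith) (by positivity)) (by positivity), ?_⟩
  intro ε hε hle I S hS b hb hpl h
  have h1 : K.κ.C * (M * ε) ≤ 1 - K.κ.θ := by
    have := hle.trans (min_le_left _ _)
    rw [le_div_iff₀ (by positivity)] at this
    linarith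
  have h2 : M * ε < K.κ.ρ := by
    have := hle.trans (min_le_right _ _)
    rw [le_div_iff₀ (by positivity)] at this
    linarith
  have hMε : 0 ≤ M * ε := by positivity
  have hts : ∀ j, S.F.j0 ≤ j → ‖S.tr b h j‖ ≤ M * ε → ‖S.ts b h j‖ ≤ M * ε := fun j hj ht =>
    gc_norm3'_le ((gc_n1 _).trans (hpl j hj)) (((norm_fst_le _).trans (norm_snd_le _)).trans (hpl j hj)) ht
  have key : ∀ j, S.F.j0 ≤ j → j ≤ h → ‖S.tr b h j‖ ≤ M * ε := by
    intro j hj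
    induction j, hj using Nat.le_induction with
    | base =>
      intro hh
      have e : S.tr b h S.F.j0 = S.T0 S.F.j0 h b := by
        show B10.tr S.F S.𝒯 S.eK (fun j h b => S.T0 j h b.re) h S.F.j0 (b : ℂ) = _
        rw [gc_tr_le S.F S.𝒯 S.eK _ h le_rfl]
        show S.T0 S.F.j0 h (b : ℂ).re = _
        rw [Complex.ofReal_re]
      rw [e]
      refine (hS.T0_bd h hh b hb).trans ?_
      calc ε = 1 * ε := (one_mul ε).symm
        _ ≤ M * ε := mul_le_mul_of_nonneg_right hM hε.le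
    | succ j hj ih =>
      intro hh
      have ih' := ih (by omega)
      have hX := hts j hj ih'
      have e : S.tr b h (j + 1) = S.𝒯.Ψ j h (S.ts b h j) :=
        gc_tr_succ S.F S.𝒯 S.eK _ h hj _
      rw [e]
      have hb1 := hS.tor.Ψ_bd j h hj (by omega) (S.ts b h j) (by
        rw [Metric.mem_ball, dist_zero_right]; linarith)
      refine hb1.trans ?_
      have t1 : K.κ.θ * ‖(S.ts b h j).2‖ ≤ K.κ.θ * (M * ε) := mul_le_mul_of_nonneg_left ih' hθ0.le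
      have t2 : ‖S.ts b h j‖ ^ 2 ≤ (M * ε) ^ 2 := pow_le_pow_left₀ (norm_nonneg _) hX 2
      have t3 : K.κ.C * ‖S.ts b h j‖ ^ 2 ≤ K.κ.C * (M * ε) ^ 2 := mul_le_mul_of_nonneg_left t2 hC0.le
      have t4 : K.κ.C * (M * ε) ^ 2 ≤ (1 - K.κ.θ) * (M * ε) := by
        calc K.κ.C * (M * ε) ^ 2 = (K.κ.C * (M * ε)) * (M * ε) := by ring
          _ ≤ (1 - K.κ.θ) * (M * ε) := mul_le_mul_of_nonneg_right h1 hMε
      linarith
  intro j hj hjh
  have := hts j hj (key j hj hjh)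
  exact ⟨this, lt_of_le_of_lt this h2⟩

/-- **the tube** (l.880-930): small entries never leave, and the read-out is `O(ε)`.  PROVED from the two leaves. -/
theorem graw_tube (K : GRawK) : ∃ ε0 C : ℝ, 0 < ε0 ∧ 0 < C ∧ ∀ ε, 0 < ε → ε ≤ ε0 → ∀ (I : Set ℝ) (S : GRawSys), GDynOK K ε I S →
    ∀ b ∈ I, ∀ h, S.F.j0 ≤ h → S.Inside K.κ.ρ b h ∧ ‖S.𝒯.rV h (S.ts b h h)‖ ≤ C * ε := by
  obtain ⟨ε0, M, hε0, hM, hpl⟩ := graw_plane K
  obtain ⟨ε1, hε1, htr⟩ := graw_torus K M hM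
  have hC := K.κ.hC
  have hM0 : 0 < M := lt_of_lt_of_le one_pos hM
  refine ⟨min (min ε0 ε1) (1 / M), 3 * K.κ.C * M, lt_min (lt_min hε0 hε1) (by positivity), by positivity, ?_⟩
  intro ε hε hle I S hS b hb h hh
  have h0 : ε ≤ ε0 := hle.trans ((min_le_left _ _).trans (min_le_left _ _))
  have h1 : ε ≤ ε1 := hle.trans ((min_le_left _ _).trans (min_le_right _ _))
  have h2 : M * ε ≤ 1 := by
    have := hle.trans (min_le_right _ _)
    rw [le_div_iff₀ hM0] at this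
    linarith
  have hp := hpl ε hε h0 I S hS b hb
  have ht := htr ε hε h1 I S hS b hb (fun j hj => (hp j hj).1)
  refine ⟨fun j hj hjh => ⟨(hp j hj).2, (ht h j hj hjh).2⟩, ?_⟩
  obtain ⟨a1, a2⟩ := ht h h hh le_rfl
  have hr := hS.tor.rV_bd h hh (S.ts b h h) (by rw [Metric.mem_ball, dist_zero_right]; exact a2)
  have hk0 : 0 ≤ S.𝒯.kV h := le_trans (by positivity) (hS.tor.kV_bd h hh)
  have hk : ‖(S.𝒯.kV h : ℂ) * (S.ts b h h).1.1‖ ≤ K.κ.C * (M * ε) := by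
    rw [norm_mul, Complex.norm_real, Real.norm_of_nonneg hk0]
    refine mul_le_mul (hS.kV_up h hh) ?_ (norm_nonneg _) (by linarith)
    exact ((norm_fst_le _).trans (norm_fst_le _)).trans a1
  have hx2 : ‖(S.ts b h h).2‖ ≤ M * ε := (norm_snd_le _).trans a1
  have hsq : ‖S.ts b h h‖ ^ 2 ≤ M * ε := by
    have h3 : ‖S.ts b h h‖ ^ 2 ≤ (M * ε) ^ 2 := pow_le_pow_left₀ (norm_nonneg _) a1 2
    have h4 : (M * ε) ^ 2 ≤ M * ε := by
      have : 0 ≤ M * ε := by positivity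
      nlinarith
    exact h3.trans h4
  have h5 : ‖S.𝒯.rV h (S.ts b h h)‖ ≤ ‖S.𝒯.rV h (S.ts b h h) - (S.𝒯.kV h : ℂ) * (S.ts b h h).1.1‖ + ‖(S.𝒯.kV h : ℂ) * (S.ts b h h).1.1‖ := by
    have := norm_add_le (S.𝒯.rV h (S.ts b h h) - (S.𝒯.kV h : ℂ) * (S.ts b h h).1.1) ((S.𝒯.kV h : ℂ) * (S.ts b h h).1.1)
    simpa using this
  have h6 : K.κ.C * (‖(S.ts b h h).2‖ + ‖S.ts b h h‖ ^ 2) ≤ K.κ.C * (M * ε + M * ε) :=
    mul_le_mul_of_nonneg_left (add_le_add hx2 hsq) (by linarith)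
  calc ‖S.𝒯.rV h (S.ts b h h)‖ ≤ K.κ.C * (M * ε + M * ε) + K.κ.C * (M * ε) := h5.trans (add_le_add (hr.trans h6) hk)
    _ = 3 * K.κ.C * M * ε := by ring

/-- **(T4)** = (5.31) minus the noise, from a raw system.  The quantifiers are those of the construction contract: `K` before `ε`. -/
theorem torus_lower_of_raw {b a' δ : ℝ} (ha' : 0 < a') (K : GRawK)
    (hsys : ∀ ε > 0, ∃ (s0 s : ℕ) (I : Set ℝ) (S : GRawSys), I ∈ 𝓝 b ∧ GDynOK K ε I S ∧ GReadOK' K a' δ s0 s I S) :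
    ∃ (c : ℝ) (s0 s N0 L : ℕ), 0 < c ∧ 0 < s ∧ 0 < N0 ∧ s ∣ N0 ∧ 2 ≤ L ∧
      ∀ᶠ b' in 𝓝 b, ∀ᶠ j : ℕ in atTop, c ≤ strTorVar δ s0 s b' (N0 * L ^ j) := by
  obtain ⟨ε0, C, hε0, hC, htube⟩ := graw_tube K
  set g : ℝ := a' / (8 * Real.pi ^ 2) with hg
  have hgpos : 0 < g := by positivity
  have hκC : 0 < K.κ.C := lt_of_lt_of_le one_pos K.κ.hC
  set ε : ℝ := min ε0 (g / (4 * (K.κ.C * C))) with hε
  have hεpos : 0 < ε := lt_min hε0 (by positivity)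
  obtain ⟨s0, s, I, S, hI, hD, hR⟩ := hsys ε hεpos
  have hLpos : 0 < K.L := by have := K.hL; omega
  refine ⟨g / 2, s0, s, K.D0 * K.L ^ S.F.j0, K.L, by positivity, hR.side.1,
    Nat.mul_pos (by have := K.hD; omega) (pow_pos hLpos _), Dvd.dvd.mul_left hR.side.2 _, K.hL, ?_⟩
  filter_upwards [hI] with b' hb'
  have hv : ∀ᶠ h : ℕ in atTop, 3 * g / 4 < S.v0 h := hR.v0_lim.eventually_const_lt (by linarith)
  have hshift : Tendsto (fun j : ℕ => S.F.j0 + j) atTop atTop := tendsto_atTop_mono (fun j => Nat.le_add_left j _) tendsto_id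
  filter_upwards [hshift.eventually hR.rep, hshift.eventually hv] with j h1 h2
  obtain ⟨hin, hr⟩ := htube ε hεpos (min_le_left _ _) I S hD b' hb' (S.F.j0 + j) (Nat.le_add_right _ _)
  have e1 : K.D0 * K.L ^ S.F.j0 * K.L ^ j = K.D0 * K.L ^ (S.F.j0 + j) := by rw [pow_add, mul_assoc]
  rw [e1, h1 b' hb' hin]
  have hε2 : K.κ.C * (C * ε) ≤ g / 4 := by
    have : ε ≤ g / (4 * (K.κ.C * C)) := min_le_right _ _
    rw [le_div_iff₀ (by positivity)] at this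
    linarith
  have hre : |S.βV (S.F.j0 + j) * (S.𝒯.rV (S.F.j0 + j) (S.ts b' (S.F.j0 + j) (S.F.j0 + j))).re| ≤ g / 4 := by
    rw [abs_mul]
    refine le_trans (mul_le_mul (hR.β_bd _ (Nat.le_add_right _ _)) ((Complex.abs_re_le_norm _).trans hr) (abs_nonneg _) hκC.le) hε2
  have := (abs_le.1 hre).1
  linarith

end

end Claimed.Agent.R285.C5
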