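import Claimed.Agent.R285.C5.Avg

/-!
# ROW 285, [C] s5, packages PK-C5-POT1, PK-C5-POT2: the limit `t → ∞` of L5.2 as DETERMINISTIC statements on discrete Gaussian references (50-openness.tex l.108-262)
-/

set_option autoImplicit false

namespace Claimed.Agent.R285.C5

open Filter Topology
open scoped Classical

noncomputable section

section

variable {k₁ k₂ : ℕ} (Γ : CGeom k₁ k₂)

/-- POT, SECOND LIMIT for forms ((5.6) → (5.7), l.121-146), discrete and deterministic.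
PLAN: given `v` let `w` = bilinear interpolation of the subcell averages of `v`: `𝓔(w) ≤ avgEn(v) ≤ 𝓔(v)`, so `a⁻¹𝓔(v) + δ avgEn(v) ≥ a'⁻¹ 𝓔(w)`; the box averages of `w` and `v` differ by `O(t^{-1/2} avgEn(v)^{1/2})`;
at a pin `w` does not vanish in one layer of half subcells: compare with the pin shrunk by one layer ([B] L3.12, energy approximation). -/
theorem pot_gEn_limit (a δ : ℝ) (ha : 0 < a) (hδ : 0 ≤ δ) (hΓ : Γ.NoDiag) (hw : ∀ o, 0 ≤ Γ.wgt o) (Kc ε : ℝ) (hε : 0 < ε) :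
    ∀ᶠ t : ℕ in atTop, ∀ᶠ s0 : ℕ in atTop, ∀ c : Fin Γ.nObs → ℝ, (∀ o, |c o| ≤ Kc) →
      ((Geo.refine Γ t).law (Geo.ug _ _ s0)).gEn (aPrime a δ) 0 c - ε
        ≤ (Geo.lawS (Geo.refine Γ t) (Geo.ug _ _ s0) δ).gEn a 0
            (strAff _ (Geo.cellOf (Geo.refine Γ t) (Geo.ug _ _ s0)) (Real.sqrt δ) ⟨0, 0, c⟩).c := sorry

/-- POT, SECOND LIMIT for the interaction determinant (l.148-262): THE WORST ITEM OF THIS POST.  `A, A'` = separated unions of observation cells. -/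
theorem pot_gPin_limit (a δ : ℝ) (ha : 0 < a) (hδ : 0 ≤ δ) (hΓ : Γ.NoDiag) (hw : ∀ o, 0 ≤ Γ.wgt o)
    (hP : ∀ t s0, ((Geo.refine Γ t).law (Geo.ug _ _ s0)).Proper) (A A' : Finset (Fin k₁ × Fin k₂))
    (hsep : ∀ κ ∈ A, ∀ κ' ∈ A', κ.1.1 + 1 < κ'.1.1 ∨ κ'.1.1 + 1 < κ.1.1 ∨ κ.2.1 + 1 < κ'.2.1 ∨ κ'.2.1 + 1 < κ.2.1)
    (ε : ℝ) (hε : 0 < ε) :
    ∀ᶠ t : ℕ in atTop, ∀ᶠ s0 : ℕ in atTop,
      |(Geo.lawS (Geo.refine Γ t) (Geo.ug _ _ s0) δ).gPin a
            ((Geo.refine Γ t).sites (Geo.ug _ _ s0) (Geo.refine Γ t).pin)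
            ((Geo.refine Γ t).sites (Geo.ug _ _ s0) (Finset.univ.filter fun κ => Geo.up t κ ∈ A))
            ((Geo.refine Γ t).sites (Geo.ug _ _ s0) (Finset.univ.filter fun κ => Geo.up t κ ∈ A'))
        - ((Geo.refine Γ t).law (Geo.ug _ _ s0)).gPin (aPrime a δ)
            ((Geo.refine Γ t).sites (Geo.ug _ _ s0) (Geo.refine Γ t).pin)
            ((Geo.refine Γ t).sites (Geo.ug _ _ s0) (Finset.univ.filter fun κ => Geo.up t κ ∈ A))
            ((Geo.refine Γ t).sites (Geo.ug _ _ s0) (Finset.univ.filter fun κ => Geo.up t κ ∈ A'))| ≤ ε := sorry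

end

end

end Claimed.Agent.R285.C5
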