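import Claimed.Agent.R285.C5.ResL

/-!
# ROW 285, [C] s5, package PK-C5-RES: L5.3, the refinement-independent large-field reserve (50-openness.tex l.246-311)

GLUE, PROVED from the leaves of `C5/ResL.lean`, `C5/Shift.lean` (`str_shift_energy`) and the contracts `F4a.face_energy_upper`, `F4a.law_ok`, `F4a.law_proper`.
Vocabulary of the entry engine (`F4a.Top c`).  `large_field` is input (I2) of the engine for the strengthened law: every `b' > 0`, every volume, every cut topology, every refinement.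
-/

set_option autoImplicit false

namespace Claimed.Agent.R285.C5

open Filter Topology
open Claimed.Agent.R285.RG Claimed.Agent.R285.F4a
open scoped Classical

noncomputable section

variable {G : Geom} {c : Grid G}

theorem nx_injective {n : ℕ} : Function.Injective (nx : Fin n → Fin n) := by
  intro i j h
  have h1 : (i.1 + 1) % n = (j.1 + 1) % n := congrArg Fin.val h
  have h2 : i.1 ≡ j.1 [MOD n] := Nat.ModEq.add_right_cancel' 1 h1
  exact Fin.ext (Nat.ModEq.eq_of_lt_of_lt h2 i.2 j.2)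

/-- every cell is the source of at most two faces -/
theorem sum_faces_src_le (T : F4a.Top c) (hT : T.Ok) (g : c.I → ℝ) (hg : ∀ i, 0 ≤ g i) :
    ∑ f ∈ T.faces, g f.1 ≤ 2 * ∑ i ∈ T.cells, g i := by
  have h1 : T.faces ⊆ T.cells ×ˢ (Finset.univ : Finset Bool) := by
    intro f hf
    exact Finset.mem_product.2 ⟨(hT f hf).2.1, Finset.mem_univ _⟩
  refine (Finset.sum_le_sum_of_subset_of_nonneg h1 fun f _ _ => hg f.1).trans ?_
  rw [Finset.sum_product]
  simp [Finset.mul_sum]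

/-- every cell is the target of at most two faces -/
theorem sum_faces_tgt_le (T : F4a.Top c) (hT : T.Ok) (g : c.I → ℝ) (hg : ∀ i, 0 ≤ g i) :
    ∑ f ∈ T.faces, g (fnb c f) ≤ 2 * ∑ i ∈ T.cells, g i := by
  have hinj : Set.InjOn (fun f : Face c => (fnb c f, f.2)) (T.faces : Set (Face c)) := by
    rintro ⟨⟨i1, i2⟩, d⟩ - ⟨⟨j1, j2⟩, d'⟩ - h
    simp only [Prod.mk.injEq] at h
    obtain ⟨h1, rfl⟩ := h
    cases d
    · simp only [fnb, Bool.false_eq_true, if_false, Prod.mk.injEq] at h1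
      obtain ⟨rfl, h2⟩ := h1
      rw [nx_injective h2]
    · simp only [fnb, if_true, Prod.mk.injEq] at h1
      obtain ⟨h2, rfl⟩ := h1
      rw [nx_injective h2]
  have h0 : ∑ f ∈ T.faces, g (fnb c f) = ∑ p ∈ T.faces.image (fun f : Face c => (fnb c f, f.2)), g p.1 := by
    rw [Finset.sum_image hinj]
  have h1 : T.faces.image (fun f : Face c => (fnb c f, f.2)) ⊆ T.cells ×ˢ (Finset.univ : Finset Bool) := by
    intro p hp
    obtain ⟨f, hf, rfl⟩ := Finset.mem_image.1 hp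
    exact Finset.mem_product.2 ⟨(hT f hf).2.2, Finset.mem_univ _⟩
  rw [h0]
  refine (Finset.sum_le_sum_of_subset_of_nonneg h1 fun f _ _ => hg f.1).trans ?_
  rw [Finset.sum_product]
  simp [Finset.mul_sum]

/-- (5.10) summed over the faces: differences of cell averages are controlled by the averaged gradient energy, constant `2` -/
theorem face_avg_le (hc : Whole c) {c0 : Grid G} (hc0 : Whole c0) (N : Nest c0 c) (t : ℕ) (ht : c.m = t * c0.m) (T : F4a.Top c) (hT : T.Ok)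
    (v : T.graph.V → ℝ) :
    ∑ f ∈ T.faces, (cav T v (fnb c f) - cav T v f.1) ^ 2 ≤ 2 * avgEn (subOf T c0) v := by
  have h1 := face_mean_le hc hc0 N t ht T hT (sav T c0 v)
  have h2 := avgEn_ge hc hc0 N T hT v
  have h3 : ∑ f ∈ T.faces, (cav T v (fnb c f) - cav T v f.1) ^ 2
      = ∑ f ∈ T.faces, (cmean N (sav T c0 v) (fnb c f) - cmean N (sav T c0 v) f.1) ^ 2 := by
    refine Finset.sum_congr rfl fun f hf => ?_
    rw [cav_eq_cmean hc hc0 N T v _ (hT f hf).2.2, cav_eq_cmean hc hc0 N T v _ (hT f hf).2.1]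
  rw [h3]
  linarith

/-- **(5.11)**: the face differences of the data are controlled by the retained energy, for every trial field -/
theorem face_control (δ : ℝ) (hδ : 0 < δ) (hc : Whole c) {c0 : Grid G} (hc0 : Whole c0) (N : Nest c0 c) (t : ℕ) (ht : c.m = t * c0.m)
    (T : F4a.Top c) (hT : T.Ok) (y : c.I → ℝ) (v : T.graph.V → ℝ) :
    ∑ f ∈ T.faces, (y (fnb c f) - y f.1) ^ 2
      ≤ (12 + 6 / δ) * (δ * avgEn (subOf T c0) v + ∑ o, (T.law.obs v o - y o.1) ^ 2) := by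
  have h1 := face_avg_le hc hc0 N t ht T hT v
  have h2 := sum_faces_src_le T hT (fun i => (cav T v i - y i) ^ 2) fun i => sq_nonneg _
  have h3 := sum_faces_tgt_le T hT (fun i => (cav T v i - y i) ^ 2) fun i => sq_nonneg _
  have h4 : ∑ o, (T.law.obs v o - y o.1) ^ 2 = ∑ i ∈ T.cells, (cav T v i - y i) ^ 2 := by
    rw [← Finset.sum_coe_sort T.cells fun i => (cav T v i - y i) ^ 2]
    rfl
  have h5 : ∑ f ∈ T.faces, (y (fnb c f) - y f.1) ^ 2
      ≤ ∑ f ∈ T.faces, (3 * (cav T v (fnb c f) - y (fnb c f)) ^ 2 + 3 * (cav T v (fnb c f) - cav T v f.1) ^ 2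
          + 3 * (cav T v f.1 - y f.1) ^ 2) := by
    refine Finset.sum_le_sum fun f _ => ?_
    nlinarith [sq_nonneg ((cav T v (fnb c f) - y (fnb c f)) + (cav T v (fnb c f) - cav T v f.1)),
      sq_nonneg ((cav T v (fnb c f) - y (fnb c f)) + (cav T v f.1 - y f.1)),
      sq_nonneg ((cav T v (fnb c f) - cav T v f.1) - (cav T v f.1 - y f.1))]
  have h6 : 0 ≤ avgEn (subOf T c0) v := Finset.sum_nonneg fun _ _ => sq_nonneg _
  have h7 : 0 ≤ ∑ i ∈ T.cells, (cav T v i - y i) ^ 2 := Finset.sum_nonneg fun _ _ => sq_nonneg _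
  rw [h4]
  refine h5.trans ?_
  rw [Finset.sum_add_distrib, Finset.sum_add_distrib, ← Finset.mul_sum, ← Finset.mul_sum, ← Finset.mul_sum]
  have h8 : (12 + 6 / δ) * (δ * avgEn (subOf T c0) v + ∑ i ∈ T.cells, (cav T v i - y i) ^ 2)
      = 12 * δ * avgEn (subOf T c0) v + 6 * avgEn (subOf T c0) v + 12 * ∑ i ∈ T.cells, (cav T v i - y i) ^ 2
        + 6 / δ * ∑ i ∈ T.cells, (cav T v i - y i) ^ 2 := by
    field_simp
    ring
  rw [h8]
  have h9 : 0 ≤ 12 * δ * avgEn (subOf T c0) v := by positivity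
  have h10 : 0 ≤ 6 / δ * ∑ i ∈ T.cells, (cav T v i - y i) ^ 2 := by positivity
  linarith

/-- **second half of L5.3** (5.10)-(5.11) + [F] (ent:face-energy-upper): `c_* E_G(y) ≤` retained energy.  `c_*` depends on `(δ, a')` only: not on the volume, the cuts, `t`, `s0`. -/
theorem str_reserve (δ a' : ℝ) (hδ : 0 < δ) (ha' : 0 < a') : ∃ (cs : ℝ) (n1 : ℕ), 0 < cs ∧ cs ≤ 1 ∧
    ∀ (G : Geom) (c c0 : Grid G), Whole c → Whole c0 → ∀ (_ : Nest c0 c) (t : ℕ), c.m = t * c0.m → n1 ≤ c.n →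
      ∀ T : F4a.Top c, T.Ok → ∀ y : c.I → ℝ,
        cs * T.Eobs a' 0 y ≤ retE T.law (subOf T c0) δ fun i => y i.1 := by
  obtain ⟨C, n1, hC⟩ := F4a.face_energy_upper a' ha'
  set K : ℝ := max C 0 * (12 + 6 / δ) + 1 with hK
  have hK1 : 1 ≤ K := by
    have : 0 ≤ max C 0 * (12 + 6 / δ) := by positivity
    linarith
  have hK0 : 0 < K := lt_of_lt_of_le one_pos hK1
  refine ⟨K⁻¹, n1, by positivity, inv_le_one_of_one_le₀ hK1, ?_⟩
  intro G c c0 hc hc0 N t ht hn T hT y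
  have h1 := hC G c hc hn T hT 0 y
  have h2 : ∑ f ∈ T.faces, wf c 0 y f ^ 2 = ∑ f ∈ T.faces, (y (fnb c f) - y f.1) ^ 2 := by
    refine Finset.sum_congr rfl fun f _ => ?_
    simp [wf]
  simp only [Pi.zero_apply, add_zero, sub_self, Int.cast_zero, ne_eq, OfNat.ofNat_ne_zero, not_false_eq_true, zero_pow,
    Finset.sum_const_zero, mul_zero] at h1
  rw [h2] at h1
  unfold retE
  refine le_ciInf fun v => ?_
  have h3 := face_control δ hδ hc hc0 N t ht T hT y (v : T.graph.V → ℝ)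
  set Rv : ℝ := δ * avgEn (subOf T c0) (v : T.graph.V → ℝ) + ∑ o, (T.law.obs (v : T.graph.V → ℝ) o - y o.1) ^ 2 with hRv
  have hRv0 : 0 ≤ Rv := by
    have : 0 ≤ avgEn (subOf T c0) (v : T.graph.V → ℝ) := Finset.sum_nonneg fun _ _ => sq_nonneg _
    have : 0 ≤ ∑ o, (T.law.obs (v : T.graph.V → ℝ) o - y o.1) ^ 2 := Finset.sum_nonneg fun _ _ => sq_nonneg _
    positivity
  have hS0 : 0 ≤ ∑ f ∈ T.faces, (y (fnb c f) - y f.1) ^ 2 := Finset.sum_nonneg fun _ _ => sq_nonneg _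
  have h4 : T.Eobs a' 0 y ≤ K * Rv := by
    calc T.Eobs a' 0 y ≤ C * ∑ f ∈ T.faces, (y (fnb c f) - y f.1) ^ 2 := h1
      _ ≤ max C 0 * ∑ f ∈ T.faces, (y (fnb c f) - y f.1) ^ 2 := mul_le_mul_of_nonneg_right (le_max_left _ _) hS0
      _ ≤ max C 0 * ((12 + 6 / δ) * Rv) := mul_le_mul_of_nonneg_left h3 (le_max_right _ _)
      _ ≤ K * Rv := by rw [hK]; nlinarith
  rw [inv_mul_le_iff₀ hK0]
  exact h4

/-- **L5.3** (5.9), in the vocabulary of the entry engine.  Holds for EVERY `b' > 0` (the paper only claims a neighbourhood), every volume, every cut topology and every refinement. -/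
theorem large_field (δ a' : ℝ) (hδ : 0 < δ) (ha' : 0 < a') : ∃ (cs : ℝ) (n1 : ℕ), 0 < cs ∧ cs ≤ 1 ∧
    ∀ (G : Geom) (c c0 : Grid G), Whole c → Whole c0 → ∀ (_ : Nest c0 c) (t : ℕ), c.m = t * c0.m → n1 ≤ c.n →
      ∀ T : F4a.Top c, T.Ok → ∀ b' : ℝ, 0 < b' → ∀ y : c.I → ℝ,
        ratS T c0 δ b' y ≤ Real.exp (-(cs * T.Eobs a' 0 y) / 2) := by
  obtain ⟨cs, n1, h0, h1, h⟩ := str_reserve δ a' hδ ha'
  refine ⟨cs, n1, h0, h1, ?_⟩
  intro G c c0 hc hc0 N t ht hn T hT b' hb' y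
  have h2 := str_shift_energy T.law (subOf T c0) δ hδ.le b'
    (str_ok T.law (F4a.law_proper hc T) _ _ b' (F4a.law_ok hc T b' hb')) fun i => y i.1
  refine h2.trans (Real.exp_le_exp.2 ?_)
  have h3 := h G c c0 hc hc0 N t ht hn T hT y
  linarith

end

end Claimed.Agent.R285.C5
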