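import Claimed.Agent.R285.C5.Defs

/-!
# ROW 285, [C] s5, leaf L-C5-SHIFT: Gaussian domination = first half of L5.3 (50-openness.tex l.264-272)
-/

set_option autoImplicit false

namespace Claimed.Agent.R285.C5

open Filter Topology
open scoped Classical

noncomputable section

/-- orthogonal splitting of `c` along a subspace of `ℝ^ι` (standard dot product). -/
theorem c5_orth_split {ι : Type} [Fintype ι] (R : Submodule ℝ (ι → ℝ)) (c : ι → ℝ) :
    ∃ y ∈ R, ∀ u ∈ R, ∑ o, u o * (c o - y o) = 0 := by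
  let f : (ι → ℝ) ≃ₗ[ℝ] EuclideanSpace ℝ ι := (WithLp.linearEquiv 2 ℝ (ι → ℝ)).symm
  let K : Submodule ℝ (EuclideanSpace ℝ ι) := R.map f.toLinearMap
  obtain ⟨y, hy, w, hw, hyw⟩ := K.exists_add_mem_mem_orthogonal (f c)
  obtain ⟨y', hy', rfl⟩ := Submodule.mem_map.1 hy
  refine ⟨y', hy', fun u hu => ?_⟩
  have h1 : inner ℝ (f u) w = 0 := (Submodule.mem_orthogonal K w).1 hw (f u) (Submodule.mem_map_of_mem hu)
  have hw' : w = f (c - y') := by
    rw [map_sub, hyw]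
    simp
  rw [hw'] at h1
  simpa [f, PiLp.inner_apply, mul_comm] using h1

theorem c5_w_nonneg (S : LSys) (hS : S.Ok) (α : S.Amb) : 0 ≤ S.w α := by
  unfold LSys.w LSys.Zf
  refine tsum_nonneg fun z => ?_
  rw [one_mul]
  unfold LSys.W
  exact mul_nonneg (Finset.prod_nonneg fun e _ => bes_nonneg _ (hS.1 e).le _) (Real.exp_pos _).le

/-- **Gaussian domination on every `LSys`** (first half of L5.3; NO chain limit, NO theta function).
PROOF: `R` = real span of the `O`-coordinates of `L`, `c = c_R + c_⊥`; `|z_O - c|² = |z_O - c_R|² + |c_⊥|²` for `z ∈ L`, so `w(0,-c) = e^{-|c_⊥|²/2} w(0,-c_R) ≤ e^{-|c_⊥|²/2} w(0)` by `lsys_le_centred`. -/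
theorem lsys_shift_energy (S : LSys) (hS : S.Ok) (c : S.O → ℝ) (m : ℝ)
    (hm : ∀ v ∈ Submodule.span ℝ ((fun z : S.Amb => z.2) '' (S.L : Set S.Amb)), m ≤ ∑ o, (v o - c o) ^ 2) :
    S.w ((0 : S.E → ℤ), fun o => - c o) ≤ Real.exp (-m / 2) * S.w 0 := by
  obtain ⟨y, hy, horth⟩ := c5_orth_split (Submodule.span ℝ ((fun z : S.Amb => z.2) '' (S.L : Set S.Amb))) c
  have hmq : m ≤ ∑ o, (c o - y o) ^ 2 := by
    refine le_trans (hm y hy) (le_of_eq ?_)
    exact Finset.sum_congr rfl fun o _ => by ring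
  have key : ∀ z : S.L, S.W ((z : S.Amb) + ((0 : S.E → ℤ), fun o => - c o))
      = Real.exp (-(∑ o, (c o - y o) ^ 2) / 2) * S.W ((z : S.Amb) + ((0 : S.E → ℤ), fun o => - y o)) := by
    intro z
    have hz : (z : S.Amb).2 ∈ Submodule.span ℝ ((fun z : S.Amb => z.2) '' (S.L : Set S.Amb)) :=
      Submodule.subset_span ⟨z, z.2, rfl⟩
    have h0 := horth ((z : S.Amb).2 - y) (Submodule.sub_mem _ hz hy)
    have e : ∑ o, ((z : S.Amb).2 o + -c o) ^ 2 = ∑ o, ((z : S.Amb).2 o + - y o) ^ 2 + ∑ o, (c o - y o) ^ 2 := by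
      have e1 : ∀ o, ((z : S.Amb).2 o + -c o) ^ 2 = (((z : S.Amb).2 o + - y o) ^ 2 + (c o - y o) ^ 2)
          - 2 * (((z : S.Amb).2 - y) o * (c o - y o)) := by
        intro o
        simp only [Pi.sub_apply]; ring
      simp only [e1]
      rw [Finset.sum_sub_distrib, ← Finset.mul_sum, h0, Finset.sum_add_distrib]; ring
    unfold LSys.W
    simp only [Prod.fst_add, Prod.snd_add, Pi.add_apply]
    rw [e, mul_left_comm, ← Real.exp_add]
    congr 2
    ring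
  have hw : S.w ((0 : S.E → ℤ), fun o => - c o)
      = Real.exp (-(∑ o, (c o - y o) ^ 2) / 2) * S.w ((0 : S.E → ℤ), fun o => - y o) := by
    unfold LSys.w LSys.Zf
    simp only [key, one_mul]
    rw [tsum_mul_left]
  rw [hw]
  have h1 := lsys_le_centred S hS ((0 : S.E → ℤ), fun o => - y o)
  have h2 : Real.exp (-(∑ o, (c o - y o) ^ 2) / 2) ≤ Real.exp (-m / 2) := Real.exp_le_exp.2 (by linarith)
  exact mul_le_mul h2 h1 (c5_w_nonneg S hS _) (Real.exp_pos _).le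

/-- the real span of the observation coordinates of the image lattice consists of observations of the real span of `Λ`. -/
theorem c5_span_obs {G : HGraph} (H' : HLaw G) (b : ℝ) (v : (H'.sys b).O → ℝ)
    (hv : v ∈ Submodule.span ℝ ((fun z : (H'.sys b).Amb => z.2) '' ((H'.sys b).L : Set (H'.sys b).Amb))) :
    ∃ u ∈ H'.rspan, ∀ o, v o = H'.obs u o := by
  induction hv using Submodule.span_induction with
  | mem x hx =>
    obtain ⟨z, hz, rfl⟩ := hx
    obtain ⟨h, hh, rfl⟩ := AddSubgroup.mem_map.1 hz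
    refine ⟨(2 * Real.pi) • (fun v => (h v : ℝ)),
      Submodule.smul_mem _ _ (Submodule.subset_span ⟨h, hh, rfl⟩), fun o => ?_⟩
    simp only [HLaw.obs, Pi.smul_apply, smul_eq_mul]
    rfl
  | zero => exact ⟨0, Submodule.zero_mem _, fun o => by simp [HLaw.obs]⟩
  | add x y _ _ hx hy =>
    obtain ⟨u, hu, hxu⟩ := hx
    obtain ⟨u', hu', hyu⟩ := hy
    refine ⟨u + u', Submodule.add_mem _ hu hu', fun o => ?_⟩
    rw [Pi.add_apply, hxu, hyu]
    simp [HLaw.obs, mul_add, Finset.sum_add_distrib]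
  | smul r x _ hx =>
    obtain ⟨u, hu, hxu⟩ := hx
    refine ⟨r • u, Submodule.smul_mem _ _ hu, fun o => ?_⟩
    rw [Pi.smul_apply, hxu]
    simp [HLaw.obs, Finset.mul_sum, mul_left_comm]

/-- the same for a strengthened height law: `Z(y)/Z(0) ≤ exp(-retE/2)`; every temperature, every graph, every cell map -/
theorem str_shift_energy {G : HGraph} (H : HLaw G) {C : Type} (κ₀ : G.V → C) (δ : ℝ) (hδ : 0 ≤ δ) (b : ℝ)
    (hOk : ((str H κ₀ (Real.sqrt δ)).sys b).Ok) (c : H.O → ℝ) :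
    (str H κ₀ (Real.sqrt δ)).ratioL b (strAff H κ₀ (Real.sqrt δ) ⟨0, 0, c⟩) ≤ Real.exp (-retE H κ₀ δ c / 2) := by
  have hα : (strAff H κ₀ (Real.sqrt δ) ⟨0, 0, c⟩).amb b
      = ((0 : ((str H κ₀ (Real.sqrt δ)).sys b).E → ℤ), fun o => - (strAff H κ₀ (Real.sqrt δ) ⟨0, 0, c⟩).c o) := by
    unfold HLaw.Aff.amb
    have : (strAff H κ₀ (Real.sqrt δ) ⟨0, 0, c⟩).x = 0 := rfl
    rw [this, map_zero, zero_add]
    rfl
  have hpos : 0 < ((str H κ₀ (Real.sqrt δ)).sys b).w 0 := by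
    have := lsys_pos _ hOk 0 0
    simpa [LSys.wT, LSys.w] using this
  unfold HLaw.ratioL
  rw [div_le_iff₀ hpos, hα]
  apply lsys_shift_energy _ hOk
  intro v hv
  obtain ⟨u, hu, hvu⟩ := c5_span_obs (str H κ₀ (Real.sqrt δ)) b v hv
  have hu' : u ∈ H.rspan := hu
  have h1 : retE H κ₀ δ c ≤ δ * avgEn κ₀ u + ∑ o, (H.obs u o - c o) ^ 2 := by
    unfold retE
    refine ciInf_le ⟨0, ?_⟩ (⟨u, hu'⟩ : H.rspan)
    rintro _ ⟨v, rfl⟩
    exact add_nonneg (mul_nonneg hδ (Finset.sum_nonneg fun _ _ => sq_nonneg _))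
      (Finset.sum_nonneg fun _ _ => sq_nonneg _)
  refine le_trans h1 (le_of_eq ?_)
  have e : ∑ o : (str H κ₀ (Real.sqrt δ)).O,
      ((str H κ₀ (Real.sqrt δ)).obs u o - (strAff H κ₀ (Real.sqrt δ) ⟨0, 0, c⟩).c o) ^ 2
      = ∑ o : H.O, ((str H κ₀ (Real.sqrt δ)).obs u (Sum.inl o) - c o) ^ 2
        + ∑ p : {p : C × C // p ∈ cellPairs κ₀}, ((str H κ₀ (Real.sqrt δ)).obs u (Sum.inr p) - 0) ^ 2 :=
    Fintype.sum_sum_type _
  have goal' : δ * avgEn κ₀ u + ∑ o, (H.obs u o - c o) ^ 2 = ∑ o : (str H κ₀ (Real.sqrt δ)).O,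
      ((str H κ₀ (Real.sqrt δ)).obs u o - (strAff H κ₀ (Real.sqrt δ) ⟨0, 0, c⟩).c o) ^ 2 := by
    rw [e, add_comm]
    congr 1
    unfold avgEn
    rw [Finset.mul_sum, ← Finset.sum_coe_sort]
    refine Finset.sum_congr rfl fun p _ => ?_
    have e2 : (str H κ₀ (Real.sqrt δ)).obs u (Sum.inr p)
        = Real.sqrt δ * (HLaw.pair (fibAvg κ₀ p.1.2) u - HLaw.pair (fibAvg κ₀ p.1.1) u) := by
      simp only [HLaw.obs, str, HLaw.pair]
      rw [← Finset.sum_sub_distrib, Finset.mul_sum]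
      refine Finset.sum_congr rfl fun x _ => ?_
      ring
    rw [e2, sub_zero, mul_pow, Real.sq_sqrt hδ]
  rw [goal']
  exact Finset.sum_congr rfl fun o _ => by rw [hvu o]

end

end Claimed.Agent.R285.C5
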