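import Claimed.Agent.R285.C5.Defs
import Claimed.Agent.R285.Free.Sys

/-!
# ROW 285, [C] s5, leaf L-C5-TOR (helper161): the proofs of `C5/Tor.lean`.   Paper-free.   Prefix `ctr_`.

* general bridges: `ctr_Vr_eq_V0` (variance in height variables = `V0` of a lift), `ctr_exists_lift` (every row has a lift in a proper law);
* the torus: properness of the plain and of the strengthened law;
* (T2): the difference `cell profile - cosine` is the divergence of an EXPLICIT flow: horizontal bonds carry the partial sums of the difference (`ctr_abel`), the total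
  mass (which is `O(s²/n)` by the symmetry of the cells, `ctr_cell_sum`) is carried to the pin along the column `0`; reference cost `Free.fr_ref_var`.
-/

set_option autoImplicit false

namespace Claimed.Agent.R285.C5

open Filter Topology
open scoped Classical

noncomputable section

/-! ## 1. General bridges -/

theorem ctr_amb_zero {G : HGraph} (H : HLaw G) (b : ℝ) : (HLaw.Aff.zero H).amb b = 0 := by
  unfold HLaw.Aff.amb HLaw.Aff.zero
  rw [map_zero, zero_add]
  refine Prod.ext rfl ?_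
  funext o
  show -(0 : ℝ) = 0
  simp

theorem ctr_Ex_eq_E0 {G : HGraph} (H : HLaw G) (hP : H.Proper) (b : ℝ) (f : G.V → ℝ) (X : (H.sys b).L →+ ℝ)
    (hX : H.Lift b f X) (F : ℝ → ℝ) :
    H.Ex b (HLaw.Aff.zero H) (fun φ => F (HLaw.pair f φ)) = (H.sys b).E0 fun z => F (X z) := by
  unfold HLaw.Ex
  rw [Rsd.hlaw_Z_eq_Zf H hP b (HLaw.Aff.zero H) (fun φ => F (HLaw.pair f φ)) (fun z => F (X z)) ?_,
    Rsd.hlaw_Z_eq_w H hP b, ctr_amb_zero, rd_E0_eq]
  intro h
  have h1 := hX (h : G.V → ℤ) h.2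
  have h2 : X (Rsd.coordL H b h) = ∑ x, f x * (2 * Real.pi * (((h : G.V → ℤ) x : ℤ) : ℝ)) := h1
  rw [h2]
  congr 1
  unfold HLaw.pair HLaw.Aff.zero
  simp

theorem ctr_Vr_eq_V0 {G : HGraph} (H : HLaw G) (hP : H.Proper) (b : ℝ) (f : G.V → ℝ) (X : (H.sys b).L →+ ℝ)
    (hX : H.Lift b f X) : Vr H b f = (H.sys b).V0 X := by
  have h1 := ctr_Ex_eq_E0 H hP b f X hX (fun t => t ^ 2)
  have h2 := ctr_Ex_eq_E0 H hP b f X hX (fun t => t)
  unfold Vr
  rw [h1, h2, rd_V0_eq, rd_E0_test]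
  simp

/-- the pairing with a row as an additive map on the constraint lattice -/
def ctrPair {G : HGraph} (H : HLaw G) (f : G.V → ℝ) : H.Λ →+ ℝ where
  toFun h := ∑ x, f x * (2 * Real.pi * (((h : G.V → ℤ) x : ℤ) : ℝ))
  map_zero' := by simp
  map_add' h h' := by
    simp only [AddSubgroup.coe_add, Pi.add_apply, Int.cast_add, mul_add, Finset.sum_add_distrib]

theorem ctr_exists_lift {G : HGraph} (H : HLaw G) (hP : H.Proper) (b : ℝ) (f : G.V → ℝ) :
    ∃ X : (H.sys b).L →+ ℝ, H.Lift b f X := by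
  let e : H.Λ ≃+ (H.sys b).L := AddEquiv.ofBijective (Rsd.coordL H b) (Rsd.coordL_bijective H hP b)
  refine ⟨(ctrPair H f).comp e.symm.toAddMonoidHom, fun h hh => ?_⟩
  have h1 : (⟨H.coordA b h, H.coordA_mem b hh⟩ : (H.sys b).L) = e ⟨h, hh⟩ := rfl
  rw [h1]
  simp only [AddMonoidHom.comp_apply, AddEquiv.coe_toAddMonoidHom, AddEquiv.symm_apply_apply]
  rfl

theorem ctr_lift_add {G : HGraph} (H : HLaw G) (b : ℝ) {f g : G.V → ℝ} {X Y : (H.sys b).L →+ ℝ}
    (hX : H.Lift b f X) (hY : H.Lift b g Y) : H.Lift b (fun v => f v + g v) (X + Y) := by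
  intro h hh
  rw [AddMonoidHom.add_apply, hX h hh, hY h hh, ← Finset.sum_add_distrib]
  exact Finset.sum_congr rfl fun x _ => by ring

/-! ## 2. The torus: properness -/

/-- a function on the torus with zero gradient is constant -/
theorem ctr_const {A : Type} (n : ℕ) [NeZero n] (h : ZMod n × ZMod n → A)
    (hgr : ∀ e : (ZMod n × ZMod n) × Bool, h ((torus n).tgt e) = h ((torus n).src e)) (v : ZMod n × ZMod n) :
    h v = h (0, 0) := by
  have hx : ∀ x y : ZMod n, h (x + 1, y) = h (x, y) := by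
    intro x y
    have := hgr ((x, y), true)
    simpa only [torus, if_true] using this
  have hy : ∀ x y : ZMod n, h (x, y + 1) = h (x, y) := by
    intro x y
    have := hgr ((x, y), false)
    simpa [torus] using this
  have hx' : ∀ (k : ℕ) (y : ZMod n), h ((k : ZMod n), y) = h (0, y) := by
    intro k y
    induction k with
    | zero => simp
    | succ k ih => rw [Nat.cast_succ, hx, ih]
  have hy' : ∀ (k : ℕ), h ((0 : ZMod n), (k : ZMod n)) = h (0, 0) := by
    intro k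
    induction k with
    | zero => simp
    | succ k ih => rw [Nat.cast_succ, hy, ih]
  obtain ⟨x, y⟩ := v
  have := hx' x.val y
  rw [ZMod.natCast_zmod_val] at this
  have h2 := hy' y.val
  rw [ZMod.natCast_zmod_val] at h2
  rw [this, h2]

theorem ctr_torLaw_proper (n : ℕ) [NeZero n] : (torLaw n).Proper := by
  intro h hh h0
  have hpin : h ((0 : ZMod n), (0 : ZMod n)) = 0 := hh _ rfl
  have hgr : ∀ e : (ZMod n × ZMod n) × Bool, h ((torus n).tgt e) = h ((torus n).src e) := by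
    intro e
    exact sub_eq_zero.1 (congrFun (congrArg Prod.fst h0) e)
  funext v
  rw [ctr_const n h hgr v, hpin]
  rfl

theorem ctr_torLaw_ok (n : ℕ) [NeZero n] (b : ℝ) (hb : 0 < b) : ((torLaw n).sys b).Ok := by
  have : IsEmpty (torLaw n).O := (inferInstance : IsEmpty Empty)
  exact HLaw.ok_of_isEmpty _ b hb

theorem ctr_str_proper (n : ℕ) [NeZero n] {C : Type} (κ : ZMod n × ZMod n → C) (w : ℝ) :
    (str (torLaw n) (G := torus n) κ w).Proper := by
  intro h hh h0
  refine ctr_torLaw_proper n h hh ?_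
  refine Prod.ext ?_ ?_
  · have h1 := congrArg Prod.fst h0
    exact h1
  · funext o
    exact Empty.elim o

theorem ctr_str_ok (n : ℕ) [NeZero n] {C : Type} (κ : ZMod n × ZMod n → C) (w b : ℝ) (hb : 0 < b) :
    ((str (torLaw n) (G := torus n) κ w).sys b).Ok := by
  refine HLaw.ok_of_real_injective _ b hb fun g hg hgr _ => ?_
  have h0 : g ((0 : ZMod n), (0 : ZMod n)) = 0 := by
    refine Submodule.span_induction (p := fun g _ => g ((0 : ZMod n), (0 : ZMod n)) = 0) ?_ rfl ?_ ?_ hg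
    · rintro _ ⟨h, hh, rfl⟩
      have : h ((0 : ZMod n), (0 : ZMod n)) = 0 := hh _ rfl
      simp [this]
    · intro x y _ _ hx hy
      show x _ + y _ = 0
      rw [hx, hy, add_zero]
    · intro a x _ hx
      show a • x _ = 0
      rw [hx, smul_zero]
  funext v
  rw [ctr_const n g hgr v, h0]
  rfl

/-- **(T3)** in general form -/
theorem ctr_str_Vr_le (n : ℕ) [NeZero n] {C : Type} (κ : ZMod n × ZMod n → C) (w b : ℝ) (hb : 0 < b)
    (f : ZMod n × ZMod n → ℝ) :
    Vr (str (torLaw n) (G := torus n) κ w) b f ≤ Vr (torLaw n) b f := by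
  obtain ⟨X, hX⟩ := ctr_exists_lift (torLaw n) (ctr_torLaw_proper n) b f
  have hX' : (str (torLaw n) (G := torus n) κ w).Lift b f (X.comp (strRef (torLaw n) κ w b).psi) := by
    intro h hh
    rw [← hX h hh]
    rfl
  rw [ctr_Vr_eq_V0 _ (ctr_str_proper n κ w) b f _ hX', ctr_Vr_eq_V0 _ (ctr_torLaw_proper n) b f X hX]
  exact lsys_var_mono (strRef (torLaw n) κ w b) (ctr_torLaw_ok n b hb) (ctr_str_ok n κ w b hb) X

/-- bridge to `Top.torVar` -/
theorem ctr_torVar_eq (b : ℝ) (n : ℕ) [NeZero n] : torVar b n = Vr (torLaw n) b (cosRow n) := by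
  have hn : n ≠ 0 := NeZero.ne n
  unfold torVar
  rw [dif_neg hn]
  unfold HGraph.Vr HGraph.Ex Vr HLaw.Ex torLaw
  simp only [hgraph_Zs_eq]
  have e0 : (⟨0, 0, fun o => o.elim⟩ : (HLaw.plain (torus n) {((0 : ZMod n), (0 : ZMod n))}).Aff) =
      HLaw.Aff.zero (HLaw.plain (torus n) {((0 : ZMod n), (0 : ZMod n))}) := by
    unfold HLaw.Aff.zero
    congr 1
    funext o
    exact Empty.elim o
  have e1 : (fun h : (torus n).V → ℝ => (n : ℝ)⁻¹ ^ 2 * ∑ v : ZMod n × ZMod n, h v * Real.cos (2 * Real.pi * (v.1.val : ℝ) / n)) =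
      fun φ => HLaw.pair (G := torus n) (cosRow n) φ := by
    funext h
    unfold HLaw.pair cosRow
    rw [Finset.mul_sum]
    exact Finset.sum_congr rfl fun v _ => by ring
  have e2 : (fun h : (torus n).V → ℝ => ((n : ℝ)⁻¹ ^ 2 * ∑ v : ZMod n × ZMod n, h v * Real.cos (2 * Real.pi * (v.1.val : ℝ) / n)) ^ 2) =
      fun φ => HLaw.pair (G := torus n) (cosRow n) φ ^ 2 := by
    funext h
    exact congrArg (· ^ 2) (congrFun e1 h)
  rw [e0, e1, e2]

/-! ## 3. (T2): elementary sums -/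

/-- the difference of the two profiles -/
def ctrGam (n s : ℕ) (j : ℕ) : ℝ :=
  Real.cos (2 * Real.pi * ((s * (j / s) : ℕ) + ((s : ℝ) - 1) / 2) / n) - Real.cos (2 * Real.pi * (j : ℝ) / n)

/-- its partial sums -/
def ctrQ (n s m : ℕ) : ℝ := ∑ j ∈ Finset.range m, ctrGam n s j

theorem ctr_gam_abs (n s : ℕ) (hs : 0 < s) (hn : 0 < n) (j : ℕ) : |ctrGam n s j| ≤ Real.pi * s / n := by
  have hn' : (0 : ℝ) < n := by exact_mod_cast hn
  refine (Real.abs_cos_sub_cos_le _ _).trans ?_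
  have hj : (j : ℝ) = ((s * (j / s) : ℕ) : ℝ) + ((j % s : ℕ) : ℝ) := by
    exact_mod_cast (Nat.div_add_mod j s).symm
  have hr : ((j % s : ℕ) : ℝ) ≤ (s : ℝ) - 1 := by
    have := Nat.mod_lt j hs
    have h1 : j % s + 1 ≤ s := this
    have h2 : ((j % s : ℕ) : ℝ) + 1 ≤ s := by exact_mod_cast h1
    linarith
  have hr0 : (0 : ℝ) ≤ ((j % s : ℕ) : ℝ) := Nat.cast_nonneg _
  have e : 2 * Real.pi * ((s * (j / s) : ℕ) + ((s : ℝ) - 1) / 2) / n - 2 * Real.pi * (j : ℝ) / n =
      2 * Real.pi / n * (((s : ℝ) - 1) / 2 - ((j % s : ℕ) : ℝ)) := by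
    rw [hj]; field_simp; ring
  rw [e, abs_mul, abs_of_pos (by positivity : 0 < 2 * Real.pi / n)]
  have h3 : |((s : ℝ) - 1) / 2 - ((j % s : ℕ) : ℝ)| ≤ s / 2 := by
    rw [abs_le]; constructor <;> linarith
  calc 2 * Real.pi / n * |((s : ℝ) - 1) / 2 - ((j % s : ℕ) : ℝ)| ≤ 2 * Real.pi / n * (s / 2) :=
        mul_le_mul_of_nonneg_left h3 (by positivity)
    _ = Real.pi * s / n := by ring

theorem ctr_Q_abs (n s : ℕ) (hs : 0 < s) (hn : 0 < n) (m : ℕ) : |ctrQ n s m| ≤ m * (Real.pi * s / n) := by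
  unfold ctrQ
  refine (Finset.abs_sum_le_sum_abs _ _).trans ?_
  refine (Finset.sum_le_card_nsmul _ _ _ fun j _ => ctr_gam_abs n s hs hn j).trans ?_
  simp

theorem ctr_cell_sum (n s : ℕ) (hs : 0 < s) (hn : 0 < n) (i : ℕ) :
    |∑ r ∈ Finset.range s, ctrGam n s (s * i + r)| ≤ s * (Real.pi * s / n) ^ 2 / 2 := by
  have hn' : (0 : ℝ) < n := by exact_mod_cast hn
  set c : ℝ := 2 * Real.pi * ((s * i : ℕ) + ((s : ℝ) - 1) / 2) / n with hc
  set x : ℕ → ℝ := fun r => 2 * Real.pi / n * ((r : ℝ) - ((s : ℝ) - 1) / 2) with hx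
  have h1 : ∀ r ∈ Finset.range s, ctrGam n s (s * i + r) = Real.cos c - Real.cos (c + x r) := by
    intro r hr
    have hr' := Finset.mem_range.1 hr
    have hd : (s * i + r) / s = i := by
      rw [Nat.mul_add_div hs, Nat.div_eq_of_lt hr', add_zero]
    unfold ctrGam
    rw [hd]
    congr 2
    rw [hc, hx]
    push_cast
    field_simp
    ring
  rw [Finset.sum_congr rfl h1]
  have h2 : ∑ r ∈ Finset.range s, (Real.cos c - Real.cos (c + x r)) =
      ∑ r ∈ Finset.range s, (Real.cos c - Real.cos (c - x r)) := by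
    rw [← Finset.sum_range_reflect]
    refine Finset.sum_congr rfl fun r hr => ?_
    have hr' := Finset.mem_range.1 hr
    have e : x (s - 1 - r) = - x r := by
      rw [hx]
      simp only
      have : ((s - 1 - r : ℕ) : ℝ) = (s : ℝ) - 1 - r := by
        rw [Nat.sub_sub, Nat.cast_sub (by omega)]
        push_cast
        ring
      rw [this]
      ring
    rw [e, sub_eq_add_neg c (x r)]
  have h3 : ∑ r ∈ Finset.range s, (Real.cos c - Real.cos (c + x r)) =
      ∑ r ∈ Finset.range s, Real.cos c * (1 - Real.cos (x r)) := by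
    have h4 : 2 * ∑ r ∈ Finset.range s, (Real.cos c - Real.cos (c + x r)) =
        2 * ∑ r ∈ Finset.range s, Real.cos c * (1 - Real.cos (x r)) := by
      rw [two_mul]
      nth_rewrite 2 [h2]
      rw [← Finset.sum_add_distrib, Finset.mul_sum]
      refine Finset.sum_congr rfl fun r _ => ?_
      rw [Real.cos_add, Real.cos_sub]
      ring
    linarith
  rw [h3]
  refine (Finset.abs_sum_le_sum_abs _ _).trans ?_
  have h5 : ∀ r ∈ Finset.range s, |Real.cos c * (1 - Real.cos (x r))| ≤ (Real.pi * s / n) ^ 2 / 2 := by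
    intro r hr
    have hr' := Finset.mem_range.1 hr
    rw [abs_mul]
    have h6 : |Real.cos c| ≤ 1 := Real.abs_cos_le_one c
    have h7 : 0 ≤ 1 - Real.cos (x r) := by linarith [Real.cos_le_one (x r)]
    have h8 : 1 - Real.cos (x r) ≤ x r ^ 2 / 2 := by linarith [Real.one_sub_sq_div_two_le_cos (x := x r)]
    have h9 : x r ^ 2 ≤ (Real.pi * s / n) ^ 2 := by
      rw [sq_le_sq, abs_of_nonneg (by positivity : 0 ≤ Real.pi * s / n)]
      rw [hx]
      simp only
      rw [abs_mul, abs_of_pos (by positivity : 0 < 2 * Real.pi / n)]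
      have hr1 : (r : ℝ) + 1 ≤ s := by exact_mod_cast hr'
      have hr0 : (0 : ℝ) ≤ r := Nat.cast_nonneg _
      have h10 : |(r : ℝ) - ((s : ℝ) - 1) / 2| ≤ s / 2 := by
        rw [abs_le]; constructor <;> linarith
      calc 2 * Real.pi / n * |(r : ℝ) - ((s : ℝ) - 1) / 2| ≤ 2 * Real.pi / n * (s / 2) :=
            mul_le_mul_of_nonneg_left h10 (by positivity)
        _ = Real.pi * s / n := by ring
    rw [abs_of_nonneg h7]
    calc |Real.cos c| * (1 - Real.cos (x r)) ≤ 1 * (1 - Real.cos (x r)) := mul_le_mul_of_nonneg_right h6 h7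
      _ ≤ (Real.pi * s / n) ^ 2 / 2 := by linarith
  refine (Finset.sum_le_card_nsmul _ _ _ h5).trans ?_
  simp only [Finset.card_range, nsmul_eq_mul]
  linarith

theorem ctr_Q_mul (n s : ℕ) (hs : 0 < s) (hn : 0 < n) (k : ℕ) :
    |ctrQ n s (s * k)| ≤ k * (s * (Real.pi * s / n) ^ 2 / 2) := by
  induction k with
  | zero => simp [ctrQ]
  | succ k ih =>
    have e : ctrQ n s (s * (k + 1)) = ctrQ n s (s * k) + ∑ r ∈ Finset.range s, ctrGam n s (s * k + r) := by
      unfold ctrQ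
      rw [Nat.mul_succ, Finset.sum_range_add]
    rw [e]
    refine (abs_add_le _ _).trans ?_
    have := ctr_cell_sum n s hs hn k
    push_cast
    linarith

/-- summation by parts -/
theorem ctr_abel (γ h : ℕ → ℝ) (T : ℝ) (m : ℕ) :
    ∑ i ∈ Finset.range m, (T - ∑ j ∈ Finset.range (i + 1), γ j) * (h (i + 1) - h i) =
      ∑ i ∈ Finset.range m, γ i * h i - T * h 0 + (T - ∑ j ∈ Finset.range m, γ j) * h m := by
  induction m with
  | zero => simp
  | succ m ih =>
    rw [Finset.sum_range_succ, ih, Finset.sum_range_succ (fun i => γ i * h i), Finset.sum_range_succ γ]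
    ring

theorem ctr_sum_zmod (n : ℕ) [NeZero n] (F : ZMod n → ℝ) : ∑ x, F x = ∑ i ∈ Finset.range n, F (i : ZMod n) := by
  refine Finset.sum_nbij' (fun x : ZMod n => x.val) (fun i : ℕ => (i : ZMod n)) ?_ ?_ ?_ ?_ ?_
  · intro x _
    exact Finset.mem_range.2 (ZMod.val_lt x)
  · intro i _
    exact Finset.mem_univ _
  · intro x _
    exact ZMod.natCast_zmod_val x
  · intro i hi
    exact ZMod.val_natCast_of_lt (Finset.mem_range.1 hi)
  · intro x _
    rw [ZMod.natCast_zmod_val]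

/-! ## 4. (T2): the flow -/

/-- the flow: horizontal bonds carry the tails of the sums of the difference, the column `0` carries the total mass to the pin -/
def ctrFl (n s : ℕ) (e : (ZMod n × ZMod n) × Bool) : ℝ :=
  2 * Real.pi * (n : ℝ)⁻¹ ^ 2 * (if e.2 then ctrQ n s n - ctrQ n s (e.1.1.val + 1)
    else if e.1.1 = 0 then ctrQ n s n * ((n : ℝ) - ((e.1.2.val : ℝ) + 1)) else 0)

theorem ctr_row_eq (n s : ℕ) (v : ZMod n × ZMod n) :
    cellCosRow n s v - cosRow n v = (n : ℝ)⁻¹ ^ 2 * ctrGam n s v.1.val := by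
  unfold cellCosRow cosRow ctrGam
  ring

theorem ctr_flow_lift (n s : ℕ) [NeZero n] (b : ℝ) :
    (torLaw n).Lift b (fun v => cellCosRow n s v - cosRow n v) (C2.flowS ((torLaw n).sys b) (ctrFl n s)) := by
  intro h hh
  have hpin : h ((0 : ZMod n), (0 : ZMod n)) = 0 := hh _ rfl
  set T : ℝ := ctrQ n s n with hT
  set c : ℝ := 2 * Real.pi * (n : ℝ)⁻¹ ^ 2 with hc
  have hL : C2.flowS ((torLaw n).sys b) (ctrFl n s) ⟨(torLaw n).coordA b h, (torLaw n).coordA_mem b hh⟩ =
      ∑ e : (ZMod n × ZMod n) × Bool, ctrFl n s e * ((h ((torus n).tgt e) : ℝ) - (h ((torus n).src e) : ℝ)) := by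
    simp only [C2.flowS, AddMonoidHom.coe_mk, ZeroHom.coe_mk]
    refine Finset.sum_congr rfl fun e _ => ?_
    have : ((torLaw n).coordA b h).1 e = h ((torus n).tgt e) - h ((torus n).src e) := rfl
    rw [this]
    push_cast
    rfl
  have hR : ∑ x : (torus n).V, (cellCosRow n s x - cosRow n x) * (2 * Real.pi * (h x : ℝ)) =
      ∑ v : ZMod n × ZMod n, c * (ctrGam n s v.1.val * (h v : ℝ)) := by
    refine Finset.sum_congr rfl fun v _ => ?_
    have h1 := ctr_row_eq n s v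
    calc _ = ((n : ℝ)⁻¹ ^ 2 * ctrGam n s v.1.val) * (2 * Real.pi * (h v : ℝ)) := congrArg (· * _) h1
      _ = _ := by rw [hc]; ring
  rw [hL, hR, Fintype.sum_prod_type]
  simp only [Fintype.sum_bool]
  rw [Finset.sum_add_distrib]
  -- horizontal bonds
  have hH : ∑ v : ZMod n × ZMod n, ctrFl n s (v, true) *
      ((h ((torus n).tgt (v, true)) : ℝ) - (h ((torus n).src (v, true)) : ℝ)) =
      c * (∑ v : ZMod n × ZMod n, ctrGam n s v.1.val * (h v : ℝ)) - c * T * ∑ y : ZMod n, (h (0, y) : ℝ) := by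
    rw [Fintype.sum_prod_type_right, Fintype.sum_prod_type_right, Finset.mul_sum, Finset.mul_sum,
      ← Finset.sum_sub_distrib]
    refine Finset.sum_congr rfl fun y _ => ?_
    rw [ctr_sum_zmod, ctr_sum_zmod]
    have h1 := ctr_abel (ctrGam n s) (fun i => (h ((i : ZMod n), y) : ℝ)) T n
    have h2 : ∑ j ∈ Finset.range n, ctrGam n s j = T := rfl
    rw [h2, sub_self, zero_mul, add_zero] at h1
    have h3 : ∀ i ∈ Finset.range n, ctrFl n s (((i : ZMod n), y), true) *
        ((h ((torus n).tgt (((i : ZMod n), y), true)) : ℝ) - (h ((torus n).src (((i : ZMod n), y), true)) : ℝ)) =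
        c * ((T - ∑ j ∈ Finset.range (i + 1), ctrGam n s j) *
          ((h (((i + 1 : ℕ) : ZMod n), y) : ℝ) - (h ((i : ZMod n), y) : ℝ))) := by
      intro i hi
      have hv : ((i : ZMod n)).val = i := ZMod.val_natCast_of_lt (Finset.mem_range.1 hi)
      simp only [ctrFl, torus, if_true, hv, Nat.cast_succ]
      rw [← hc, ← hT]
      unfold ctrQ
      ring
    rw [Finset.sum_congr rfl h3, ← Finset.mul_sum, h1]
    have h4 : ∀ i ∈ Finset.range n, ctrGam n s ((i : ZMod n), y).1.val * (h ((i : ZMod n), y) : ℝ) =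
        ctrGam n s i * (h ((i : ZMod n), y) : ℝ) := by
      intro i hi
      have hv : ((i : ZMod n)).val = i := ZMod.val_natCast_of_lt (Finset.mem_range.1 hi)
      simp only [hv]
    rw [Finset.sum_congr rfl h4]
    simp only [Nat.cast_zero]
    ring
  -- vertical bonds
  have hV : ∑ v : ZMod n × ZMod n, ctrFl n s (v, false) *
      ((h ((torus n).tgt (v, false)) : ℝ) - (h ((torus n).src (v, false)) : ℝ)) =
      c * T * ∑ y : ZMod n, (h (0, y) : ℝ) := by
    rw [Fintype.sum_prod_type]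
    rw [Finset.sum_eq_single (0 : ZMod n)]
    · rw [ctr_sum_zmod, ctr_sum_zmod]
      have h1 := ctr_abel (fun _ => 1) (fun i => (h ((0 : ZMod n), (i : ZMod n)) : ℝ)) n n
      simp only [Finset.sum_const, Finset.card_range, nsmul_eq_mul, mul_one, sub_self, zero_mul, add_zero, one_mul,
        Nat.cast_zero, hpin, Int.cast_zero, mul_zero, sub_zero] at h1
      rw [← h1, Finset.mul_sum]
      refine Finset.sum_congr rfl fun i hi => ?_
      have hv : ((i : ZMod n)).val = i := ZMod.val_natCast_of_lt (Finset.mem_range.1 hi)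
      simp only [ctrFl, torus, hv, Nat.cast_succ, if_true, Bool.false_eq_true, if_false]
      rw [← hc, ← hT]
      ring
    · intro x _ hx
      refine Finset.sum_eq_zero fun y _ => ?_
      simp [ctrFl, hx]
    · intro hx
      exact absurd (Finset.mem_univ _) hx
  rw [hH, hV, Finset.mul_sum]
  ring

/-- the energy of the flow -/
theorem ctr_energy (n s k : ℕ) [NeZero n] (hs : 0 < s) (hk : n = s * k) :
    ∑ e : (ZMod n × ZMod n) × Bool, ctrFl n s e ^ 2 ≤ (16 * Real.pi ^ 4 + Real.pi ^ 6 * (s : ℝ) ^ 2) * ((s : ℝ) / n) ^ 2 := by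
  have hn : 0 < n := Nat.pos_of_ne_zero (NeZero.ne n)
  have hn' : (0 : ℝ) < n := by exact_mod_cast hn
  have hn1 : (1 : ℝ) ≤ n := by exact_mod_cast hn
  have hs' : (0 : ℝ) < s := by exact_mod_cast hs
  have hpi := Real.pi_pos
  set T : ℝ := ctrQ n s n with hT
  set c : ℝ := 2 * Real.pi * (n : ℝ)⁻¹ ^ 2 with hc
  have hc0 : 0 ≤ c := by positivity
  have hTn : |T| ≤ n * (Real.pi * s / n) := ctr_Q_abs n s hs hn n
  have hT2 : |T| ≤ Real.pi ^ 2 * (s : ℝ) ^ 2 / (2 * n) := by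
    have h1 := ctr_Q_mul n s hs hn k
    rw [← hk, ← hT] at h1
    refine h1.trans (le_of_eq ?_)
    have h2 : (n : ℝ) = s * k := by exact_mod_cast hk
    have hk' : (k : ℝ) = n / s := by rw [h2]; field_simp
    rw [hk']
    field_simp
  rw [Fintype.sum_prod_type]
  simp only [Fintype.sum_bool]
  rw [Finset.sum_add_distrib]
  have hH : ∑ v : ZMod n × ZMod n, ctrFl n s (v, true) ^ 2 ≤ 16 * Real.pi ^ 4 * ((s : ℝ) / n) ^ 2 := by
    have h1 : ∀ v ∈ (Finset.univ : Finset (ZMod n × ZMod n)), ctrFl n s (v, true) ^ 2 ≤ (c * (2 * Real.pi * s)) ^ 2 := by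
      intro v _
      have e0 : ctrFl n s (v, true) = c * (T - ctrQ n s (v.1.val + 1)) := by
        simp only [ctrFl, if_true]
        rw [hc, hT]
      rw [e0, mul_pow c, mul_pow c]
      refine mul_le_mul_of_nonneg_left ?_ (sq_nonneg c)
      rw [sq_le_sq, abs_of_nonneg (by positivity : 0 ≤ 2 * Real.pi * (s : ℝ))]
      have h2 := ctr_Q_abs n s hs hn (v.1.val + 1)
      have h3 : ((v.1.val + 1 : ℕ) : ℝ) ≤ n := by exact_mod_cast (ZMod.val_lt v.1)
      have h4 : ((v.1.val + 1 : ℕ) : ℝ) * (Real.pi * s / n) ≤ n * (Real.pi * s / n) :=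
        mul_le_mul_of_nonneg_right h3 (by positivity)
      have h5 : (n : ℝ) * (Real.pi * s / n) = Real.pi * s := by field_simp
      calc |T - ctrQ n s (v.1.val + 1)| ≤ |T| + |ctrQ n s (v.1.val + 1)| := abs_sub _ _
        _ ≤ 2 * Real.pi * s := by linarith
    refine (Finset.sum_le_card_nsmul _ _ _ h1).trans (le_of_eq ?_)
    rw [Finset.card_univ, Fintype.card_prod, ZMod.card, nsmul_eq_mul, hc]
    push_cast
    field_simp
    ring
  have hV : ∑ v : ZMod n × ZMod n, ctrFl n s (v, false) ^ 2 ≤ Real.pi ^ 6 * (s : ℝ) ^ 2 * ((s : ℝ) / n) ^ 2 := by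
    rw [Fintype.sum_prod_type, Finset.sum_eq_single (0 : ZMod n)]
    · have h1 : ∀ y ∈ (Finset.univ : Finset (ZMod n)), ctrFl n s (((0 : ZMod n), y), false) ^ 2 ≤
          (c * (Real.pi ^ 2 * (s : ℝ) ^ 2 / (2 * n) * n)) ^ 2 := by
        intro y _
        have e0 : ctrFl n s (((0 : ZMod n), y), false) = c * (T * ((n : ℝ) - ((y.val : ℝ) + 1))) := by
          simp only [ctrFl, if_true, Bool.false_eq_true, if_false]
          rw [hc, hT]
        rw [e0, mul_pow c, mul_pow c]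
        refine mul_le_mul_of_nonneg_left ?_ (sq_nonneg c)
        rw [sq_le_sq, abs_mul, abs_of_nonneg (by positivity : 0 ≤ Real.pi ^ 2 * (s : ℝ) ^ 2 / (2 * n) * n)]
        have h3 : ((y.val : ℝ) + 1) ≤ n := by exact_mod_cast (ZMod.val_lt y)
        have h4 : |(n : ℝ) - ((y.val : ℝ) + 1)| ≤ n := by
          rw [abs_le]
          have : (0 : ℝ) ≤ y.val := Nat.cast_nonneg _
          constructor <;> linarith
        exact mul_le_mul hT2 h4 (abs_nonneg _) (by positivity)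
      refine (Finset.sum_le_card_nsmul _ _ _ h1).trans ?_
      rw [Finset.card_univ, ZMod.card, nsmul_eq_mul, hc]
      have e : (n : ℝ) * (2 * Real.pi * (n : ℝ)⁻¹ ^ 2 * (Real.pi ^ 2 * (s : ℝ) ^ 2 / (2 * n) * n)) ^ 2 =
          Real.pi ^ 6 * (s : ℝ) ^ 2 * ((s : ℝ) / n) ^ 2 * (n : ℝ)⁻¹ := by
        field_simp
      rw [e]
      have h5 : (n : ℝ)⁻¹ ≤ 1 := inv_le_one_of_one_le₀ hn1
      exact mul_le_of_le_one_right (by positivity) h5
    · intro x _ hx
      refine Finset.sum_eq_zero fun y _ => ?_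
      simp [ctrFl, hx]
    · intro hx
      exact absurd (Finset.mem_univ _) hx
  calc _ ≤ 16 * Real.pi ^ 4 * ((s : ℝ) / n) ^ 2 + Real.pi ^ 6 * (s : ℝ) ^ 2 * ((s : ℝ) / n) ^ 2 := add_le_add hH hV
    _ = _ := by ring

/-- **(T2)** -/
theorem ctr_close (b1 : ℝ) (s : ℕ) (hs : 0 < s) : ∃ C : ℝ, ∀ b : ℝ, 0 < b → b ≤ b1 → ∀ n : ℕ, 0 < n → s ∣ n →
    |Real.sqrt (cellTorVar s b n) - Real.sqrt (torVar b n)| ≤ C * ((s : ℝ) / n) := by
  refine ⟨Real.sqrt (b1 * (16 * Real.pi ^ 4 + Real.pi ^ 6 * (s : ℝ) ^ 2)), fun b hb hb1 n hn hsn => ?_⟩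
  have : NeZero n := ⟨hn.ne'⟩
  obtain ⟨k, hk⟩ := hsn
  have hS := ctr_torLaw_ok n b hb
  have hP := ctr_torLaw_proper n
  obtain ⟨X₂, hX₂⟩ := ctr_exists_lift (torLaw n) hP b (cosRow n)
  set Y := C2.flowS ((torLaw n).sys b) (ctrFl n s) with hY
  have hX₁ : (torLaw n).Lift b (cellCosRow n s) (X₂ + Y) := by
    have h1 := ctr_lift_add (torLaw n) b hX₂ (ctr_flow_lift n s b)
    have e : (fun v : (torus n).V => cosRow n v + (cellCosRow n s v - cosRow n v)) = cellCosRow n s := by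
      funext v; ring
    exact e ▸ h1
  have e1 : cellTorVar s b n = ((torLaw n).sys b).V0 (X₂ + Y) := by
    unfold cellTorVar
    rw [dif_neg hn.ne']
    exact ctr_Vr_eq_V0 _ hP b _ _ hX₁
  have e2 : torVar b n = ((torLaw n).sys b).V0 X₂ := by
    rw [ctr_torVar_eq]
    exact ctr_Vr_eq_V0 _ hP b _ _ hX₂
  have hVY : ((torLaw n).sys b).V0 Y ≤ b1 * (16 * Real.pi ^ 4 + Real.pi ^ 6 * (s : ℝ) ^ 2) * ((s : ℝ) / n) ^ 2 := by
    have h1 := Free.fr_ref_var ((torLaw n).sys b) hS b (fun _ => le_rfl) (ctrFl n s)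
    have h2 : ∑ e : ((torLaw n).sys b).E, ctrFl n s e ^ 2 ≤
        (16 * Real.pi ^ 4 + Real.pi ^ 6 * (s : ℝ) ^ 2) * ((s : ℝ) / n) ^ 2 := ctr_energy n s k hs hk
    have h3 : 0 ≤ ∑ e : ((torLaw n).sys b).E, ctrFl n s e ^ 2 := Finset.sum_nonneg fun e _ => sq_nonneg _
    calc _ ≤ b * ∑ e : ((torLaw n).sys b).E, ctrFl n s e ^ 2 := h1
      _ ≤ b1 * ∑ e : ((torLaw n).sys b).E, ctrFl n s e ^ 2 := mul_le_mul_of_nonneg_right hb1 h3
      _ ≤ b1 * ((16 * Real.pi ^ 4 + Real.pi ^ 6 * (s : ℝ) ^ 2) * ((s : ℝ) / n) ^ 2) :=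
        mul_le_mul_of_nonneg_left h2 (hb.le.trans hb1)
      _ = _ := by ring
  have hsY : Real.sqrt (((torLaw n).sys b).V0 Y) ≤
      Real.sqrt (b1 * (16 * Real.pi ^ 4 + Real.pi ^ 6 * (s : ℝ) ^ 2)) * ((s : ℝ) / n) := by
    refine (Real.sqrt_le_sqrt hVY).trans (le_of_eq ?_)
    rw [Real.sqrt_mul' _ (sq_nonneg _), Real.sqrt_sq (by positivity)]
  have h1 := Free.sqrt_var_add_le ((torLaw n).sys b) hS X₂ Y
  have h2 := Free.sqrt_var_add_le ((torLaw n).sys b) hS (X₂ + Y) ((-1 : ℝ) • Y)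
  have e3 : X₂ + Y + (-1 : ℝ) • Y = X₂ := by
    ext z
    simp
  rw [e3, rd_V0_smul] at h2
  have e4 : ((-1 : ℝ)) ^ 2 * ((torLaw n).sys b).V0 Y = ((torLaw n).sys b).V0 Y := by ring
  rw [e4] at h2
  rw [e1, e2, abs_sub_le_iff]
  constructor <;> linarith

theorem ctr_forced : True := by
  have := @ctrPair.eq_1
  have := @ctrGam.eq_1
  have := @ctrQ.eq_1
  have := @ctrFl.eq_1
  trivial

end

end Claimed.Agent.R285.C5
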