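import Claimed.Agent.R285.C5.Defs
import Claimed.Agent.R285.C5.TorA

/-!
# ROW 285, [C] s5, leaves L-C5-T2, L-C5-T3: bridges and comparisons on the torus (50-openness.tex l.945-975, l.995-1004).   PROVED (helper161): proofs in `C5/TorA.lean`.
-/

set_option autoImplicit false

namespace Claimed.Agent.R285.C5

open Filter Topology
open scoped Classical

noncomputable section

/-- bridge to `Top.torVar` -/
theorem torVar_eq (b : ℝ) (n : ℕ) [NeZero n] : torVar b n = Vr (torLaw n) b (cosRow n) := ctr_torVar_eq b n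
/-- **(T2)** l.980-985: the cell profile `B_s^* f_n` differs from the sampled cosine by a mean free row of reference cost `O((s/n)²)`
(`lsys_reference` second order + spectral gap `≥ c/n²` of the torus Laplacian, or an explicit flow inside the cells). -/
theorem cellTorVar_close (b1 : ℝ) (s : ℕ) (hs : 0 < s) : ∃ C : ℝ, ∀ b : ℝ, 0 < b → b ≤ b1 → ∀ n : ℕ, 0 < n → s ∣ n →
    |Real.sqrt (cellTorVar s b n) - Real.sqrt (torVar b n)| ≤ C * ((s : ℝ) / n) := ctr_close b1 s hs

/-- **(T3)** l.945-953: removing the added precision increases the centred variance: `lsys_var_mono (strRef ..)` + `HLaw.Z_eq_w`. -/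
theorem strTorVar_le (δ : ℝ) (s0 s : ℕ) (b : ℝ) (hb : 0 < b) (n : ℕ) : strTorVar δ s0 s b n ≤ cellTorVar s b n := by
  unfold strTorVar cellTorVar
  by_cases hn : n = 0
  · rw [dif_pos hn, dif_pos hn]
  · rw [dif_neg hn, dif_neg hn]
    have : NeZero n := ⟨hn⟩
    exact ctr_str_Vr_le n (tcell n s0) (Real.sqrt δ) b hb (cellCosRow n s)

end

end Claimed.Agent.R285.C5
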