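import Claimed.Agent.R285.Defs
import Claimed.Agent.R285.Base.Height
import Claimed.Agent.R285.Base.Geom

/-!
# ROW 285, [C] Section 5 (openness), DEFINITIONS (architect helper75; K1 + plan: `R285/Read/C5.lean`)
The strengthened law (5.2) on any `HLaw` with a cell map; the torus tests; `t`-refinement of a bounded geometry; the logical skeleton of P5.1 (proved).  Nothing is sorried here.
-/

set_option autoImplicit false

namespace Claimed.Agent.R285.C5

open Filter Topology
open scoped Classical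

noncomputable section

/-! ## A. The logical skeleton of P5.1 (no model; PROVED) -/

/-- P5.1 from: `a ≥ 0`, (T1) `limsup V ≤ γ a`, and (T4) a lower bound for `V` along a sequence of sides, locally uniform in the parameter. -/
theorem open_of_diagnostic {a : ℝ → ℝ} {V : ℝ → ℕ → ℝ} {γ : ℝ}
    (ha0 : ∀ b, 0 < b → 0 ≤ a b)
    (hup : ∀ b, 0 < b → ∀ ε > 0, ∀ᶠ n in atTop, V b n ≤ γ * a b + ε)
    {b : ℝ} (hb : 0 < b)
    (hlow : ∃ c > 0, ∀ᶠ b' in 𝓝 b, ∃ᶠ n in atTop, c ≤ V b' n) :
    ∀ᶠ b' in 𝓝 b, 0 < a b' := by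
  obtain ⟨c, hc, hl⟩ := hlow
  filter_upwards [hl, eventually_gt_nhds hb] with b' h1 h2
  by_contra hcon
  have h0 : a b' = 0 := le_antisymm (not_lt.1 hcon) (ha0 b' h2)
  have h3 := hup b' h2 (c / 2) (by positivity)
  rw [h0, mul_zero, zero_add] at h3
  obtain ⟨n, hn1, hn2⟩ := (h1.and_eventually h3).exists
  linarith

/-! ## B. Definitions: the strengthened law (5.2) on ANY height law with a cell map -/

section defs

variable {G : HGraph}

/-- the probability average over the fibre `κ = c` of a cell map, as a row vector -/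
def fibAvg {C : Type} (κ : G.V → C) (c : C) : G.V → ℝ :=
  fun v => if κ v = c then ((Finset.univ.filter fun w => κ w = c).card : ℝ)⁻¹ else 0

/-- the bonds of `A_cell`: ordered pairs of distinct cells joined by at least one retained primary bond (orientation of the bond).
Deleting all primary bonds between two cells deletes the averaged bond: the convention of l.72-78. -/
def cellPairs {C : Type} (κ : G.V → C) : Finset (C × C) :=
  (Finset.univ.image fun e : G.E => (κ (G.src e), κ (G.tgt e))).filter fun p => p.1 ≠ p.2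

/-- **(5.2)**: the law `H` with the additional energy `(w²/2) ∑_{⟨i,j⟩} (avg_j - avg_i)²`, `w = √δ`. -/
def str (H : HLaw G) {C : Type} (κ₀ : G.V → C) (w : ℝ) : HLaw G where
  Λ := H.Λ
  O := H.O ⊕ {p : C × C // p ∈ cellPairs κ₀}
  B o v := match o with
    | Sum.inl o => H.B o v
    | Sum.inr p => w * (fibAvg κ₀ p.1.2 v - fibAvg κ₀ p.1.1 v)

/-- the strengthened law has more precision (so ALL rules of `Base/Height` compare it with `H`) -/
def strRef (H : HLaw G) {C : Type} (κ₀ : G.V → C) (w b : ℝ) : LSys.Ref (H.sys b) ((str H κ₀ w).sys b) where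
  iE := Function.Embedding.refl _
  iO := ⟨Sum.inl, Sum.inl_injective⟩
  hb := fun _ => rfl
  map_mem := by
    rintro z hz
    obtain ⟨h, hh, rfl⟩ := AddSubgroup.mem_map.1 hz
    exact AddSubgroup.mem_map.2 ⟨h, hh, rfl⟩

/-- affine data of the strengthened law: the old data, centre `0` on the new rows -/
def strAff (H : HLaw G) {C : Type} (κ₀ : G.V → C) (w : ℝ) (α : H.Aff) : (str H κ₀ w).Aff :=
  ⟨α.x, α.τ, fun o => match o with
    | Sum.inl o => α.c o
    | Sum.inr _ => 0⟩

/-- centred variance of the test `f`, in height variables -/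
def Vr (H : HLaw G) (b : ℝ) (f : G.V → ℝ) : ℝ :=
  H.Ex b (HLaw.Aff.zero H) (fun φ => HLaw.pair f φ ^ 2) - H.Ex b (HLaw.Aff.zero H) (fun φ => HLaw.pair f φ) ^ 2

/-- the averaged gradient energy `∑_{⟨i,j⟩} (avg_j v - avg_i v)²` -/
def avgEn {C : Type} (κ₀ : G.V → C) (v : G.V → ℝ) : ℝ :=
  ∑ p ∈ cellPairs κ₀, (HLaw.pair (fibAvg κ₀ p.2) v - HLaw.pair (fibAvg κ₀ p.1) v) ^ 2

/-- the energy retained in the proof of L5.3: `min_v δ ∑ (avg_j v - avg_i v)² + |B v - c|²` -/
def retE (H : HLaw G) {C : Type} (κ₀ : G.V → C) (δ : ℝ) (c : H.O → ℝ) : ℝ :=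
  ⨅ v : H.rspan, δ * avgEn κ₀ (v : G.V → ℝ) + ∑ o, (H.obs (v : G.V → ℝ) o - c o) ^ 2

end defs

/-! ### the torus -/

/-- the cells of side `s` of the torus -/
def tcell (n s : ℕ) (v : ZMod n × ZMod n) : ℕ × ℕ := (v.1.val / s, v.2.val / s)

/-- the first cosine: `torVar b n` is the variance of this row -/
def cosRow (n : ℕ) (v : ZMod n × ZMod n) : ℝ := (n : ℝ)⁻¹ ^ 2 * Real.cos (2 * Real.pi * (v.1.val : ℝ) / n)

/-- `B_s^* f_n`: the cosine sampled at the cell centres -/
def cellCosRow (n s : ℕ) (v : ZMod n × ZMod n) : ℝ :=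
  (n : ℝ)⁻¹ ^ 2 * Real.cos (2 * Real.pi * ((s * (v.1.val / s) : ℕ) + ((s : ℝ) - 1) / 2) / n)

/-- the plain periodic law, one vertex pinned (all tests below are mean free for `2 s ≤ n`) -/
def torLaw (n : ℕ) [NeZero n] : HLaw (torus n) := HLaw.plain (torus n) {((0 : ZMod n), (0 : ZMod n))}

/-- the variance of `⟨h, B_s^* f_n⟩` in the plain periodic law -/
def cellTorVar (s : ℕ) (b : ℝ) (n : ℕ) : ℝ :=
  if hn : n = 0 then 0 else
    haveI : NeZero n := ⟨hn⟩
    Vr (torLaw n) b (cellCosRow n s)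

/-- the variance of `⟨h, B_s^* f_n⟩` in the strengthened periodic law, subcells of side `s0` -/
def strTorVar (δ : ℝ) (s0 s : ℕ) (b : ℝ) (n : ℕ) : ℝ :=
  if hn : n = 0 then 0 else
    haveI : NeZero n := ⟨hn⟩
    Vr (str (torLaw n) (tcell n s0) (Real.sqrt δ)) b (cellCosRow n s)

/-! ### bounded geometries in observation-cell units, refined `t` times -/

namespace Geo

variable {k₁ k₂ : ℕ}

/-- the coarse index of a fine index -/
def up1 {k : ℕ} (t : ℕ) (i : Fin (t * k)) : Fin k := ⟨i.1 / t, Nat.div_lt_of_lt_mul i.2⟩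

/-- the coarse cell of a subcell -/
def up (t : ℕ) (κ : Fin (t * k₁) × Fin (t * k₂)) : Fin k₁ × Fin k₂ := (up1 t κ.1, up1 t κ.2)

/-- the geometry `Γ` (cells = observation cells) with every cell divided into `t × t` subcells -/
def refine (Γ : CGeom k₁ k₂) (t : ℕ) : CGeom (t * k₁) (t * k₂) where
  T := Finset.univ.filter fun κ => up t κ ∈ Γ.T
  cutF := Finset.univ.filter fun f => (up t f.1, f.2) ∈ Γ.cutF ∧
    (if f.2 then (f.1.1.1 + 1) % t = 0 else (f.1.2.1 + 1) % t = 0)
  pin := Finset.univ.filter fun κ => up t κ ∈ Γ.pin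
  nObs := Γ.nObs
  box o := Finset.univ.filter fun κ => up t κ ∈ Γ.box o
  wgt := Γ.wgt

variable {m₁ m₂ : ℕ}

/-- the cell of a vertex -/
def cellOf (Γ : CGeom m₁ m₂) (g : DGrid m₁ m₂) (v : (Γ.graph g).V) : Option (Fin m₁ × Fin m₂) :=
  if h : ∃ κ, domPos (D := g.region Γ.T) (cut := Γ.cutB g) v ∈ g.cell κ then some h.choose else none

/-- the strengthened law of a geometry: averaged bonds between ALL adjacent cells of the array which are joined by retained bonds -/
def lawS (Γ : CGeom m₁ m₂) (g : DGrid m₁ m₂) (δ : ℝ) : HLaw (Γ.graph g) := str (Γ.law g) (cellOf Γ g) (Real.sqrt δ)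

/-- the uniform grid of side `s0 + 1` -/
abbrev ug (m₁ m₂ s0 : ℕ) : DGrid m₁ m₂ := DGrid.unif m₁ m₂ (s0 + 1) (Nat.succ_pos s0)

end Geo
/-- `a' = (a⁻¹ + δ)⁻¹` (5.1) -/
def aPrime (a δ : ℝ) : ℝ := (a⁻¹ + δ)⁻¹

end

end Claimed.Agent.R285.C5
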