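import Claimed.Agent.R285.C5.EsDefs

/-!
# ROW 285, [C] s5.3, package ES-SOFT, leaf L-ES-SOFT-ND      (architect helper60)

The `t`-refinement of a geometry whose components are Lipschitz polygons (`CGeom.NoDiag`) has the same property.   PAPER-FREE, pure combinatorics of `Fin (t * m)` and `i / t`.
PLAN.  (1) `ess_adj_up`: a face between two subcells is either interior to an observation cell (`up` equal) or lies in a face of observation cells; in the second case it is removed in `refine Γ t` iff the coarse face is removed in `Γ`.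
(2) `ess_conn_up` by induction on `Relation.ReflTransGen`.   (3) `Conn` is symmetric (`Adj` is).
(4) NoDiag (a): a removed fine face `(κ, d)` has `(up κ, d) ∈ Γ.cutF` and `(κ_d + 1) % t = 0`, so `up κ'` is the second cell of the coarse face; `¬ Γ.Conn (up κ) (up κ')` and (2).
(5) NoDiag (b): four cases for the common vertex of the four subcells `(i, j), (i', j), (i, j'), (i', j')`:
  `(i+1) % t ≠ 0`, `(j+1) % t ≠ 0`: all four in one observation cell, no face is removed (the `% t` clause fails);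
  `(i+1) % t = 0`, `(j+1) % t ≠ 0` (and the mirror case): two observation cells `K, K'`, connected by (2), so the coarse face is not removed by (a) of `Γ`; take the first alternative;
  both `= 0`: (b) of `Γ` at the coarse vertex, with (2).
-/

set_option autoImplicit false

namespace Claimed.Agent.R285.C5

open Claimed.Agent.R285 Claimed.Agent.R285.Entry

theorem ess_nd_mem_T {m₁ m₂ : ℕ} (Γ : CGeom m₁ m₂) (t : ℕ) (κ : Fin (t * m₁) × Fin (t * m₂)) :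
    κ ∈ (Geo.refine Γ t).T ↔ Geo.up t κ ∈ Γ.T := by
  unfold Geo.refine
  simp only [Finset.mem_filter, Finset.mem_univ, true_and]

theorem ess_nd_mem_cutF {m₁ m₂ : ℕ} (Γ : CGeom m₁ m₂) (t : ℕ) (f : (Fin (t * m₁) × Fin (t * m₂)) × Bool) :
    f ∈ (Geo.refine Γ t).cutF ↔ (Geo.up t f.1, f.2) ∈ Γ.cutF ∧
      (if f.2 then (f.1.1.1 + 1) % t = 0 else (f.1.2.1 + 1) % t = 0) := by
  unfold Geo.refine
  simp only [Finset.mem_filter, Finset.mem_univ, true_and]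

theorem ess_nd_up1_succ {k t : ℕ} {i i' : Fin (t * k)} (h : i.1 + 1 = i'.1) (hm : (i.1 + 1) % t = 0) :
    (Geo.up1 t i).1 + 1 = (Geo.up1 t i').1 := by
  show i.1 / t + 1 = i'.1 / t
  rw [← h, Nat.succ_div, if_pos (Nat.dvd_of_mod_eq_zero hm)]

theorem ess_nd_up1_same {k t : ℕ} {i i' : Fin (t * k)} (h : i.1 + 1 = i'.1) (hm : (i.1 + 1) % t ≠ 0) :
    Geo.up1 t i' = Geo.up1 t i := by
  apply Fin.ext
  show i'.1 / t = i.1 / t
  rw [← h, Nat.succ_div, if_neg fun hd => hm (Nat.mod_eq_zero_of_dvd hd), add_zero]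

theorem ess_nd_adj_symm {m₁ m₂ : ℕ} (Γ : CGeom m₁ m₂) {κ κ' : Fin m₁ × Fin m₂} (h : Γ.Adj κ κ') : Γ.Adj κ' κ := by
  obtain ⟨h1, h2, h3⟩ := h
  refine ⟨h2, h1, ?_⟩
  rcases h3 with h | h | h | h
  · exact Or.inr (Or.inr (Or.inl ⟨h.1, h.2.1.symm, h.2.2⟩))
  · exact Or.inr (Or.inr (Or.inr ⟨h.1.symm, h.2.1, h.2.2⟩))
  · exact Or.inl ⟨h.1, h.2.1.symm, h.2.2⟩
  · exact Or.inr (Or.inl ⟨h.1.symm, h.2.1, h.2.2⟩)

theorem ess_nd_conn_symm {m₁ m₂ : ℕ} (Γ : CGeom m₁ m₂) {κ κ' : Fin m₁ × Fin m₂} (h : Γ.Conn κ κ') : Γ.Conn κ' κ := by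
  induction h with
  | refl => exact Relation.ReflTransGen.refl
  | tail _ hbc ih => exact Relation.ReflTransGen.head (ess_nd_adj_symm Γ hbc) ih

/-- one half of the projection of `Adj` -/
theorem ess_nd_adj_up_aux {m₁ m₂ : ℕ} (Γ : CGeom m₁ m₂) (t : ℕ) {κ κ' : Fin (t * m₁) × Fin (t * m₂)}
    (hκ : Geo.up t κ ∈ Γ.T) (hκ' : Geo.up t κ' ∈ Γ.T)
    (h : (κ.1.1 + 1 = κ'.1.1 ∧ κ.2 = κ'.2 ∧ (κ, true) ∉ (Geo.refine Γ t).cutF) ∨
      (κ.1 = κ'.1 ∧ κ.2.1 + 1 = κ'.2.1 ∧ (κ, false) ∉ (Geo.refine Γ t).cutF)) :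
    Geo.up t κ = Geo.up t κ' ∨ Γ.Adj (Geo.up t κ) (Geo.up t κ') := by
  rcases h with ⟨h1, h2, h3⟩ | ⟨h1, h2, h3⟩
  · by_cases hm : (κ.1.1 + 1) % t = 0
    · refine Or.inr ⟨hκ, hκ', Or.inl ⟨ess_nd_up1_succ h1 hm, congrArg (Geo.up1 t) h2, fun hc => h3 ?_⟩⟩
      exact (ess_nd_mem_cutF Γ t _).2 ⟨hc, hm⟩
    · exact Or.inl (Prod.ext (ess_nd_up1_same h1 hm).symm (congrArg (Geo.up1 t) h2))
  · by_cases hm : (κ.2.1 + 1) % t = 0
    · refine Or.inr ⟨hκ, hκ', Or.inr (Or.inl ⟨congrArg (Geo.up1 t) h1, ess_nd_up1_succ h2 hm, fun hc => h3 ?_⟩)⟩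
      exact (ess_nd_mem_cutF Γ t _).2 ⟨hc, hm⟩
    · exact Or.inl (Prod.ext (congrArg (Geo.up1 t) h1) (ess_nd_up1_same h2 hm).symm)

theorem ess_nd_adj_up {m₁ m₂ : ℕ} (Γ : CGeom m₁ m₂) (t : ℕ) {κ κ' : Fin (t * m₁) × Fin (t * m₂)}
    (h : (Geo.refine Γ t).Adj κ κ') : Geo.up t κ = Geo.up t κ' ∨ Γ.Adj (Geo.up t κ) (Geo.up t κ') := by
  obtain ⟨h1, h2, h3⟩ := h
  rw [ess_nd_mem_T] at h1 h2
  rcases h3 with h | h | h | h
  · exact ess_nd_adj_up_aux Γ t h1 h2 (Or.inl h)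
  · exact ess_nd_adj_up_aux Γ t h1 h2 (Or.inr h)
  · exact (ess_nd_adj_up_aux Γ t h2 h1 (Or.inl ⟨h.1, h.2.1.symm, h.2.2⟩)).imp Eq.symm (ess_nd_adj_symm Γ)
  · exact (ess_nd_adj_up_aux Γ t h2 h1 (Or.inr ⟨h.1.symm, h.2.1, h.2.2⟩)).imp Eq.symm (ess_nd_adj_symm Γ)

theorem ess_nd_conn_up {m₁ m₂ : ℕ} (Γ : CGeom m₁ m₂) (t : ℕ) {κ κ' : Fin (t * m₁) × Fin (t * m₂)}
    (h : (Geo.refine Γ t).Conn κ κ') : Γ.Conn (Geo.up t κ) (Geo.up t κ') := by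
  induction h with
  | refl => exact Relation.ReflTransGen.refl
  | tail _ hbc ih =>
    rcases ess_nd_adj_up Γ t hbc with h | h
    · rw [← h]; exact ih
    · exact ih.tail h

theorem ess_nd_not_cut_true {m₁ m₂ : ℕ} (Γ : CGeom m₁ m₂) (t : ℕ) (κ : Fin (t * m₁) × Fin (t * m₂))
    (h : (κ.1.1 + 1) % t ≠ 0 ∨ (Geo.up t κ, true) ∉ Γ.cutF) : (κ, true) ∉ (Geo.refine Γ t).cutF := fun hc =>
  h.elim (fun h => h ((ess_nd_mem_cutF Γ t _).1 hc).2) fun h => h ((ess_nd_mem_cutF Γ t _).1 hc).1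

theorem ess_nd_not_cut_false {m₁ m₂ : ℕ} (Γ : CGeom m₁ m₂) (t : ℕ) (κ : Fin (t * m₁) × Fin (t * m₂))
    (h : (κ.2.1 + 1) % t ≠ 0 ∨ (Geo.up t κ, false) ∉ Γ.cutF) : (κ, false) ∉ (Geo.refine Γ t).cutF := fun hc =>
  h.elim (fun h => h ((ess_nd_mem_cutF Γ t _).1 hc).2) fun h => h ((ess_nd_mem_cutF Γ t _).1 hc).1

/-- L-ES-SOFT-ND -/
theorem ess_refine_noDiag {m₁ m₂ : ℕ} (Γ : CGeom m₁ m₂) (t : ℕ) (ht : 1 ≤ t) (hΓ : Γ.NoDiag) : (Geo.refine Γ t).NoDiag := by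
  refine ⟨fun κ κ' hκ hκ' h hconn => ?_, fun i j i' j' hi hj => ⟨fun hconn h1 h2 => ?_, fun hconn h1 h2 => ?_⟩⟩
  · rw [ess_nd_mem_T] at hκ hκ'
    refine hΓ.1 _ _ hκ hκ' ?_ (ess_nd_conn_up Γ t hconn)
    rcases h with ⟨h1, h2, h3⟩ | ⟨h1, h2, h3⟩
    · have h4 := (ess_nd_mem_cutF Γ t _).1 h3
      exact Or.inl ⟨ess_nd_up1_succ h1 h4.2, congrArg (Geo.up1 t) h2, h4.1⟩
    · have h4 := (ess_nd_mem_cutF Γ t _).1 h3
      exact Or.inr ⟨congrArg (Geo.up1 t) h1, ess_nd_up1_succ h2 h4.2, h4.1⟩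
  · have hc := ess_nd_conn_up Γ t hconn
    rw [ess_nd_mem_T] at h1 h2
    simp only [ess_nd_mem_T]
    have e : ∀ (a : Fin (t * m₁)) (b : Fin (t * m₂)), Geo.up t (a, b) = (Geo.up1 t a, Geo.up1 t b) := fun _ _ => rfl
    simp only [e] at hc h1 h2 ⊢
    by_cases hmi : (i.1 + 1) % t = 0 <;> by_cases hmj : (j.1 + 1) % t = 0
    · rcases (hΓ.2 _ _ _ _ (ess_nd_up1_succ hi hmi) (ess_nd_up1_succ hj hmj)).1 hc h1 h2 with h | h
      · exact Or.inl ⟨h.1, ess_nd_not_cut_true Γ t _ (Or.inr h.2.1), ess_nd_not_cut_false Γ t _ (Or.inr h.2.2)⟩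
      · exact Or.inr ⟨h.1, ess_nd_not_cut_false Γ t _ (Or.inr h.2.1), ess_nd_not_cut_true Γ t _ (Or.inr h.2.2)⟩
    · rw [ess_nd_up1_same hj hmj] at hc h2
      refine Or.inl ⟨h2, ess_nd_not_cut_true Γ t _ (Or.inr fun hcut => ?_), ess_nd_not_cut_false Γ t _ (Or.inl hmj)⟩
      exact hΓ.1 _ _ h1 h2 (Or.inl ⟨ess_nd_up1_succ hi hmi, rfl, hcut⟩) hc
    · rw [ess_nd_up1_same hi hmi] at hc h2
      refine Or.inr ⟨h2, ess_nd_not_cut_false Γ t _ (Or.inr fun hcut => ?_), ess_nd_not_cut_true Γ t _ (Or.inl hmi)⟩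
      exact hΓ.1 _ _ h1 h2 (Or.inr ⟨rfl, ess_nd_up1_succ hj hmj, hcut⟩) hc
    · rw [ess_nd_up1_same hi hmi]
      exact Or.inl ⟨h1, ess_nd_not_cut_true Γ t _ (Or.inl hmi), ess_nd_not_cut_false Γ t _ (Or.inl hmj)⟩
  · have hc := ess_nd_conn_up Γ t hconn
    rw [ess_nd_mem_T] at h1 h2
    simp only [ess_nd_mem_T]
    have e : ∀ (a : Fin (t * m₁)) (b : Fin (t * m₂)), Geo.up t (a, b) = (Geo.up1 t a, Geo.up1 t b) := fun _ _ => rfl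
    simp only [e] at hc h1 h2 ⊢
    by_cases hmi : (i.1 + 1) % t = 0 <;> by_cases hmj : (j.1 + 1) % t = 0
    · rcases (hΓ.2 _ _ _ _ (ess_nd_up1_succ hi hmi) (ess_nd_up1_succ hj hmj)).2 hc h1 h2 with h | h
      · exact Or.inl ⟨h.1, ess_nd_not_cut_true Γ t _ (Or.inr h.2.1), ess_nd_not_cut_false Γ t _ (Or.inr h.2.2)⟩
      · exact Or.inr ⟨h.1, ess_nd_not_cut_false Γ t _ (Or.inr h.2.1), ess_nd_not_cut_true Γ t _ (Or.inr h.2.2)⟩
    · rw [ess_nd_up1_same hj hmj] at hc h2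
      refine Or.inl ⟨h2, ess_nd_not_cut_true Γ t _ (Or.inr fun hcut => ?_), ess_nd_not_cut_false Γ t _ (Or.inl hmj)⟩
      exact hΓ.1 _ _ h2 h1 (Or.inl ⟨ess_nd_up1_succ hi hmi, rfl, hcut⟩) (ess_nd_conn_symm Γ hc)
    · rw [ess_nd_up1_same hi hmi] at hc h1
      refine Or.inl ⟨h1, ess_nd_not_cut_true Γ t _ (Or.inl hmi), ess_nd_not_cut_false Γ t _ (Or.inr fun hcut => ?_)⟩
      exact hΓ.1 _ _ h1 h2 (Or.inr ⟨rfl, ess_nd_up1_succ hj hmj, hcut⟩) hc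
    · rw [ess_nd_up1_same hi hmi] at h1
      exact Or.inl ⟨h1, ess_nd_not_cut_true Γ t _ (Or.inl hmi), ess_nd_not_cut_false Γ t _ (Or.inl hmj)⟩

end Claimed.Agent.R285.C5
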