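import Claimed.Agent.R285.C5.EsDefs

/-!
# ROW 285, [C] s5.3, package ES-SOFT, the small geometry leaves on `Geo.refine`      (architect helper60)

PAPER-FREE: arithmetic of `i / t` on `Fin (t * m)`.   `up t κ = (κ.1 / t, κ.2 / t)`.
-/

set_option autoImplicit false

namespace Claimed.Agent.R285.C5

open scoped BigOperators
open Claimed.Agent.R285 Claimed.Agent.R285.Entry

variable {m₁ m₂ : ℕ}

/-- L-ES-SOFT-G1: restoring the fine faces under `F` = refining the restored geometry -/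
theorem ess_uncut_refine (Γ : CGeom m₁ m₂) (F : Finset (C3.Cell m₁ m₂ × Bool)) (t : ℕ) :
    C3.uncut (Geo.refine Γ t) (esUpF t F) = Geo.refine (C3.uncut Γ F) t := by
  have hc : (Geo.refine Γ t).cutF \ esUpF t F = (Geo.refine (C3.uncut Γ F) t).cutF := by
    ext f
    simp only [Geo.refine, esUpF, C3.uncut, Finset.mem_sdiff, Finset.mem_filter, Finset.mem_univ, true_and]
    tauto
  show ({ Geo.refine Γ t with cutF := (Geo.refine Γ t).cutF \ esUpF t F } : CGeom _ _) = _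
  rw [hc]
  rfl

theorem ess_div_lt {t a b : ℕ} (ht : 1 ≤ t) (h : a / t + 1 < b / t) : a + 1 < b := by
  have e1 := Nat.div_add_mod a t
  have e2 := Nat.div_add_mod b t
  have l1 := Nat.mod_lt a (show 0 < t by omega)
  have h2 : t * (a / t + 2) ≤ t * (b / t) := Nat.mul_le_mul_left _ h
  rw [Nat.mul_add] at h2
  omega

theorem ess_mem_esUp {t : ℕ} {A : Finset (C3.Cell m₁ m₂)} {κ : C3.Cell (t * m₁) (t * m₂)} : κ ∈ esUp t A ↔ Geo.up t κ ∈ A := by
  simp [esUp]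

/-- L-ES-SOFT-G2: one full observation cell between the two sets is at least one full subcell -/
theorem ess_sep (t : ℕ) (ht : 1 ≤ t) {A p : Finset (C3.Cell m₁ m₂)} (h : C3.Sep A p) : C3.Sep (esUp t A) (esUp t p) := by
  intro κ hκ κ' hκ'
  rcases h _ (ess_mem_esUp.1 hκ) _ (ess_mem_esUp.1 hκ') with q | q | q | q
  · exact Or.inl (ess_div_lt ht q)
  · exact Or.inr (Or.inl (ess_div_lt ht q))
  · exact Or.inr (Or.inr (Or.inl (ess_div_lt ht q)))
  · exact Or.inr (Or.inr (Or.inr (ess_div_lt ht q)))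

theorem ess_succ_div {t i : ℕ} (h : (i + 1) % t = 0) : i / t + 1 = (i + 1) / t := by
  rw [Nat.succ_div, if_pos (Nat.dvd_of_mod_eq_zero h)]

/-- L-ES-SOFT-G3: both subcells of a fine face under `F` lie under `H` -/
theorem ess_faceIn (t : ℕ) (ht : 1 ≤ t) {F : Finset (C3.Cell m₁ m₂ × Bool)} {H : Finset (C3.Cell m₁ m₂)} (h : ∀ f ∈ F, C3.FaceIn H f) :
    ∀ f ∈ esUpF t F, C3.FaceIn (esUp t H) f := by
  intro f hf
  obtain ⟨hf1, hf2⟩ := (Finset.mem_filter.1 hf).2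
  obtain ⟨g1, g2⟩ := h _ hf1
  refine ⟨ess_mem_esUp.2 g1, fun κ' hκ' => ess_mem_esUp.2 (g2 _ ?_)⟩
  rcases hκ' with ⟨e1, e2, e3⟩ | ⟨e1, e2, e3⟩
  · left
    rw [e1, if_pos rfl] at hf2
    refine ⟨e1, ?_, ?_⟩
    · show f.1.1.1 / t + 1 = κ'.1.1 / t
      rw [← e2]
      exact ess_succ_div hf2
    · show Geo.up1 t f.1.2 = Geo.up1 t κ'.2
      rw [e3]
  · right
    rw [e1, if_neg (by simp)] at hf2
    refine ⟨e1, ?_, ?_⟩
    · show Geo.up1 t f.1.1 = Geo.up1 t κ'.1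
      rw [e2]
    · show f.1.2.1 / t + 1 = κ'.2.1 / t
      rw [← e3]
      exact ess_succ_div hf2

/-- L-ES-SOFT-G4: the averaged bonds which appear when `F` is restored pass through the fine faces under `F` -/
theorem ess_soft_new (Γ : CGeom m₁ m₂) (F : Finset (C3.Cell m₁ m₂ × Bool)) (t : ℕ) :
    ∀ f ∈ esSoft (Geo.refine (C3.uncut Γ F) t) \ esSoft (Geo.refine Γ t), f ∈ esUpF t F := by
  classical
  intro f hf
  obtain ⟨h1, h2⟩ := Finset.mem_sdiff.1 hf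
  obtain ⟨a1, a2, a3⟩ := (Finset.mem_filter.1 h1).2
  have h3 : f ∈ (Geo.refine Γ t).cutF := by
    by_contra hn
    exact h2 (Finset.mem_filter.2 ⟨Finset.mem_univ _, a1, hn, a3⟩)
  obtain ⟨b1, b2⟩ := (Finset.mem_filter.1 h3).2
  refine Finset.mem_filter.2 ⟨Finset.mem_univ _, ?_, b2⟩
  by_contra hn
  exact a2 (Finset.mem_filter.2 ⟨Finset.mem_univ _, Finset.mem_sdiff.2 ⟨b1, hn⟩, b2⟩)

/-- L-ES-SOFT-G5: the row of a face vanishes off its two cells -/
theorem ess_softRow_off {n₁ n₂ : ℕ} (w : ℝ) {A : Finset (C3.Cell n₁ n₂)} {f : C3.Cell n₁ n₂ × Bool} (hf : C3.FaceIn A f)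
    {κ : C3.Cell n₁ n₂} (hκ : κ ∉ A) : esSoftRow w f κ = 0 := by
  classical
  unfold esSoftRow
  have h1 : ¬ egWnb f κ := fun h => hκ (hf.2 κ h)
  have h2 : κ ≠ f.1 := fun h => hκ (h ▸ hf.1)
  rw [if_neg h1, if_neg h2]
  ring

end Claimed.Agent.R285.C5
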