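import Claimed.Agent.R285.C5.EsWinDefs
import Claimed.Agent.R285.C5.EsSoftGeo

/-!
# ROW 285, [C] s5.3, package ES-WIN, leaf L-ES-WIN-ROWS: the enumerations of the rows of `esRow`, `esRowU`; the two refinements      (architect helper60)

PAPER-FREE plumbing: `Fin.addCases`, `finSumFinEquiv`, `Finset.equivFin`.
-/

set_option autoImplicit false

namespace Claimed.Agent.R285.C5

open scoped BigOperators
open Claimed.Agent.R285 Claimed.Agent.R285.RG Claimed.Agent.R285.F4a Claimed.Agent.R285.Entry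

variable {m₁ m₂ : ℕ}

/-- `Fin.addCases` on `o`; `finSumFinEquiv_symm_apply_castAdd`, `finSumFinEquiv_symm_apply_natAdd`, `Fin.addCases_left`, `Fin.addCases_right` -/
theorem esw_row_e (Γ : CGeom m₁ m₂) (t : ℕ) (δ : ℝ) (o : Fin (Γ.T.card + (esSoft (Geo.refine Γ t)).card)) :
    esRow Γ t δ o = Sum.elim (esRow0 Γ t) (fun f => esSoftRow (Real.sqrt δ) f.1) (eswE Γ t o) := by
  induction o using Fin.addCases with
  | left i =>
    simp only [esRow, eswE, Fin.addCases_left, Equiv.trans_apply, finSumFinEquiv_symm_apply_castAdd,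
      Equiv.sumCongr_apply, Sum.map_inl, Sum.elim_inl, Equiv.refl_apply]
  | right j =>
    simp only [esRow, eswE, Fin.addCases_right, Equiv.trans_apply, finSumFinEquiv_symm_apply_natAdd,
      Equiv.sumCongr_apply, Sum.map_inr, Sum.elim_inr]

/-- the same computation -/
theorem esw_cen_e (Γ : CGeom m₁ m₂) (t : ℕ) (z : C3.Cell m₁ m₂ → ℝ) : eswCen (eswE Γ t) (egCen Γ z) = esCen Γ t z := by
  funext o
  induction o using Fin.addCases with
  | left i =>
    simp only [eswCen, esCen, eswE, Fin.addCases_left, Equiv.trans_apply, finSumFinEquiv_symm_apply_castAdd,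
      Equiv.sumCongr_apply, Sum.map_inl, Sum.elim_inl, Equiv.refl_apply]
  | right j =>
    simp only [eswCen, esCen, eswE, Fin.addCases_right, Equiv.trans_apply, finSumFinEquiv_symm_apply_natAdd,
      Equiv.sumCongr_apply, Sum.map_inr, Sum.elim_inr]

/-- a finset is the disjoint sum of a subset and of its complement -/
theorem esw_split_equiv {α : Type} [DecidableEq α] {A B : Finset α} (h : A ⊆ B) :
    ∃ g : {f // f ∈ A} ⊕ {f // f ∈ B \ A} ≃ {f // f ∈ B}, ∀ x, (g x).1 = Sum.elim (fun f => f.1) (fun f => f.1) x := by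
  let g0 : {f // f ∈ A} ⊕ {f // f ∈ B \ A} → {f // f ∈ B} :=
    Sum.elim (fun f => ⟨f.1, h f.2⟩) (fun f => ⟨f.1, (Finset.mem_sdiff.1 f.2).1⟩)
  have hb : Function.Bijective g0 := by
    constructor
    · rintro (⟨x, hx⟩ | ⟨x, hx⟩) (⟨y, hy⟩ | ⟨y, hy⟩) hxy
      · have : x = y := congrArg Subtype.val hxy
        subst this
        rfl
      · have : x = y := congrArg Subtype.val hxy
        subst this
        exact absurd hx (Finset.mem_sdiff.1 hy).2
      · have : x = y := congrArg Subtype.val hxy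
        subst this
        exact absurd hy (Finset.mem_sdiff.1 hx).2
      · have : x = y := congrArg Subtype.val hxy
        subst this
        rfl
    · rintro ⟨y, hy⟩
      by_cases hA : y ∈ A
      · exact ⟨Sum.inl ⟨y, hA⟩, rfl⟩
      · exact ⟨Sum.inr ⟨y, Finset.mem_sdiff.2 ⟨hy, hA⟩⟩, rfl⟩
  refine ⟨Equiv.ofBijective g0 hb, ?_⟩
  rintro (x | x) <;> rfl

/-- fewer removed faces: more averaged bonds -/
theorem esw_soft_mono (Γ : CGeom m₁ m₂) (F : Finset (C3.Cell m₁ m₂ × Bool)) (t : ℕ) :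
    esSoft (Geo.refine Γ t) ⊆ esSoft (Geo.refine (C3.uncut Γ F) t) := by
  intro f hf
  simp only [esSoft, Finset.mem_filter, Finset.mem_univ, true_and] at hf ⊢
  obtain ⟨h1, h2, κ', h3, h4⟩ := hf
  refine ⟨h1, fun h => h2 ?_, κ', h3, h4⟩
  simp only [Geo.refine, C3.uncut, Finset.mem_filter, Finset.mem_univ, true_and, Finset.mem_sdiff] at h ⊢
  exact ⟨h.1.1, h.2⟩

/-- the rows of the restored law.   `S_c = esSoft (refine Γ t) ⊆ S_o = esSoft (refine (uncut Γ F) t) = esSoft (uncut (refine Γ t) (esUpF t F))` (`ess_uncut_refine`; fewer removed faces), so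
`Fin ((N + |S_c|) + |S_o \ S_c|) ≃ (Fin N ⊕ S_c) ⊕ (S_o \ S_c) ≃ Fin N ⊕ S_o`. -/
theorem esw_rowU_e (Γ : CGeom m₁ m₂) (F : Finset (C3.Cell m₁ m₂ × Bool)) (t : ℕ) (δ : ℝ) :
    ∃ e : Fin ((Γ.T.card + (esSoft (Geo.refine Γ t)).card) + (esSoft (Geo.refine (C3.uncut Γ F) t) \ esSoft (Geo.refine Γ t)).card) ≃
        Fin Γ.T.card ⊕ {f // f ∈ esSoft (C3.uncut (Geo.refine Γ t) (esUpF t F))},
      ∀ o, esRowU Γ F t δ o = Sum.elim (esRow0 Γ t) (fun f => esSoftRow (Real.sqrt δ) f.1) (e o) := by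
  rw [ess_uncut_refine]
  obtain ⟨g, hg⟩ := esw_split_equiv (esw_soft_mono Γ F t)
  refine ⟨(finSumFinEquiv.symm.trans (Equiv.sumCongr (eswE Γ t)
    (esSoft (Geo.refine (C3.uncut Γ F) t) \ esSoft (Geo.refine Γ t)).equivFin.symm)).trans
    ((Equiv.sumAssoc _ _ _).trans (Equiv.sumCongr (Equiv.refl _) g)), ?_⟩
  intro o
  induction o using Fin.addCases with
  | left i =>
    simp only [esRowU, Fin.addCases_left, Equiv.trans_apply, finSumFinEquiv_symm_apply_castAdd,
      Equiv.sumCongr_apply, Sum.map_inl]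
    rw [esw_row_e]
    rcases eswE Γ t i with a | a
    · simp only [Equiv.sumAssoc_apply_inl_inl, Sum.map_inl, Sum.elim_inl, Equiv.refl_apply]
    · simp only [Equiv.sumAssoc_apply_inl_inr, Sum.map_inr, Sum.elim_inr, hg, Sum.elim_inl]
  | right j =>
    simp only [esRowU, Fin.addCases_right, Equiv.trans_apply, finSumFinEquiv_symm_apply_natAdd,
      Equiv.sumCongr_apply, Sum.map_inr, Equiv.sumAssoc_apply_inr, Sum.elim_inr, hg]

/-- `Finset.mem_filter` -/
theorem esw_ref_refine (Γ : CGeom m₁ m₂) (hp : Γ.pin = ∅) (t : ℕ) : EsRef t (Geo.refine Γ t) Γ := by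
  refine ⟨fun κ => ?_, fun f => ?_, ?_, hp⟩
  · simp only [Geo.refine, Finset.mem_filter, Finset.mem_univ, true_and]
  · simp only [Geo.refine, Finset.mem_filter, Finset.mem_univ, true_and]
  · simp only [Geo.refine, hp, Finset.notMem_empty, Finset.filter_false]

/-- `Finset.mem_sdiff`, `Finset.mem_filter`, `tauto` -/
theorem esw_ref_uncut (Γ : CGeom m₁ m₂) (hp : Γ.pin = ∅) (F : Finset (C3.Cell m₁ m₂ × Bool)) (t : ℕ) :
    EsRef t (C3.uncut (Geo.refine Γ t) (esUpF t F)) (C3.uncut Γ F) := by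
  refine ⟨fun κ => ?_, fun f => ?_, ?_, hp⟩
  · simp only [C3.uncut, Geo.refine, Finset.mem_filter, Finset.mem_univ, true_and]
  · simp only [C3.uncut, Geo.refine, esUpF, Finset.mem_sdiff, Finset.mem_filter, Finset.mem_univ, true_and]
    tauto
  · simp only [C3.uncut, Geo.refine, hp, Finset.notMem_empty, Finset.filter_false]

end Claimed.Agent.R285.C5
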