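import Claimed.Agent.R285.C5.EsWinAr

/-!
# ROW 285, [C] s5.3, package ES-WIN, leaf L-ES-WIN-SOFT: rows of averaged bonds = the strengthening `C5.str` by the cell map      (architect helper60)

PAPER-FREE, window side only, ONE geometry `Γ'` and one uniform grid of side `s`.   `eV`, `eE` are identities; only the index set of the rows changes.
PLAN.  `cz κ = ((κ.1 : ℤ), (κ.2 : ℤ))`.   Tools: `Entry.eg_win_mem_region`, `eg_win_mem_cell`, `eg_win_pos_mem`, `eg_win_cell_unique`, `eg_win_step_cell`, `eg_win_wnb_ne`, `eg_win_snd`, `eg_win_avgRow`, `eg_win_cell_card`; `esw_cell_div`.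
(1) `esw_soft_pairs`: `p ∈ cellPairs (eswCell Γ' s) ↔ ∃ f ∈ esSoft Γ', ∃ κ', egWnb f κ' ∧ p = (cz f.1, cz κ')`.
   (⇒) a bond `e = (x, d)` of the graph with ends in the cells `κ ≠ κ'` of `Γ'.T`: `egWnb (κ, d) κ'` (`eg_win_step_cell`), `(κ, d) ∉ Γ'.cutF` (else `e ∈ Γ'.cutB`).
   (⇐) the bond `((s (κ.1 + 1) - 1, s κ.2), true)` resp. `((s κ.1, s (κ.2 + 1) - 1), false)` joins the two cells and is not cut (`eg_win_cell_unique`).
(2) the second cell of a face is unique, `cz` is injective: bijection `{f // f ∈ esSoft Γ'} ≃ {p // p ∈ cellPairs ..}`;  `eO = e.trans (Equiv.sumCongr (Equiv.refl _) that)`.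
(3) `row`: `fibAvg (eswCell Γ' s) (cz κ) x = Γ'.avgRow g {κ} x` for `κ ∈ Γ'.T` (the fibre is the whole cell: `s²` sites);  `∑_κ'' esSoftRow w f κ'' * avgRow {κ''} x = w (avgRow {κ'} x - avgRow {f.1} x)`.
-/

set_option autoImplicit false

namespace Claimed.Agent.R285.C5

open scoped BigOperators
open Claimed.Agent.R285 Claimed.Agent.R285.RG Claimed.Agent.R285.F4a Claimed.Agent.R285.Entry

/-- a cell as a point of `ℤ²` -/
def eswSfCz {n₁ n₂ : ℕ} (κ : C3.Cell n₁ n₂) : ℤ × ℤ := (((κ.1 : ℕ) : ℤ), ((κ.2 : ℕ) : ℤ))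

theorem esw_sf_cz_inj {n₁ n₂ : ℕ} {κ κ' : C3.Cell n₁ n₂} (h : eswSfCz κ = eswSfCz κ') : κ = κ' := by
  unfold eswSfCz at h
  have h1 := congrArg Prod.fst h
  have h2 := congrArg Prod.snd h
  simp only at h1 h2
  exact Prod.ext (Fin.ext (by omega)) (Fin.ext (by omega))

theorem esw_sf_cell {n₁ n₂ : ℕ} (Γ' : CGeom n₁ n₂) (s : ℕ) (hs : 0 < s) (x : (Γ'.graph (egGr n₁ n₂ s)).V) (κ : C3.Cell n₁ n₂) :
    eswCell Γ' s x = eswSfCz κ ↔ egCellOf n₁ n₂ s (domPos x) κ := by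
  rw [esw_cell_div hs]
  unfold eswCell eswSfCz
  exact Prod.ext_iff

theorem esw_sf_ex {n₁ n₂ : ℕ} (Γ' : CGeom n₁ n₂) (s : ℕ) (hs : 0 < s) (x : (Γ'.graph (egGr n₁ n₂ s)).V) :
    ∃ κ ∈ Γ'.T, egCellOf n₁ n₂ s (domPos x) κ :=
  (eg_win_mem_region s hs Γ'.T _).1 (eg_win_pos_mem Γ' _ x)

theorem esw_sf_wnb_unique {n₁ n₂ : ℕ} {f : C3.Cell n₁ n₂ × Bool} {κ κ' : C3.Cell n₁ n₂} (h : egWnb f κ) (h' : egWnb f κ') : κ = κ' := by
  rcases h with ⟨a1, a2, a3⟩ | ⟨a1, a2, a3⟩ <;> rcases h' with ⟨b1, b2, b3⟩ | ⟨b1, b2, b3⟩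
  · exact Prod.ext (Fin.ext (by omega)) (a3.symm.trans b3)
  · rw [a1] at b1; cases b1
  · rw [a1] at b1; cases b1
  · exact Prod.ext (a2.symm.trans b2) (Fin.ext (by omega))

theorem esw_sf_wnb_dir {n₁ n₂ : ℕ} {κ κ' : C3.Cell n₁ n₂} {d d' : Bool} (h : egWnb (κ, d) κ') (h' : egWnb (κ, d') κ') : d = d' := by
  rcases h with ⟨a1, a2, a3⟩ | ⟨a1, a2, a3⟩ <;> rcases h' with ⟨b1, b2, b3⟩ | ⟨b1, b2, b3⟩
  · exact a1.trans b1.symm
  · simp only at a2 b2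
    rw [← b2] at a2
    omega
  · simp only at a2 b2
    rw [← a2] at b2
    omega
  · exact a1.trans b1.symm

theorem esw_sf_mem_soft {n₁ n₂ : ℕ} (Γ' : CGeom n₁ n₂) (f : C3.Cell n₁ n₂ × Bool) :
    f ∈ esSoft Γ' ↔ f.1 ∈ Γ'.T ∧ f ∉ Γ'.cutF ∧ ∃ κ' ∈ Γ'.T, egWnb f κ' := by
  unfold esSoft
  simp only [Finset.mem_filter, Finset.mem_univ, true_and]

/-- the crossing bond of a face -/
theorem esw_sf_bond {n₁ n₂ : ℕ} (s : ℕ) (hs : 0 < s) {f : C3.Cell n₁ n₂ × Bool} {κ' : C3.Cell n₁ n₂} (h : egWnb f κ') :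
    ∃ x : ℤ × ℤ, egCellOf n₁ n₂ s x f.1 ∧ egCellOf n₁ n₂ s (x + bdir f.2) κ' := by
  have hs' : (1 : ℤ) ≤ s := by exact_mod_cast hs
  obtain ⟨κ, d⟩ := f
  rcases h with ⟨a1, a2, a3⟩ | ⟨a1, a2, a3⟩
  · simp only at a1 a2 a3
    subst a1
    refine ⟨((s : ℤ) * ((κ.1 : ℕ) + 1) - 1, (s : ℤ) * (κ.2 : ℕ)), ?_, ?_⟩
    · refine ⟨?_, ?_, ?_, ?_⟩ <;> simp only <;> nlinarith
    · have e1 : ((κ'.1 : ℕ) : ℤ) = (κ.1 : ℕ) + 1 := by rw [← a2]; push_cast; ring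
      refine ⟨?_, ?_, ?_, ?_⟩ <;> simp only [bdir, if_true, Prod.fst_add, Prod.snd_add, e1, ← a3] <;> nlinarith
  · simp only at a1 a2 a3
    subst a1
    refine ⟨((s : ℤ) * (κ.1 : ℕ), (s : ℤ) * ((κ.2 : ℕ) + 1) - 1), ?_, ?_⟩
    · refine ⟨?_, ?_, ?_, ?_⟩ <;> simp only <;> nlinarith
    · have e1 : ((κ'.2 : ℕ) : ℤ) = (κ.2 : ℕ) + 1 := by rw [← a3]; push_cast; ring
      refine ⟨?_, ?_, ?_, ?_⟩ <;> simp only [bdir, Bool.false_eq_true, if_false, Prod.fst_add, Prod.snd_add, e1, ← a2] <;> nlinarith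

theorem esw_sf_mem_bonds {D : Finset (ℤ × ℤ)} {cut : Set Bond} {e : Bond} : e ∈ domBonds D cut ↔ e.1 ∈ D ∧ e.snd ∈ D ∧ e ∉ cut := by
  unfold domBonds
  simp only [Finset.mem_filter, Finset.mem_product, Finset.mem_univ, and_true]

theorem esw_sf_mem_pairs {G : HGraph} {C : Type} (κ : G.V → C) (p : C × C) :
    p ∈ cellPairs κ ↔ (∃ e : G.E, (κ (G.src e), κ (G.tgt e)) = p) ∧ p.1 ≠ p.2 := by
  unfold cellPairs
  simp only [Finset.mem_filter, Finset.mem_image, Finset.mem_univ, true_and]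

theorem esw_soft_pairs {n₁ n₂ : ℕ} (Γ' : CGeom n₁ n₂) (s : ℕ) (hs : 0 < s) (p : (ℤ × ℤ) × (ℤ × ℤ)) :
    p ∈ cellPairs (eswCell Γ' s) ↔ ∃ f ∈ esSoft Γ', ∃ κ', egWnb f κ' ∧ p = (eswSfCz f.1, eswSfCz κ') := by
  rw [esw_sf_mem_pairs]
  constructor
  · rintro ⟨⟨e, rfl⟩, hne⟩
    simp only at hne
    obtain ⟨κ, hκ, hx⟩ := esw_sf_ex Γ' s hs ((Γ'.graph (egGr n₁ n₂ s)).src e)
    obtain ⟨κ', hκ', hx'⟩ := esw_sf_ex Γ' s hs ((Γ'.graph (egGr n₁ n₂ s)).tgt e)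
    have e1 := (esw_sf_cell Γ' s hs _ κ).2 hx
    have e2 := (esw_sf_cell Γ' s hs _ κ').2 hx'
    have hb : domBond e ∈ domBonds ((egGr n₁ n₂ s).region Γ'.T) (Γ'.cutB (egGr n₁ n₂ s)) :=
      Subtype.prop (p := fun e => e ∈ domBonds ((egGr n₁ n₂ s).region Γ'.T) (Γ'.cutB (egGr n₁ n₂ s))) e
    have hx1 : egCellOf n₁ n₂ s (domBond e).1 κ := hx
    have hx2 : egCellOf n₁ n₂ s ((domBond e).1 + bdir (domBond e).2) κ' := by
      rw [← eg_win_snd]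
      exact hx'
    have hκκ : κ' ≠ κ := by
      rintro rfl
      exact hne (e1.trans e2.symm)
    have hw : egWnb (κ, (domBond e).2) κ' := (eg_win_step_cell hx1 hx2).resolve_left hκκ
    refine ⟨(κ, (domBond e).2), (esw_sf_mem_soft Γ' _).2 ⟨hκ, fun hc => ?_, κ', hκ', hw⟩, κ', hw, by rw [e1, e2]⟩
    refine (esw_sf_mem_bonds.1 hb).2.2 ⟨_, hc, rfl, (eg_win_mem_cell s hs _ _).2 hx1, fun h3 => ?_⟩
    rw [eg_win_snd, eg_win_mem_cell s hs] at h3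
    exact hκκ (eg_win_cell_unique hx2 h3)
  · rintro ⟨f, hf, κ', hw, rfl⟩
    obtain ⟨hT, hc, κ'', hκ'', hw''⟩ := (esw_sf_mem_soft Γ' f).1 hf
    obtain rfl := esw_sf_wnb_unique hw hw''
    obtain ⟨x, hx, hx'⟩ := esw_sf_bond s hs hw
    have m1 : x ∈ (egGr n₁ n₂ s).region Γ'.T := (eg_win_mem_region s hs _ _).2 ⟨_, hT, hx⟩
    have m2 : Bond.snd (x, f.2) ∈ (egGr n₁ n₂ s).region Γ'.T := by
      rw [eg_win_snd]
      exact (eg_win_mem_region s hs _ _).2 ⟨_, hκ'', hx'⟩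
    have hb : ((x, f.2) : Bond) ∈ domBonds ((egGr n₁ n₂ s).region Γ'.T) (Γ'.cutB (egGr n₁ n₂ s)) := by
      refine esw_sf_mem_bonds.2 ⟨m1, m2, ?_⟩
      rintro ⟨f', hf', h1, h2, -⟩
      rw [eg_win_mem_cell s hs] at h2
      have : f' = f := Prod.ext (eg_win_cell_unique h2 hx) h1.symm
      exact hc (this ▸ hf')
    refine ⟨⟨(⟨(x, f.2), hb⟩ : {e : Bond // e ∈ domBonds ((egGr n₁ n₂ s).region Γ'.T) (Γ'.cutB (egGr n₁ n₂ s))}), ?_⟩, ?_⟩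
    · refine Prod.ext ?_ ?_
      · exact (esw_sf_cell Γ' s hs _ f.1).2 hx
      · refine (esw_sf_cell Γ' s hs _ κ').2 ?_
        show egCellOf n₁ n₂ s (Bond.snd (x, f.2)) κ'
        rw [eg_win_snd]
        exact hx'
    · simp only
      intro h
      exact eg_win_wnb_ne (κ := f.1) (d := f.2) hw (esw_sf_cz_inj h).symm

/-- the second cell of a face which carries an averaged bond -/
noncomputable def eswSfNb {n₁ n₂ : ℕ} (Γ' : CGeom n₁ n₂) (f : {f // f ∈ esSoft Γ'}) : C3.Cell n₁ n₂ :=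
  ((esw_sf_mem_soft Γ' f.1).1 f.2).2.2.choose

theorem esw_sf_nb_spec {n₁ n₂ : ℕ} (Γ' : CGeom n₁ n₂) (f : {f // f ∈ esSoft Γ'}) : eswSfNb Γ' f ∈ Γ'.T ∧ egWnb f.1 (eswSfNb Γ' f) :=
  ((esw_sf_mem_soft Γ' f.1).1 f.2).2.2.choose_spec

/-- faces with an averaged bond = pairs of cells joined by a retained bond -/
noncomputable def eswSfPairs {n₁ n₂ : ℕ} (Γ' : CGeom n₁ n₂) (s : ℕ) (hs : 0 < s) :
    {f // f ∈ esSoft Γ'} ≃ {p : (ℤ × ℤ) × (ℤ × ℤ) // p ∈ cellPairs (eswCell Γ' s)} :=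
  Equiv.ofBijective
    (fun f => ⟨(eswSfCz f.1.1, eswSfCz (eswSfNb Γ' f)), (esw_soft_pairs Γ' s hs _).2 ⟨f.1, f.2, _, (esw_sf_nb_spec Γ' f).2, rfl⟩⟩) (by
    constructor
    · intro f f' h
      have h0 := congrArg Subtype.val h
      simp only at h0
      have h1 : f.1.1 = f'.1.1 := esw_sf_cz_inj (congrArg Prod.fst h0)
      have h2 : eswSfNb Γ' f = eswSfNb Γ' f' := esw_sf_cz_inj (congrArg Prod.snd h0)
      have w1 : egWnb (f.1.1, f.1.2) (eswSfNb Γ' f) := (esw_sf_nb_spec Γ' f).2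
      have w2 : egWnb (f.1.1, f'.1.2) (eswSfNb Γ' f) := by
        rw [h1, h2]
        exact (esw_sf_nb_spec Γ' f').2
      exact Subtype.ext (Prod.ext h1 (esw_sf_wnb_dir w1 w2))
    · rintro ⟨p, hp⟩
      obtain ⟨f, hf, κ', hw, rfl⟩ := (esw_soft_pairs Γ' s hs p).1 hp
      refine ⟨⟨f, hf⟩, Subtype.ext ?_⟩
      simp only
      rw [esw_sf_wnb_unique hw (esw_sf_nb_spec Γ' ⟨f, hf⟩).2])

theorem esw_sf_pairs_val {n₁ n₂ : ℕ} (Γ' : CGeom n₁ n₂) (s : ℕ) (hs : 0 < s) (f : {f // f ∈ esSoft Γ'}) :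
    (eswSfPairs Γ' s hs f).1 = (eswSfCz f.1.1, eswSfCz (eswSfNb Γ' f)) := rfl

theorem esw_sf_fib_card {n₁ n₂ : ℕ} (Γ' : CGeom n₁ n₂) (s : ℕ) (hs : 0 < s) (κ : C3.Cell n₁ n₂) (hκ : κ ∈ Γ'.T)
    [DecidablePred fun w : (Γ'.graph (egGr n₁ n₂ s)).V => eswCell Γ' s w = eswSfCz κ] :
    (Finset.univ.filter fun w : (Γ'.graph (egGr n₁ n₂ s)).V => eswCell Γ' s w = eswSfCz κ).card = s ^ 2 := by
  rw [← eg_win_cell_card s hs κ]
  refine Finset.card_bij (fun w _ => domPos w) ?_ ?_ ?_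
  · intro w hw
    rw [eg_win_mem_cell s hs]
    exact (esw_sf_cell Γ' s hs w κ).1 (Finset.mem_filter.1 hw).2
  · intro a _ b _ h
    exact Subtype.ext h
  · intro y hy
    have hy' := (eg_win_mem_cell s hs y κ).1 hy
    have hr : y ∈ (egGr n₁ n₂ s).region Γ'.T := (eg_win_mem_region s hs _ _).2 ⟨κ, hκ, hy'⟩
    exact ⟨(⟨y, hr⟩ : {v : ℤ × ℤ // v ∈ (egGr n₁ n₂ s).region Γ'.T}),
      Finset.mem_filter.2 ⟨Finset.mem_univ _, (esw_sf_cell Γ' s hs _ κ).2 hy'⟩, rfl⟩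

theorem esw_sf_fibAvg {n₁ n₂ : ℕ} (Γ' : CGeom n₁ n₂) (s : ℕ) (hs : 0 < s) (κ : C3.Cell n₁ n₂) (hκ : κ ∈ Γ'.T)
    (x : (Γ'.graph (egGr n₁ n₂ s)).V) : fibAvg (eswCell Γ' s) (eswSfCz κ) x = Γ'.avgRow (egGr n₁ n₂ s) {κ} x := by
  rw [eg_win_avgRow s hs]
  unfold fibAvg
  by_cases h : egCellOf n₁ n₂ s (domPos x) κ
  · rw [if_pos h, if_pos ((esw_sf_cell Γ' s hs x κ).2 h), @esw_sf_fib_card _ _ Γ' s hs κ hκ (fun _ => Classical.propDecidable _)]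
    push_cast
    rfl
  · rw [if_neg h, if_neg fun h' => h ((esw_sf_cell Γ' s hs x κ).1 h')]

theorem esw_sf_row_sum {n₁ n₂ : ℕ} (Γ' : CGeom n₁ n₂) (w : ℝ) (f : {f // f ∈ esSoft Γ'}) (F : C3.Cell n₁ n₂ → ℝ) :
    ∑ κ, esSoftRow w f.1 κ * F κ = w * (F (eswSfNb Γ' f) - F f.1.1) := by
  have h : ∀ κ, esSoftRow w f.1 κ * F κ = w * ((if κ = eswSfNb Γ' f then F κ else 0) - (if κ = f.1.1 then F κ else 0)) := by
    intro κ
    unfold esSoftRow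
    have e1 : egWnb f.1 κ ↔ κ = eswSfNb Γ' f :=
      ⟨fun hw => esw_sf_wnb_unique hw (esw_sf_nb_spec Γ' f).2, fun hk => hk ▸ (esw_sf_nb_spec Γ' f).2⟩
    by_cases c1 : κ = eswSfNb Γ' f <;> by_cases c2 : κ = f.1.1
    · rw [if_pos (e1.2 c1), if_pos c2, if_pos c1, if_pos c2]; ring
    · rw [if_pos (e1.2 c1), if_neg c2, if_pos c1, if_neg c2]; ring
    · rw [if_neg (fun hw => c1 (e1.1 hw)), if_pos c2, if_neg c1, if_pos c2]; ring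
    · rw [if_neg (fun hw => c1 (e1.1 hw)), if_neg c2, if_neg c1, if_neg c2]; ring
  rw [Finset.sum_congr rfl fun κ _ => h κ, ← Finset.mul_sum, Finset.sum_sub_distrib, Finset.sum_ite_eq' , Finset.sum_ite_eq']
  simp

theorem esw_sf_eqns_cite : True := by
  have := @eswSfCz.eq_1
  have := @eswSfNb.eq_1
  have := @eswSfPairs.eq_1
  trivial

/-- L-ES-WIN-SOFT -/
theorem esw_soft_iso {n₁ n₂ N N' : ℕ} (Γ' : CGeom n₁ n₂) (s : ℕ) (hs : 0 < s) (w : ℝ) (row0 : Fin N → C3.Cell n₁ n₂ → ℝ)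
    (row : Fin N' → C3.Cell n₁ n₂ → ℝ) (e : Fin N' ≃ Fin N ⊕ {f // f ∈ esSoft Γ'})
    (he : ∀ o, row o = Sum.elim row0 (fun f => esSoftRow w f.1) (e o)) :
    ∃ i : HIso (C3.lawR Γ' (egGr n₁ n₂ s) row) (str (C3.lawR Γ' (egGr n₁ n₂ s) row0) (eswCell Γ' s) w),
      (∀ x, i.eV x = x) ∧ (∀ o o', e o = Sum.inl o' → i.eO o = Sum.inl o') ∧
      ∀ o f, e o = Sum.inr f → ∃ p : {p : (ℤ × ℤ) × (ℤ × ℤ) // p ∈ cellPairs (eswCell Γ' s)}, i.eO o = Sum.inr p := by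
  refine ⟨{ eV := Equiv.refl _
            eE := Equiv.refl _
            eO := e.trans (Equiv.sumCongr (Equiv.refl _) (eswSfPairs Γ' s hs))
            src := fun _ => rfl
            tgt := fun _ => rfl
            lam := fun _ => Iff.rfl
            row := ?_ }, fun _ => rfl, ?_, ?_⟩
  · intro o x
    show (str (C3.lawR Γ' (egGr n₁ n₂ s) row0) (eswCell Γ' s) w).B (Equiv.sumCongr (Equiv.refl _) (eswSfPairs Γ' s hs) (e o)) x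
      = ∑ κ, row o κ * Γ'.avgRow (egGr n₁ n₂ s) {κ} x
    rw [he o]
    rcases e o with o' | f
    · rfl
    · show w * (fibAvg (eswCell Γ' s) (eswSfPairs Γ' s hs f).1.2 x - fibAvg (eswCell Γ' s) (eswSfPairs Γ' s hs f).1.1 x)
        = ∑ κ, esSoftRow w f.1 κ * Γ'.avgRow (egGr n₁ n₂ s) {κ} x
      rw [esw_sf_pairs_val, esw_sf_row_sum Γ' w f fun κ => Γ'.avgRow (egGr n₁ n₂ s) {κ} x,
        esw_sf_fibAvg Γ' s hs _ (esw_sf_nb_spec Γ' f).1, esw_sf_fibAvg Γ' s hs _ ((esw_sf_mem_soft Γ' f.1).1 f.2).1]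
  · intro o o' h
    show Equiv.sumCongr (Equiv.refl _) (eswSfPairs Γ' s hs) (e o) = Sum.inl o'
    rw [h]
    rfl
  · intro o f h
    refine ⟨eswSfPairs Γ' s hs f, ?_⟩
    show Equiv.sumCongr (Equiv.refl _) (eswSfPairs Γ' s hs) (e o) = Sum.inr _
    rw [h]
    rfl

end Claimed.Agent.R285.C5
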