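import Claimed.Agent.R285.Entry.GoodGaGeo
import Claimed.Agent.R285.C5.EsWinSoft
import Claimed.Agent.R285.C5.EsWinRows
import Claimed.Agent.R285.C5.EsSoftND

/-!
# ROW 285, [C] s5.3, package ES-GA, file P (helper145): **THE PHYSICAL FORMS IN THE PLANE**; cuts, restored faces, open patches.   Paper-free.

`U = locExt Γ' g v : ℤ² → ℝ` = the field extended by zero;  `espA g U κ` = average of `U` over the subcell `κ`;  `espEn D cut U` = bond energy.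
* **A.** ANY geometry, ANY grid, ANY rows: `esp_form_plane : (lawR Γ' g row).form a v = a⁻¹ espEn .. U + ∑_o (∑_κ row o κ · espA g U κ)²`, `esp_pair_cellTest`.
* **B.** the rows of `esRow`, `esRowU`: `espRw Γ t δ α` (a function of the subcell averages `α`); **`espQ Γ t g δ a U`** = the physical form of the shape `Γ` in the plane, ANY grid `g` of subcells (`espLw Γ t g δ`, `espTest Γ t g y`; `esLw Γ t s0 δ = espLw Γ t (esGr ..) δ`, `esgLw = espLw`, `esgTest = espTest` by `rfl`):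
  `esp_lw_form`, `esp_lwU_form` (the restored law of `esWG` has the form of the shape `uncut Γ F`).
* **C.** fine faces: `esp_face_wall`; comparison of shapes in the plane: `esp_Q_cut` (more cuts = fewer bonds and averaged bonds), `esp_Q_patch` (open patch = box cut along the wall `espW O`, fields vanishing off `O`).
* **D.** laws: `esp_form_le`, `esp_form_eq_of_off`, `esp_form_res`, `esp_test_res`, exit **`esp_patch_gVar`**.
-/

set_option autoImplicit false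

namespace Claimed.Agent.R285.C5

open scoped BigOperators Classical
open Claimed.Agent.R285 Claimed.Agent.R285.Entry Claimed.Agent.R285.Pot Claimed.Agent.R285.Sec

noncomputable section

/-! ## A. any geometry, any grid, any rows -/

section gen

variable {n₁ n₂ : ℕ} (Γ' : CGeom n₁ n₂) (g : DGrid n₁ n₂)

/-- the average of a function on the plane over a cell -/
def espA (U : ℤ × ℤ → ℝ) (κ : C3.Cell n₁ n₂) : ℝ := ((g.cell κ).card : ℝ)⁻¹ * ∑ p ∈ g.cell κ, U p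

/-- the bond energy of a function on the plane -/
def espEn (D : Finset (ℤ × ℤ)) (cut : Set Bond) (U : ℤ × ℤ → ℝ) : ℝ := ∑ e ∈ domBonds D cut, (U e.snd - U e.1) ^ 2

theorem esp_gen_eqns_cite : True := by
  have := @espA.eq_1; have := @espEn.eq_1; trivial

theorem esp_ext_off (v : (Γ'.graph g).V → ℝ) {p : ℤ × ℤ} (hp : p ∉ g.region Γ'.T) : locExt Γ' g v p = 0 := by
  unfold locExt
  rw [dif_neg hp]

theorem esp_ext_absent (v : (Γ'.graph g).V → ℝ) {κ : C3.Cell n₁ n₂} (hκ : κ ∉ Γ'.T) {p : ℤ × ℤ} (hp : p ∈ g.cell κ) : locExt Γ' g v p = 0 := by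
  refine esp_ext_off Γ' g v fun h => ?_
  obtain ⟨κ', hκ', hp'⟩ := Finset.mem_biUnion.1 h
  exact hκ (geo_cell_unique g hp hp' ▸ hκ')

/-- the average over a subcell, in the plane (present or absent) -/
theorem esp_pair_avg (κ : C3.Cell n₁ n₂) (v : (Γ'.graph g).V → ℝ) : ∑ x, Γ'.avgRow g {κ} x * v x = espA g (locExt Γ' g v) κ := by
  by_cases hκ : κ ∈ Γ'.T
  · exact ega_g0_pair Γ' hκ g v
  · rw [ega_avgRow_absent Γ' g hκ]
    unfold espA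
    rw [Finset.sum_eq_zero fun p hp => esp_ext_absent Γ' g v hκ hp]
    simp

theorem esp_obs {N : ℕ} (row : Fin N → C3.Cell n₁ n₂ → ℝ) (o : Fin N) (v : (Γ'.graph g).V → ℝ) :
    (C3.lawR Γ' g row).obs v o = ∑ κ, row o κ * espA g (locExt Γ' g v) κ := by
  show ∑ x, (∑ κ, row o κ * Γ'.avgRow g {κ} x) * v x = _
  simp only [Finset.sum_mul]
  rw [Finset.sum_comm]
  refine Finset.sum_congr rfl fun κ _ => ?_
  rw [← esp_pair_avg, Finset.mul_sum]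
  refine Finset.sum_congr rfl fun x _ => ?_
  ring

theorem esp_en (v : (Γ'.graph g).V → ℝ) : HLaw.en v 0 = espEn (g.region Γ'.T) (Γ'.cutB g) (locExt Γ' g v) := by
  unfold espEn
  rw [← loc_sum_E Γ' g fun e => (locExt Γ' g v e.snd - locExt Γ' g v e.1) ^ 2]
  unfold HLaw.en
  refine Finset.sum_congr rfl fun e _ => ?_
  rw [← loc_pos_src, ← loc_pos_tgt, loc_ext_pos, loc_ext_pos]
  simp

/-- **the form of a law with general rows, in the plane** -/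
theorem esp_form_plane {N : ℕ} (row : Fin N → C3.Cell n₁ n₂ → ℝ) (a : ℝ) (v : (Γ'.graph g).V → ℝ) :
    (C3.lawR Γ' g row).form a v = a⁻¹ * espEn (g.region Γ'.T) (Γ'.cutB g) (locExt Γ' g v)
      + ∑ o, (∑ κ, row o κ * espA g (locExt Γ' g v) κ) ^ 2 := by
  unfold HLaw.form
  rw [esp_en]
  congr 1
  exact Finset.sum_congr rfl fun (o : Fin N) _ => congrArg (· ^ 2) (esp_obs Γ' g row o v)

theorem esp_pair_cellTest (tst : C3.Cell n₁ n₂ → ℝ) (v : (Γ'.graph g).V → ℝ) :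
    HLaw.pair (Γ'.cellTest g tst) v = ∑ κ, tst κ * espA g (locExt Γ' g v) κ := by
  unfold HLaw.pair CGeom.cellTest
  simp only [Finset.sum_mul]
  rw [Finset.sum_comm]
  refine Finset.sum_congr rfl fun κ _ => ?_
  rw [← esp_pair_avg, Finset.mul_sum]
  refine Finset.sum_congr rfl fun x _ => ?_
  ring

/-- averages of functions which vanish on the cell -/
theorem esp_A_zero {U : ℤ × ℤ → ℝ} {κ : C3.Cell n₁ n₂} (h : ∀ p ∈ g.cell κ, U p = 0) : espA g U κ = 0 := by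
  unfold espA
  rw [Finset.sum_eq_zero h, mul_zero]

end gen

/-! ## B. the rows of the physical laws -/

section rows

variable {m₁ m₂ : ℕ}

/-- the row part of the physical form of the shape `Γ`, as a function of the subcell averages -/
def espRw (Γ : CGeom m₁ m₂) (t : ℕ) (δ : ℝ) (α : C3.Cell (t * m₁) (t * m₂) → ℝ) : ℝ :=
  ∑ K ∈ Γ.T, (∑ κ, (if Geo.up t κ = K then ((t : ℝ) ^ 2)⁻¹ else 0) * α κ) ^ 2
    + ∑ f ∈ esSoft (Geo.refine Γ t), (∑ κ, esSoftRow (Real.sqrt δ) f κ * α κ) ^ 2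

theorem espRw_eqns_cite : True := by have := @espRw.eq_1; trivial

theorem esp_sum_equivFin {α : Type} [DecidableEq α] (A : Finset α) (F : α → ℝ) : ∑ o : Fin A.card, F (A.equivFin.symm o).1 = ∑ x ∈ A, F x := by
  rw [Equiv.sum_comp A.equivFin.symm (fun x : A => F x.1), Finset.sum_coe_sort A F]

theorem esp_rows (Γ : CGeom m₁ m₂) (t : ℕ) (δ : ℝ) (α : C3.Cell (t * m₁) (t * m₂) → ℝ) :
    ∑ o, (∑ κ, esRow Γ t δ o κ * α κ) ^ 2 = espRw Γ t δ α := by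
  unfold espRw esRow
  rw [Fin.sum_univ_add]
  simp only [Fin.addCases_left, Fin.addCases_right]
  congr 1
  · exact esp_sum_equivFin Γ.T fun K => (∑ κ, (if Geo.up t κ = K then ((t : ℝ) ^ 2)⁻¹ else 0) * α κ) ^ 2
  · exact esp_sum_equivFin (esSoft (Geo.refine Γ t)) fun f => (∑ κ, esSoftRow (Real.sqrt δ) f κ * α κ) ^ 2

theorem esp_rowsU (Γ : CGeom m₁ m₂) (F : Finset (C3.Cell m₁ m₂ × Bool)) (t : ℕ) (δ : ℝ) (α : C3.Cell (t * m₁) (t * m₂) → ℝ) :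
    ∑ o, (∑ κ, esRowU Γ F t δ o κ * α κ) ^ 2 = espRw (C3.uncut Γ F) t δ α := by
  unfold esRowU
  rw [Fin.sum_univ_add]
  simp only [Fin.addCases_left, Fin.addCases_right]
  rw [esp_rows, esp_sum_equivFin (esSoft (Geo.refine (C3.uncut Γ F) t) \ esSoft (Geo.refine Γ t))
    fun f => (∑ κ, esSoftRow (Real.sqrt δ) f κ * α κ) ^ 2]
  unfold espRw
  rw [add_assoc, add_comm (∑ f ∈ esSoft (Geo.refine Γ t), _), Finset.sum_sdiff (esw_soft_mono Γ F t)]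
  rfl

end rows

/-! ## C. comparison of two geometries in the plane -/

section cmp

variable {n₁ n₂ : ℕ}

/-- `f` is a retained face of `Γ'` with second cell `κ'` -/
def espRet (Γ' : CGeom n₁ n₂) (f : C3.Cell n₁ n₂ × Bool) (κ' : C3.Cell n₁ n₂) : Prop := egWnb f κ' ∧ f.1 ∈ Γ'.T ∧ κ' ∈ Γ'.T ∧ f ∉ Γ'.cutF

/-- the cells and the retained faces of `Γ₂` are cells and retained faces of `Γ₁` -/
structure EspSub (Γ₂ Γ₁ : CGeom n₁ n₂) : Prop where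
  T : Γ₂.T ⊆ Γ₁.T
  ret : ∀ f κ', espRet Γ₂ f κ' → f ∉ Γ₁.cutF

/-- `U` vanishes on the cells where the two geometries differ -/
structure EspVan (Γ₂ Γ₁ : CGeom n₁ n₂) (g : DGrid n₁ n₂) (U : ℤ × ℤ → ℝ) : Prop where
  cell : ∀ κ ∈ Γ₁.T, κ ∉ Γ₂.T → ∀ p ∈ g.cell κ, U p = 0
  face : ∀ f κ', espRet Γ₁ f κ' → ¬ espRet Γ₂ f κ' → (∀ p ∈ g.cell f.1, U p = 0) ∧ ∀ p ∈ g.cell κ', U p = 0

theorem esp_cmp_eqns_cite : True := by have := @espRet.eq_1; trivial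

theorem esp_sub_ret {Γ₂ Γ₁ : CGeom n₁ n₂} (h : EspSub Γ₂ Γ₁) {f : C3.Cell n₁ n₂ × Bool} {κ' : C3.Cell n₁ n₂} (hf : espRet Γ₂ f κ') : espRet Γ₁ f κ' :=
  ⟨hf.1, h.T hf.2.1, h.T hf.2.2.1, h.ret f κ' hf⟩

/-- the bonds of a geometry -/
theorem esp_mem_bonds (Γ' : CGeom n₁ n₂) (g : DGrid n₁ n₂) (e : Bond) :
    e ∈ domBonds (g.region Γ'.T) (Γ'.cutB g) ↔ ∃ κ κ', e.1 ∈ g.cell κ ∧ e.snd ∈ g.cell κ' ∧ ((κ = κ' ∧ κ ∈ Γ'.T) ∨ espRet Γ' (κ, e.2) κ') := by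
  rw [esw_sf_mem_bonds]
  constructor
  · rintro ⟨h1, h2, h3⟩
    obtain ⟨κ, hκ, h1'⟩ := Finset.mem_biUnion.1 h1
    obtain ⟨κ', hκ', h2'⟩ := Finset.mem_biUnion.1 h2
    refine ⟨κ, κ', h1', h2', ?_⟩
    by_cases hk : κ = κ'
    · exact Or.inl ⟨hk, hκ⟩
    · refine Or.inr ⟨ega_bond_face g h1' h2' hk, hκ, hκ', fun hc => h3 ?_⟩
      exact (ega_mem_cutB Γ' g h1').2 ⟨hc, fun h => hk (geo_cell_unique g h h2')⟩
  · rintro ⟨κ, κ', h1, h2, h | h⟩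
    · obtain ⟨rfl, hκ⟩ := h
      exact ⟨Finset.mem_biUnion.2 ⟨κ, hκ, h1⟩, Finset.mem_biUnion.2 ⟨κ, hκ, h2⟩, fun hc => ((ega_mem_cutB Γ' g h1).1 hc).2 h2⟩
    · exact ⟨Finset.mem_biUnion.2 ⟨κ, h.2.1, h1⟩, Finset.mem_biUnion.2 ⟨κ', h.2.2.1, h2⟩, fun hc => h.2.2.2 ((ega_mem_cutB Γ' g h1).1 hc).1⟩

theorem esp_bonds_sub {Γ₂ Γ₁ : CGeom n₁ n₂} (h : EspSub Γ₂ Γ₁) (g : DGrid n₁ n₂) :
    domBonds (g.region Γ₂.T) (Γ₂.cutB g) ⊆ domBonds (g.region Γ₁.T) (Γ₁.cutB g) := by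
  intro e he
  obtain ⟨κ, κ', h1, h2, h3⟩ := (esp_mem_bonds Γ₂ g e).1 he
  exact (esp_mem_bonds Γ₁ g e).2 ⟨κ, κ', h1, h2, h3.imp (fun a => ⟨a.1, h.T a.2⟩) (esp_sub_ret h)⟩

theorem esp_en_le {Γ₂ Γ₁ : CGeom n₁ n₂} (h : EspSub Γ₂ Γ₁) (g : DGrid n₁ n₂) (U : ℤ × ℤ → ℝ) :
    espEn (g.region Γ₂.T) (Γ₂.cutB g) U ≤ espEn (g.region Γ₁.T) (Γ₁.cutB g) U :=
  Finset.sum_le_sum_of_subset_of_nonneg (esp_bonds_sub h g) fun _ _ _ => sq_nonneg _

theorem esp_en_eq {Γ₂ Γ₁ : CGeom n₁ n₂} (h : EspSub Γ₂ Γ₁) {g : DGrid n₁ n₂} {U : ℤ × ℤ → ℝ} (hv : EspVan Γ₂ Γ₁ g U) :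
    espEn (g.region Γ₂.T) (Γ₂.cutB g) U = espEn (g.region Γ₁.T) (Γ₁.cutB g) U := by
  refine Finset.sum_subset (esp_bonds_sub h g) fun e he hne => ?_
  obtain ⟨κ, κ', h1, h2, h3⟩ := (esp_mem_bonds Γ₁ g e).1 he
  rcases h3 with ⟨rfl, hκ⟩ | h3
  · have hn : κ ∉ Γ₂.T := fun hk => hne ((esp_mem_bonds Γ₂ g e).2 ⟨κ, κ, h1, h2, Or.inl ⟨rfl, hk⟩⟩)
    rw [hv.cell κ hκ hn _ h1, hv.cell κ hκ hn _ h2]
    norm_num
  · have hn : ¬ espRet Γ₂ (κ, e.2) κ' := fun hk => hne ((esp_mem_bonds Γ₂ g e).2 ⟨κ, κ', h1, h2, Or.inr hk⟩)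
    obtain ⟨a1, a2⟩ := hv.face _ _ h3 hn
    rw [a1 _ h1, a2 _ h2]
    norm_num

theorem egp_mem_soft (Γ' : CGeom n₁ n₂) (f : C3.Cell n₁ n₂ × Bool) : f ∈ esSoft Γ' ↔ ∃ κ', espRet Γ' f κ' := by
  rw [esw_sf_mem_soft]
  constructor
  · rintro ⟨h1, h2, κ', h3, h4⟩
    exact ⟨κ', h4, h1, h3, h2⟩
  · rintro ⟨κ', h4, h1, h3, h2⟩
    exact ⟨h1, h2, κ', h3, h4⟩

theorem esp_soft_sub {Γ₂ Γ₁ : CGeom n₁ n₂} (h : EspSub Γ₂ Γ₁) : esSoft Γ₂ ⊆ esSoft Γ₁ := by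
  intro f hf
  obtain ⟨κ', hκ'⟩ := (egp_mem_soft Γ₂ f).1 hf
  exact (egp_mem_soft Γ₁ f).2 ⟨κ', esp_sub_ret h hκ'⟩

/-- the row of a face -/
theorem egp_softRow_sum (w : ℝ) {f : C3.Cell n₁ n₂ × Bool} {κ' : C3.Cell n₁ n₂} (hf : egWnb f κ') (α : C3.Cell n₁ n₂ → ℝ) :
    ∑ κ, esSoftRow w f κ * α κ = w * (α κ' - α f.1) := by
  have h : ∀ κ, esSoftRow w f κ * α κ = w * ((if κ = κ' then α κ else 0) - (if κ = f.1 then α κ else 0)) := by
    intro κ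
    unfold esSoftRow
    have e1 : egWnb f κ ↔ κ = κ' := ⟨fun hw => esw_sf_wnb_unique hw hf, fun hk => hk ▸ hf⟩
    by_cases c1 : κ = κ' <;> by_cases c2 : κ = f.1
    · rw [if_pos (e1.2 c1), if_pos c2, if_pos c1, if_pos c2]; ring
    · rw [if_pos (e1.2 c1), if_neg c2, if_pos c1, if_neg c2]; ring
    · rw [if_neg (fun hw => c1 (e1.1 hw)), if_pos c2, if_neg c1, if_pos c2]; ring
    · rw [if_neg (fun hw => c1 (e1.1 hw)), if_neg c2, if_neg c1, if_neg c2]; ring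
  rw [Finset.sum_congr rfl fun κ _ => h κ, ← Finset.mul_sum, Finset.sum_sub_distrib, Finset.sum_ite_eq', Finset.sum_ite_eq']
  simp

theorem esp_soft_le {Γ₂ Γ₁ : CGeom n₁ n₂} (h : EspSub Γ₂ Γ₁) (w : ℝ) (α : C3.Cell n₁ n₂ → ℝ) :
    ∑ f ∈ esSoft Γ₂, (∑ κ, esSoftRow w f κ * α κ) ^ 2 ≤ ∑ f ∈ esSoft Γ₁, (∑ κ, esSoftRow w f κ * α κ) ^ 2 :=
  Finset.sum_le_sum_of_subset_of_nonneg (esp_soft_sub h) fun _ _ _ => sq_nonneg _

theorem esp_soft_eq {Γ₂ Γ₁ : CGeom n₁ n₂} (h : EspSub Γ₂ Γ₁) {g : DGrid n₁ n₂} {U : ℤ × ℤ → ℝ} (hv : EspVan Γ₂ Γ₁ g U) (w : ℝ) :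
    ∑ f ∈ esSoft Γ₂, (∑ κ, esSoftRow w f κ * espA g U κ) ^ 2 = ∑ f ∈ esSoft Γ₁, (∑ κ, esSoftRow w f κ * espA g U κ) ^ 2 := by
  refine Finset.sum_subset (esp_soft_sub h) fun f hf hne => ?_
  obtain ⟨κ', hκ'⟩ := (egp_mem_soft Γ₁ f).1 hf
  have hn : ¬ espRet Γ₂ f κ' := fun hk => hne ((egp_mem_soft Γ₂ f).2 ⟨κ', hk⟩)
  obtain ⟨a1, a2⟩ := hv.face _ _ hκ' hn
  rw [egp_softRow_sum w hκ'.1, esp_A_zero g a1, esp_A_zero g a2]
  norm_num

end cmp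

/-! ## D. shapes in units of observation cells -/

section shapes

variable {m₁ m₂ : ℕ}

/-- `esLw` on any grid of subcells (`esLw Γ t s0 δ = espLw Γ t (esGr m₁ m₂ t s0) δ` by `rfl`) -/
abbrev espLw (Γ : CGeom m₁ m₂) (t : ℕ) (g : DGrid (t * m₁) (t * m₂)) (δ : ℝ) : HLaw ((Geo.refine Γ t).graph g) := C3.lawR (Geo.refine Γ t) g (esRow Γ t δ)

/-- `esTest` on any grid of subcells -/
abbrev espTest (Γ : CGeom m₁ m₂) (t : ℕ) (g : DGrid (t * m₁) (t * m₂)) (y : C3.Cell m₁ m₂ → ℝ) : ((Geo.refine Γ t).graph g).V → ℝ :=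
  (Geo.refine Γ t).cellTest g (esTst t y)

/-- **the physical form of the shape `Γ` in the plane** -/
def espQ (Γ : CGeom m₁ m₂) (t : ℕ) (g : DGrid (t * m₁) (t * m₂)) (δ a : ℝ) (U : ℤ × ℤ → ℝ) : ℝ :=
  a⁻¹ * espEn (g.region (Geo.refine Γ t).T) ((Geo.refine Γ t).cutB g) U
    + espRw Γ t δ (espA g U)

/-- `U` vanishes on the observation cell `K` -/
def espZ (t : ℕ) (g : DGrid (t * m₁) (t * m₂)) (U : ℤ × ℤ → ℝ) (K : C3.Cell m₁ m₂) : Prop := ∀ κ, Geo.up t κ = K → ∀ p ∈ g.cell κ, U p = 0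

/-- `U` vanishes on the observation cells where the two shapes differ -/
structure EspVanC (Γ₂ Γ₁ : CGeom m₁ m₂) (t : ℕ) (g : DGrid (t * m₁) (t * m₂)) (U : ℤ × ℤ → ℝ) : Prop where
  cell : ∀ K ∈ Γ₁.T, K ∉ Γ₂.T → espZ t g U K
  face : ∀ f K', espRet Γ₁ f K' → ¬ espRet Γ₂ f K' → espZ t g U f.1 ∧ espZ t g U K'

theorem esp_shape_eqns_cite : True := by
  have := @espQ.eq_1; have := @espZ.eq_1; trivial

theorem esp_lw_form (Γ : CGeom m₁ m₂) (t : ℕ) (g : DGrid (t * m₁) (t * m₂)) (δ a : ℝ) (v : ((Geo.refine Γ t).graph g).V → ℝ) :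
    (espLw Γ t g δ).form a v = espQ Γ t g δ a (locExt (Geo.refine Γ t) g v) := by
  unfold espQ
  rw [esp_form_plane, esp_rows]

/-- the restored law of `esWG` has the form of the shape `uncut Γ F` -/
theorem esp_lwU_form (Γ : CGeom m₁ m₂) (F : Finset (C3.Cell m₁ m₂ × Bool)) (t : ℕ) (g : DGrid (t * m₁) (t * m₂)) (δ a : ℝ) (v : ((Geo.refine Γ t).graph g).V → ℝ) :
    (C3.lawR (C3.uncut (Geo.refine Γ t) (esUpF t F)) g (esRowU Γ F t δ)).form a v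
      = espQ (C3.uncut Γ F) t g δ a (locExt (Geo.refine Γ t) g v) := by
  have h := esp_form_plane (C3.uncut (Geo.refine Γ t) (esUpF t F)) g (esRowU Γ F t δ) a v
  rw [esp_rowsU] at h
  have hc : (C3.uncut (Geo.refine Γ t) (esUpF t F)).cutB g = (Geo.refine (C3.uncut Γ F) t).cutB g := by
    rw [ess_uncut_refine]
  rw [hc] at h
  exact h

/-- a fine face lies in a face of observation cells or inside an observation cell -/
theorem esp_wnb_up {t : ℕ} {f : C3.Cell (t * m₁) (t * m₂) × Bool} {κ' : C3.Cell (t * m₁) (t * m₂)} (h : egWnb f κ') :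
    ((if f.2 then (f.1.1.1 + 1) % t = 0 else (f.1.2.1 + 1) % t = 0) ∧ egWnb (Geo.up t f.1, f.2) (Geo.up t κ')) ∨
      (¬ (if f.2 then (f.1.1.1 + 1) % t = 0 else (f.1.2.1 + 1) % t = 0) ∧ Geo.up t f.1 = Geo.up t κ') := by
  rcases h with ⟨h1, h2, h3⟩ | ⟨h1, h2, h3⟩
  · rw [h1]
    simp only [if_true]
    by_cases hm : (f.1.1.1 + 1) % t = 0
    · exact Or.inl ⟨hm, Or.inl ⟨rfl, ess_nd_up1_succ h2 hm, congrArg (Geo.up1 t) h3⟩⟩
    · exact Or.inr ⟨hm, Prod.ext (ess_nd_up1_same h2 hm).symm (congrArg (Geo.up1 t) h3)⟩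
  · rw [h1]
    simp only [Bool.false_eq_true, if_false]
    by_cases hm : (f.1.2.1 + 1) % t = 0
    · exact Or.inl ⟨hm, Or.inr ⟨rfl, congrArg (Geo.up1 t) h2, ess_nd_up1_succ h3 hm⟩⟩
    · exact Or.inr ⟨hm, Prod.ext (congrArg (Geo.up1 t) h2) (ess_nd_up1_same h3 hm).symm⟩

theorem esp_wnb_ne {n₁ n₂ : ℕ} {f : C3.Cell n₁ n₂ × Bool} {κ' : C3.Cell n₁ n₂} (h : egWnb f κ') : f.1 ≠ κ' := by
  intro e
  rcases h with ⟨_, h2, _⟩ | ⟨_, _, h3⟩
  · rw [e] at h2; omega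
  · rw [e] at h3; omega

/-- **the retained faces of a refined shape** -/
theorem esp_ret_refine (Γ : CGeom m₁ m₂) (t : ℕ) (f : C3.Cell (t * m₁) (t * m₂) × Bool) (κ' : C3.Cell (t * m₁) (t * m₂)) :
    espRet (Geo.refine Γ t) f κ' ↔ egWnb f κ' ∧ ((Geo.up t f.1 = Geo.up t κ' ∧ Geo.up t f.1 ∈ Γ.T) ∨ espRet Γ (Geo.up t f.1, f.2) (Geo.up t κ')) := by
  constructor
  · rintro ⟨h1, h2, h3, h4⟩
    rw [ess_nd_mem_T] at h2 h3
    rw [ess_nd_mem_cutF] at h4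
    refine ⟨h1, ?_⟩
    rcases esp_wnb_up h1 with ⟨c, hw⟩ | ⟨_, he⟩
    · exact Or.inr ⟨hw, h2, h3, fun hc => h4 ⟨hc, c⟩⟩
    · exact Or.inl ⟨he, h2⟩
  · rintro ⟨h1, h | h⟩
    · refine ⟨h1, (ess_nd_mem_T Γ t _).2 h.2, (ess_nd_mem_T Γ t _).2 (h.1 ▸ h.2), fun hc => ?_⟩
      rcases esp_wnb_up h1 with ⟨_, hw⟩ | ⟨c, _⟩
      · exact esp_wnb_ne hw h.1
      · exact c ((ess_nd_mem_cutF Γ t _).1 hc).2
    · exact ⟨h1, (ess_nd_mem_T Γ t _).2 h.2.1, (ess_nd_mem_T Γ t _).2 h.2.2.1, fun hc => h.2.2.2 ((ess_nd_mem_cutF Γ t _).1 hc).1⟩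

theorem esp_sub_refine {Γ₂ Γ₁ : CGeom m₁ m₂} (h : EspSub Γ₂ Γ₁) (t : ℕ) : EspSub (Geo.refine Γ₂ t) (Geo.refine Γ₁ t) where
  T κ hκ := (ess_nd_mem_T Γ₁ t κ).2 (h.T ((ess_nd_mem_T Γ₂ t κ).1 hκ))
  ret f κ' hf := by
    obtain ⟨h1, h2⟩ := (esp_ret_refine Γ₂ t f κ').1 hf
    exact ((esp_ret_refine Γ₁ t f κ').2 ⟨h1, h2.imp (fun a => ⟨a.1, h.T a.2⟩) (esp_sub_ret h)⟩).2.2.2

theorem esp_van_refine {Γ₂ Γ₁ : CGeom m₁ m₂} {t : ℕ} {g : DGrid (t * m₁) (t * m₂)} {U : ℤ × ℤ → ℝ} (hv : EspVanC Γ₂ Γ₁ t g U) :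
    EspVan (Geo.refine Γ₂ t) (Geo.refine Γ₁ t) g U where
  cell κ h1 h2 := hv.cell _ ((ess_nd_mem_T Γ₁ t κ).1 h1) (fun h => h2 ((ess_nd_mem_T Γ₂ t κ).2 h)) κ rfl
  face f κ' h1 h2 := by
    obtain ⟨hw, h3⟩ := (esp_ret_refine Γ₁ t f κ').1 h1
    rcases h3 with ⟨he, hT⟩ | h3
    · have hn : Geo.up t f.1 ∉ Γ₂.T := fun h => h2 ((esp_ret_refine Γ₂ t f κ').2 ⟨hw, Or.inl ⟨he, h⟩⟩)
      exact ⟨hv.cell _ hT hn f.1 rfl, hv.cell _ hT hn κ' he.symm⟩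
    · have hn : ¬ espRet Γ₂ (Geo.up t f.1, f.2) (Geo.up t κ') := fun h => h2 ((esp_ret_refine Γ₂ t f κ').2 ⟨hw, Or.inr h⟩)
      obtain ⟨a1, a2⟩ := hv.face _ _ h3 hn
      exact ⟨a1 f.1 rfl, a2 κ' rfl⟩

/-- fewer cells and retained faces: smaller form -/
theorem esp_Q_le {Γ₂ Γ₁ : CGeom m₁ m₂} (h : EspSub Γ₂ Γ₁) (t : ℕ) (g : DGrid (t * m₁) (t * m₂)) (δ : ℝ) {a : ℝ} (ha : 0 < a) (U : ℤ × ℤ → ℝ) :
    espQ Γ₂ t g δ a U ≤ espQ Γ₁ t g δ a U := by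
  unfold espQ espRw
  have h1 := esp_en_le (esp_sub_refine h t) g U
  have h2 := esp_soft_le (esp_sub_refine h t) (Real.sqrt δ) (espA g U)
  have h3 : ∑ K ∈ Γ₂.T, (∑ κ, (if Geo.up t κ = K then ((t : ℝ) ^ 2)⁻¹ else 0) * espA g U κ) ^ 2
      ≤ ∑ K ∈ Γ₁.T, (∑ κ, (if Geo.up t κ = K then ((t : ℝ) ^ 2)⁻¹ else 0) * espA g U κ) ^ 2 :=
    Finset.sum_le_sum_of_subset_of_nonneg h.T fun _ _ _ => sq_nonneg _
  have h4 := mul_le_mul_of_nonneg_left h1 (inv_pos.2 ha).le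
  linarith

/-- **equality if `U` vanishes where the shapes differ** -/
theorem esp_Q_eq {Γ₂ Γ₁ : CGeom m₁ m₂} (h : EspSub Γ₂ Γ₁) {t : ℕ} {g : DGrid (t * m₁) (t * m₂)} {U : ℤ × ℤ → ℝ} (hv : EspVanC Γ₂ Γ₁ t g U) (δ a : ℝ) :
    espQ Γ₂ t g δ a U = espQ Γ₁ t g δ a U := by
  unfold espQ espRw
  rw [esp_en_eq (esp_sub_refine h t) (esp_van_refine hv), esp_soft_eq (esp_sub_refine h t) (esp_van_refine hv)]
  congr 2
  refine Finset.sum_subset h.T fun K hK hn => ?_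
  rw [Finset.sum_eq_zero fun κ _ => ?_]
  · norm_num
  · by_cases hk : Geo.up t κ = K
    · rw [esp_A_zero _ (hv.cell K hK hn κ hk), mul_zero]
    · rw [if_neg hk, zero_mul]

end shapes

/-! ## E. fields: cuts, the wall of a patch, change of the vertex set -/

section tr

variable {n₁ n₂ : ℕ}

/-- a field of `Γ₁'` read on the sites of `Γ₂'` (zero where it is not defined) -/
def espTr (Γ₁' Γ₂' : CGeom n₁ n₂) (g : DGrid n₁ n₂) (v : (Γ₁'.graph g).V → ℝ) : (Γ₂'.graph g).V → ℝ := fun x => locExt Γ₁' g v (locPos Γ₂' g x)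

theorem espTr_eqns_cite : True := by have := @espTr.eq_1; trivial

theorem esp_ext_tr (Γ₁' Γ₂' : CGeom n₁ n₂) (g : DGrid n₁ n₂) (v : (Γ₁'.graph g).V → ℝ) (h : ∀ p, p ∉ g.region Γ₂'.T → locExt Γ₁' g v p = 0) :
    locExt Γ₂' g (espTr Γ₁' Γ₂' g v) = locExt Γ₁' g v := by
  funext p
  by_cases hp : p ∈ g.region Γ₂'.T
  · have h1 : locExt Γ₂' g (espTr Γ₁' Γ₂' g v) p = espTr Γ₁' Γ₂' g v ⟨p, hp⟩ := dif_pos hp
    rw [h1]
    rfl
  · rw [esp_ext_off _ _ _ hp, h p hp]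

end tr

section laws

variable {m₁ m₂ : ℕ}

/-- the observation cell of a site -/
def espBlk (Γ : CGeom m₁ m₂) (t : ℕ) (g : DGrid (t * m₁) (t * m₂)) (x : ((Geo.refine Γ t).graph g).V) : C3.Cell m₁ m₂ :=
  Geo.up t (locBlk (Geo.refine Γ t) g x)

/-- the wall of a set of observation cells: the faces with exactly one cell in `O` -/
def espW (O : Finset (C3.Cell m₁ m₂)) : Finset (C3.Cell m₁ m₂ × Bool) := Finset.univ.filter fun f => ∃ κ', egWnb f κ' ∧ ¬ (f.1 ∈ O ↔ κ' ∈ O)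

theorem esp_laws_eqns_cite : True := by
  have := @espBlk.eq_1; have := @espW.eq_1; trivial

theorem esp_Z_of (Γ : CGeom m₁ m₂) (t : ℕ) (g : DGrid (t * m₁) (t * m₂)) (v : ((Geo.refine Γ t).graph g).V → ℝ) {K : C3.Cell m₁ m₂}
    (hv : ∀ x, espBlk Γ t g x = K → v x = 0) : espZ t g (locExt (Geo.refine Γ t) g v) K := by
  intro κ hκ p hp
  by_cases h : p ∈ g.region (Geo.refine Γ t).T
  · have h1 : locExt (Geo.refine Γ t) g v p = v ⟨p, h⟩ := dif_pos h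
    rw [h1]
    apply hv
    have h2 : locBlk (Geo.refine Γ t) g ⟨p, h⟩ = κ := (loc_blk_eq_iff (Geo.refine Γ t) g _ κ).2 hp
    unfold espBlk
    rw [h2, hκ]
  · exact esp_ext_off _ _ v h

/-! ### cuts -/

theorem esp_sub_cut (T : Finset (C3.Cell m₁ m₂)) {C C' : Finset (C3.Cell m₁ m₂ × Bool)} (h : C ⊆ C') : EspSub (egSh T C') (egSh T C) :=
  ⟨Finset.Subset.refl _, fun _ _ hf hc => hf.2.2.2 (h hc)⟩

theorem esp_van_cut (T : Finset (C3.Cell m₁ m₂)) {C C' : Finset (C3.Cell m₁ m₂ × Bool)} {t : ℕ} {g : DGrid (t * m₁) (t * m₂)} {U : ℤ × ℤ → ℝ}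
    (hU : ∀ f ∈ C', f ∉ C → ∀ K', egWnb f K' → f.1 ∈ T → K' ∈ T → espZ t g U f.1 ∧ espZ t g U K') : EspVanC (egSh T C') (egSh T C) t g U where
  cell _ h1 h2 := absurd h1 h2
  face f K' h1 h2 := hU f (by_contra fun hc => h2 ⟨h1.1, h1.2.1, h1.2.2.1, hc⟩) h1.2.2.2 K' h1.1 h1.2.1 h1.2.2.1

/-- **more cuts: smaller form** -/
theorem esp_form_le (T : Finset (C3.Cell m₁ m₂)) {C C' : Finset (C3.Cell m₁ m₂ × Bool)} (h : C ⊆ C') (t : ℕ) (g : DGrid (t * m₁) (t * m₂)) (δ : ℝ) {a : ℝ} (ha : 0 < a)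
    (v : ((Geo.refine (egSh T C) t).graph g).V → ℝ) :
    (espLw (egSh T C') t g δ).form a v ≤ (espLw (egSh T C) t g δ).form a v :=
  (esp_lw_form (egSh T C') t g δ a v).trans_le ((esp_Q_le (esp_sub_cut T h) t g δ ha _).trans_eq (esp_lw_form (egSh T C) t g δ a v).symm)

/-- **the forms of two shapes agree on the fields which vanish on the cells of the faces which are cut in only one of them** -/
theorem esp_form_eq_cut (T : Finset (C3.Cell m₁ m₂)) {C C' : Finset (C3.Cell m₁ m₂ × Bool)} (h : C ⊆ C') (t : ℕ) (g : DGrid (t * m₁) (t * m₂)) (δ a : ℝ)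
    (v : ((Geo.refine (egSh T C) t).graph g).V → ℝ)
    (hv : ∀ f ∈ C', f ∉ C → ∀ K', egWnb f K' → f.1 ∈ T → K' ∈ T → ∀ x, (espBlk (egSh T C) t g x = f.1 ∨ espBlk (egSh T C) t g x = K') → v x = 0) :
    (espLw (egSh T C') t g δ).form a v = (espLw (egSh T C) t g δ).form a v := by
  refine (esp_lw_form (egSh T C') t g δ a v).trans (Eq.trans ?_ (esp_lw_form (egSh T C) t g δ a v).symm)
  refine esp_Q_eq (esp_sub_cut T h) (esp_van_cut T fun f hf hn K' hw h1 h2 => ?_) δ a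
  exact ⟨esp_Z_of (egSh T C) t g v fun x hx => hv f hf hn K' hw h1 h2 x (Or.inl hx),
    esp_Z_of (egSh T C) t g v fun x hx => hv f hf hn K' hw h1 h2 x (Or.inr hx)⟩

/-! ### the open patch -/

theorem esp_sub_patch (T O : Finset (C3.Cell m₁ m₂)) (C : Finset (C3.Cell m₁ m₂ × Bool)) : EspSub (egSh (T ∩ O) C) (egSh T (C ∪ espW O)) where
  T := Finset.inter_subset_left
  ret f κ' hf hc := by
    rcases Finset.mem_union.1 hc with hc | hc
    · exact hf.2.2.2 hc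
    · obtain ⟨κ'', hw, hn⟩ := (Finset.mem_filter.1 hc).2
      rw [esw_sf_wnb_unique hw hf.1] at hn
      exact hn (iff_of_true (Finset.mem_inter.1 hf.2.1).2 (Finset.mem_inter.1 hf.2.2.1).2)

theorem esp_van_patch (T O : Finset (C3.Cell m₁ m₂)) (C : Finset (C3.Cell m₁ m₂ × Bool)) {t : ℕ} {g : DGrid (t * m₁) (t * m₂)} {U : ℤ × ℤ → ℝ}
    (hU : ∀ K, K ∉ O → espZ t g U K) : EspVanC (egSh (T ∩ O) C) (egSh T (C ∪ espW O)) t g U where
  cell K h1 h2 := hU K fun h => h2 (Finset.mem_inter.2 ⟨h1, h⟩)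
  face f K' h1 h2 := by
    have hC : f ∉ C := fun h => h1.2.2.2 (Finset.mem_union_left _ h)
    have hW : f ∉ espW O := fun h => h1.2.2.2 (Finset.mem_union_right _ h)
    have hiff : f.1 ∈ O ↔ K' ∈ O := by
      by_contra hn
      exact hW (Finset.mem_filter.2 ⟨Finset.mem_univ _, K', h1.1, hn⟩)
    have hn : f.1 ∉ O := fun h => h2 ⟨h1.1, Finset.mem_inter.2 ⟨h1.2.1, h⟩, Finset.mem_inter.2 ⟨h1.2.2.1, hiff.1 h⟩, hC⟩
    exact ⟨hU _ hn, hU _ fun h => hn (hiff.2 h)⟩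

variable (T O : Finset (C3.Cell m₁ m₂)) (Cb C : Finset (C3.Cell m₁ m₂ × Bool)) (t : ℕ) (g : DGrid (t * m₁) (t * m₂))

/-- restriction of a field of the box to the patch -/
def espRes (v : ((Geo.refine (egSh T Cb) t).graph g).V → ℝ) : ((Geo.refine (egSh (T ∩ O) C) t).graph g).V → ℝ :=
  espTr (Geo.refine (egSh T Cb) t) (Geo.refine (egSh (T ∩ O) C) t) g v

/-- extension by zero of a field of the patch -/
def espExt (w : ((Geo.refine (egSh (T ∩ O) C) t).graph g).V → ℝ) : ((Geo.refine (egSh T Cb) t).graph g).V → ℝ :=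
  espTr (Geo.refine (egSh (T ∩ O) C) t) (Geo.refine (egSh T Cb) t) g w

theorem esp_res_eqns_cite : True := by
  have := @espRes.eq_1; have := @espExt.eq_1; trivial

theorem esp_res_ext (v : ((Geo.refine (egSh T Cb) t).graph g).V → ℝ) (hv : ∀ x, espBlk (egSh T Cb) t g x ∉ O → v x = 0) :
    locExt (Geo.refine (egSh (T ∩ O) C) t) g (espRes T O Cb C t g v) = locExt (Geo.refine (egSh T Cb) t) g v := by
  refine esp_ext_tr _ _ _ v fun p hp => ?_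
  by_cases h : p ∈ g.region (Geo.refine (egSh T Cb) t).T
  · have h1 : locExt (Geo.refine (egSh T Cb) t) g v p = v ⟨p, h⟩ := dif_pos h
    rw [h1]
    refine hv _ fun hO => hp ?_
    obtain ⟨h2, h3⟩ := loc_blk_spec (Geo.refine (egSh T Cb) t) g ⟨p, h⟩
    refine Finset.mem_biUnion.2 ⟨_, (ess_nd_mem_T _ t _).2 (Finset.mem_inter.2 ⟨(ess_nd_mem_T _ t _).1 h2, hO⟩), h3⟩
  · exact esp_ext_off _ _ v h

theorem esp_ext_ext (w : ((Geo.refine (egSh (T ∩ O) C) t).graph g).V → ℝ) :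
    locExt (Geo.refine (egSh T Cb) t) g (espExt T O Cb C t g w) = locExt (Geo.refine (egSh (T ∩ O) C) t) g w := by
  refine esp_ext_tr _ _ _ w fun p hp => esp_ext_off _ _ w fun h => hp ?_
  obtain ⟨κ, hκ, hp'⟩ := Finset.mem_biUnion.1 h
  exact Finset.mem_biUnion.2 ⟨κ, (ess_nd_mem_T _ t _).2 (Finset.mem_inter.1 ((ess_nd_mem_T _ t _).1 hκ)).1, hp'⟩

theorem esp_Z_patch (w : ((Geo.refine (egSh (T ∩ O) C) t).graph g).V → ℝ) {K : C3.Cell m₁ m₂} (hK : K ∉ O) :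
    espZ t g (locExt (Geo.refine (egSh (T ∩ O) C) t) g w) K := by
  intro κ hκ p hp
  refine esp_ext_absent _ _ w (fun h => hK ?_) hp
  rw [← hκ]
  exact (Finset.mem_inter.1 ((ess_nd_mem_T _ t _).1 h)).2

theorem esp_ext_adm (w : ((Geo.refine (egSh (T ∩ O) C) t).graph g).V → ℝ) (x : ((Geo.refine (egSh T Cb) t).graph g).V)
    (hx : espBlk (egSh T Cb) t g x ∉ O) : espExt T O Cb C t g w x = 0 :=
  esp_Z_patch T O C t g w hx _ rfl _ (loc_blk_spec (Geo.refine (egSh T Cb) t) g x).2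

/-- **the open patch = the box cut along the wall, fields vanishing off the patch** (restriction) -/
theorem esp_form_res (δ a : ℝ) (v : ((Geo.refine (egSh T Cb) t).graph g).V → ℝ) (hv : ∀ x, espBlk (egSh T Cb) t g x ∉ O → v x = 0) :
    (espLw (egSh (T ∩ O) C) t g δ).form a (espRes T O Cb C t g v) = (espLw (egSh T (C ∪ espW O)) t g δ).form a v := by
  refine (esp_lw_form _ t g δ a _).trans (Eq.trans ?_ (esp_lw_form (egSh T (C ∪ espW O)) t g δ a v).symm)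
  rw [esp_res_ext T O Cb C t g v hv]
  exact esp_Q_eq (esp_sub_patch T O C) (esp_van_patch T O C fun K hK => esp_Z_of (egSh T Cb) t g v fun x hx => hv x (hx ▸ hK)) δ a

/-- (extension) -/
theorem esp_form_ext (δ a : ℝ) (w : ((Geo.refine (egSh (T ∩ O) C) t).graph g).V → ℝ) :
    (espLw (egSh T (C ∪ espW O)) t g δ).form a (espExt T O Cb C t g w) = (espLw (egSh (T ∩ O) C) t g δ).form a w := by
  refine (esp_lw_form (egSh T (C ∪ espW O)) t g δ a (espExt T O Cb C t g w)).trans (Eq.trans ?_ (esp_lw_form _ t g δ a w).symm)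
  have h' : locExt (Geo.refine (egSh T (C ∪ espW O)) t) g (espExt T O Cb C t g w)
      = locExt (Geo.refine (egSh (T ∩ O) C) t) g w := esp_ext_ext T O Cb C t g w
  rw [h']
  exact (esp_Q_eq (esp_sub_patch T O C) (esp_van_patch T O C fun K hK => esp_Z_patch T O C t g w hK) δ a).symm

theorem esp_pair_test (Γ : CGeom m₁ m₂) (y : C3.Cell m₁ m₂ → ℝ) (v : ((Geo.refine Γ t).graph g).V → ℝ) :
    HLaw.pair (espTest Γ t g y) v = ∑ κ, esTst t y κ * espA g (locExt (Geo.refine Γ t) g v) κ :=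
  esp_pair_cellTest _ _ _ v

theorem esp_test_res (y : C3.Cell m₁ m₂ → ℝ) (v : ((Geo.refine (egSh T Cb) t).graph g).V → ℝ) (hv : ∀ x, espBlk (egSh T Cb) t g x ∉ O → v x = 0) :
    HLaw.pair (espTest (egSh (T ∩ O) C) t g y) (espRes T O Cb C t g v) = HLaw.pair (espTest (egSh T Cb) t g y) v := by
  rw [esp_pair_test, esp_pair_test, esp_res_ext T O Cb C t g v hv]

theorem esp_test_ext (y : C3.Cell m₁ m₂ → ℝ) (w : ((Geo.refine (egSh (T ∩ O) C) t).graph g).V → ℝ) :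
    HLaw.pair (espTest (egSh T Cb) t g y) (espExt T O Cb C t g w) = HLaw.pair (espTest (egSh (T ∩ O) C) t g y) w := by
  rw [esp_pair_test, esp_pair_test, esp_ext_ext T O Cb C t g w]

end laws

/-! ## F. exit: the variance of the test in the open patch -/

section exit

variable {m₁ m₂ : ℕ}

theorem esp_lw_eq_pin (Γ : CGeom m₁ m₂) (hp : Γ.pin = ∅) (t : ℕ) (g : DGrid (t * m₁) (t * m₂)) (δ : ℝ) : espLw Γ t g δ = plPin (espLw Γ t g δ) ∅ := by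
  apply pl_law_eq_pin
  show HLaw.pinned ((Geo.refine Γ t).sites g (Geo.refine Γ t).pin) = _
  have h : (Geo.refine Γ t).pin = ∅ := by
    simp [Geo.refine, hp]
  rw [h, ega_sites_empty]

theorem esp_ext_zero {n₁ n₂ : ℕ} (Γ' : CGeom n₁ n₂) (g : DGrid n₁ n₂) (p : ℤ × ℤ) : locExt Γ' g 0 p = 0 := by
  unfold locExt
  split_ifs <;> rfl

variable (T O : Finset (C3.Cell m₁ m₂)) (Cb C : Finset (C3.Cell m₁ m₂ × Bool)) (t : ℕ) (g : DGrid (t * m₁) (t * m₂))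

/-- **the open patch `(T ∩ O, C)` through ANY system of rows on the sites of the box with the form of the shape `(T, C ∪ espW O)` and the sites off `O` pinned** -/
theorem esp_patch_gVar {I : Type} [Fintype I] {A : PdAmb ((Geo.refine (egSh T Cb) t).graph g).V I}
    {S : PdSys ((Geo.refine (egSh T Cb) t).graph g).V I} {σ CP K : ℝ} (h : PdOk A S σ CP K) {a : ℝ} (ha : 0 < a) (δ : ℝ)
    (hadm : ∀ v, S.Adm v ↔ ∀ x, espBlk (egSh T Cb) t g x ∉ O → v x = 0)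
    (hform : ∀ v, S.form v = (espLw (egSh T (C ∪ espW O)) t g δ).form a v) (y : C3.Cell m₁ m₂ → ℝ) :
    S.gf (pdRowF (espTest (egSh T Cb) t g y)) (pdRowF (espTest (egSh T Cb) t g y))
      = (espLw (egSh (T ∩ O) C) t g δ).gVar a (espTest (egSh (T ∩ O) C) t g y) := by
  have hE : ∀ w, S.Adm (espExt T O Cb C t g w) := fun w => (hadm _).2 (esp_ext_adm T O Cb C t g w)
  have hPD : plPD (espLw (egSh (T ∩ O) C) t g δ) ∅ := by
    intro w _ h1 h2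
    have h0 : (espLw (egSh (T ∩ O) C) t g δ).form a w = 0 := (pl_form_eq_zero_iff _ ha w).2 ⟨h1, h2⟩
    have h3 : S.form (espExt T O Cb C t g w) = 0 := (hform _).trans ((esp_form_ext T O Cb C t g δ a w).trans h0)
    have h4 := pd_eq_zero_of_form h (hE w) h3.le
    have h5 := esp_ext_ext T O Cb C t g w
    rw [h4] at h5
    funext x
    have h6 := congrFun h5 (locPos _ _ x)
    rw [loc_ext_pos, esp_ext_zero] at h6
    exact h6.symm
  have key := ega_gf_eq_gVar h (espLw (egSh (T ∩ O) C) t g δ) ha hPD (pdRowF (espTest (egSh T Cb) t g y)) (espTest (egSh (T ∩ O) C) t g y)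
    (espRes T O Cb C t g) (espExt T O Cb C t g)
    (fun _ _ x hx => absurd hx (Set.notMem_empty x))
    (fun v hv => ((esp_form_res T O Cb C t g δ a v ((hadm v).1 hv)).trans (hform v).symm).le)
    (fun v hv => (esp_test_res T O Cb C t g y v ((hadm v).1 hv)).symm)
    (fun w _ => hE w)
    (fun w _ => ((hform _).trans (esp_form_ext T O Cb C t g δ a w)).le)
    (fun w _ => esp_test_ext T O Cb C t g y w)
  rw [key, ← esp_lw_eq_pin (egSh (T ∩ O) C) rfl]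

end exit

end

end Claimed.Agent.R285.C5
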