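import Claimed.Agent.R285.C5.EsDefs
import Claimed.Agent.R285.C5.Avg

/-!
# ROW 285, [C] s5.3, package ES-POT: the BRIDGE between the window vocabulary (`esWE`, `esWE0`, `C5/EsDefs.lean`) and the vocabulary of `C5/Pot.lean` (`Geo.lawS`, `CGeom.law` of a refined geometry)      (helper14)

`espObs Γ` = `Γ` with one observation box per present cell, weight one.   Exits: `esp_WE0`, `esp_WE` (equalities of the two Gaussian energies at every `t ≥ 1` and every side `s0 + 1`).   No sorry.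
-/

set_option autoImplicit false

namespace Claimed.Agent.R285.C5

open scoped BigOperators
open Filter Topology
open Claimed.Agent.R285 Claimed.Agent.R285.Entry

noncomputable section

/-- the shape `Γ` with one observation box per present cell, weight one -/
def espObs {m₁ m₂ : ℕ} (Γ : CGeom m₁ m₂) : CGeom m₁ m₂ where
  T := Γ.T
  cutF := Γ.cutF
  pin := Γ.pin
  nObs := Γ.T.card
  box o := {(Γ.T.equivFin.symm o).1}
  wgt _ := 1

theorem espObs_noDiag {m₁ m₂ : ℕ} (Γ : CGeom m₁ m₂) (h : Γ.NoDiag) : (espObs Γ).NoDiag := h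

/-- `gEn` only sees the lattice and the penalty -/
theorem esp_gEn_congr {G : HGraph} (H H' : HLaw G) (hΛ : H.Λ = H'.Λ) (a : ℝ) (θ : G.E → ℝ) (c : H.O → ℝ) (c' : H'.O → ℝ)
    (h : ∀ v : G.V → ℝ, ∑ o, (H.obs v o - c o) ^ 2 = ∑ o, (H'.obs v o - c' o) ^ 2) : H.gEn a θ c = H'.gEn a θ c' := by
  have hr : H.rspan = H'.rspan := by unfold HLaw.rspan; rw [hΛ]
  unfold HLaw.gEn
  apply congrArg sInf
  ext r
  constructor
  · rintro ⟨⟨v, hv⟩, rfl⟩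
    exact ⟨⟨v, hr ▸ hv⟩, by simp only [h]⟩
  · rintro ⟨⟨v, hv⟩, rfl⟩
    exact ⟨⟨v, hr ▸ hv⟩, by simp only [h]⟩

theorem esp_grid (n₁ n₂ s0 : ℕ) : egGr n₁ n₂ (s0 + 1) = Geo.ug n₁ n₂ s0 := by
  unfold egGr Geo.ug
  have : max (s0 + 1) 1 = s0 + 1 := by omega
  simp only [this]

section cells

variable {n₁ n₂ : ℕ} (Γ' : CGeom n₁ n₂) (s0 : ℕ)

theorem esp_cell_card (κ : Fin n₁ × Fin n₂) : (((Geo.ug n₁ n₂ s0).cell κ).card : ℝ) = ((s0 + 1 : ℕ) : ℝ) ^ 2 := by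
  rw [avg_cell_eq, Finset.card_product, Int.card_Ico, Int.card_Ico]
  simp [sq]

theorem esp_region_card (A : Finset (Fin n₁ × Fin n₂)) :
    (((Geo.ug n₁ n₂ s0).region A).card : ℝ) = (A.card : ℝ) * ((s0 + 1 : ℕ) : ℝ) ^ 2 := by
  classical
  unfold DGrid.region
  rw [Finset.card_biUnion]
  · push_cast
    rw [Finset.sum_congr rfl fun κ _ => esp_cell_card s0 κ]
    simp
  · intro κ _ κ' _ hne
    exact Finset.disjoint_left.2 fun p hp hp' => hne (avg_cell_unique s0 hp hp')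

theorem esp_mem_sites (A : Finset (Fin n₁ × Fin n₂)) (x : (Γ'.graph (Geo.ug n₁ n₂ s0)).V) :
    x ∈ Γ'.sites (Geo.ug n₁ n₂ s0) A ↔
      ∃ κ ∈ A, domPos (D := (Geo.ug n₁ n₂ s0).region Γ'.T) (cut := Γ'.cutB (Geo.ug n₁ n₂ s0)) x ∈ (Geo.ug n₁ n₂ s0).cell κ := by
  show domPos (D := (Geo.ug n₁ n₂ s0).region Γ'.T) (cut := Γ'.cutB (Geo.ug n₁ n₂ s0)) x ∈
    (↑((Geo.ug n₁ n₂ s0).region A) : Set (ℤ × ℤ)) ↔ _
  rw [Finset.mem_coe]
  unfold DGrid.region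
  rw [Finset.mem_biUnion]

open Classical in
/-- the average over a union of present cells -/
theorem esp_avgRow (A : Finset (Fin n₁ × Fin n₂)) (hA : A ⊆ Γ'.T) (x : (Γ'.graph (Geo.ug n₁ n₂ s0)).V) :
    Γ'.avgRow (Geo.ug n₁ n₂ s0) A x =
      if ∃ κ ∈ A, domPos (D := (Geo.ug n₁ n₂ s0).region Γ'.T) (cut := Γ'.cutB (Geo.ug n₁ n₂ s0)) x ∈ (Geo.ug n₁ n₂ s0).cell κ
      then ((A.card : ℝ) * ((s0 + 1 : ℕ) : ℝ) ^ 2)⁻¹ else 0 := by
  unfold CGeom.avgRow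
  rw [Finset.inter_eq_left.2 hA, esp_region_card]
  simp only [esp_mem_sites]

open Classical in
/-- the average over one cell -/
theorem esp_avgRow1 (κ : Fin n₁ × Fin n₂) (x : (Γ'.graph (Geo.ug n₁ n₂ s0)).V) :
    Γ'.avgRow (Geo.ug n₁ n₂ s0) {κ} x =
      if domPos (D := (Geo.ug n₁ n₂ s0).region Γ'.T) (cut := Γ'.cutB (Geo.ug n₁ n₂ s0)) x ∈ (Geo.ug n₁ n₂ s0).cell κ
      then (((s0 + 1 : ℕ) : ℝ) ^ 2)⁻¹ else 0 := by
  by_cases hκ : κ ∈ Γ'.T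
  · rw [esp_avgRow Γ' s0 {κ} (Finset.singleton_subset_iff.2 hκ)]
    simp
  · have h1 : ¬ domPos (D := (Geo.ug n₁ n₂ s0).region Γ'.T) (cut := Γ'.cutB (Geo.ug n₁ n₂ s0)) x ∈ (Geo.ug n₁ n₂ s0).cell κ := by
      intro h
      obtain ⟨κ', hκ', h'⟩ := avg_exists_cell Γ' s0 x
      exact hκ (avg_cell_unique s0 h h' ▸ hκ')
    have h2 : ¬ x ∈ Γ'.sites (Geo.ug n₁ n₂ s0) {κ} := by
      rw [esp_mem_sites]
      simpa using h1
    unfold CGeom.avgRow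
    rw [if_neg h2, if_neg h1]

/-- box average = mean of the cell averages -/
theorem esp_avgRow_box (A : Finset (Fin n₁ × Fin n₂)) (hA : A ⊆ Γ'.T) (x : (Γ'.graph (Geo.ug n₁ n₂ s0)).V) :
    Γ'.avgRow (Geo.ug n₁ n₂ s0) A x = (A.card : ℝ)⁻¹ * ∑ κ ∈ A, Γ'.avgRow (Geo.ug n₁ n₂ s0) {κ} x := by
  classical
  rw [esp_avgRow Γ' s0 A hA]
  simp only [esp_avgRow1]
  by_cases h : ∃ κ ∈ A, domPos (D := (Geo.ug n₁ n₂ s0).region Γ'.T) (cut := Γ'.cutB (Geo.ug n₁ n₂ s0)) x ∈ (Geo.ug n₁ n₂ s0).cell κ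
  · rw [if_pos h]
    obtain ⟨κ, hκ, hx⟩ := h
    rw [Finset.sum_eq_single κ]
    · rw [if_pos hx, mul_inv]
    · intro κ' _ hne
      exact if_neg fun h' => hne (avg_cell_unique s0 h' hx)
    · intro h'
      exact absurd hκ h'
  · rw [if_neg h]
    rw [Finset.sum_eq_zero, mul_zero]
    intro κ hκ
    exact if_neg fun h' => h ⟨κ, hκ, h'⟩

/-- the cell average is the fibre average of the cell map -/
theorem esp_avgRow_fib (κ : Fin n₁ × Fin n₂) (hκ : κ ∈ Γ'.T) (v : (Γ'.graph (Geo.ug n₁ n₂ s0)).V → ℝ) :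
    HLaw.pair (Γ'.avgRow (Geo.ug n₁ n₂ s0) {κ}) v = HLaw.pair (fibAvg (Geo.cellOf Γ' (Geo.ug n₁ n₂ s0)) (some κ)) v := by
  classical
  have h := avg_pair (D := (Geo.ug n₁ n₂ s0).region Γ'.T) (cut := Γ'.cutB (Geo.ug n₁ n₂ s0))
    (Geo.cellOf Γ' (Geo.ug n₁ n₂ s0)) (some κ) ((Geo.ug n₁ n₂ s0).cell κ)
    (Finset.subset_biUnion_of_mem _ hκ) (fun x => avg_cellOf_iff Γ' s0 x κ) v
  refine Eq.trans ?_ h.symm
  rw [esp_cell_card]
  have h2 : ∀ x : (Γ'.graph (Geo.ug n₁ n₂ s0)).V,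
      Γ'.avgRow (Geo.ug n₁ n₂ s0) {κ} x * v x =
      (fun p => if p ∈ (Geo.ug n₁ n₂ s0).cell κ then (((s0 + 1 : ℕ) : ℝ) ^ 2)⁻¹ *
        avgExt (D := (Geo.ug n₁ n₂ s0).region Γ'.T) (cut := Γ'.cutB (Geo.ug n₁ n₂ s0)) v p else 0)
        (domPos (D := (Geo.ug n₁ n₂ s0).region Γ'.T) (cut := Γ'.cutB (Geo.ug n₁ n₂ s0)) x) := by
    intro x
    rw [esp_avgRow1]
    have e := avgExt_pos (D := (Geo.ug n₁ n₂ s0).region Γ'.T) (cut := Γ'.cutB (Geo.ug n₁ n₂ s0)) v x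
    by_cases hx : domPos (D := (Geo.ug n₁ n₂ s0).region Γ'.T) (cut := Γ'.cutB (Geo.ug n₁ n₂ s0)) x ∈ (Geo.ug n₁ n₂ s0).cell κ
    · simp only [hx, if_true, e]
    · simp only [hx, if_false, zero_mul]
  have h3 := avg_sum_dom (D := (Geo.ug n₁ n₂ s0).region Γ'.T) (cut := Γ'.cutB (Geo.ug n₁ n₂ s0))
    (fun p => if p ∈ (Geo.ug n₁ n₂ s0).cell κ then (((s0 + 1 : ℕ) : ℝ) ^ 2)⁻¹ *
        avgExt (D := (Geo.ug n₁ n₂ s0).region Γ'.T) (cut := Γ'.cutB (Geo.ug n₁ n₂ s0)) v p else 0)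
  have hsub : (Geo.ug n₁ n₂ s0).cell κ ⊆ (Geo.ug n₁ n₂ s0).region Γ'.T := Finset.subset_biUnion_of_mem _ hκ
  rw [Finset.sum_ite_mem, Finset.inter_eq_right.2 hsub, ← Finset.mul_sum] at h3
  exact (Finset.sum_congr rfl fun x _ => h2 x).trans h3

/-- uniqueness of the second cell of a face -/
theorem esp_nb_unique {f : C3.Cell n₁ n₂ × Bool} {κ κ' : C3.Cell n₁ n₂} (h : egWnb f κ) (h' : egWnb f κ') : κ = κ' := by
  unfold egWnb at h h'
  rcases h with ⟨h1, h2, h3⟩ | ⟨h1, h2, h3⟩ <;> rcases h' with ⟨h1', h2', h3'⟩ | ⟨h1', h2', h3'⟩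
  · exact Prod.ext (Fin.ext (by omega)) (h3.symm.trans h3')
  · rw [h1] at h1'; exact absurd h1' (by simp)
  · rw [h1] at h1'; exact absurd h1' (by simp)
  · exact Prod.ext (h2.symm.trans h2') (Fin.ext (by omega))

open Classical in
/-- the second cell of a face (junk at the boundary of the array) -/
def espNb (f : C3.Cell n₁ n₂ × Bool) : C3.Cell n₁ n₂ := if h : ∃ κ', egWnb f κ' then h.choose else f.1

theorem espNb_eq {f : C3.Cell n₁ n₂ × Bool} {κ' : C3.Cell n₁ n₂} (h : egWnb f κ') : espNb f = κ' := by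
  have hex : ∃ κ', egWnb f κ' := ⟨κ', h⟩
  unfold espNb
  rw [dif_pos hex]
  exact esp_nb_unique hex.choose_spec h

theorem esp_softRow_sum (w : ℝ) (f : C3.Cell n₁ n₂ × Bool) (κ' : C3.Cell n₁ n₂) (h : egWnb f κ') (R : C3.Cell n₁ n₂ → ℝ) :
    ∑ κ, esSoftRow w f κ * R κ = w * (R κ' - R f.1) := by
  classical
  have h1 : ∀ κ, esSoftRow w f κ * R κ = w * ((if κ = κ' then R κ else 0) - (if κ = f.1 then R κ else 0)) := by
    intro κ
    unfold esSoftRow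
    have e : egWnb f κ ↔ κ = κ' := ⟨fun h' => esp_nb_unique h' h, fun h' => h' ▸ h⟩
    have e' : (if egWnb f κ then (1 : ℝ) else 0) = if κ = κ' then 1 else 0 := by
      by_cases h2 : κ = κ'
      · rw [if_pos (e.2 h2), if_pos h2]
      · rw [if_neg (fun h => h2 (e.1 h)), if_neg h2]
    rw [e']
    split_ifs <;> ring
  rw [Finset.sum_congr rfl fun κ _ => h1 κ, ← Finset.mul_sum, Finset.sum_sub_distrib]
  simp

theorem esp_mem_soft (f : C3.Cell n₁ n₂ × Bool) :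
    f ∈ esSoft Γ' ↔ f.1 ∈ Γ'.T ∧ f ∉ Γ'.cutF ∧ ∃ κ' ∈ Γ'.T, egWnb f κ' := by
  classical
  unfold esSoft
  simp

theorem esp_edge {e : Bond} (he : e ∈ domBonds ((Geo.ug n₁ n₂ s0).region Γ'.T) (Γ'.cutB (Geo.ug n₁ n₂ s0))) {κ κ' : Fin n₁ × Fin n₂}
    (h1 : e.1 ∈ (Geo.ug n₁ n₂ s0).cell κ) (h2 : e.snd ∈ (Geo.ug n₁ n₂ s0).cell κ') (hne : κ ≠ κ') :
    ((some κ, some κ') : Option (Fin n₁ × Fin n₂) × Option (Fin n₁ × Fin n₂)) ∈ cellPairs (Geo.cellOf Γ' (Geo.ug n₁ n₂ s0)) := by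
  classical
  have he1 : domPos (D := (Geo.ug n₁ n₂ s0).region Γ'.T) (cut := Γ'.cutB (Geo.ug n₁ n₂ s0))
      ((Γ'.graph (Geo.ug n₁ n₂ s0)).src ⟨e, he⟩) ∈ (Geo.ug n₁ n₂ s0).cell κ := h1
  have he2 : domPos (D := (Geo.ug n₁ n₂ s0).region Γ'.T) (cut := Γ'.cutB (Geo.ug n₁ n₂ s0))
      ((Γ'.graph (Geo.ug n₁ n₂ s0)).tgt ⟨e, he⟩) ∈ (Geo.ug n₁ n₂ s0).cell κ' := h2
  simp only [cellPairs, Finset.mem_filter, Finset.mem_image, Finset.mem_univ, true_and]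
  refine ⟨⟨⟨e, he⟩, ?_⟩, ?_⟩
  · rw [avg_cellOf Γ' s0 he1, avg_cellOf Γ' s0 he2]
  · simpa using hne

/-- the averaged bonds of `cellPairs` are the faces of `esSoft` -/
theorem esp_pairs_iff (p : Option (Fin n₁ × Fin n₂) × Option (Fin n₁ × Fin n₂)) :
    p ∈ cellPairs (Geo.cellOf Γ' (Geo.ug n₁ n₂ s0)) ↔ ∃ f ∈ esSoft Γ', p = (some f.1, some (espNb f)) := by
  classical
  constructor
  · intro hp
    obtain ⟨κ, κ', rfl, hκ, hκ', h⟩ := avg_pairs Γ' s0 hp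
    rcases h with ⟨h1, h2, h3⟩ | ⟨h1, h2, h3⟩
    · have hn : egWnb ((κ, true) : C3.Cell n₁ n₂ × Bool) κ' := Or.inl ⟨rfl, h1, Fin.ext h2⟩
      exact ⟨(κ, true), (esp_mem_soft Γ' _).2 ⟨hκ, h3, κ', hκ', hn⟩, by rw [espNb_eq hn]⟩
    · have hn : egWnb ((κ, false) : C3.Cell n₁ n₂ × Bool) κ' := Or.inr ⟨rfl, Fin.ext h1, h2⟩
      exact ⟨(κ, false), (esp_mem_soft Γ' _).2 ⟨hκ, h3, κ', hκ', hn⟩, by rw [espNb_eq hn]⟩
  · rintro ⟨⟨κ, d⟩, hf, rfl⟩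
    obtain ⟨hκ, hc, κ', hκ', hn⟩ := (esp_mem_soft Γ' _).1 hf
    rw [espNb_eq hn]
    simp only at hκ
    have hne : κ ≠ κ' := by
      rintro rfl
      rcases hn with ⟨_, h2, _⟩ | ⟨_, _, h3⟩
      · simp only at h2; omega
      · simp only at h3; omega
    rcases hn with ⟨h1, h2, h3⟩ | ⟨h1, h2, h3⟩
    · simp only at h1 h2 h3
      subst h1
      have hb := avg_bond_h Γ' s0 hκ hκ' h2 (congrArg Fin.val h3) hc (a := s0) (b := 0) (by omega) (by omega)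
      refine esp_edge Γ' s0 hb ?_ ?_ hne
      · exact (avg_mem_cell' s0 κ ((s0 : ℕ) : ℤ) ((0 : ℕ) : ℤ)).2 ⟨⟨by omega, by omega⟩, ⟨by omega, by omega⟩⟩
      · have e1 : (κ'.1.1 : ℤ) = (κ.1.1 : ℤ) + 1 := by omega
        have e2 : (κ'.2.1 : ℤ) = (κ.2.1 : ℤ) := by rw [h3]
        rw [avg_mem_cell, e1, e2]
        simp only [Bond.snd, if_true]
        push_cast
        constructor <;> constructor <;> nlinarith
    · simp only at h1 h2 h3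
      subst h1
      have hb := avg_bond_v Γ' s0 hκ hκ' (congrArg Fin.val h2) h3 hc (a := s0) (b := 0) (by omega) (by omega)
      refine esp_edge Γ' s0 hb ?_ ?_ hne
      · exact (avg_mem_cell' s0 κ ((0 : ℕ) : ℤ) ((s0 : ℕ) : ℤ)).2 ⟨⟨by omega, by omega⟩, ⟨by omega, by omega⟩⟩
      · have e1 : (κ'.2.1 : ℤ) = (κ.2.1 : ℤ) + 1 := by omega
        have e2 : (κ'.1.1 : ℤ) = (κ.1.1 : ℤ) := by rw [h2]
        rw [avg_mem_cell, e1, e2]
        simp only [Bond.snd]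
        push_cast
        constructor <;> constructor <;> nlinarith

theorem esp_soft_sum (w : ℝ) (v : (Γ'.graph (Geo.ug n₁ n₂ s0)).V → ℝ) :
    ∑ f ∈ esSoft Γ', (∑ x, (∑ κ, esSoftRow w f κ * Γ'.avgRow (Geo.ug n₁ n₂ s0) {κ} x) * v x) ^ 2 =
      w ^ 2 * avgEn (Geo.cellOf Γ' (Geo.ug n₁ n₂ s0)) v := by
  classical
  have himg : cellPairs (Geo.cellOf Γ' (Geo.ug n₁ n₂ s0)) =
      (esSoft Γ').image fun f => ((some f.1, some (espNb f)) : Option (Fin n₁ × Fin n₂) × Option (Fin n₁ × Fin n₂)) := by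
    ext p
    rw [esp_pairs_iff, Finset.mem_image]
    constructor
    · rintro ⟨f, hf, rfl⟩; exact ⟨f, hf, rfl⟩
    · rintro ⟨f, hf, rfl⟩; exact ⟨f, hf, rfl⟩
  have hinj : ∀ f ∈ esSoft Γ', ∀ f' ∈ esSoft Γ',
      ((some f.1, some (espNb f)) : Option (Fin n₁ × Fin n₂) × Option (Fin n₁ × Fin n₂)) = (some f'.1, some (espNb f')) → f = f' := by
    intro f hf f' hf' h
    simp only [Prod.mk.injEq, Option.some.injEq] at h
    obtain ⟨h1, h2⟩ := h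
    obtain ⟨-, -, κ, -, hn⟩ := (esp_mem_soft Γ' _).1 hf
    obtain ⟨-, -, κ', -, hn'⟩ := (esp_mem_soft Γ' _).1 hf'
    rw [espNb_eq hn, espNb_eq hn'] at h2
    subst h2
    refine Prod.ext h1 ?_
    rcases hn with ⟨a1, a2, a3⟩ | ⟨a1, a2, a3⟩ <;> rcases hn' with ⟨b1, b2, b3⟩ | ⟨b1, b2, b3⟩
    · rw [a1, b1]
    · rw [h1] at a2; rw [← b2] at a2; omega
    · rw [h1] at a2; rw [← a2] at b2; omega
    · rw [a1, b1]
  unfold avgEn
  rw [himg, Finset.sum_image hinj, Finset.mul_sum]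
  refine Finset.sum_congr rfl fun f hf => ?_
  obtain ⟨h1, -, κ', hκ', hn⟩ := (esp_mem_soft Γ' _).1 hf
  rw [espNb_eq hn, ← esp_avgRow_fib Γ' s0 κ' hκ', ← esp_avgRow_fib Γ' s0 f.1 h1, ← mul_pow]
  congr 1
  unfold HLaw.pair
  rw [← Finset.sum_sub_distrib, Finset.mul_sum]
  refine Finset.sum_congr rfl fun x _ => ?_
  rw [esp_softRow_sum w f κ' hn fun κ => Γ'.avgRow (Geo.ug n₁ n₂ s0) {κ} x]
  ring

end cells

/-! ## the subcells of an observation cell -/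

theorem esp_up1_card {k : ℕ} (t : ℕ) (ht : 0 < t) (i₀ : Fin k) : (Finset.univ.filter fun i : Fin (t * k) => Geo.up1 t i = i₀).card = t := by
  classical
  have hlt : ∀ r, r < t → t * i₀.1 + r < t * k := by
    intro r hr
    have h1 : t * (i₀.1 + 1) ≤ t * k := Nat.mul_le_mul_left t i₀.2
    rw [Nat.mul_add, Nat.mul_one] at h1
    omega
  have h := Finset.card_bij (s := Finset.range t) (t := Finset.univ.filter fun i : Fin (t * k) => Geo.up1 t i = i₀)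
    (fun r hr => ⟨t * i₀.1 + r, hlt r (Finset.mem_range.1 hr)⟩) ?_ ?_ ?_
  · rw [← h, Finset.card_range]
  · intro r hr
    refine Finset.mem_filter.2 ⟨Finset.mem_univ _, Fin.ext ?_⟩
    show (t * i₀.1 + r) / t = i₀.1
    rw [Nat.mul_add_div ht, Nat.div_eq_of_lt (Finset.mem_range.1 hr), add_zero]
  · intro r _ r' _ h
    have := congrArg Fin.val h
    simp only at this
    omega
  · intro i hi
    have h1 : i.1 / t = i₀.1 := congrArg Fin.val (Finset.mem_filter.1 hi).2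
    refine ⟨i.1 % t, Finset.mem_range.2 (Nat.mod_lt _ ht), Fin.ext ?_⟩
    show t * i₀.1 + i.1 % t = i.1
    rw [← h1]
    exact Nat.div_add_mod _ _

theorem esp_up_card {m₁ m₂ : ℕ} (t : ℕ) (ht : 0 < t) (κ₀ : Fin m₁ × Fin m₂) :
    (Finset.univ.filter fun κ : Fin (t * m₁) × Fin (t * m₂) => Geo.up t κ = κ₀).card = t ^ 2 := by
  classical
  have h : (Finset.univ.filter fun κ : Fin (t * m₁) × Fin (t * m₂) => Geo.up t κ = κ₀) =
      (Finset.univ.filter fun i : Fin (t * m₁) => Geo.up1 t i = κ₀.1) ×ˢ (Finset.univ.filter fun i : Fin (t * m₂) => Geo.up1 t i = κ₀.2) := by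
    ext κ
    simp only [Finset.mem_filter, Finset.mem_univ, true_and, Finset.mem_product, Geo.up, Prod.ext_iff]
  rw [h, Finset.card_product, esp_up1_card t ht, esp_up1_card t ht, sq]

section bridge

variable {m₁ m₂ : ℕ} (Γ : CGeom m₁ m₂) (t s0 : ℕ)

/-- the rows of the observation cells are the box rows of `espObs` -/
theorem esp_row0 (ht : 0 < t) (o : Fin Γ.T.card) (x : ((Geo.refine Γ t).graph (Geo.ug _ _ s0)).V) :
    (C3.lawR (Geo.refine Γ t) (Geo.ug _ _ s0) (esRow0 Γ t)).B o x = ((Geo.refine (espObs Γ) t).law (Geo.ug _ _ s0)).B o x := by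
  classical
  have hbox : (Geo.refine (espObs Γ) t).box o = Finset.univ.filter fun κ : Fin (t * m₁) × Fin (t * m₂) => Geo.up t κ = (Γ.T.equivFin.symm o).1 := by
    ext κ
    simp [Geo.refine, espObs]
  have hsub : (Geo.refine (espObs Γ) t).box o ⊆ (Geo.refine (espObs Γ) t).T := by
    intro κ hκ
    rw [hbox] at hκ
    have h1 := (Finset.mem_filter.1 hκ).2
    refine Finset.mem_filter.2 ⟨Finset.mem_univ _, ?_⟩
    rw [h1]
    exact (Γ.T.equivFin.symm o).2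
  show ∑ κ, esRow0 Γ t o κ * (Geo.refine Γ t).avgRow (Geo.ug _ _ s0) {κ} x =
    Real.sqrt 1 * (Geo.refine (espObs Γ) t).avgRow (Geo.ug _ _ s0) ((Geo.refine (espObs Γ) t).box o) x
  rw [Real.sqrt_one, one_mul, esp_avgRow_box (Geo.refine (espObs Γ) t) s0 _ hsub x, hbox, esp_up_card t ht, Finset.mul_sum, Finset.sum_filter]
  refine Finset.sum_congr rfl fun κ _ => ?_
  unfold esRow0
  by_cases h : Geo.up t κ = (Γ.T.equivFin.symm o).1
  · simp only [h, if_true]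
    push_cast
    rfl
  · simp only [h, if_false, zero_mul]

/-- **BRIDGE, reference energy** -/
theorem esp_WE0 (ht : 0 < t) (a' : ℝ) (y : C3.Cell m₁ m₂ → ℝ) :
    esWE0 Γ t (s0 + 1) a' y = ((Geo.refine (espObs Γ) t).law (Geo.ug _ _ s0)).gEn a' 0 (egCen Γ y) := by
  have h1 : esWE0 Γ t (s0 + 1) a' y = (C3.lawR (Geo.refine Γ t) (egGr (t * m₁) (t * m₂) (s0 + 1)) (esRow0 Γ t)).gEn a' 0 (egCen Γ y) := rfl
  rw [h1, esp_grid]
  refine esp_gEn_congr (C3.lawR (Geo.refine Γ t) (Geo.ug _ _ s0) (esRow0 Γ t)) ((Geo.refine (espObs Γ) t).law (Geo.ug _ _ s0)) rfl a' 0 _ _ fun v => ?_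
  refine Finset.sum_congr rfl fun o _ => ?_
  congr 2
  exact Finset.sum_congr rfl fun x _ => by rw [esp_row0 Γ t s0 ht o x]

theorem esp_obs_lawR {n₁ n₂ : ℕ} (Γ' : CGeom n₁ n₂) (g : DGrid n₁ n₂) {N : ℕ} (row : Fin N → C3.Cell n₁ n₂ → ℝ) (v : (Γ'.graph g).V → ℝ) (o : Fin N) :
    (C3.lawR Γ' g row).obs v o = ∑ x, (∑ κ, row o κ * Γ'.avgRow g {κ} x) * v x := rfl

theorem esp_row_left (δ : ℝ) (o : Fin Γ.T.card) : esRow Γ t δ (Fin.castAdd _ o) = esRow0 Γ t o := Fin.addCases_left _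

theorem esp_row_right (δ : ℝ) (j : Fin (esSoft (Geo.refine Γ t)).card) :
    esRow Γ t δ (Fin.natAdd _ j) = esSoftRow (Real.sqrt δ) ((esSoft (Geo.refine Γ t)).equivFin.symm j).1 := Fin.addCases_right _

theorem esp_cen_left (y : C3.Cell m₁ m₂ → ℝ) (o : Fin Γ.T.card) : esCen Γ t y (Fin.castAdd _ o) = egCen Γ y o := Fin.addCases_left _

theorem esp_cen_right (y : C3.Cell m₁ m₂ → ℝ) (j : Fin (esSoft (Geo.refine Γ t)).card) : esCen Γ t y (Fin.natAdd _ j) = 0 := Fin.addCases_right _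

/-- the penalty of the strengthened law of a shape -/
theorem esp_pen (δ : ℝ) (y : C3.Cell m₁ m₂ → ℝ) (v : ((Geo.refine Γ t).graph (Geo.ug _ _ s0)).V → ℝ) :
    ∑ o, ((C3.lawR (Geo.refine Γ t) (Geo.ug _ _ s0) (esRow Γ t δ)).obs v o - esCen Γ t y o) ^ 2 =
      ∑ o, ((C3.lawR (Geo.refine Γ t) (Geo.ug _ _ s0) (esRow0 Γ t)).obs v o - egCen Γ y o) ^ 2 +
        Real.sqrt δ ^ 2 * avgEn (Geo.cellOf (Geo.refine Γ t) (Geo.ug _ _ s0)) v := by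
  classical
  rw [← esp_soft_sum (Geo.refine Γ t) s0 (Real.sqrt δ) v]
  refine (Fin.sum_univ_add (fun o => ((C3.lawR (Geo.refine Γ t) (Geo.ug _ _ s0) (esRow Γ t δ)).obs v o - esCen Γ t y o) ^ 2)).trans ?_
  have e1 : ∀ o : Fin Γ.T.card, ((C3.lawR (Geo.refine Γ t) (Geo.ug _ _ s0) (esRow Γ t δ)).obs v (Fin.castAdd _ o) - esCen Γ t y (Fin.castAdd _ o)) ^ 2 =
      ((C3.lawR (Geo.refine Γ t) (Geo.ug _ _ s0) (esRow0 Γ t)).obs v o - egCen Γ y o) ^ 2 := by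
    intro o
    rw [esp_cen_left, esp_obs_lawR, esp_obs_lawR, esp_row_left]
  have e3 : ∀ j : Fin (esSoft (Geo.refine Γ t)).card,
      ((C3.lawR (Geo.refine Γ t) (Geo.ug _ _ s0) (esRow Γ t δ)).obs v (Fin.natAdd _ j) - esCen Γ t y (Fin.natAdd _ j)) ^ 2 =
      (fun f : {f // f ∈ esSoft (Geo.refine Γ t)} =>
        (∑ x, (∑ κ, esSoftRow (Real.sqrt δ) f.1 κ * (Geo.refine Γ t).avgRow (Geo.ug _ _ s0) {κ} x) * v x) ^ 2)
        ((esSoft (Geo.refine Γ t)).equivFin.symm j) := by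
    intro j
    rw [esp_cen_right, sub_zero, esp_obs_lawR, esp_row_right]
  rw [Finset.sum_congr rfl fun o _ => e1 o, Finset.sum_congr rfl fun j _ => e3 j, Equiv.sum_comp (esSoft (Geo.refine Γ t)).equivFin.symm
    (fun f : {f // f ∈ esSoft (Geo.refine Γ t)} =>
        (∑ x, (∑ κ, esSoftRow (Real.sqrt δ) f.1 κ * (Geo.refine Γ t).avgRow (Geo.ug _ _ s0) {κ} x) * v x) ^ 2)]
  congr 1
  exact Finset.sum_coe_sort (esSoft (Geo.refine Γ t)) (fun f =>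
        (∑ x, (∑ κ, esSoftRow (Real.sqrt δ) f κ * (Geo.refine Γ t).avgRow (Geo.ug _ _ s0) {κ} x) * v x) ^ 2)

theorem esp_pen0 (ht : 0 < t) (y : C3.Cell m₁ m₂ → ℝ) (v : ((Geo.refine Γ t).graph (Geo.ug _ _ s0)).V → ℝ) :
    ∑ o, ((C3.lawR (Geo.refine Γ t) (Geo.ug _ _ s0) (esRow0 Γ t)).obs v o - egCen Γ y o) ^ 2 =
      ∑ o, (((Geo.refine (espObs Γ) t).law (Geo.ug _ _ s0)).obs v o - egCen Γ y o) ^ 2 := by
  refine Finset.sum_congr rfl fun o _ => ?_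
  congr 2
  exact Finset.sum_congr rfl fun x _ => by rw [esp_row0 Γ t s0 ht o x]

/-- **BRIDGE, physical energy** -/
theorem esp_WE (ht : 0 < t) (δ a : ℝ) (y : C3.Cell m₁ m₂ → ℝ) :
    esWE Γ t (s0 + 1) δ a y = (Geo.lawS (Geo.refine (espObs Γ) t) (Geo.ug _ _ s0) δ).gEn a 0
      (strAff _ (Geo.cellOf (Geo.refine (espObs Γ) t) (Geo.ug _ _ s0)) (Real.sqrt δ) ⟨0, 0, egCen Γ y⟩).c := by
  have h1 : esWE Γ t (s0 + 1) δ a y = (C3.lawR (Geo.refine Γ t) (egGr (t * m₁) (t * m₂) (s0 + 1)) (esRow Γ t δ)).gEn a 0 (esCen Γ t y) := rfl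
  rw [h1, esp_grid]
  refine esp_gEn_congr (C3.lawR (Geo.refine Γ t) (Geo.ug _ _ s0) (esRow Γ t δ)) (Geo.lawS (Geo.refine (espObs Γ) t) (Geo.ug _ _ s0) δ) rfl a 0 _ _ fun v => ?_
  have h2 := avg_str_sum ((Geo.refine (espObs Γ) t).law (Geo.ug _ _ s0)) (Geo.cellOf (Geo.refine (espObs Γ) t) (Geo.ug _ _ s0)) (Real.sqrt δ) (egCen Γ y) v
  refine Eq.trans ?_ h2.symm
  rw [esp_pen, esp_pen0 Γ t s0 ht]
  rfl

end bridge

end

end Claimed.Agent.R285.C5
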