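import Claimed.Agent.R285.C5.Avg
import Claimed.Agent.R285.Sec.LocSys
import Claimed.Agent.R285.Pot.GaDict

/-!
# ROW 285, [C] s5, package PK-C5-POTD (architect helper145): the DECAY package (`Pot/Dec*`) for the strengthened Gaussian reference `Geo.lawS (Geo.refine Γ t) (Geo.ug _ _ s0) δ`, constants UNIFORM in `(t, s0)`.   Paper-free.

* cells of the decay grid = OBSERVATION cells (`Cell k₁ k₂`, side `ν = t (s0 + 1)`); the subcells (`Cell (t k₁) (t k₂)`, side `s0 + 1`) only carry the soft rows `√δ (avg_{κ'} - avg_κ)`.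
* **A.** `PdDict H a P S` = dictionary between a law `(H, a, pins P)` and a system of rows `S`; `potd_gPin_abs` = `pd_law_gPin_le` for ANY system with a dictionary.
* **B.** fine geometry `Γ : CGeom m₁ m₂` on `Geo.ug m₁ m₂ s0`, coarse grid `gc : DGrid k₁ k₂`, coarse cell `u κ` of a subcell: `dAmb`, `dSoft`, `dSys = (bonds + box rows) join (soft rows)`;
  hypotheses `DCoarse` (whole coarse cells, cuts only along coarse lines), `DObs` (every box is one coarse cell; every coarse cell is observed or pinned).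
  `potd_dict`, `potd_soft_com` (`K' = 32 δ`), `potd_grOk`, `potd_ok`, `potd_res`.
* **C.** the instance `Geo.refine Γ t`, `gc = DGrid.unif k₁ k₂ (t (s0+1))`, `u = Geo.up t`: `potd_coarse`, `potd_obs`; **`potd_gPin_le`**.
-/

set_option autoImplicit false

namespace Claimed.Agent.R285.C5

open S23 Pot Sec
open scoped Classical

noncomputable section

/-! ## A. dictionary law ↔ system of rows: MOVED to `Pot/GaDict.lean` (namespace `Pot`; same names `PdDict`, `potd_*`) -/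

/-! ## B. a fine geometry on the uniform grid, read in coarse cells -/

section coarse

variable {m₁ m₂ k₁ k₂ : ℕ} (Γ : CGeom m₁ m₂) (s0 : ℕ) (gc : DGrid k₁ k₂) (u : Cell m₁ m₂ → Cell k₁ k₂)

/-- ambient data: `blk` = the COARSE cell of a site, cutoffs of the coarse grid -/
def dAmb (ν : ℕ) : PdAmb (Γ.graph (Geo.ug m₁ m₂ s0)).V (Cell k₁ k₂) where
  blk x := u (locBlk Γ (Geo.ug m₁ m₂ s0) x)
  adj := geoAdj
  cut J x := locCut gc ν J (locPos Γ (Geo.ug m₁ m₂ s0) x)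

/-- the soft rows `√δ (avg_{κ'} - avg_κ)` over the pairs of adjacent subcells -/
def dSoft (δ : ℝ) : PdSys (Γ.graph (Geo.ug m₁ m₂ s0)).V (Cell k₁ k₂) where
  Tm := {p : Option (Cell m₁ m₂) × Option (Cell m₁ m₂) // p ∈ cellPairs (Geo.cellOf Γ (Geo.ug m₁ m₂ s0))}
  R p x := Real.sqrt δ * (fibAvg (Geo.cellOf Γ (Geo.ug m₁ m₂ s0)) p.1.2 x - fibAvg (Geo.cellOf Γ (Geo.ug m₁ m₂ s0)) p.1.1 x)
  cs p := {i | ∃ κ, (p.1.1 = some κ ∨ p.1.2 = some κ) ∧ u κ = i}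
  pin := ∅

/-- bonds and box rows of `Γ.law` (row `o` carried by the coarse cell `cel o`), pins `P` -/
def dGr (cel : Fin Γ.nObs → Cell k₁ k₂) (P : Set (Γ.graph (Geo.ug m₁ m₂ s0)).V) : PdGr (Γ.graph (Geo.ug m₁ m₂ s0)).V (Cell k₁ k₂) :=
  pdLawGr (Γ.law (Geo.ug m₁ m₂ s0)) P cel

/-- **the system of rows of `Geo.lawS Γ (ug s0) δ` at coefficient `a`, pins `P`** -/
def dSys (ν : ℕ) (cel : Fin Γ.nObs → Cell k₁ k₂) (P : Set (Γ.graph (Geo.ug m₁ m₂ s0)).V) (a δ : ℝ) :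
    PdSys (Γ.graph (Geo.ug m₁ m₂ s0)).V (Cell k₁ k₂) :=
  ((dGr Γ s0 cel P).sys (dAmb Γ s0 gc u ν) a).join (dSoft Γ s0 u δ)

theorem potd_defs_eqns_cite : True := by
  have := @dAmb.eq_1; have := @dSoft.eq_1; have := @dGr.eq_1; have := @dSys.eq_1; trivial

/-- the fine geometry consists of whole coarse cells (`Tc`) and is cut only along coarse lines -/
structure DCoarse (Tc : Finset (Cell k₁ k₂)) : Prop where
  sub : ∀ κ, (Geo.ug m₁ m₂ s0).cell κ ⊆ gc.cell (u κ)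
  full : ∀ i ∈ Tc, gc.cell i ⊆ (Geo.ug m₁ m₂ s0).region Γ.T
  mem : ∀ κ ∈ Γ.T, u κ ∈ Tc
  nocut : ∀ e ∈ Γ.cutB (Geo.ug m₁ m₂ s0), ∀ i, ¬ (e.1 ∈ gc.cell i ∧ e.snd ∈ gc.cell i)

/-- every box is one coarse cell; every coarse cell of `Tc` is pinned (`Pc`) or observed with weight `≥ w₀`; total weight per cell `≤ W` -/
structure DObs (Tc Pc : Finset (Cell k₁ k₂)) (cel : Fin Γ.nObs → Cell k₁ k₂) (w₀ W : ℝ) : Prop where
  box : ∀ o κ, κ ∈ Γ.box o ↔ u κ = cel o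
  wgt_nonneg : ∀ o, 0 ≤ Γ.wgt o
  w₀_pos : 0 < w₀
  W_nonneg : 0 ≤ W
  cover : ∀ i ∈ Tc, i ∈ Pc ∨ ∃ o, cel o = i ∧ w₀ ≤ Γ.wgt o
  total : ∀ i, (∑ o, if cel o = i then Γ.wgt o else 0) ≤ W

/-! ### B1. the dictionary -/

theorem potd_join_bil {V I : Type} [Fintype V] (S S' : PdSys V I) (v w : V → ℝ) : (S.join S').bil v w = S.bil v w + S'.bil v w :=
  Fintype.sum_sum_type _

theorem potd_join_enI {V I : Type} [Fintype V] (S S' : PdSys V I) (J : Set I) (v : V → ℝ) : (S.join S').enI J v = S.enI J v + S'.enI J v :=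
  Fintype.sum_sum_type _

/-- `plB` of a strengthened law -/
theorem potd_str_B {G : HGraph} (H : HLaw G) {C : Type} (κ₀ : G.V → C) (w a : ℝ) (v v' : G.V → ℝ) :
    plB (str H κ₀ w) a v v' = plB H a v v' + ∑ p : {p : C × C // p ∈ cellPairs κ₀},
      (∑ x, w * (fibAvg κ₀ p.1.2 x - fibAvg κ₀ p.1.1 x) * v x) * (∑ x, w * (fibAvg κ₀ p.1.2 x - fibAvg κ₀ p.1.1 x) * v' x) := by
  have h1 : ∑ o, (str H κ₀ w).obs v o * (str H κ₀ w).obs v' o =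
      ∑ o : H.O, (str H κ₀ w).obs v (Sum.inl o) * (str H κ₀ w).obs v' (Sum.inl o) +
      ∑ p : {p : C × C // p ∈ cellPairs κ₀}, (str H κ₀ w).obs v (Sum.inr p) * (str H κ₀ w).obs v' (Sum.inr p) :=
    Fintype.sum_sum_type _
  unfold plB
  rw [h1, add_assoc]
  rfl

/-- **(D1) the dictionary** -/
theorem potd_dict (ν : ℕ) (cel : Fin Γ.nObs → Cell k₁ k₂) (P : Set (Γ.graph (Geo.ug m₁ m₂ s0)).V) {a : ℝ} (ha : 0 < a) (δ : ℝ) :
    PdDict (Geo.lawS Γ (Geo.ug m₁ m₂ s0) δ) a P (dSys Γ s0 gc u ν cel P a δ) where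
  bil v w := by
    have h1 : (dSys Γ s0 gc u ν cel P a δ).bil v w
        = ((dGr Γ s0 cel P).sys (dAmb Γ s0 gc u ν) a).bil v w + (dSoft Γ s0 u δ).bil v w := potd_join_bil _ _ v w
    have h2 : ((dGr Γ s0 cel P).sys (dAmb Γ s0 gc u ν) a).bil v w = plB (Γ.law (Geo.ug m₁ m₂ s0)) a v w :=
      pd_law_bil (Γ.law (Geo.ug m₁ m₂ s0)) _ P cel ha v w
    rw [h1, h2]
    exact (potd_str_B (Γ.law (Geo.ug m₁ m₂ s0)) (Geo.cellOf Γ (Geo.ug m₁ m₂ s0)) (Real.sqrt δ) a v w).symm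
  adm v := ⟨fun h x hx => h x (Or.inl hx), fun h x hx => hx.elim (h x) fun h' => h'.elim⟩


/-! ### B1'. (D4) affine data -/

theorem potd_join_aff {V I : Type} [Fintype V] (S S' : PdSys V I) (z : S.Tm → ℝ) (z' : S'.Tm → ℝ) (w : V → ℝ) :
    (S.join S').aff (Sum.elim z z') w = S.aff z w + S'.aff z' w :=
  Fintype.sum_sum_type _

/-- encoding of an affine datum `(θ, c)` of the strengthened law as a vector of row data -/
def dEnc (ν : ℕ) (cel : Fin Γ.nObs → Cell k₁ k₂) (P : Set (Γ.graph (Geo.ug m₁ m₂ s0)).V) (a δ : ℝ)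
    (θ : (Γ.graph (Geo.ug m₁ m₂ s0)).E → ℝ) (c : (Geo.lawS Γ (Geo.ug m₁ m₂ s0) δ).O → ℝ) : (dSys Γ s0 gc u ν cel P a δ).Tm → ℝ :=
  Sum.elim (Sum.elim (fun e => -((Real.sqrt a)⁻¹ * θ e)) fun o => c (Sum.inl o)) fun p => c (Sum.inr p)

theorem dEnc_eqns_cite : True := by have := @dEnc.eq_1; trivial

/-- the affine cost of the rows = the affine cost of the law -/
theorem potd_aff (ν : ℕ) (cel : Fin Γ.nObs → Cell k₁ k₂) (P : Set (Γ.graph (Geo.ug m₁ m₂ s0)).V) {a : ℝ} (ha : 0 < a) (δ : ℝ)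
    (θ : (Γ.graph (Geo.ug m₁ m₂ s0)).E → ℝ) (c : (Geo.lawS Γ (Geo.ug m₁ m₂ s0) δ).O → ℝ) (w : (Γ.graph (Geo.ug m₁ m₂ s0)).V → ℝ) :
    (dSys Γ s0 gc u ν cel P a δ).aff (dEnc Γ s0 gc u ν cel P a δ θ c) w
      = a⁻¹ * HLaw.en w θ + ∑ o, ((Geo.lawS Γ (Geo.ug m₁ m₂ s0) δ).obs w o - c o) ^ 2 := by
  have h1 : (dSys Γ s0 gc u ν cel P a δ).aff (dEnc Γ s0 gc u ν cel P a δ θ c) w
      = ((dGr Γ s0 cel P).sys (dAmb Γ s0 gc u ν) a).aff (Sum.elim (fun e => -((Real.sqrt a)⁻¹ * θ e)) fun o => c (Sum.inl o)) w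
        + (dSoft Γ s0 u δ).aff (fun p => c (Sum.inr p)) w := potd_join_aff _ _ _ _ w
  have h2 := pd_graph_aff (dAmb Γ s0 gc u ν) (dGr Γ s0 cel P) ha θ (fun o => c (Sum.inl o)) w
  have h3 : ∑ o, ((Geo.lawS Γ (Geo.ug m₁ m₂ s0) δ).obs w o - c o) ^ 2
      = ∑ o : Fin Γ.nObs, ((Geo.lawS Γ (Geo.ug m₁ m₂ s0) δ).obs w (Sum.inl o) - c (Sum.inl o)) ^ 2
        + ∑ p : {p : Option (Cell m₁ m₂) × Option (Cell m₁ m₂) // p ∈ cellPairs (Geo.cellOf Γ (Geo.ug m₁ m₂ s0))},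
            ((Geo.lawS Γ (Geo.ug m₁ m₂ s0) δ).obs w (Sum.inr p) - c (Sum.inr p)) ^ 2 := Fintype.sum_sum_type _
  rw [h1, h2, h3, ← add_assoc]
  rfl

variable {Γ s0 gc u} {Tc Pc : Finset (Cell k₁ k₂)}

/-! ### B2. transfer: sites ↔ coarse cells (`POTD-TR`) -/

theorem potd_cellOf (x : (Γ.graph (Geo.ug m₁ m₂ s0)).V) :
    Geo.cellOf Γ (Geo.ug m₁ m₂ s0) x = some (locBlk Γ (Geo.ug m₁ m₂ s0) x) :=
  avg_cellOf Γ s0 (loc_blk_spec Γ _ x).2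

theorem potd_pos_mem (hc : DCoarse Γ s0 gc u Tc) (x : (Γ.graph (Geo.ug m₁ m₂ s0)).V) :
    locPos Γ (Geo.ug m₁ m₂ s0) x ∈ gc.cell (u (locBlk Γ (Geo.ug m₁ m₂ s0) x)) :=
  hc.sub _ (loc_blk_spec Γ _ x).2

theorem potd_blk_mem (hc : DCoarse Γ s0 gc u Tc) (x : (Γ.graph (Geo.ug m₁ m₂ s0)).V) :
    u (locBlk Γ (Geo.ug m₁ m₂ s0) x) ∈ Tc :=
  hc.mem _ (loc_blk_spec Γ _ x).1

theorem potd_blk_eq_iff (hc : DCoarse Γ s0 gc u Tc) (x : (Γ.graph (Geo.ug m₁ m₂ s0)).V) (i : Cell k₁ k₂) :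
    u (locBlk Γ (Geo.ug m₁ m₂ s0) x) = i ↔ locPos Γ (Geo.ug m₁ m₂ s0) x ∈ gc.cell i :=
  ⟨fun h => h ▸ potd_pos_mem hc x, fun h => geo_cell_unique gc (potd_pos_mem hc x) h⟩

theorem potd_amb_ok (hc : DCoarse Γ s0 gc u Tc) {ν : ℕ} (hν : 1 ≤ ν) (hg : gc.SideGe ν) : (dAmb Γ s0 gc u ν).Ok where
  adj_refl := geo_adj_refl
  adj_symm := fun _ _ => geo_adj_symm
  cut_mem := fun J _ => (loc_cut_spec hν hg J).1 _
  cut_one := fun J x hx => (loc_cut_spec hν hg J).2.1 _ hx _ (potd_pos_mem hc x)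
  cut_zero := fun J x hx =>
    (loc_cut_spec hν hg J).2.2.1 (u (locBlk Γ (Geo.ug m₁ m₂ s0) x)) (fun κ' hκ' hadj => hx ⟨κ', hκ', hadj⟩) _ (potd_pos_mem hc x)

/-- sums over the sites of a coarse cell -/
theorem potd_sum_cell (hc : DCoarse Γ s0 gc u Tc) {i : Cell k₁ k₂} (hi : i ∈ Tc) (F : ℤ × ℤ → ℝ) :
    ∑ x : (Γ.graph (Geo.ug m₁ m₂ s0)).V, (if u (locBlk Γ (Geo.ug m₁ m₂ s0) x) = i then F (locPos Γ (Geo.ug m₁ m₂ s0) x) else 0)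
      = ∑ p ∈ gc.cell i, F p := by
  rw [← loc_sum_sub Γ (Geo.ug m₁ m₂ s0) (hc.full i hi) F]
  refine Finset.sum_congr rfl fun x _ => ?_
  simp only [potd_blk_eq_iff hc]

theorem potd_l2 (hc : DCoarse Γ s0 gc u Tc) (ν : ℕ) {i : Cell k₁ k₂} (hi : i ∈ Tc) (v : (Γ.graph (Geo.ug m₁ m₂ s0)).V → ℝ) :
    (dAmb Γ s0 gc u ν).l2 {i} v = ∑ p ∈ gc.cell i, locExt Γ (Geo.ug m₁ m₂ s0) v p ^ 2 := by
  rw [← potd_sum_cell hc hi fun p => locExt Γ (Geo.ug m₁ m₂ s0) v p ^ 2]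
  refine Finset.sum_congr rfl fun x _ => ?_
  rw [loc_ext_pos]
  exact loc_ite_congr Iff.rfl _ _

theorem potd_l2_not (hc : DCoarse Γ s0 gc u Tc) (ν : ℕ) {i : Cell k₁ k₂} (hi : i ∉ Tc) (v : (Γ.graph (Geo.ug m₁ m₂ s0)).V → ℝ) :
    (dAmb Γ s0 gc u ν).l2 {i} v = 0 := by
  refine Finset.sum_eq_zero fun x _ => if_neg fun h => hi ?_
  have h' : u (locBlk Γ (Geo.ug m₁ m₂ s0) x) = i := h
  exact h' ▸ potd_blk_mem hc x

/-- the bonds inside a coarse cell: none is cut -/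
theorem potd_bonds_cell (hc : DCoarse Γ s0 gc u Tc) {i : Cell k₁ k₂} (hi : i ∈ Tc) :
    (domBonds ((Geo.ug m₁ m₂ s0).region Γ.T) (Γ.cutB (Geo.ug m₁ m₂ s0))).filter (fun e => e.1 ∈ gc.cell i ∧ e.snd ∈ gc.cell i)
      = domBonds (gc.cell i) ∅ := by
  ext e
  simp only [domBonds, Finset.mem_filter, Finset.mem_product, Finset.mem_univ, and_true, Set.mem_empty_iff_false, not_false_eq_true]
  constructor
  · rintro ⟨_, h1, h2⟩
    exact ⟨h1, h2⟩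
  · rintro ⟨h1, h2⟩
    exact ⟨⟨hc.full i hi h1, hc.full i hi h2, fun he => hc.nocut e he i ⟨h1, h2⟩⟩, h1, h2⟩

theorem potd_en_cell (hc : DCoarse Γ s0 gc u Tc) {i : Cell k₁ k₂} (hi : i ∈ Tc) (v : (Γ.graph (Geo.ug m₁ m₂ s0)).V → ℝ) :
    (∑ e : (Γ.graph (Geo.ug m₁ m₂ s0)).E,
      if u (locBlk Γ (Geo.ug m₁ m₂ s0) ((Γ.graph (Geo.ug m₁ m₂ s0)).src e)) = i
          ∧ u (locBlk Γ (Geo.ug m₁ m₂ s0) ((Γ.graph (Geo.ug m₁ m₂ s0)).tgt e)) = i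
      then (v ((Γ.graph (Geo.ug m₁ m₂ s0)).tgt e) - v ((Γ.graph (Geo.ug m₁ m₂ s0)).src e)) ^ 2 else 0)
      = geoEn (gc.cell i) (locExt Γ (Geo.ug m₁ m₂ s0) v) := by
  rw [geoEn, ← potd_bonds_cell hc hi, Finset.sum_filter,
    ← loc_sum_E Γ (Geo.ug m₁ m₂ s0) fun e => if e.1 ∈ gc.cell i ∧ e.snd ∈ gc.cell i
      then (locExt Γ (Geo.ug m₁ m₂ s0) v e.snd - locExt Γ (Geo.ug m₁ m₂ s0) v e.1) ^ 2 else 0]
  refine Finset.sum_congr rfl fun e _ => ?_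
  simp only [potd_blk_eq_iff hc, loc_pos_src, loc_pos_tgt]
  rw [← loc_pos_src, ← loc_pos_tgt, loc_ext_pos, loc_ext_pos]

theorem potd_cellEn (hc : DCoarse Γ s0 gc u Tc) (ν : ℕ) (cel : Fin Γ.nObs → Cell k₁ k₂) (P : Set (Γ.graph (Geo.ug m₁ m₂ s0)).V)
    {i : Cell k₁ k₂} (hi : i ∈ Tc) (v : (Γ.graph (Geo.ug m₁ m₂ s0)).V → ℝ) :
    locCellEn (dAmb Γ s0 gc u ν) (dGr Γ s0 cel P) i v = geoEn (gc.cell i) (locExt Γ (Geo.ug m₁ m₂ s0) v) :=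
  (Finset.sum_congr rfl fun _ _ => loc_ite_congr Iff.rfl _ _).trans (potd_en_cell hc hi v)

/-! ### B3. the box rows (`POTD-OBS`) -/

/-- the sites of a box = the coarse cell -/
theorem potd_region_box (hc : DCoarse Γ s0 gc u Tc) {cel : Fin Γ.nObs → Cell k₁ k₂} {w₀ W : ℝ} (ho : DObs Γ u Tc Pc cel w₀ W)
    {o : Fin Γ.nObs} (hi : cel o ∈ Tc) : (Geo.ug m₁ m₂ s0).region (Γ.box o ∩ Γ.T) = gc.cell (cel o) := by
  ext p
  rw [DGrid.region, Finset.mem_biUnion]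
  constructor
  · rintro ⟨κ, hκ, hp⟩
    have h1 : u κ = cel o := (ho.box o κ).1 (Finset.mem_inter.1 hκ).1
    exact h1 ▸ hc.sub κ hp
  · intro hp
    obtain ⟨κ, hκ, hpκ⟩ := Finset.mem_biUnion.1 (hc.full _ hi hp)
    have h1 : u κ = cel o := geo_cell_unique gc (hc.sub κ hpκ) hp
    exact ⟨κ, Finset.mem_inter.2 ⟨(ho.box o κ).2 h1, hκ⟩, hpκ⟩

theorem potd_B (hc : DCoarse Γ s0 gc u Tc) {cel : Fin Γ.nObs → Cell k₁ k₂} {w₀ W : ℝ} (ho : DObs Γ u Tc Pc cel w₀ W)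
    (o : Fin Γ.nObs) (x : (Γ.graph (Geo.ug m₁ m₂ s0)).V) :
    (Γ.law (Geo.ug m₁ m₂ s0)).B o x
      = if u (locBlk Γ (Geo.ug m₁ m₂ s0) x) = cel o then Real.sqrt (Γ.wgt o) * ((gc.cell (cel o)).card : ℝ)⁻¹ else 0 := by
  have h1 : (Γ.law (Geo.ug m₁ m₂ s0)).B o x = Real.sqrt (Γ.wgt o) * Γ.avgRow (Geo.ug m₁ m₂ s0) (Γ.box o) x := rfl
  rw [h1]
  unfold CGeom.avgRow
  by_cases h : u (locBlk Γ (Geo.ug m₁ m₂ s0) x) = cel o
  · have hx : x ∈ Γ.sites (Geo.ug m₁ m₂ s0) (Γ.box o) := (loc_mem_sites Γ _ _ x).2 ((ho.box o _).2 h)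
    have hi : cel o ∈ Tc := h ▸ potd_blk_mem hc x
    rw [if_pos hx, if_pos h, potd_region_box hc ho hi]
  · have hx : x ∉ Γ.sites (Geo.ug m₁ m₂ s0) (Γ.box o) := fun hx => h ((ho.box o _).1 ((loc_mem_sites Γ _ _ x).1 hx))
    rw [if_neg hx, if_neg h, mul_zero]

theorem potd_obs (hc : DCoarse Γ s0 gc u Tc) {cel : Fin Γ.nObs → Cell k₁ k₂} {w₀ W : ℝ} (ho : DObs Γ u Tc Pc cel w₀ W)
    {o : Fin Γ.nObs} (hi : cel o ∈ Tc) (v : (Γ.graph (Geo.ug m₁ m₂ s0)).V → ℝ) :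
    (Γ.law (Geo.ug m₁ m₂ s0)).obs v o
      = Real.sqrt (Γ.wgt o) * (((gc.cell (cel o)).card : ℝ)⁻¹ * ∑ p ∈ gc.cell (cel o), locExt Γ (Geo.ug m₁ m₂ s0) v p) := by
  rw [Finset.mul_sum, Finset.mul_sum,
    ← potd_sum_cell hc hi fun p => Real.sqrt (Γ.wgt o) * (((gc.cell (cel o)).card : ℝ)⁻¹ * locExt Γ (Geo.ug m₁ m₂ s0) v p)]
  refine Finset.sum_congr rfl fun x _ => ?_
  rw [potd_B hc ho, loc_ext_pos, ite_mul, zero_mul, mul_assoc]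

/-- the row energy of a coarse cell -/
theorem potd_cellObs (hc : DCoarse Γ s0 gc u Tc) {cel : Fin Γ.nObs → Cell k₁ k₂} {w₀ W : ℝ} (ho : DObs Γ u Tc Pc cel w₀ W)
    (P : Set (Γ.graph (Geo.ug m₁ m₂ s0)).V) {i : Cell k₁ k₂} (hi : i ∈ Tc) (v : (Γ.graph (Geo.ug m₁ m₂ s0)).V → ℝ) :
    locCellObs (dGr Γ s0 cel P) i v
      = (∑ o, if cel o = i then Γ.wgt o else 0) * (((gc.cell i).card : ℝ)⁻¹ * ∑ p ∈ gc.cell i, locExt Γ (Geo.ug m₁ m₂ s0) v p) ^ 2 := by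
  have h0 : locCellObs (dGr Γ s0 cel P) i v = ∑ o, if cel o = i then (Γ.law (Geo.ug m₁ m₂ s0)).obs v o ^ 2 else 0 :=
    Finset.sum_congr rfl fun _ _ => loc_ite_congr Iff.rfl _ _
  rw [h0, Finset.sum_mul]
  refine Finset.sum_congr rfl fun o _ => ?_
  by_cases h : cel o = i
  · rw [if_pos h, if_pos h, potd_obs hc ho (h ▸ hi), mul_pow, Real.sq_sqrt (ho.wgt_nonneg o), h]
  · rw [if_neg h, if_neg h, zero_mul]

theorem potd_cellObs_not (hc : DCoarse Γ s0 gc u Tc) {cel : Fin Γ.nObs → Cell k₁ k₂} {w₀ W : ℝ} (ho : DObs Γ u Tc Pc cel w₀ W)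
    (P : Set (Γ.graph (Geo.ug m₁ m₂ s0)).V) {i : Cell k₁ k₂} (hi : i ∉ Tc) (v : (Γ.graph (Geo.ug m₁ m₂ s0)).V → ℝ) :
    locCellObs (dGr Γ s0 cel P) i v = 0 := by
  have h0 : locCellObs (dGr Γ s0 cel P) i v = ∑ o, if cel o = i then (Γ.law (Geo.ug m₁ m₂ s0)).obs v o ^ 2 else 0 :=
    Finset.sum_congr rfl fun _ _ => loc_ite_congr Iff.rfl _ _
  rw [h0]
  refine Finset.sum_eq_zero fun o _ => ?_
  by_cases h : cel o = i
  · have h1 : (Γ.law (Geo.ug m₁ m₂ s0)).obs v o = 0 := by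
      refine Finset.sum_eq_zero fun x _ => ?_
      have h2 : ¬ u (locBlk Γ (Geo.ug m₁ m₂ s0) x) = cel o := fun h2 => hi (h ▸ h2 ▸ potd_blk_mem hc x)
      rw [potd_B hc ho, if_neg h2, zero_mul]
    rw [if_pos h, h1]
    norm_num
  · rw [if_neg h]

/-! ### B4. the structure constants of bonds + box rows (`POTD-GROK`) -/

/-- **the structure constants of `Γ.law` read in coarse cells** -/
theorem potd_grOk (hc : DCoarse Γ s0 gc u Tc) {cel : Fin Γ.nObs → Cell k₁ k₂} {w₀ W : ℝ} (ho : DObs Γ u Tc Pc cel w₀ W)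
    {P : Set (Γ.graph (Geo.ug m₁ m₂ s0)).V} (hP : ∀ x, u (locBlk Γ (Geo.ug m₁ m₂ s0) x) ∈ Pc → x ∈ P)
    {ν K : ℕ} (hν : 1 ≤ ν) (hg : Scale K gc ν) :
    PdGrOk (dAmb Γ s0 gc u ν) (dGr Γ s0 cel P) ((ν : ℝ) ^ 2)⁻¹ ((K : ℝ) ^ 2 * max 1 w₀⁻¹) W 1 4 := by
  have hν' : (1 : ℝ) ≤ ν := by exact_mod_cast hν
  have hM1 : (1 : ℝ) ≤ max 1 w₀⁻¹ := le_max_left _ _
  have hM2 : w₀⁻¹ ≤ max 1 w₀⁻¹ := le_max_right _ _
  have hCP : (0 : ℝ) ≤ (K : ℝ) ^ 2 * max 1 w₀⁻¹ := mul_nonneg (by positivity) (zero_le_one.trans hM1)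
  exact
  { amb := potd_amb_ok hc hν hg.1
    σ_pos := by positivity
    CP_nonneg := hCP
    CN_nonneg := ho.W_nonneg
    K_nonneg := zero_le_one
    row_supp := fun o x h => by
      by_contra hne
      have hne' : ¬ u (locBlk Γ (Geo.ug m₁ m₂ s0) x) = cel o := hne
      exact h ((potd_B hc ho o x).trans (if_neg hne'))
    edge_adj := fun e =>
      geo_cell_bond gc (e := domBond (D := (Geo.ug m₁ m₂ s0).region Γ.T) (cut := Γ.cutB (Geo.ug m₁ m₂ s0)) e)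
        (potd_pos_mem hc _) (potd_pos_mem hc _)
    deg := loc_deg Γ (Geo.ug m₁ m₂ s0) P
    poincare := fun i v hv => by
      show _ ≤ _ * (locCellEn (dAmb Γ s0 gc u ν) (dGr Γ s0 cel P) i v + locCellObs (dGr Γ s0 cel P) i v)
      by_cases hi : i ∈ Tc
      · rcases ho.cover i hi with hPc | ⟨o, ho1, ho2⟩
        · have hz : (dAmb Γ s0 gc u ν).l2 {i} v = 0 := by
            refine Finset.sum_eq_zero fun x _ => ?_
            by_cases h : (dAmb Γ s0 gc u ν).blk x ∈ ({i} : Set (Cell k₁ k₂))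
            · have h' : u (locBlk Γ (Geo.ug m₁ m₂ s0) x) = i := h
              rw [if_pos h, hv x (hP x (by rw [h']; exact hPc))]
              norm_num
            · exact if_neg h
          rw [hz, mul_zero, potd_cellObs hc ho P hi]
          refine mul_nonneg hCP (add_nonneg (loc_cellEn_nonneg _ _ _ _) (mul_nonneg ?_ (sq_nonneg _)))
          exact Finset.sum_nonneg fun o _ => by
            split_ifs
            · exact ho.wgt_nonneg o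
            · exact le_rfl
        · rw [potd_l2 hc ν hi, potd_cellEn hc ν cel P hi, potd_cellObs hc ho P hi]
          have hp := loc_poincare hν hg i (locExt Γ (Geo.ug m₁ m₂ s0) v)
          have hE := geo_en_nonneg (gc.cell i) (locExt Γ (Geo.ug m₁ m₂ s0) v)
          have hw : w₀ ≤ ∑ o, if cel o = i then Γ.wgt o else 0 := by
            refine le_trans ?_ (Finset.single_le_sum (f := fun o => if cel o = i then Γ.wgt o else 0) (fun o _ => ?_)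
              (Finset.mem_univ o))
            · show w₀ ≤ if cel o = i then Γ.wgt o else 0
              rw [if_pos ho1]
              exact ho2
            · show 0 ≤ if cel o = i then Γ.wgt o else 0
              split_ifs
              · exact ho.wgt_nonneg o
              · exact le_rfl
          obtain ⟨E, hEd⟩ : ∃ E, E = geoEn (gc.cell i) (locExt Γ (Geo.ug m₁ m₂ s0) v) := ⟨_, rfl⟩
          obtain ⟨A2, hA⟩ : ∃ A2, A2 = (((gc.cell i).card : ℝ)⁻¹ * ∑ p ∈ gc.cell i, locExt Γ (Geo.ug m₁ m₂ s0) v p) ^ 2 := ⟨_, rfl⟩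
          obtain ⟨Wt, hWt⟩ : ∃ Wt, Wt = ∑ o, if cel o = i then Γ.wgt o else 0 := ⟨_, rfl⟩
          rw [← hEd, ← hA] at hp
          rw [← hEd, ← hA, ← hWt]
          rw [← hEd] at hE
          rw [← hWt] at hw
          have hA0 : 0 ≤ A2 := by rw [hA]; exact sq_nonneg _
          have hw0 := ho.w₀_pos
          have h1 : A2 ≤ w₀⁻¹ * (Wt * A2) := by
            rw [le_inv_mul_iff₀ hw0]
            exact mul_le_mul_of_nonneg_right hw hA0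
          have hWA : 0 ≤ Wt * A2 := mul_nonneg (hw0.le.trans hw) hA0
          have h2 : E + A2 ≤ max 1 w₀⁻¹ * (E + Wt * A2) := by
            have a1 : E ≤ max 1 w₀⁻¹ * E := le_mul_of_one_le_left hE hM1
            have a2 : w₀⁻¹ * (Wt * A2) ≤ max 1 w₀⁻¹ * (Wt * A2) := mul_le_mul_of_nonneg_right hM2 hWA
            rw [mul_add]
            linarith
          refine hp.trans ?_
          rw [mul_assoc]
          exact mul_le_mul_of_nonneg_left h2 (by positivity)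
      · rw [potd_l2_not hc ν hi, mul_zero, potd_cellObs_not hc ho P hi, add_zero]
        exact mul_nonneg hCP (loc_cellEn_nonneg _ _ _ _)
    row_le := fun i v => by
      show locCellObs (dGr Γ s0 cel P) i v ≤ _
      by_cases hi : i ∈ Tc
      · rw [potd_l2 hc ν hi, potd_cellObs hc ho P hi]
        exact mul_le_mul (ho.total i) (loc_row_le hν hg.1 i _) (sq_nonneg _) ho.W_nonneg
      · rw [potd_cellObs_not hc ho P hi, potd_l2_not hc ν hi, mul_zero, mul_zero]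
    cut_lip := fun J e => by
      rw [one_mul]
      exact (loc_cut_spec hν hg.1 J).2.2.2.1
        (domBond (D := (Geo.ug m₁ m₂ s0).region Γ.T) (cut := Γ.cutB (Geo.ug m₁ m₂ s0)) e) }

/-- resolution of bonds + box rows -/
theorem potd_res_gr (hc : DCoarse Γ s0 gc u Tc) (cel : Fin Γ.nObs → Cell k₁ k₂) (P : Set (Γ.graph (Geo.ug m₁ m₂ s0)).V)
    {ν K : ℕ} (hν : 1 ≤ ν) (hg : Scale K gc ν) {a : ℝ} (ha : 0 < a) :
    PdRes (dAmb Γ s0 gc u ν) ((dGr Γ s0 cel P).sys (dAmb Γ s0 gc u ν) a) ((ν : ℝ) ^ 2)⁻¹ (locCR K a) := by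
  refine pd_res_graph (CR := 2 * (K : ℝ) ^ 2) (by positivity) ha fun k i => ?_
  show ∃ ℓ : Fin (4 ^ k) → ((Γ.graph (Geo.ug m₁ m₂ s0)).V → ℝ) →ₗ[ℝ] ℝ, ∀ v, (∀ x ∈ (dGr Γ s0 cel P).pin, v x = 0) →
    (∀ j, ℓ j v = 0) → _ ≤ _ * locCellEn (dAmb Γ s0 gc u ν) (dGr Γ s0 cel P) i v
  have hν' : (1 : ℝ) ≤ ν := by exact_mod_cast hν
  have hν2 : (0 : ℝ) < (ν : ℝ) ^ 2 := by positivity
  by_cases hi : i ∈ Tc
  · obtain ⟨B, hB, hres⟩ := geo_res_rect (W := K * ν) (hg.2.1 i.1) (hg.2.2 i.2) k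
    rw [← geo_cell_eq] at hB hres
    refine ⟨fun j => pdRowF fun x => if locPos Γ (Geo.ug m₁ m₂ s0) x ∈ B j then 1 else 0, fun v _ hv => ?_⟩
    rw [potd_l2 hc ν hi, potd_cellEn hc ν cel P hi]
    have h1 := hres (locExt Γ (Geo.ug m₁ m₂ s0) v) fun j => by
      have h2 : ∑ x, (if locPos Γ (Geo.ug m₁ m₂ s0) x ∈ B j then (1 : ℝ) else 0) * v x = 0 := hv j
      rw [← loc_sum_sub Γ (Geo.ug m₁ m₂ s0) ((hB j).trans (hc.full i hi))]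
      refine Eq.trans (Finset.sum_congr rfl fun x _ => ?_) h2
      rw [loc_ext_pos, ite_mul, one_mul, zero_mul]
    rw [inv_mul_le_iff₀ hν2]
    refine h1.trans (le_of_eq ?_)
    push_cast
    ring
  · refine ⟨fun _ => 0, fun v _ _ => ?_⟩
    rw [potd_l2_not hc ν hi, mul_zero]
    exact mul_nonneg (by positivity) (loc_cellEn_nonneg _ _ _ _)

/-! ### B5. the soft rows (`POTD-SOFT`) -/

/-- sum over the sites of a subcell -/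
def dSum (Γ : CGeom m₁ m₂) (s0 : ℕ) (κ : Cell m₁ m₂) (f : (Γ.graph (Geo.ug m₁ m₂ s0)).V → ℝ) : ℝ :=
  ∑ x, if locBlk Γ (Geo.ug m₁ m₂ s0) x = κ then f x else 0

theorem dSum_eqns_cite : True := by have := @dSum.eq_1; trivial

/-- the pairs: adjacent subcells of `T`, second = first + one step to the right or upwards -/
theorem potd_pairs (δ : ℝ) (t : (dSoft Γ s0 u δ).Tm) :
    ∃ κ κ' : Cell m₁ m₂, t.1 = (some κ, some κ') ∧ κ ∈ Γ.T ∧ κ' ∈ Γ.T ∧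
      ((κ.1.1 + 1 = κ'.1.1 ∧ κ.2.1 = κ'.2.1) ∨ (κ.1.1 = κ'.1.1 ∧ κ.2.1 + 1 = κ'.2.1)) := by
  obtain ⟨κ, κ', h1, h2, h3, h4⟩ := avg_pairs Γ s0 t.2
  exact ⟨κ, κ', h1, h2, h3, h4.imp (fun h => ⟨h.1, h.2.1⟩) fun h => ⟨h.1, h.2.1⟩⟩

/-- the number of sites of a subcell of `T` -/
theorem potd_card_blk {κ : Cell m₁ m₂} (hκ : κ ∈ Γ.T) :
    (((Finset.univ : Finset (Γ.graph (Geo.ug m₁ m₂ s0)).V).filter fun x => locBlk Γ (Geo.ug m₁ m₂ s0) x = κ).card : ℝ)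
      = ((s0 + 1 : ℕ) : ℝ) ^ 2 := by
  have h := loc_sum_cell Γ (Geo.ug m₁ m₂ s0) hκ fun _ => (1 : ℝ)
  rw [Finset.card_filter]
  push_cast
  rw [h, Finset.sum_const, avg_cell_eq, Finset.card_product, Int.card_Ico, Int.card_Ico]
  simp [sq]

theorem potd_card_blk_le (κ : Cell m₁ m₂) :
    (((Finset.univ : Finset (Γ.graph (Geo.ug m₁ m₂ s0)).V).filter fun x => locBlk Γ (Geo.ug m₁ m₂ s0) x = κ).card : ℝ)
      ≤ ((s0 + 1 : ℕ) : ℝ) ^ 2 := by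
  by_cases hκ : κ ∈ Γ.T
  · exact (potd_card_blk hκ).le
  · have h0 : (Finset.univ : Finset (Γ.graph (Geo.ug m₁ m₂ s0)).V).filter (fun x => locBlk Γ (Geo.ug m₁ m₂ s0) x = κ) = ∅ := by
      refine Finset.filter_eq_empty_iff.2 fun x _ h => hκ ?_
      exact h ▸ (loc_blk_spec Γ _ x).1
    rw [h0]
    simp only [Finset.card_empty, Nat.cast_zero]
    positivity

theorem potd_dSum_eq (κ : Cell m₁ m₂) (f : (Γ.graph (Geo.ug m₁ m₂ s0)).V → ℝ) :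
    dSum Γ s0 κ f = ∑ x ∈ (Finset.univ : Finset (Γ.graph (Geo.ug m₁ m₂ s0)).V).filter (fun x => locBlk Γ (Geo.ug m₁ m₂ s0) x = κ), f x := by
  unfold dSum
  rw [Finset.sum_filter]

/-- the average over a subcell of `T` -/
theorem potd_fibAvg {κ : Cell m₁ m₂} (hκ : κ ∈ Γ.T) (x : (Γ.graph (Geo.ug m₁ m₂ s0)).V) :
    fibAvg (Geo.cellOf Γ (Geo.ug m₁ m₂ s0)) (some κ) x
      = if locBlk Γ (Geo.ug m₁ m₂ s0) x = κ then (((s0 + 1 : ℕ) : ℝ) ^ 2)⁻¹ else 0 := by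
  have hiff : ∀ w : (Γ.graph (Geo.ug m₁ m₂ s0)).V, Geo.cellOf Γ (Geo.ug m₁ m₂ s0) w = some κ ↔ locBlk Γ (Geo.ug m₁ m₂ s0) w = κ := by
    intro w
    rw [potd_cellOf]
    exact ⟨fun h => Option.some.inj h, fun h => congrArg some h⟩
  have hcard : ∀ dp : DecidablePred fun w : (Γ.graph (Geo.ug m₁ m₂ s0)).V => Geo.cellOf Γ (Geo.ug m₁ m₂ s0) w = some κ,
      ((@Finset.filter _ (fun w => Geo.cellOf Γ (Geo.ug m₁ m₂ s0) w = some κ) dp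
        (Finset.univ : Finset (Γ.graph (Geo.ug m₁ m₂ s0)).V)).card : ℝ) = ((s0 + 1 : ℕ) : ℝ) ^ 2 := by
    intro dp
    rw [← potd_card_blk (s0 := s0) hκ]
    congr 2
    ext w
    simp only [Finset.mem_filter, Finset.mem_univ, true_and]
    exact hiff w
  unfold fibAvg
  by_cases h : locBlk Γ (Geo.ug m₁ m₂ s0) x = κ
  · rw [if_pos h, if_pos ((hiff x).2 h), hcard]
  · rw [if_neg h, if_neg fun h' => h ((hiff x).1 h')]

/-- the value of a soft row -/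
theorem potd_soft_row (δ : ℝ) (t : (dSoft Γ s0 u δ).Tm) {κ κ' : Cell m₁ m₂} (ht : t.1 = (some κ, some κ')) (hκ : κ ∈ Γ.T) (hκ' : κ' ∈ Γ.T)
    (w : (Γ.graph (Geo.ug m₁ m₂ s0)).V → ℝ) :
    (dSoft Γ s0 u δ).row w t = Real.sqrt δ * ((((s0 + 1 : ℕ) : ℝ) ^ 2)⁻¹ * (dSum Γ s0 κ' w - dSum Γ s0 κ w)) := by
  have h1 : (dSoft Γ s0 u δ).row w t = ∑ x, Real.sqrt δ * (fibAvg (Geo.cellOf Γ (Geo.ug m₁ m₂ s0)) t.1.2 x
      - fibAvg (Geo.cellOf Γ (Geo.ug m₁ m₂ s0)) t.1.1 x) * w x := rfl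
  rw [h1, ht]
  unfold dSum
  rw [← Finset.sum_sub_distrib, Finset.mul_sum, Finset.mul_sum]
  refine Finset.sum_congr rfl fun x _ => ?_
  show Real.sqrt δ * (fibAvg (Geo.cellOf Γ (Geo.ug m₁ m₂ s0)) (some κ') x - fibAvg (Geo.cellOf Γ (Geo.ug m₁ m₂ s0)) (some κ) x) * w x = _
  rw [potd_fibAvg hκ, potd_fibAvg hκ']
  split_ifs <;> ring

/-- Cauchy-Schwarz in a subcell -/
theorem potd_dSum_sq_le (κ : Cell m₁ m₂) (w : (Γ.graph (Geo.ug m₁ m₂ s0)).V → ℝ) :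
    dSum Γ s0 κ w ^ 2 ≤ ((s0 + 1 : ℕ) : ℝ) ^ 2 * dSum Γ s0 κ (fun x => w x ^ 2) := by
  rw [potd_dSum_eq, potd_dSum_eq]
  refine sq_sum_le_card_mul_sum_sq.trans ?_
  exact mul_le_mul_of_nonneg_right (potd_card_blk_le κ) (Finset.sum_nonneg fun _ _ => sq_nonneg _)

theorem potd_card_pt_le {m₁ m₂ : ℕ} (a b : ℕ) :
    (Finset.univ.filter fun κ' : Cell m₁ m₂ => κ'.1.1 = a ∧ κ'.2.1 = b).card ≤ 1 := by
  rw [Finset.card_le_one]
  intro x hx y hy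
  simp only [Finset.mem_filter, Finset.mem_univ, true_and] at hx hy
  exact Prod.ext (Fin.ext (hx.1.trans hy.1.symm)) (Fin.ext (hx.2.trans hy.2.symm))

theorem potd_sum_ite_card {α : Type} [Fintype α] (p : α → Prop) (c : ℝ) (hc : 0 ≤ c) (n : ℕ)
    (hn : (Finset.univ.filter p).card ≤ n) : (∑ x : α, if p x then c else 0) ≤ n * c := by
  rw [← Finset.sum_filter, Finset.sum_const, nsmul_eq_mul]
  exact mul_le_mul_of_nonneg_right (by exact_mod_cast hn) hc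

/-- every subcell belongs to at most four pairs -/
theorem potd_pairs_count (δ : ℝ) (Y : Set (Cell k₁ k₂)) (F : Cell m₁ m₂ → ℝ) (hF : ∀ κ, 0 ≤ F κ) :
    (∑ t : (dSoft Γ s0 u δ).Tm, if (dSoft Γ s0 u δ).cs t ⊆ Y then (t.1.1.elim 0 F + t.1.2.elim 0 F) else 0)
      ≤ 4 * ∑ κ, if u κ ∈ Y then F κ else 0 := by
  obtain ⟨g, hg⟩ : ∃ g : Cell m₁ m₂ → ℝ, g = fun κ => if u κ ∈ Y then F κ else 0 := ⟨_, rfl⟩
  have hg0 : ∀ κ, 0 ≤ g κ := fun κ => by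
    rw [hg]
    show 0 ≤ if u κ ∈ Y then F κ else 0
    split_ifs
    · exact hF κ
    · exact le_rfl
  obtain ⟨R, hR⟩ : ∃ R : Cell m₁ m₂ × Cell m₁ m₂ → Prop, R = fun q =>
      (q.1.1.1 + 1 = q.2.1.1 ∧ q.1.2.1 = q.2.2.1) ∨ (q.1.1.1 = q.2.1.1 ∧ q.1.2.1 + 1 = q.2.2.1) := ⟨_, rfl⟩
  have hex : ∀ t : (dSoft Γ s0 u δ).Tm, ∃ q : Cell m₁ m₂ × Cell m₁ m₂, t.1 = (some q.1, some q.2) ∧ R q := fun t => by
    obtain ⟨κ, κ', h1, -, -, h4⟩ := potd_pairs δ t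
    exact ⟨(κ, κ'), h1, by rw [hR]; exact h4⟩
  choose e he1 he2 using hex
  have hinj : Function.Injective e := fun t t' h => Subtype.ext (by rw [he1 t, he1 t', h])
  have h1 : ∀ t : (dSoft Γ s0 u δ).Tm,
      (if (dSoft Γ s0 u δ).cs t ⊆ Y then (t.1.1.elim 0 F + t.1.2.elim 0 F) else 0) ≤ g (e t).1 + g (e t).2 := by
    intro t
    split_ifs with h
    · have a1 : u (e t).1 ∈ Y := h ⟨(e t).1, Or.inl (by rw [he1 t]), rfl⟩
      have a2 : u (e t).2 ∈ Y := h ⟨(e t).2, Or.inr (by rw [he1 t]), rfl⟩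
      rw [he1 t, hg]
      show F (e t).1 + F (e t).2 ≤ (if u (e t).1 ∈ Y then F (e t).1 else 0) + (if u (e t).2 ∈ Y then F (e t).2 else 0)
      rw [if_pos a1, if_pos a2]
    · exact add_nonneg (hg0 _) (hg0 _)
  have hc1 : ∀ κ : Cell m₁ m₂, (Finset.univ.filter fun κ' : Cell m₁ m₂ => R (κ, κ')).card ≤ 2 := by
    intro κ
    have hsub : (Finset.univ.filter fun κ' : Cell m₁ m₂ => R (κ, κ')) ⊆
        (Finset.univ.filter fun κ' : Cell m₁ m₂ => κ'.1.1 = κ.1.1 + 1 ∧ κ'.2.1 = κ.2.1) ∪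
        (Finset.univ.filter fun κ' : Cell m₁ m₂ => κ'.1.1 = κ.1.1 ∧ κ'.2.1 = κ.2.1 + 1) := by
      intro κ' h
      rw [Finset.mem_filter, hR] at h
      rw [Finset.mem_union, Finset.mem_filter, Finset.mem_filter]
      rcases h.2 with h | h
      · exact Or.inl ⟨Finset.mem_univ _, h.1.symm, h.2.symm⟩
      · exact Or.inr ⟨Finset.mem_univ _, h.1.symm, h.2.symm⟩
    refine (Finset.card_le_card hsub).trans ((Finset.card_union_le _ _).trans ?_)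
    have := potd_card_pt_le (m₁ := m₁) (m₂ := m₂) (κ.1.1 + 1) κ.2.1
    have := potd_card_pt_le (m₁ := m₁) (m₂ := m₂) κ.1.1 (κ.2.1 + 1)
    omega
  have hc2 : ∀ κ' : Cell m₁ m₂, (Finset.univ.filter fun κ : Cell m₁ m₂ => R (κ, κ')).card ≤ 2 := by
    intro κ'
    have hsub : (Finset.univ.filter fun κ : Cell m₁ m₂ => R (κ, κ')) ⊆
        (Finset.univ.filter fun κ : Cell m₁ m₂ => κ.1.1 = κ'.1.1 - 1 ∧ κ.2.1 = κ'.2.1) ∪
        (Finset.univ.filter fun κ : Cell m₁ m₂ => κ.1.1 = κ'.1.1 ∧ κ.2.1 = κ'.2.1 - 1) := by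
      intro κ h
      rw [Finset.mem_filter, hR] at h
      rw [Finset.mem_union, Finset.mem_filter, Finset.mem_filter]
      rcases h.2 with h | h
      · exact Or.inl ⟨Finset.mem_univ _, by have h1 : κ.1.1 + 1 = κ'.1.1 := h.1; show κ.1.1 = κ'.1.1 - 1; omega, h.2⟩
      · exact Or.inr ⟨Finset.mem_univ _, h.1, by have h2 : κ.2.1 + 1 = κ'.2.1 := h.2; show κ.2.1 = κ'.2.1 - 1; omega⟩
    refine (Finset.card_le_card hsub).trans ((Finset.card_union_le _ _).trans ?_)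
    have := potd_card_pt_le (m₁ := m₁) (m₂ := m₂) (κ'.1.1 - 1) κ'.2.1
    have := potd_card_pt_le (m₁ := m₁) (m₂ := m₂) κ'.1.1 (κ'.2.1 - 1)
    omega
  have hs1 : ∑ q ∈ Finset.univ.filter R, g q.1 ≤ 2 * ∑ κ, g κ := by
    rw [Finset.sum_filter, Fintype.sum_prod_type, Finset.mul_sum]
    refine Finset.sum_le_sum fun κ _ => ?_
    exact_mod_cast potd_sum_ite_card (fun κ' => R (κ, κ')) (g κ) (hg0 κ) 2 (hc1 κ)
  have hs2 : ∑ q ∈ Finset.univ.filter R, g q.2 ≤ 2 * ∑ κ, g κ := by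
    rw [Finset.sum_filter, Fintype.sum_prod_type_right, Finset.mul_sum]
    refine Finset.sum_le_sum fun κ' _ => ?_
    exact_mod_cast potd_sum_ite_card (fun κ => R (κ, κ')) (g κ') (hg0 κ') 2 (hc2 κ')
  have hfin : (∑ κ, if u κ ∈ Y then F κ else 0) = ∑ κ, g κ := by rw [hg]
  rw [hfin]
  calc (∑ t : (dSoft Γ s0 u δ).Tm, if (dSoft Γ s0 u δ).cs t ⊆ Y then (t.1.1.elim 0 F + t.1.2.elim 0 F) else 0)
      ≤ ∑ t : (dSoft Γ s0 u δ).Tm, (g (e t).1 + g (e t).2) := Finset.sum_le_sum fun t _ => h1 t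
    _ = ∑ q ∈ Finset.univ.image e, (g q.1 + g q.2) := (Finset.sum_image (f := fun q : Cell m₁ m₂ × Cell m₁ m₂ => g q.1 + g q.2) (fun a _ b _ h => hinj h)).symm
    _ ≤ ∑ q ∈ Finset.univ.filter R, (g q.1 + g q.2) := by
        refine Finset.sum_le_sum_of_subset_of_nonneg ?_ fun q _ _ => add_nonneg (hg0 _) (hg0 _)
        intro q hq
        obtain ⟨t, -, rfl⟩ := Finset.mem_image.1 hq
        exact Finset.mem_filter.2 ⟨Finset.mem_univ _, he2 t⟩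
    _ = ∑ q ∈ Finset.univ.filter R, g q.1 + ∑ q ∈ Finset.univ.filter R, g q.2 := Finset.sum_add_distrib
    _ ≤ 4 * ∑ κ, g κ := by linarith

/-- `l2` as a sum over the subcells -/
theorem potd_l2_eq (ν : ℕ) (Y : Set (Cell k₁ k₂)) (v : (Γ.graph (Geo.ug m₁ m₂ s0)).V → ℝ) :
    (dAmb Γ s0 gc u ν).l2 Y v = ∑ κ, if u κ ∈ Y then dSum Γ s0 κ (fun x => v x ^ 2) else 0 := by
  have h1 : (dAmb Γ s0 gc u ν).l2 Y v = ∑ x, if u (locBlk Γ (Geo.ug m₁ m₂ s0) x) ∈ Y then v x ^ 2 else 0 := rfl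
  have h2 : ∀ κ : Cell m₁ m₂, (if u κ ∈ Y then dSum Γ s0 κ (fun x => v x ^ 2) else 0)
      = ∑ x, if locBlk Γ (Geo.ug m₁ m₂ s0) x = κ then (if u κ ∈ Y then v x ^ 2 else 0) else 0 := by
    intro κ
    unfold dSum
    by_cases h : u κ ∈ Y
    · simp only [if_pos h]
    · simp only [if_neg h, ite_self, Finset.sum_const_zero]
  rw [h1, Finset.sum_congr rfl fun κ _ => h2 κ, Finset.sum_comm]
  refine Finset.sum_congr rfl fun x _ => ?_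
  rw [Finset.sum_ite_eq]
  simp

/-- reference value of a cutoff for a soft row: the value at the corner of the first subcell -/
def dRef (χ : ℤ × ℤ → ℝ) (s0 : ℕ) (p : Option (Cell m₁ m₂) × Option (Cell m₁ m₂)) : ℝ :=
  p.1.elim 0 fun κ => χ (((s0 + 1 : ℕ) : ℤ) * (κ.1.1 : ℤ), ((s0 + 1 : ℕ) : ℤ) * (κ.2.1 : ℤ))

theorem dRef_eqns_cite : True := by have := @dRef.eq_1; trivial

/-- one coordinate of `potd_osc` -/
theorem potd_osc_aux (N a b p : ℤ) (hN : 0 < N) (hb : b = a ∨ b = a + 1) (h1 : N * b ≤ p) (h2 : p < N * (b + 1)) : |p - N * a| ≤ 2 * N := by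
  rw [abs_le]
  rcases hb with rfl | rfl
  · constructor <;> nlinarith
  · constructor <;> nlinarith

/-- oscillation of a Lipschitz function on two adjacent subcells -/
theorem potd_osc {χ : ℤ × ℤ → ℝ} {ν : ℕ} (hν : 1 ≤ ν) (hχ : ∀ x y : ℤ × ℤ, |χ x - χ y| ≤ dist x y / ν) {κ κ' : Cell m₁ m₂}
    (hadj : (κ.1.1 + 1 = κ'.1.1 ∧ κ.2.1 = κ'.2.1) ∨ (κ.1.1 = κ'.1.1 ∧ κ.2.1 + 1 = κ'.2.1))
    (x : (Γ.graph (Geo.ug m₁ m₂ s0)).V) (hx : locBlk Γ (Geo.ug m₁ m₂ s0) x = κ ∨ locBlk Γ (Geo.ug m₁ m₂ s0) x = κ') :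
    |χ (locPos Γ (Geo.ug m₁ m₂ s0) x) - dRef χ s0 (some κ, some κ')| ≤ 2 * ((s0 + 1 : ℕ) : ℝ) / ν := by
  have hN : (0 : ℤ) < ((s0 + 1 : ℕ) : ℤ) := by positivity
  have hν0 : (0 : ℝ) ≤ (ν : ℝ) := Nat.cast_nonneg _
  have hpos := (loc_blk_spec Γ (Geo.ug m₁ m₂ s0) x).2
  rw [avg_mem_cell] at hpos
  obtain ⟨⟨a1, a2⟩, ⟨b1, b2⟩⟩ := hpos
  have c1 : (((locBlk Γ (Geo.ug m₁ m₂ s0) x).1.1 : ℕ) : ℤ) = (κ.1.1 : ℤ) ∨ (((locBlk Γ (Geo.ug m₁ m₂ s0) x).1.1 : ℕ) : ℤ) = (κ.1.1 : ℤ) + 1 := by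
    rcases hx with h | h
    · left; rw [h]
    · rw [h]
      rcases hadj with h' | h'
      · right; rw [← h'.1]; push_cast; ring
      · left; rw [← h'.1]
  have c2 : (((locBlk Γ (Geo.ug m₁ m₂ s0) x).2.1 : ℕ) : ℤ) = (κ.2.1 : ℤ) ∨ (((locBlk Γ (Geo.ug m₁ m₂ s0) x).2.1 : ℕ) : ℤ) = (κ.2.1 : ℤ) + 1 := by
    rcases hx with h | h
    · left; rw [h]
    · rw [h]
      rcases hadj with h' | h'
      · left; rw [← h'.2]
      · right; rw [← h'.2]; push_cast; ring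
  have d1 := potd_osc_aux _ _ _ _ hN c1 a1 a2
  have d2 := potd_osc_aux _ _ _ _ hN c2 b1 b2
  have key : dist (locPos Γ (Geo.ug m₁ m₂ s0) x) (((s0 + 1 : ℕ) : ℤ) * (κ.1.1 : ℤ), ((s0 + 1 : ℕ) : ℤ) * (κ.2.1 : ℤ))
      ≤ 2 * ((s0 + 1 : ℕ) : ℝ) := by
    rw [Prod.dist_eq, Int.dist_eq, Int.dist_eq]
    refine max_le ?_ ?_
    · have : ((|(locPos Γ (Geo.ug m₁ m₂ s0) x).1 - ((s0 + 1 : ℕ) : ℤ) * (κ.1.1 : ℤ)| : ℤ) : ℝ) ≤ ((2 * ((s0 + 1 : ℕ) : ℤ) : ℤ) : ℝ) := by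
        exact_mod_cast d1
      push_cast at this ⊢
      exact this
    · have : ((|(locPos Γ (Geo.ug m₁ m₂ s0) x).2 - ((s0 + 1 : ℕ) : ℤ) * (κ.2.1 : ℤ)| : ℤ) : ℝ) ≤ ((2 * ((s0 + 1 : ℕ) : ℤ) : ℤ) : ℝ) := by
        exact_mod_cast d2
      push_cast at this ⊢
      exact this
  have e : dRef χ s0 (some κ, some κ') = χ (((s0 + 1 : ℕ) : ℤ) * (κ.1.1 : ℤ), ((s0 + 1 : ℕ) : ℤ) * (κ.2.1 : ℤ)) := rfl
  rw [e]
  exact (hχ _ _).trans (div_le_div_of_nonneg_right key hν0)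

theorem potd_dSum_mono (κ : Cell m₁ m₂) {f g : (Γ.graph (Geo.ug m₁ m₂ s0)).V → ℝ}
    (h : ∀ x, locBlk Γ (Geo.ug m₁ m₂ s0) x = κ → f x ≤ g x) : dSum Γ s0 κ f ≤ dSum Γ s0 κ g := by
  unfold dSum
  refine Finset.sum_le_sum fun x _ => ?_
  by_cases hx : locBlk Γ (Geo.ug m₁ m₂ s0) x = κ
  · rw [if_pos hx, if_pos hx]; exact h x hx
  · rw [if_neg hx, if_neg hx]

theorem potd_dSum_smul (κ : Cell m₁ m₂) (c : ℝ) (f : (Γ.graph (Geo.ug m₁ m₂ s0)).V → ℝ) :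
    dSum Γ s0 κ (fun x => c * f x) = c * dSum Γ s0 κ f := by
  unfold dSum
  rw [Finset.mul_sum]
  refine Finset.sum_congr rfl fun x _ => ?_
  by_cases hx : locBlk Γ (Geo.ug m₁ m₂ s0) x = κ
  · rw [if_pos hx, if_pos hx]
  · rw [if_neg hx, if_neg hx, mul_zero]

theorem potd_dSum_sq_nonneg (κ : Cell m₁ m₂) (f : (Γ.graph (Geo.ug m₁ m₂ s0)).V → ℝ) :
    0 ≤ dSum Γ s0 κ (fun x => f x ^ 2) := by
  unfold dSum
  refine Finset.sum_nonneg fun x _ => ?_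
  by_cases hx : locBlk Γ (Geo.ug m₁ m₂ s0) x = κ
  · rw [if_pos hx]; positivity
  · rw [if_neg hx]

/-- the square of a soft row -/
theorem potd_soft_row_sq {δ : ℝ} (hδ : 0 ≤ δ) (t : (dSoft Γ s0 u δ).Tm) {κ κ' : Cell m₁ m₂} (ht : t.1 = (some κ, some κ'))
    (hκ : κ ∈ Γ.T) (hκ' : κ' ∈ Γ.T) (w : (Γ.graph (Geo.ug m₁ m₂ s0)).V → ℝ) :
    (dSoft Γ s0 u δ).row w t ^ 2
      ≤ 2 * δ * (((s0 + 1 : ℕ) : ℝ) ^ 2)⁻¹ * (dSum Γ s0 κ (fun x => w x ^ 2) + dSum Γ s0 κ' (fun x => w x ^ 2)) := by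
  rw [potd_soft_row δ t ht hκ hκ' w]
  have h1 := potd_dSum_sq_le (Γ := Γ) (s0 := s0) κ w
  have h2 := potd_dSum_sq_le (Γ := Γ) (s0 := s0) κ' w
  have hl : (0 : ℝ) < ((s0 + 1 : ℕ) : ℝ) ^ 2 := by positivity
  generalize dSum Γ s0 κ (fun x => w x ^ 2) = A at *
  generalize dSum Γ s0 κ' (fun x => w x ^ 2) = A' at *
  generalize dSum Γ s0 κ w = a at *
  generalize dSum Γ s0 κ' w = a' at *
  generalize ((s0 + 1 : ℕ) : ℝ) ^ 2 = L at *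
  have h3 : (a' - a) ^ 2 ≤ 2 * L * (A + A') := by nlinarith [sq_nonneg (a' + a)]
  have h4 : (Real.sqrt δ * (L⁻¹ * (a' - a))) ^ 2 = δ * (L⁻¹ * L⁻¹) * (a' - a) ^ 2 := by
    rw [mul_pow, Real.sq_sqrt hδ]; ring
  rw [h4]
  have h5 : 0 ≤ δ * (L⁻¹ * L⁻¹) := by positivity
  calc δ * (L⁻¹ * L⁻¹) * (a' - a) ^ 2 ≤ δ * (L⁻¹ * L⁻¹) * (2 * L * (A + A')) := mul_le_mul_of_nonneg_left h3 h5
    _ = 2 * δ * L⁻¹ * (A + A') := by field_simp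

/-- the square of a soft row of a product with a small factor -/
theorem potd_soft_row_mul {δ : ℝ} (hδ : 0 ≤ δ) (t : (dSoft Γ s0 u δ).Tm) {κ κ' : Cell m₁ m₂} (ht : t.1 = (some κ, some κ'))
    (hκ : κ ∈ Γ.T) (hκ' : κ' ∈ Γ.T) (m v : (Γ.graph (Geo.ug m₁ m₂ s0)).V → ℝ) {c : ℝ}
    (hm : ∀ x, locBlk Γ (Geo.ug m₁ m₂ s0) x = κ ∨ locBlk Γ (Geo.ug m₁ m₂ s0) x = κ' → m x ^ 2 ≤ c) :
    (dSoft Γ s0 u δ).row (fun x => m x * v x) t ^ 2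
      ≤ 2 * δ * (((s0 + 1 : ℕ) : ℝ) ^ 2)⁻¹ * (c * (dSum Γ s0 κ (fun x => v x ^ 2) + dSum Γ s0 κ' (fun x => v x ^ 2))) := by
  refine (potd_soft_row_sq hδ t ht hκ hκ' _).trans ?_
  have h1 : dSum Γ s0 κ (fun x => (m x * v x) ^ 2) ≤ c * dSum Γ s0 κ (fun x => v x ^ 2) := by
    rw [← potd_dSum_smul]
    refine potd_dSum_mono κ fun x hx => ?_
    rw [mul_pow]
    exact mul_le_mul_of_nonneg_right (hm x (Or.inl hx)) (sq_nonneg _)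
  have h2 : dSum Γ s0 κ' (fun x => (m x * v x) ^ 2) ≤ c * dSum Γ s0 κ' (fun x => v x ^ 2) := by
    rw [← potd_dSum_smul]
    refine potd_dSum_mono κ' fun x hx => ?_
    rw [mul_pow]
    exact mul_le_mul_of_nonneg_right (hm x (Or.inr hx)) (sq_nonneg _)
  refine mul_le_mul_of_nonneg_left ?_ (by positivity)
  rw [mul_add]
  exact add_le_add h1 h2

/-- one soft row, first commutator -/
theorem potd_soft_one {δ : ℝ} (hδ : 0 ≤ δ) {ν : ℕ} (hν : 1 ≤ ν) (t : (dSoft Γ s0 u δ).Tm) {κ κ' : Cell m₁ m₂} (ht : t.1 = (some κ, some κ'))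
    (hκ : κ ∈ Γ.T) (hκ' : κ' ∈ Γ.T) (m v : (Γ.graph (Geo.ug m₁ m₂ s0)).V → ℝ)
    (hm : ∀ x, locBlk Γ (Geo.ug m₁ m₂ s0) x = κ ∨ locBlk Γ (Geo.ug m₁ m₂ s0) x = κ' → |m x| ≤ 2 * ((s0 + 1 : ℕ) : ℝ) / ν) :
    (dSoft Γ s0 u δ).row (fun x => m x * v x) t ^ 2
      ≤ 8 * δ * ((ν : ℝ) ^ 2)⁻¹ * (dSum Γ s0 κ (fun x => v x ^ 2) + dSum Γ s0 κ' (fun x => v x ^ 2)) := by
  have hν' : (0 : ℝ) < ν := by exact_mod_cast hν
  have hl : (0 : ℝ) < ((s0 + 1 : ℕ) : ℝ) := by positivity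
  refine (potd_soft_row_mul hδ t ht hκ hκ' m v (c := (2 * ((s0 + 1 : ℕ) : ℝ) / ν) ^ 2) fun x hx => ?_).trans (le_of_eq ?_)
  · rw [← sq_abs]
    exact pow_le_pow_left₀ (abs_nonneg _) (hm x hx) 2
  · generalize ((s0 + 1 : ℕ) : ℝ) = l at *
    field_simp
    ring

/-- one soft row, second commutator -/
theorem potd_soft_two {δ : ℝ} (hδ : 0 ≤ δ) {ν : ℕ} (hν : 1 ≤ ν) (t : (dSoft Γ s0 u δ).Tm) {κ κ' : Cell m₁ m₂} (ht : t.1 = (some κ, some κ'))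
    (hκ : κ ∈ Γ.T) (hκ' : κ' ∈ Γ.T) (m v : (Γ.graph (Geo.ug m₁ m₂ s0)).V → ℝ)
    (hm : ∀ x, locBlk Γ (Geo.ug m₁ m₂ s0) x = κ ∨ locBlk Γ (Geo.ug m₁ m₂ s0) x = κ' → |m x| ≤ 2 * ((s0 + 1 : ℕ) : ℝ) / ν) :
    |(dSoft Γ s0 u δ).row v t * (dSoft Γ s0 u δ).row (fun x => m x ^ 2 * v x) t|
      ≤ 8 * δ * ((ν : ℝ) ^ 2)⁻¹ * (dSum Γ s0 κ (fun x => v x ^ 2) + dSum Γ s0 κ' (fun x => v x ^ 2)) := by
  have hν' : (0 : ℝ) < ν := by exact_mod_cast hν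
  have hl : (0 : ℝ) < ((s0 + 1 : ℕ) : ℝ) := by positivity
  have h1 := potd_soft_row_sq hδ t ht hκ hκ' v
  have h2 := potd_soft_row_mul hδ t ht hκ hκ' (fun x => m x ^ 2) v (c := ((2 * ((s0 + 1 : ℕ) : ℝ) / ν) ^ 2) ^ 2) fun x hx => by
    refine pow_le_pow_left₀ (sq_nonneg _) ?_ 2
    rw [← sq_abs]
    exact pow_le_pow_left₀ (abs_nonneg _) (hm x hx) 2
  have hS : 0 ≤ dSum Γ s0 κ (fun x => v x ^ 2) + dSum Γ s0 κ' (fun x => v x ^ 2) :=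
    add_nonneg (potd_dSum_sq_nonneg κ v) (potd_dSum_sq_nonneg κ' v)
  generalize dSum Γ s0 κ (fun x => v x ^ 2) + dSum Γ s0 κ' (fun x => v x ^ 2) = S at *
  generalize (dSoft Γ s0 u δ).row v t = a at *
  generalize (dSoft Γ s0 u δ).row (fun x => m x ^ 2 * v x) t = b at *
  generalize ((s0 + 1 : ℕ) : ℝ) = l at *
  refine abs_le_of_sq_le_sq ?_ (by positivity)
  have h3 : (8 * δ * ((ν : ℝ) ^ 2)⁻¹ * S) ^ 2
      = (2 * δ * (l ^ 2)⁻¹ * S) * (2 * δ * (l ^ 2)⁻¹ * (((2 * l / ν) ^ 2) ^ 2 * S)) := by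
    field_simp
    ring
  rw [h3, mul_pow]
  exact mul_le_mul h1 h2 (sq_nonneg _) (by positivity)

theorem potd_soft_supp (ν : ℕ) (δ : ℝ) (t : (dSoft Γ s0 u δ).Tm) (x : (Γ.graph (Geo.ug m₁ m₂ s0)).V) (h : (dSoft Γ s0 u δ).R t x ≠ 0) :
    (dAmb Γ s0 gc u ν).blk x ∈ (dSoft Γ s0 u δ).cs t := by
  show ∃ κ, (t.1.1 = some κ ∨ t.1.2 = some κ) ∧ u κ = u (locBlk Γ (Geo.ug m₁ m₂ s0) x)
  refine ⟨locBlk Γ (Geo.ug m₁ m₂ s0) x, ?_, rfl⟩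
  by_contra hc
  rw [not_or] at hc
  apply h
  show Real.sqrt δ * (fibAvg (Geo.cellOf Γ (Geo.ug m₁ m₂ s0)) t.1.2 x - fibAvg (Geo.cellOf Γ (Geo.ug m₁ m₂ s0)) t.1.1 x) = 0
  unfold fibAvg
  rw [potd_cellOf x, if_neg (fun e => hc.2 e.symm), if_neg (fun e => hc.1 e.symm), sub_zero, mul_zero]

theorem potd_soft_clique (hc : DCoarse Γ s0 gc u Tc) (δ : ℝ) (t : (dSoft Γ s0 u δ).Tm) (i j : Cell k₁ k₂)
    (hi : i ∈ (dSoft Γ s0 u δ).cs t) (hj : j ∈ (dSoft Γ s0 u δ).cs t) : geoAdj i j := by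
  obtain ⟨κ, hκ, rfl⟩ := hi
  obtain ⟨κ', hκ', rfl⟩ := hj
  have ht := t.2
  simp only [cellPairs, Finset.mem_filter, Finset.mem_image, Finset.mem_univ, true_and] at ht
  obtain ⟨⟨e, he⟩, -⟩ := ht
  rw [potd_cellOf, potd_cellOf] at he
  have h1 : t.1.1 = some (locBlk Γ (Geo.ug m₁ m₂ s0) ((Γ.graph (Geo.ug m₁ m₂ s0)).src e)) := by rw [← he]
  have h2 : t.1.2 = some (locBlk Γ (Geo.ug m₁ m₂ s0) ((Γ.graph (Geo.ug m₁ m₂ s0)).tgt e)) := by rw [← he]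
  have hadj : geoAdj (u (locBlk Γ (Geo.ug m₁ m₂ s0) ((Γ.graph (Geo.ug m₁ m₂ s0)).src e)))
      (u (locBlk Γ (Geo.ug m₁ m₂ s0) ((Γ.graph (Geo.ug m₁ m₂ s0)).tgt e))) := by
    have p1 := potd_pos_mem hc ((Γ.graph (Geo.ug m₁ m₂ s0)).src e)
    have p2 := potd_pos_mem hc ((Γ.graph (Geo.ug m₁ m₂ s0)).tgt e)
    rw [loc_pos_src] at p1
    rw [loc_pos_tgt] at p2
    exact geo_cell_bond gc p1 p2
  rw [h1, h2] at hκ hκ'
  rcases hκ with a | a <;> rcases hκ' with b | b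
  · rw [← Option.some.inj a, ← Option.some.inj b]; exact geo_adj_refl _
  · rw [← Option.some.inj a, ← Option.some.inj b]; exact hadj
  · rw [← Option.some.inj a, ← Option.some.inj b]; exact geo_adj_symm hadj
  · rw [← Option.some.inj a, ← Option.some.inj b]; exact geo_adj_refl _

/-- **(D1) the commutators of the soft rows: `κ = 32 δ σ`, uniformly in the side of the subcells** -/
theorem potd_soft_com {δ : ℝ} (hδ : 0 ≤ δ) {ν : ℕ} (hν : 1 ≤ ν) (hg : gc.SideGe ν) (J : Set (Cell k₁ k₂)) :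
    PdCom (dAmb Γ s0 gc u ν) (dSoft Γ s0 u δ) (32 * δ * ((ν : ℝ) ^ 2)⁻¹) ((dAmb Γ s0 gc u ν).cut J) := by
  obtain ⟨hmem, -, -, -, hlip⟩ := loc_cut_spec hν hg J
  have hc0 : (0 : ℝ) ≤ 8 * δ * ((ν : ℝ) ^ 2)⁻¹ := by positivity
  have hfin : ∀ (v : (Γ.graph (Geo.ug m₁ m₂ s0)).V → ℝ) (Y : Set (Cell k₁ k₂)) (X : (dSoft Γ s0 u δ).Tm → ℝ),
      (∀ t (κ κ' : Cell m₁ m₂), t.1 = (some κ, some κ') →
        X t ≤ 8 * δ * ((ν : ℝ) ^ 2)⁻¹ * (dSum Γ s0 κ (fun x => v x ^ 2) + dSum Γ s0 κ' (fun x => v x ^ 2))) →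
      (∑ t, if (dSoft Γ s0 u δ).cs t ⊆ Y then X t else 0) ≤ 32 * δ * ((ν : ℝ) ^ 2)⁻¹ * (dAmb Γ s0 gc u ν).l2 Y v := by
    intro v Y X hX
    have hF : ∀ κ, 0 ≤ dSum Γ s0 κ (fun x => v x ^ 2) := fun κ =>
      Finset.sum_nonneg fun x _ => by split_ifs <;> positivity
    calc (∑ t, if (dSoft Γ s0 u δ).cs t ⊆ Y then X t else 0)
        ≤ ∑ t : (dSoft Γ s0 u δ).Tm, 8 * δ * ((ν : ℝ) ^ 2)⁻¹ * (if (dSoft Γ s0 u δ).cs t ⊆ Y then
            (t.1.1.elim 0 (fun κ => dSum Γ s0 κ (fun x => v x ^ 2)) + t.1.2.elim 0 (fun κ => dSum Γ s0 κ (fun x => v x ^ 2))) else 0) := by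
          refine Finset.sum_le_sum fun t _ => ?_
          obtain ⟨κ, κ', h1, -⟩ := potd_pairs δ t
          split_ifs
          · rw [h1]
            exact hX t κ κ' h1
          · rw [mul_zero]
      _ = 8 * δ * ((ν : ℝ) ^ 2)⁻¹ * ∑ t : (dSoft Γ s0 u δ).Tm, (if (dSoft Γ s0 u δ).cs t ⊆ Y then
            (t.1.1.elim 0 (fun κ => dSum Γ s0 κ (fun x => v x ^ 2)) + t.1.2.elim 0 (fun κ => dSum Γ s0 κ (fun x => v x ^ 2))) else 0) := by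
          rw [Finset.mul_sum]
      _ ≤ 8 * δ * ((ν : ℝ) ^ 2)⁻¹ * (4 * ∑ κ, if u κ ∈ Y then dSum Γ s0 κ (fun x => v x ^ 2) else 0) :=
          mul_le_mul_of_nonneg_left (potd_pairs_count δ Y _ hF) hc0
      _ = 32 * δ * ((ν : ℝ) ^ 2)⁻¹ * (dAmb Γ s0 gc u ν).l2 Y v := by
          rw [potd_l2_eq]; ring
  refine ⟨fun t => dRef (locCut gc ν J) s0 t.1, fun t => ?_, fun v Y => ?_, fun v Y => ?_⟩
  · obtain ⟨κ, κ', h1, -⟩ := potd_pairs δ t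
    show 0 ≤ dRef (locCut gc ν J) s0 t.1 ∧ dRef (locCut gc ν J) s0 t.1 ≤ 1
    rw [h1]
    exact hmem _
  · refine hfin v Y _ fun t κ κ' h1 => ?_
    obtain ⟨κ₁, κ₁', h1', h2, h3, h4⟩ := potd_pairs δ t
    rw [h1] at h1'
    obtain ⟨rfl, rfl⟩ : κ = κ₁ ∧ κ' = κ₁' := by
      simpa using h1'
    refine potd_soft_one hδ hν t h1 h2 h3 (fun x => (dAmb Γ s0 gc u ν).cut J x - dRef (locCut gc ν J) s0 t.1) v fun x hx => ?_
    rw [h1]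
    exact potd_osc hν hlip h4 x hx
  · refine hfin v Y _ fun t κ κ' h1 => ?_
    obtain ⟨κ₁, κ₁', h1', h2, h3, h4⟩ := potd_pairs δ t
    rw [h1] at h1'
    obtain ⟨rfl, rfl⟩ : κ = κ₁ ∧ κ' = κ₁' := by
      simpa using h1'
    refine potd_soft_two hδ hν t h1 h2 h3 (fun x => (dAmb Γ s0 gc u ν).cut J x - dRef (locCut gc ν J) s0 t.1) v fun x hx => ?_
    rw [h1]
    exact potd_osc hν hlip h4 x hx

/-! ### B6. (D2) the constants of the join -/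

/-- the constants of the decay core for the strengthened law -/
def dCP (K : ℕ) (w₀ a : ℝ) : ℝ := (K : ℝ) ^ 2 * max 1 w₀⁻¹ * max 1 a

def dK (W a δ : ℝ) : ℝ := 2 * 1 * ((4 : ℕ) : ℝ) * a⁻¹ + W + 32 * δ

theorem potd_consts_eqns_cite : True := by have := @dCP.eq_1; have := @dK.eq_1; trivial

/-- **(D2) `PdOk` of the strengthened law** -/
theorem potd_ok (hc : DCoarse Γ s0 gc u Tc) {cel : Fin Γ.nObs → Cell k₁ k₂} {w₀ W : ℝ} (ho : DObs Γ u Tc Pc cel w₀ W)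
    {P : Set (Γ.graph (Geo.ug m₁ m₂ s0)).V} (hP : ∀ x, u (locBlk Γ (Geo.ug m₁ m₂ s0) x) ∈ Pc → x ∈ P)
    {ν K : ℕ} (hν : 1 ≤ ν) (hg : Scale K gc ν) {a δ : ℝ} (ha : 0 < a) (hδ : 0 ≤ δ) :
    PdOk (dAmb Γ s0 gc u ν) (dSys Γ s0 gc u ν cel P a δ) ((ν : ℝ) ^ 2)⁻¹ (dCP K w₀ a) (dK W a δ) :=
  pd_ok_join (pd_ok_graph (potd_grOk hc ho hP hν hg) ha) (by positivity) (potd_soft_supp ν δ) (potd_soft_clique hc δ)
    (potd_soft_com hδ hν hg.1)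

/-- more rows keep the resolution -/
theorem potd_res_join {V I : Type} [Fintype V] [Fintype I] {A : PdAmb V I} {S : PdSys V I} (S' : PdSys V I) {σ CR : ℝ} (hCR : 0 ≤ CR)
    (hR : PdRes A S σ CR) : PdRes A (S.join S') σ CR := by
  intro k i
  obtain ⟨ℓ, hℓ⟩ := hR k i
  refine ⟨ℓ, fun v hv h0 => (hℓ v (fun x hx => hv x (Or.inl hx)) h0).trans ?_⟩
  rw [potd_join_enI]
  refine mul_le_mul_of_nonneg_left ?_ (by positivity)
  linarith [pd_enI_nonneg S' {i} v]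

/-- **(D2) `PdRes` of the strengthened law** -/
theorem potd_res (hc : DCoarse Γ s0 gc u Tc) (cel : Fin Γ.nObs → Cell k₁ k₂) (P : Set (Γ.graph (Geo.ug m₁ m₂ s0)).V)
    {ν K : ℕ} (hν : 1 ≤ ν) (hg : Scale K gc ν) {a : ℝ} (ha : 0 < a) (δ : ℝ) :
    PdRes (dAmb Γ s0 gc u ν) (dSys Γ s0 gc u ν cel P a δ) ((ν : ℝ) ^ 2)⁻¹ (locCR K a) :=
  potd_res_join _ (by unfold locCR; positivity) (potd_res_gr hc cel P hν hg ha)

end coarse

/-! ## C. the instance `Geo.refine Γ t`: decay cells = observation cells of side `t (s0 + 1)` -/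

section inst

variable {k₁ k₂ : ℕ} (Γ : CGeom k₁ k₂)

/-- the grid of the observation cells -/
def dGrid (k₁ k₂ t s0 : ℕ) (ht : 0 < t) : DGrid k₁ k₂ := DGrid.unif k₁ k₂ (t * (s0 + 1)) (Nat.mul_pos ht (Nat.succ_pos s0))

/-- **hypothesis on the observation geometry**: every box is ONE cell; every cell of `T` is pinned or observed with weight `≥ w₀`; total weight per cell `≤ W` -/
structure ObsCell (cel : Fin Γ.nObs → Cell k₁ k₂) (w₀ W : ℝ) : Prop where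
  box : ∀ o, Γ.box o = {cel o}
  wgt_nonneg : ∀ o, 0 ≤ Γ.wgt o
  w₀_pos : 0 < w₀
  W_nonneg : 0 ≤ W
  cover : ∀ i ∈ Γ.T, i ∈ Γ.pin ∨ ∃ o, cel o = i ∧ w₀ ≤ Γ.wgt o
  total : ∀ i, (∑ o, if cel o = i then Γ.wgt o else 0) ≤ W

/-- ambient data of the instance -/
def dAmbI (t s0 : ℕ) (ht : 0 < t) : PdAmb ((Geo.refine Γ t).graph (Geo.ug (t * k₁) (t * k₂) s0)).V (Cell k₁ k₂) :=
  dAmb (Geo.refine Γ t) s0 (dGrid k₁ k₂ t s0 ht) (Geo.up t) (t * (s0 + 1))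

/-- the rows of the instance -/
def dSysI (t s0 : ℕ) (ht : 0 < t) (cel : Fin Γ.nObs → Cell k₁ k₂) (P : Set ((Geo.refine Γ t).graph (Geo.ug (t * k₁) (t * k₂) s0)).V) (a δ : ℝ) :
    PdSys ((Geo.refine Γ t).graph (Geo.ug (t * k₁) (t * k₂) s0)).V (Cell k₁ k₂) :=
  dSys (Geo.refine Γ t) s0 (dGrid k₁ k₂ t s0 ht) (Geo.up t) (t * (s0 + 1)) cel P a δ

theorem potd_inst_eqns_cite : True := by
  have := @dGrid.eq_1; have := @dAmbI.eq_1; have := @dSysI.eq_1; trivial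

theorem potd_scale (k₁ k₂ : ℕ) {t : ℕ} (s0 : ℕ) (ht : 0 < t) : Scale 1 (dGrid k₁ k₂ t s0 ht) (t * (s0 + 1)) := by
  unfold Scale dGrid DGrid.SideGe DGrid.SideLe DGrid.unif
  simp only [Fin.val_succ, Fin.val_castSucc, one_mul]
  refine ⟨⟨fun i => le_of_eq ?_, fun j => le_of_eq ?_⟩, ⟨fun i => le_of_eq ?_, fun j => le_of_eq ?_⟩⟩ <;>
    (push_cast; ring)

theorem potd_mem_dGrid {t : ℕ} (s0 : ℕ) (ht : 0 < t) (i : Cell k₁ k₂) (p : ℤ × ℤ) :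
    p ∈ (dGrid k₁ k₂ t s0 ht).cell i ↔
      ((((t * (s0 + 1) : ℕ) : ℤ) * (i.1.1 : ℤ) ≤ p.1 ∧ p.1 < ((t * (s0 + 1) : ℕ) : ℤ) * ((i.1.1 : ℤ) + 1)) ∧
        (((t * (s0 + 1) : ℕ) : ℤ) * (i.2.1 : ℤ) ≤ p.2 ∧ p.2 < ((t * (s0 + 1) : ℕ) : ℤ) * ((i.2.1 : ℤ) + 1))) := by
  simp [DGrid.cell, DGrid.unif, dGrid, Finset.mem_product, Finset.mem_Ico]

/-- one coordinate: a subcell lies in its coarse cell -/
theorem potd_sub1 {t l a : ℕ} (ht : 0 < t) {x : ℤ} (h1 : (l : ℤ) * (a : ℤ) ≤ x) (h2 : x < (l : ℤ) * ((a : ℤ) + 1)) :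
    ((t * l : ℕ) : ℤ) * ((a / t : ℕ) : ℤ) ≤ x ∧ x < ((t * l : ℕ) : ℤ) * (((a / t : ℕ) : ℤ) + 1) := by
  have e1 : t * (a / t) ≤ a := Nat.mul_div_le a t
  have e2 : a + 1 ≤ t * (a / t + 1) := Nat.lt_mul_div_succ a ht
  have f1 : ((t * l : ℕ) : ℤ) * ((a / t : ℕ) : ℤ) ≤ (l : ℤ) * (a : ℤ) := by
    have : (t * l) * (a / t) ≤ l * a := by
      calc (t * l) * (a / t) = l * (t * (a / t)) := by ring
        _ ≤ l * a := Nat.mul_le_mul_left l e1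
    exact_mod_cast this
  have f2 : (l : ℤ) * ((a : ℤ) + 1) ≤ ((t * l : ℕ) : ℤ) * (((a / t : ℕ) : ℤ) + 1) := by
    have : l * (a + 1) ≤ (t * l) * (a / t + 1) := by
      calc l * (a + 1) ≤ l * (t * (a / t + 1)) := Nat.mul_le_mul_left l e2
        _ = (t * l) * (a / t + 1) := by ring
    exact_mod_cast this
  exact ⟨f1.trans h1, lt_of_lt_of_le h2 f2⟩

/-- one coordinate: a point of a coarse cell lies in a subcell over it -/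
theorem potd_full1 {t l k i : ℕ} (hl : 0 < l) (hi : i < k) {x : ℤ} (h1 : ((t * l : ℕ) : ℤ) * (i : ℤ) ≤ x)
    (h2 : x < ((t * l : ℕ) : ℤ) * ((i : ℤ) + 1)) :
    ∃ a : ℕ, a < t * k ∧ a / t = i ∧ (l : ℤ) * (a : ℤ) ≤ x ∧ x < (l : ℤ) * ((a : ℤ) + 1) := by
  have hx0 : 0 ≤ x := le_trans (by positivity) h1
  obtain ⟨n, rfl⟩ := Int.eq_ofNat_of_zero_le hx0
  have g1 : (t * l) * i ≤ n := by exact_mod_cast h1
  have g2 : n < (t * l) * (i + 1) := by exact_mod_cast h2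
  refine ⟨n / l, ?_, ?_, ?_, ?_⟩
  · rw [Nat.div_lt_iff_lt_mul hl]
    calc n < (t * l) * (i + 1) := g2
      _ ≤ (t * l) * k := Nat.mul_le_mul_left _ hi
      _ = t * k * l := by ring
  · rw [Nat.div_div_eq_div_mul]
    refine Nat.div_eq_of_lt_le ?_ ?_
    · calc i * (l * t) = (t * l) * i := by ring
        _ ≤ n := g1
    · calc n < (t * l) * (i + 1) := g2
        _ = (i + 1) * (l * t) := by ring
  · exact_mod_cast Nat.mul_div_le n l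
  · exact_mod_cast Nat.lt_mul_div_succ n hl

/-- one coordinate: a step across the last line of a subcell whose index is `≡ -1 mod t` leaves the coarse cell -/
theorem potd_nocut1 {t l a i : ℕ} (ht : 0 < t) (hl : 0 < l) (hmod : (a + 1) % t = 0) {x : ℤ}
    (h2 : x < (l : ℤ) * ((a : ℤ) + 1)) (h3 : ¬ (x + 1 < (l : ℤ) * ((a : ℤ) + 1)))
    (g1 : ((t * l : ℕ) : ℤ) * (i : ℤ) ≤ x) (g2 : x + 1 < ((t * l : ℕ) : ℤ) * ((i : ℤ) + 1)) : False := by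
  obtain ⟨q, hq⟩ := Nat.dvd_of_mod_eq_zero hmod
  have hx : x + 1 = ((t * l : ℕ) : ℤ) * (q : ℤ) := by
    have h4 : x + 1 = (l : ℤ) * ((a : ℤ) + 1) := by omega
    have h5 : ((a : ℤ) + 1) = (t : ℤ) * (q : ℤ) := by exact_mod_cast hq
    rw [h4, h5]
    push_cast
    ring
  have hN : (0 : ℤ) < ((t * l : ℕ) : ℤ) := by exact_mod_cast Nat.mul_pos ht hl
  have k1 : ((t * l : ℕ) : ℤ) * (i : ℤ) < ((t * l : ℕ) : ℤ) * (q : ℤ) := by omega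
  have k2 : ((t * l : ℕ) : ℤ) * (q : ℤ) < ((t * l : ℕ) : ℤ) * ((i : ℤ) + 1) := by omega
  have k3 := lt_of_mul_lt_mul_left k1 hN.le
  have k4 := lt_of_mul_lt_mul_left k2 hN.le
  omega

/-- (`POTD-INST`) the refined geometry consists of whole observation cells and is cut only along their lines -/
theorem potd_coarse {t : ℕ} (s0 : ℕ) (ht : 0 < t) : DCoarse (Geo.refine Γ t) s0 (dGrid k₁ k₂ t s0 ht) (Geo.up t) Γ.T where
  sub κ p hp := by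
    rw [avg_mem_cell] at hp
    rw [potd_mem_dGrid]
    exact ⟨potd_sub1 ht hp.1.1 hp.1.2, potd_sub1 ht hp.2.1 hp.2.2⟩
  full i hi p hp := by
    rw [potd_mem_dGrid] at hp
    obtain ⟨a, ha1, ha2, ha3, ha4⟩ := potd_full1 (Nat.succ_pos s0) i.1.2 hp.1.1 hp.1.2
    obtain ⟨b, hb1, hb2, hb3, hb4⟩ := potd_full1 (Nat.succ_pos s0) i.2.2 hp.2.1 hp.2.2
    refine Finset.mem_biUnion.2 ⟨(⟨a, ha1⟩, ⟨b, hb1⟩), ?_, ?_⟩
    · refine Finset.mem_filter.2 ⟨Finset.mem_univ _, ?_⟩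
      have : Geo.up t ((⟨a, ha1⟩, ⟨b, hb1⟩) : Fin (t * k₁) × Fin (t * k₂)) = i :=
        Prod.ext (Fin.ext ha2) (Fin.ext hb2)
      rw [this]
      exact hi
    · rw [avg_mem_cell]
      exact ⟨⟨ha3, ha4⟩, ⟨hb3, hb4⟩⟩
  mem κ hκ := (Finset.mem_filter.1 hκ).2
  nocut := by
    rintro e ⟨f, hf, he2, he1, hes⟩ i ⟨hi1, hi2⟩
    have hf' := (Finset.mem_filter.1 hf).2.2
    rw [avg_mem_cell] at he1 hes
    rw [potd_mem_dGrid] at hi1 hi2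
    unfold Bond.snd at hes hi2
    rcases hb : f.2 with _ | _
    · rw [hb] at he2 hf'
      rw [he2] at hes hi2
      simp only [Bool.false_eq_true, if_false] at hes hi2 hf'
      refine potd_nocut1 ht (Nat.succ_pos s0) hf' he1.2.2 (fun h => hes ⟨he1.1, ⟨by omega, h⟩⟩) hi1.2.1 hi2.2.2
    · rw [hb] at he2 hf'
      rw [he2] at hes hi2
      simp only [if_true] at hes hi2 hf'
      refine potd_nocut1 ht (Nat.succ_pos s0) hf' he1.1.2 (fun h => hes ⟨⟨by omega, h⟩, he1.2⟩) hi1.1.1 hi2.1.2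

variable {Γ}

theorem potd_obsI {cel : Fin Γ.nObs → Cell k₁ k₂} {w₀ W : ℝ} (ho : ObsCell Γ cel w₀ W) (t : ℕ) :
    DObs (Geo.refine Γ t) (Geo.up t) Γ.T Γ.pin cel w₀ W where
  box o κ := by
    have h1 : κ ∈ (Geo.refine Γ t).box o ↔ Geo.up t κ ∈ Γ.box o := by
      show κ ∈ Finset.univ.filter (fun κ => Geo.up t κ ∈ Γ.box o) ↔ _
      simp
    rw [h1, ho.box o, Finset.mem_singleton]
  wgt_nonneg := ho.wgt_nonneg
  w₀_pos := ho.w₀_pos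
  W_nonneg := ho.W_nonneg
  cover := ho.cover
  total := ho.total

/-- the sites over a set of observation cells -/
theorem potd_mem_sites {t : ℕ} (s0 : ℕ) (A : Finset (Cell k₁ k₂)) (x : ((Geo.refine Γ t).graph (Geo.ug (t * k₁) (t * k₂) s0)).V) :
    x ∈ (Geo.refine Γ t).sites (Geo.ug _ _ s0) (Finset.univ.filter fun κ => Geo.up t κ ∈ A)
      ↔ Geo.up t (locBlk (Geo.refine Γ t) (Geo.ug _ _ s0) x) ∈ A := by
  rw [loc_mem_sites]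
  simp

theorem potd_dictI {t : ℕ} (s0 : ℕ) (ht : 0 < t) (cel : Fin Γ.nObs → Cell k₁ k₂) (P : Set ((Geo.refine Γ t).graph (Geo.ug (t * k₁) (t * k₂) s0)).V)
    {a : ℝ} (ha : 0 < a) (δ : ℝ) : PdDict (Geo.lawS (Geo.refine Γ t) (Geo.ug _ _ s0) δ) a P (dSysI Γ t s0 ht cel P a δ) :=
  potd_dict (Geo.refine Γ t) s0 _ _ _ cel P ha δ

/-- **(D2), instance: constants independent of `(t, s0)`** -/
theorem potd_okI {cel : Fin Γ.nObs → Cell k₁ k₂} {w₀ W : ℝ} (ho : ObsCell Γ cel w₀ W) {t : ℕ} (s0 : ℕ) (ht : 0 < t)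
    {P : Set ((Geo.refine Γ t).graph (Geo.ug (t * k₁) (t * k₂) s0)).V} (hP : (Geo.refine Γ t).sites (Geo.ug _ _ s0) (Geo.refine Γ t).pin ⊆ P)
    {a δ : ℝ} (ha : 0 < a) (hδ : 0 ≤ δ) :
    PdOk (dAmbI Γ t s0 ht) (dSysI Γ t s0 ht cel P a δ) (((t * (s0 + 1) : ℕ) : ℝ) ^ 2)⁻¹ (dCP 1 w₀ a) (dK W a δ) :=
  potd_ok (potd_coarse Γ s0 ht) (potd_obsI ho t) (fun x hx => hP ((potd_mem_sites s0 Γ.pin x).2 hx))
    (Nat.mul_pos ht (Nat.succ_pos s0)) (potd_scale k₁ k₂ s0 ht) ha hδ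

theorem potd_resI {t : ℕ} (s0 : ℕ) (ht : 0 < t) (cel : Fin Γ.nObs → Cell k₁ k₂) (P : Set ((Geo.refine Γ t).graph (Geo.ug (t * k₁) (t * k₂) s0)).V)
    {a : ℝ} (ha : 0 < a) (δ : ℝ) :
    PdRes (dAmbI Γ t s0 ht) (dSysI Γ t s0 ht cel P a δ) (((t * (s0 + 1) : ℕ) : ℝ) ^ 2)⁻¹ (locCR 1 a) :=
  potd_res (potd_coarse Γ s0 ht) cel P (Nat.mul_pos ht (Nat.succ_pos s0)) (potd_scale k₁ k₂ s0 ht) ha δ

/-- the constant of (D3) -/
def dC3 (w₀ W a δ : ℝ) : ℝ := pdM (dCP 1 w₀ a) (dK W a δ) + 16 / 3 * (2 * dK W a δ * locCR 1 a) ^ 2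

theorem dC3_eqns_cite : True := by have := @dC3.eq_1; trivial

theorem potd_nb_dist {V : Type} (A : PdAmb V (Cell k₁ k₂)) (hadj : A.adj = geoAdj) (J : Set (Cell k₁ k₂)) (A' : Finset (Cell k₁ k₂)) (d : ℕ)
    (h : ∀ i ∈ J, ∃ κ' ∈ A', geoDist i κ' ≤ d) : ∀ i ∈ A.nb J, ∃ κ' ∈ A', geoDist i κ' ≤ d + 1 := by
  rintro i ⟨j, hj, hij⟩
  obtain ⟨κ', hκ', hd⟩ := h j hj
  rw [hadj] at hij
  have h1 := (geo_adj_iff i j).1 hij
  have h2 := geo_dist_triangle i j κ'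
  exact ⟨κ', hκ', by omega⟩

/-- **(D3) the Gaussian pin interaction of two unions of observation cells at index distance `≥ r + 4` in the strengthened law**, own pins + any further pins `P`; uniform in `(t, s0)`.
`|Q|` = number of observation cells within index distance `4` of `A'`. -/
theorem potd_gPin_le {cel : Fin Γ.nObs → Cell k₁ k₂} {w₀ W : ℝ} (ho : ObsCell Γ cel w₀ W) {t : ℕ} (s0 : ℕ) (ht : 0 < t)
    {P : Set ((Geo.refine Γ t).graph (Geo.ug (t * k₁) (t * k₂) s0)).V} (hP : (Geo.refine Γ t).sites (Geo.ug _ _ s0) (Geo.refine Γ t).pin ⊆ P)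
    {a δ : ℝ} (ha : 0 < a) (hδ : 0 ≤ δ) (A A' : Finset (Cell k₁ k₂)) {r : ℕ} (hr : 1 ≤ r)
    (hsep : ∀ κ ∈ A, ∀ κ' ∈ A', r + 4 ≤ geoDist κ' κ) :
    (Geo.lawS (Geo.refine Γ t) (Geo.ug _ _ s0) δ).gPin a P
        ((Geo.refine Γ t).sites (Geo.ug _ _ s0) (Finset.univ.filter fun κ => Geo.up t κ ∈ A))
        ((Geo.refine Γ t).sites (Geo.ug _ _ s0) (Finset.univ.filter fun κ => Geo.up t κ ∈ A'))
      ≤ ((Finset.univ.filter fun i : Cell k₁ k₂ => ∃ κ' ∈ A', geoDist i κ' ≤ 4).card : ℝ) * pdE (dCP 1 w₀ a) (dK W a δ) r * dC3 w₀ W a δ / 2 := by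
  have hok := potd_okI ho s0 ht hP ha hδ
  have hres := potd_resI (Γ := Γ) s0 ht cel P ha δ
  have hCR : 0 ≤ locCR 1 a := by unfold locCR; positivity
  have hlay : (dAmbI Γ t s0 ht).Lay (locRho A r) := fun i j h => loc_rho_lay A r h
  have h0 : ∀ i ∈ (dAmbI Γ t s0 ht).cellsV ((Geo.refine Γ t).sites (Geo.ug _ _ s0) (Finset.univ.filter fun κ => Geo.up t κ ∈ A)),
      locRho A r i = 0 := by
    rintro i ⟨x, hx, rfl⟩
    exact loc_rho_zero _ ((potd_mem_sites s0 A x).1 hx)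
  have hb0 : ∀ i ∈ (dAmbI Γ t s0 ht).cellsV ((Geo.refine Γ t).sites (Geo.ug _ _ s0) (Finset.univ.filter fun κ => Geo.up t κ ∈ A')),
      ∃ κ' ∈ A', geoDist i κ' ≤ 0 := by
    rintro i ⟨x, hx, rfl⟩
    exact ⟨_, (potd_mem_sites s0 A' x).1 hx, (geo_dist_self _).le⟩
  have hb4 := potd_nb_dist (dAmbI Γ t s0 ht) rfl _ A' 3 (potd_nb_dist (dAmbI Γ t s0 ht) rfl _ A' 2
    (potd_nb_dist (dAmbI Γ t s0 ht) rfl _ A' 1 (potd_nb_dist (dAmbI Γ t s0 ht) rfl _ A' 0 hb0)))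
  exact potd_gPin_abs ha (potd_dictI s0 ht cel P ha δ) hok hCR hres _ _ hlay h0 hr
    (Finset.univ.filter fun i : Cell k₁ k₂ => ∃ κ' ∈ A', geoDist i κ' ≤ 4)
    (fun i hi => Finset.mem_coe.2 (Finset.mem_filter.2 ⟨Finset.mem_univ _, hb4 i hi⟩))
    (fun i hi => by
      obtain ⟨κ', hκ', hd⟩ := (Finset.mem_filter.1 (Finset.mem_coe.1 hi)).2
      refine loc_rho_ge fun κ hκ => ?_
      have h1 := hsep κ hκ κ' hκ'
      have h2 := geo_dist_triangle κ' i κ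
      have h3 := geo_dist_comm κ' i
      omega)

end inst

end

end Claimed.Agent.R285.C5
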