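-- KEEP
import Claimed.Agent.R285.C5.EsDefs
import Claimed.Agent.R285.C5.PotD
import Claimed.Agent.R285.Pot.DecSplit
import Claimed.Agent.R285.C5.EsGaP
import Claimed.Agent.R285.C5.EsPotBr

/-!
# ROW 285, [C] s5.3, package ES-GA, block (I-C5), file 1: THE WINDOW LAWS `esLw / esRowU` IN THE PLANE      (architect helper226)

Paper-free.   The abstract half of ES-GA is DONE (`Pot/GaMom`, `GaDecA`, `GaDec`, `GaDict`: helper150, helper145).   What is left is the INSTANCE: the four Gaussian references of a mark (cut box, restored box, cut patch, restored patch) as systems of rows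
`dSysI` (`C5/PotD.lean`, constants uniform in `t, s0`) on ONE vertex set.   HUB = **the form in the plane** `esgQ Γ t s' ht a δ w`, `w : ℤ × ℤ → ℝ`:
`a⁻¹ ∑_{retained bonds} (∇_e w)² + ∑_{i ∈ Γ.T} (average of w over the observation cell i)² + δ ∑_{retained faces f of subcells} (avg_{f+} w - avg_f w)²`.
* grid: `s0 = s' + 1`, `esGr m₁ m₂ t (s' + 1) = Geo.ug (t m₁) (t m₂) s'` (`esg_grid`); all window quantities of `EsDefs` are restated with a grid parameter (`esgLw, esgLu, esgTest, esgSt, esgWE, esgWDE, esgWDg, esgWG`; `rfl` + `esg_grid`).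
* `Q1` `esg_lw_form`: `esgLw` = `esgQ Γ`;   `Q2` `esg_lu_form`: the restored law `esgLu` = `esgQ (uncut Γ F)`;   `Q3` `esg_lawS_form`: `Geo.lawS (refine (esObs Γ) t)` = `esgQ Γ`, so `esg_S_form`: the rows `esgS` = `esgQ Γ`;   `Q4` `esg_test_plane`.
* `Q5` `esg_Q_cut_le / esg_Q_cut_eq`: more cuts;   `Q6` `esg_Q_patch`: the open patch = the box cut along the wall of the patch, on fields vanishing off the patch.
ALL graphs `(Geo.refine (egSh T C) t).graph g` with the same `T` have DEFINITIONALLY the same vertex type, `locPos`, `locBlk`, `locExt`, `sites`, `avgRow` (only the bonds differ).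
RULES FOR LEAVES `L-ESG-*` (name in the docstring): prove IN PLACE only your theorems, statements verbatim (defect: one line to helper226), auxiliary lemmas directly above your theorem with prefix `esg_<leaf>_`; everything else is a black box; pull before landing, splice only your hunk.
Tools: `Sec/LocSys.lean` (`locPos, locBlk, locExt, loc_blk_spec, loc_blk_eq_iff, loc_sum_V, loc_sum_E, loc_sum_sub, loc_sum_cell, loc_ext_pos, loc_mem_sites`), `Pot/DecGeo.lean` (`geo_mem_cell, geo_cell_unique`), `C5/Avg.lean` (`avg_mem_cell, avg_cell_eq, avg_pairs, avg_bond_h/v, avg_bond_mem, avg_pair_cell`),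
`C5/PotD.lean` (`potd_coarse, potd_mem_dGrid, potd_sub1, potd_full1, potd_nocut1, potd_obs, potd_fibAvg, potd_blk_eq_iff, potd_sum_cell`).
-/

set_option autoImplicit false

namespace Claimed.Agent.R285.C5

open scoped BigOperators Classical
open Claimed.Agent.R285 Claimed.Agent.R285.Entry Claimed.Agent.R285.Pot Claimed.Agent.R285.Sec

noncomputable section

variable {m₁ m₂ : ℕ}

/-! ## 0. The grid; the window quantities with a grid parameter -/

theorem esg_grid (m₁ m₂ t s' : ℕ) : esGr m₁ m₂ t (s' + 1) = Geo.ug (t * m₁) (t * m₂) s' := by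
  unfold esGr egGr Geo.ug
  congr 1
  omega

section grid

variable (Γ : CGeom m₁ m₂) (t : ℕ) (g : DGrid (t * m₁) (t * m₂))

/-- `esLw` on any grid -/
def esgLw (δ : ℝ) : HLaw ((Geo.refine Γ t).graph g) := C3.lawR (Geo.refine Γ t) g (esRow Γ t δ)

/-- the restored law on any grid -/
def esgLu (F : Finset (C3.Cell m₁ m₂ × Bool)) (δ : ℝ) : HLaw ((C3.uncut (Geo.refine Γ t) (esUpF t F)).graph g) :=
  C3.lawR (C3.uncut (Geo.refine Γ t) (esUpF t F)) g (esRowU Γ F t δ)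

def esgTest (y : C3.Cell m₁ m₂ → ℝ) : ((Geo.refine Γ t).graph g).V → ℝ := (Geo.refine Γ t).cellTest g (esTst t y)

def esgSt (A : Finset (C3.Cell m₁ m₂)) : Set ((Geo.refine Γ t).graph g).V := (Geo.refine Γ t).sites g (esUp t A)

def esgWE (δ a : ℝ) (y : C3.Cell m₁ m₂ → ℝ) : ℝ := (esgLw Γ t g δ).gEn a 0 (esCen Γ t y)

def esgWDE (M : EgWMark m₁ m₂) (δ a : ℝ) (y : C3.Cell m₁ m₂ → ℝ) : ℝ := esgWE (egWPo Γ M) t g δ a y - esgWE (egWPc Γ M) t g δ a y

def esgWDg (δ a : ℝ) (A p : Finset (C3.Cell m₁ m₂)) : ℝ :=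
  (esgLw Γ t g δ).gPin a ((Geo.refine Γ t).sites g (Geo.refine Γ t).pin) (esgSt Γ t g A) (esgSt Γ t g p)

def esgWG (M : EgWMark m₁ m₂) (δ a : ℝ) (top : Bool) (y : C3.Cell m₁ m₂ → ℝ) (Φ : ℝ → ℝ → ℝ → ℝ) : ℝ :=
  (if top then C3.gExU (Geo.refine Γ t) (esUpF t M.F) g (esRowU Γ M.F t δ) a ((Geo.refine Γ t).sites g (Geo.refine Γ t).pin) (esgTest Γ t g y)
    else C3.gExT (esgLw Γ t g δ) a ((Geo.refine Γ t).sites g (Geo.refine Γ t).pin) (esgTest Γ t g y))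
  fun φ => Φ (C3.gcLap (esgLw Γ t g δ) a ((Geo.refine Γ t).sites g (Geo.refine Γ t).pin ∪ esgSt Γ t g M.p) (esgTest Γ t g y) φ)
    (C3.gcLapU (Geo.refine Γ t) (esUpF t M.F) g (esRowU Γ M.F t δ) a ((Geo.refine Γ t).sites g (Geo.refine Γ t).pin ∪ esgSt Γ t g M.p) (esgTest Γ t g y) φ)
    (C3.grPin (esgLw Γ t g δ) a ((Geo.refine Γ t).sites g (Geo.refine Γ t).pin ∪ esgSt Γ t g M.p) (esgSt Γ t g M.H) φ)

end grid

theorem esg_defs_eqns_cite : True := by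
  have := @esgLw.eq_1; have := @esgLu.eq_1; have := @esgTest.eq_1; have := @esgSt.eq_1; have := @esgWE.eq_1
  have := @esgWDE.eq_1; have := @esgWDg.eq_1; have := @esgWG.eq_1; trivial

theorem esg_WG_grid (Γ : CGeom m₁ m₂) (M : EgWMark m₁ m₂) (t s' : ℕ) (δ a : ℝ) (top : Bool) (y : C3.Cell m₁ m₂ → ℝ) (Φ : ℝ → ℝ → ℝ → ℝ) :
    esWG Γ M t (s' + 1) δ a top y Φ = esgWG Γ t (Geo.ug (t * m₁) (t * m₂) s') M δ a top y Φ := by
  rw [← esg_grid]; rfl

theorem esg_WDE_grid (Γ : CGeom m₁ m₂) (M : EgWMark m₁ m₂) (t s' : ℕ) (δ a : ℝ) (y : C3.Cell m₁ m₂ → ℝ) :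
    esWDE Γ M t (s' + 1) δ a y = esgWDE Γ t (Geo.ug (t * m₁) (t * m₂) s') M δ a y := by
  rw [← esg_grid]; rfl

theorem esg_WDg_grid (Γ : CGeom m₁ m₂) (t s' : ℕ) (δ a : ℝ) (A p : Finset (C3.Cell m₁ m₂)) :
    esWDg Γ t (s' + 1) δ a A p = esgWDg Γ t (Geo.ug (t * m₁) (t * m₂) s') δ a A p := by
  rw [← esg_grid]; rfl

/-! ## 1. Functionals of fields in the plane -/

/-- the average of a plane field over a cell of a grid -/
def esgAv {n₁ n₂ : ℕ} (g : DGrid n₁ n₂) (κ : C3.Cell n₁ n₂) (w : ℤ × ℤ → ℝ) : ℝ := ((g.cell κ).card : ℝ)⁻¹ * ∑ p ∈ g.cell κ, w p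

/-- the bond energy of a plane field -/
def esgEn (D : Finset (ℤ × ℤ)) (cut : Set Bond) (w : ℤ × ℤ → ℝ) : ℝ := ∑ e ∈ domBonds D cut, (w e.snd - w e.1) ^ 2

/-- the second cell of a face (the first one if there is none) -/
def esgNb {n₁ n₂ : ℕ} (f : C3.Cell n₁ n₂ × Bool) : C3.Cell n₁ n₂ :=
  if f.2 then (if h : f.1.1.1 + 1 < n₁ then (⟨f.1.1.1 + 1, h⟩, f.1.2) else f.1)
  else (if h : f.1.2.1 + 1 < n₂ then (f.1.1, ⟨f.1.2.1 + 1, h⟩) else f.1)

/-- **the form of the strengthened Gaussian reference of the shape `Γ` in the plane** (subcells of side `s' + 1`, observation cells of side `t (s' + 1)`) -/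
def esgQ (Γ : CGeom m₁ m₂) (t s' : ℕ) (ht : 0 < t) (a δ : ℝ) (w : ℤ × ℤ → ℝ) : ℝ :=
  a⁻¹ * esgEn ((Geo.ug (t * m₁) (t * m₂) s').region (Geo.refine Γ t).T) ((Geo.refine Γ t).cutB (Geo.ug (t * m₁) (t * m₂) s')) w
    + ∑ i ∈ Γ.T, esgAv (dGrid m₁ m₂ t s' ht) i w ^ 2
    + δ * ∑ f ∈ esSoft (Geo.refine Γ t), (esgAv (Geo.ug (t * m₁) (t * m₂) s') (esgNb f) w - esgAv (Geo.ug (t * m₁) (t * m₂) s') f.1 w) ^ 2

/-- the wall of a set of cells: the faces between a cell of `O` and a cell outside `O` -/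
def esgW (O : Finset (C3.Cell m₁ m₂)) : Finset (C3.Cell m₁ m₂ × Bool) := Finset.univ.filter fun f => ∃ κ', egWnb f κ' ∧ ¬ (f.1 ∈ O ↔ κ' ∈ O)

theorem esg_plane_eqns_cite : True := by
  have := @esgAv.eq_1; have := @esgEn.eq_1; have := @esgNb.eq_1; have := @esgQ.eq_1; have := @esgW.eq_1; trivial

/-- L-ESG-P0 (`unfold egWnb esgNb`; cases on `f.2`; `Fin.ext`, `omega`) -/
theorem esg_nb_iff {n₁ n₂ : ℕ} (f : C3.Cell n₁ n₂ × Bool) (κ' : C3.Cell n₁ n₂) : egWnb f κ' ↔ κ' = esgNb f ∧ esgNb f ≠ f.1 := by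
  obtain ⟨⟨i, j⟩, d⟩ := f
  obtain ⟨i', j'⟩ := κ'
  unfold egWnb esgNb
  cases d
  · simp only [Bool.false_eq_true, false_and, false_or, true_and, if_false]
    by_cases h : j.1 + 1 < n₂
    · rw [dif_pos h]
      constructor
      · rintro ⟨h1, h2⟩
        refine ⟨Prod.ext h1.symm (Fin.ext h2.symm), fun e => ?_⟩
        have := congrArg (fun z : C3.Cell n₁ n₂ => z.2.1) e
        simp only at this
        omega
      · rintro ⟨h1, -⟩
        have a1 := congrArg Prod.fst h1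
        have a2 := congrArg (fun z : C3.Cell n₁ n₂ => z.2.1) h1
        simp only at a1 a2
        exact ⟨a1.symm, a2.symm⟩
    · rw [dif_neg h]
      constructor
      · rintro ⟨-, h2⟩
        have := j'.2
        omega
      · rintro ⟨-, h2⟩
        exact absurd rfl h2
  · simp only [true_and, Bool.true_eq_false, false_and, or_false, if_true]
    by_cases h : i.1 + 1 < n₁
    · rw [dif_pos h]
      constructor
      · rintro ⟨h1, h2⟩
        refine ⟨Prod.ext (Fin.ext h1.symm) h2.symm, fun e => ?_⟩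
        have := congrArg (fun z : C3.Cell n₁ n₂ => z.1.1) e
        simp only at this
        omega
      · rintro ⟨h1, -⟩
        have a1 := congrArg (fun z : C3.Cell n₁ n₂ => z.1.1) h1
        have a2 := congrArg Prod.snd h1
        simp only at a1 a2
        exact ⟨a1.symm, a2.symm⟩
    · rw [dif_neg h]
      constructor
      · rintro ⟨h1, -⟩
        have := i'.2
        omega
      · rintro ⟨-, h2⟩
        exact absurd rfl h2

theorem esg_P0_avgRow {n₁ n₂ : ℕ} (Γ' : CGeom n₁ n₂) (g : DGrid n₁ n₂) {κ : C3.Cell n₁ n₂} (hκ : κ ∈ Γ'.T) (x : (Γ'.graph g).V) :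
    Γ'.avgRow g {κ} x = if locBlk Γ' g x = κ then ((g.cell κ).card : ℝ)⁻¹ else 0 := by
  unfold CGeom.avgRow
  have e1 : ({κ} : Finset (C3.Cell n₁ n₂)) ∩ Γ'.T = {κ} := Finset.singleton_inter_of_mem hκ
  have e2 : g.region {κ} = g.cell κ := by
    unfold DGrid.region
    exact Finset.singleton_biUnion
  rw [e1, e2]
  by_cases h : locBlk Γ' g x = κ
  · rw [if_pos h, if_pos ((loc_mem_sites Γ' g {κ} x).2 (Finset.mem_singleton.2 h))]
  · rw [if_neg h, if_neg fun h' => h (Finset.mem_singleton.1 ((loc_mem_sites Γ' g {κ} x).1 h'))]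

/-- L-ESG-P0: a cell average as a pairing.   PLAN: model `Sec.loc_B`, `Sec.loc_obs`, `Sec.loc_obs_not`: `avgRow g {κ} x = if locBlk x = κ then (card (g.cell κ))⁻¹ else 0` (`loc_mem_sites`, `{κ} ∩ T = {κ}`, `DGrid.region`, `Finset.singleton_biUnion`); `loc_sum_cell`, `loc_ext_pos`. -/
theorem esg_pair_avgRow {n₁ n₂ : ℕ} (Γ' : CGeom n₁ n₂) (g : DGrid n₁ n₂) (κ : C3.Cell n₁ n₂) (v : (Γ'.graph g).V → ℝ) :
    HLaw.pair (Γ'.avgRow g {κ}) v = if κ ∈ Γ'.T then esgAv g κ (locExt Γ' g v) else 0 := by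
  unfold HLaw.pair
  by_cases hκ : κ ∈ Γ'.T
  · rw [if_pos hκ]
    unfold esgAv
    rw [Finset.mul_sum, ← loc_sum_cell Γ' g hκ fun p => ((g.cell κ).card : ℝ)⁻¹ * locExt Γ' g v p]
    refine Finset.sum_congr rfl fun x _ => ?_
    rw [esg_P0_avgRow Γ' g hκ, loc_ext_pos, ite_mul, zero_mul]
  · rw [if_neg hκ]
    refine Finset.sum_eq_zero fun x _ => ?_
    have h : x ∉ Γ'.sites g {κ} := fun h' =>
      hκ (Finset.mem_singleton.1 ((loc_mem_sites Γ' g {κ} x).1 h') ▸ (loc_blk_spec Γ' g x).1)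
    unfold CGeom.avgRow
    rw [if_neg h, zero_mul]

/-- a combination of cell averages as a pairing -/
theorem esg_P0_comb {n₁ n₂ : ℕ} (Γ' : CGeom n₁ n₂) (g : DGrid n₁ n₂) (cf : C3.Cell n₁ n₂ → ℝ) (v : (Γ'.graph g).V → ℝ) :
    ∑ x, (∑ κ, cf κ * Γ'.avgRow g {κ} x) * v x = ∑ κ ∈ Γ'.T, cf κ * esgAv g κ (locExt Γ' g v) := by
  have h1 : ∀ x, (∑ κ, cf κ * Γ'.avgRow g {κ} x) * v x = ∑ κ, cf κ * (Γ'.avgRow g {κ} x * v x) := by
    intro x
    rw [Finset.sum_mul]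
    exact Finset.sum_congr rfl fun κ _ => mul_assoc _ _ _
  rw [Finset.sum_congr rfl fun x _ => h1 x, Finset.sum_comm]
  have h2 : ∀ κ, ∑ x, cf κ * (Γ'.avgRow g {κ} x * v x) = if κ ∈ Γ'.T then cf κ * esgAv g κ (locExt Γ' g v) else 0 := by
    intro κ
    rw [← Finset.mul_sum]
    have := esg_pair_avgRow Γ' g κ v
    unfold HLaw.pair at this
    rw [this, mul_ite, mul_zero]
  rw [Finset.sum_congr rfl fun κ _ => h2 κ, Finset.sum_ite_mem, Finset.univ_inter]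

/-- L-ESG-P0: the rows of `C3.lawR` in the plane (`HLaw.obs`, `Finset.sum_mul`, `Finset.sum_comm`, `esg_pair_avgRow`, `Finset.sum_ite_mem`-type) -/
theorem esg_obs_plane {n₁ n₂ : ℕ} (Γ' : CGeom n₁ n₂) (g : DGrid n₁ n₂) {N : ℕ} (row : Fin N → C3.Cell n₁ n₂ → ℝ) (v : (Γ'.graph g).V → ℝ) (o : Fin N) :
    (C3.lawR Γ' g row).obs v o = ∑ κ ∈ Γ'.T, row o κ * esgAv g κ (locExt Γ' g v) :=
  esg_P0_comb Γ' g (row o) v

/-- L-ESG-P0: the bond energy in the plane (`HLaw.en`, `loc_sum_E` with `F e = (w e.snd - w e.1)²`, `loc_pos_src`, `loc_pos_tgt`, `loc_ext_pos`; model: `potd_en_cell`) -/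
theorem esg_en_plane {n₁ n₂ : ℕ} (Γ' : CGeom n₁ n₂) (g : DGrid n₁ n₂) (v : (Γ'.graph g).V → ℝ) :
    HLaw.en (G := Γ'.graph g) v 0 = esgEn (g.region Γ'.T) (Γ'.cutB g) (locExt Γ' g v) := by
  unfold HLaw.en esgEn
  rw [← loc_sum_E Γ' g fun e => (locExt Γ' g v e.snd - locExt Γ' g v e.1) ^ 2]
  refine Finset.sum_congr rfl fun e _ => ?_
  rw [← loc_pos_src, ← loc_pos_tgt, loc_ext_pos, loc_ext_pos, Pi.zero_apply, add_zero]

theorem esg_P1_card (k₁ k₂ n : ℕ) (hn : 0 < n) (κ : C3.Cell k₁ k₂) : ((DGrid.unif k₁ k₂ n hn).cell κ).card = n * n := by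
  unfold DGrid.cell DGrid.unif
  simp only [Finset.card_product, Int.card_Ico, Fin.val_succ, Fin.val_castSucc]
  have e : ∀ j : ℕ, ((n : ℤ) * ((j + 1 : ℕ) : ℤ) - (n : ℤ) * (j : ℤ)).toNat = n := by
    intro j
    have : (n : ℤ) * ((j + 1 : ℕ) : ℤ) - (n : ℤ) * (j : ℤ) = n := by push_cast; ring
    rw [this, Int.toNat_natCast]
  rw [e, e]

theorem esg_P1_cell (t s' : ℕ) (ht : 0 < t) (i : C3.Cell m₁ m₂) :
    (dGrid m₁ m₂ t s' ht).cell i
      = (Finset.univ.filter fun κ : C3.Cell (t * m₁) (t * m₂) => Geo.up t κ = i).biUnion (Geo.ug (t * m₁) (t * m₂) s').cell := by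
  ext p
  rw [Finset.mem_biUnion]
  constructor
  · intro hp
    rw [potd_mem_dGrid] at hp
    obtain ⟨a, ha1, ha2, ha3, ha4⟩ := potd_full1 (Nat.succ_pos s') i.1.2 hp.1.1 hp.1.2
    obtain ⟨b, hb1, hb2, hb3, hb4⟩ := potd_full1 (Nat.succ_pos s') i.2.2 hp.2.1 hp.2.2
    refine ⟨(⟨a, ha1⟩, ⟨b, hb1⟩), Finset.mem_filter.2 ⟨Finset.mem_univ _, Prod.ext (Fin.ext ha2) (Fin.ext hb2)⟩, ?_⟩
    rw [avg_mem_cell]
    exact ⟨⟨ha3, ha4⟩, ⟨hb3, hb4⟩⟩
  · rintro ⟨κ, hκ, hp⟩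
    have hκ' := (Finset.mem_filter.1 hκ).2
    rw [avg_mem_cell] at hp
    rw [potd_mem_dGrid, ← hκ']
    exact ⟨potd_sub1 ht hp.1.1 hp.1.2, potd_sub1 ht hp.2.1 hp.2.2⟩

/-- L-ESG-P1, **the average over an observation cell is the mean of the averages over its `t²` subcells**.
PLAN: `(dGrid ..).cell i = (univ.filter (up t · = i)).biUnion (ug ..).cell` (`potd_mem_dGrid`, `avg_mem_cell`, `potd_sub1`, `potd_full1`), pairwise disjoint (`avg_cell_unique`): `Finset.sum_biUnion`;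
`card ((ug ..).cell κ) = (s'+1)²` (`avg_cell_eq`, `Finset.card_product`, `Int.card_Ico`), `card ((dGrid ..).cell i) = (t (s'+1))²` (`geo_cell_card` or the same computation). -/
theorem esg_av_coarse (t s' : ℕ) (ht : 0 < t) (i : C3.Cell m₁ m₂) (w : ℤ × ℤ → ℝ) :
    esgAv (dGrid m₁ m₂ t s' ht) i w = ((t : ℝ) ^ 2)⁻¹ * ∑ κ : C3.Cell (t * m₁) (t * m₂), if Geo.up t κ = i then esgAv (Geo.ug (t * m₁) (t * m₂) s') κ w else 0 := by
  have hc1 : (((dGrid m₁ m₂ t s' ht).cell i).card : ℝ) = ((t : ℝ) * ((s' : ℝ) + 1)) ^ 2 := by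
    unfold dGrid
    rw [esg_P1_card]
    push_cast
    ring
  have hc2 : ∀ κ : C3.Cell (t * m₁) (t * m₂), (((Geo.ug (t * m₁) (t * m₂) s').cell κ).card : ℝ) = ((s' : ℝ) + 1) ^ 2 := by
    intro κ
    unfold Geo.ug
    rw [esg_P1_card]
    push_cast
    ring
  unfold esgAv
  rw [hc1, esg_P1_cell t s' ht i, Finset.sum_biUnion, ← Finset.sum_filter, Finset.mul_sum, Finset.mul_sum]
  · refine Finset.sum_congr rfl fun κ _ => ?_
    rw [hc2, mul_pow, mul_inv, mul_assoc]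
  · intro κ _ κ' _ hne
    rw [Function.onFun, Finset.disjoint_left]
    intro p hp hp'
    exact hne (avg_cell_unique s' hp hp')

/-- bridge to `C5/EsGaP.lean` (helper145): the soft energy -/
theorem esg_soft_bridge {n₁ n₂ : ℕ} (Γ' : CGeom n₁ n₂) (g : DGrid n₁ n₂) (w : ℤ × ℤ → ℝ) :
    ∑ f ∈ esSoft Γ', (esgAv g (esgNb f) w - esgAv g f.1 w) ^ 2 = ∑ f ∈ esSoft Γ', (∑ κ, esSoftRow 1 f κ * espA g w κ) ^ 2 := by
  refine Finset.sum_congr rfl fun f hf => ?_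
  obtain ⟨κ', hκ'⟩ := (egp_mem_soft _ f).1 hf
  rw [egp_softRow_sum _ hκ'.1, ((esg_nb_iff f κ').1 hκ'.1).1, one_mul]
  rfl

/-- bridge to `C5/EsGaP.lean` (helper145): `esgQ = espQ` on the uniform grid -/
theorem esg_Q_eq_espQ (Γ : CGeom m₁ m₂) (t s' : ℕ) (ht : 0 < t) (a : ℝ) {δ : ℝ} (hδ : 0 ≤ δ) (w : ℤ × ℤ → ℝ) :
    esgQ Γ t s' ht a δ w = espQ Γ t (Geo.ug (t * m₁) (t * m₂) s') δ a w := by
  unfold esgQ espQ espRw
  rw [add_assoc]
  congr 1
  congr 1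
  · refine Finset.sum_congr rfl fun i _ => ?_
    rw [esg_av_coarse, Finset.mul_sum]
    congr 1
    refine Finset.sum_congr rfl fun κ _ => ?_
    by_cases h : Geo.up t κ = i
    · rw [if_pos h, if_pos h]
      rfl
    · rw [if_neg h, if_neg h, mul_zero, zero_mul]
  · rw [Finset.mul_sum]
    refine Finset.sum_congr rfl fun f hf => ?_
    obtain ⟨κ', hκ'⟩ := (egp_mem_soft _ f).1 hf
    rw [egp_softRow_sum _ hκ'.1, ((esg_nb_iff f κ').1 hκ'.1).1, mul_pow, Real.sq_sqrt hδ]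
    rfl

/-! ## 2. The laws in the plane -/

/-- the shape with one unit observation box per present cell (format of `C5/PotD.lean`) -/
def esObs (Γ : CGeom m₁ m₂) : CGeom m₁ m₂ where
  T := Γ.T
  cutF := Γ.cutF
  pin := Γ.pin
  nObs := Γ.T.card
  box o := {(Γ.T.equivFin.symm o).1}
  wgt _ := 1

/-- the cell of a box -/
def esCel (Γ : CGeom m₁ m₂) : Fin (esObs Γ).nObs → C3.Cell m₁ m₂ := fun o => (Γ.T.equivFin.symm o).1

theorem esg_obs_eqns_cite : True := by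
  have := @esObs.eq_1; have := @esCel.eq_1; trivial

/-- L-ESG-S0 (`Γ.T.equivFin`; `total`: `Finset.sum_ite_eq`-type, the map `esCel` is injective) -/
theorem esg_obsCell (Γ : CGeom m₁ m₂) : ObsCell (esObs Γ) (esCel Γ) 1 1 := by
  refine ⟨fun _ => rfl, fun _ => zero_le_one, zero_lt_one, zero_le_one,
    fun i hi => Or.inr ⟨Γ.T.equivFin ⟨i, hi⟩, ?_, le_rfl⟩, fun i => ?_⟩
  · show (Γ.T.equivFin.symm (Γ.T.equivFin ⟨i, hi⟩)).1 = i
    rw [Equiv.symm_apply_apply]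
  · show (∑ o : Fin Γ.T.card, if (Γ.T.equivFin.symm o).1 = i then (1 : ℝ) else 0) ≤ 1
    rw [Finset.sum_boole]
    have h : (Finset.univ.filter fun o : Fin Γ.T.card => (Γ.T.equivFin.symm o).1 = i).card ≤ 1 := by
      rw [Finset.card_le_one]
      intro a ha b hb
      have ha' := (Finset.mem_filter.1 ha).2
      have hb' := (Finset.mem_filter.1 hb).2
      exact Γ.T.equivFin.symm.injective (Subtype.ext (ha'.trans hb'.symm))
    exact_mod_cast h

theorem esg_refine_uncut (Γ : CGeom m₁ m₂) (F : Finset (C3.Cell m₁ m₂ × Bool)) (t : ℕ) :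
    Geo.refine (C3.uncut Γ F) t = C3.uncut (Geo.refine Γ t) (esUpF t F) := by
  unfold Geo.refine C3.uncut esUpF
  congr 1
  ext f
  simp only [Finset.mem_filter, Finset.mem_univ, true_and, Finset.mem_sdiff]
  tauto

/-- L-ESG-Q1a: the row of an observation cell (`esg_obs_plane`, `esRow`, `Fin.addCases_left`, `esRow0`, `esg_av_coarse`; `κ ∈ (refine Γ t).T ↔ up t κ ∈ Γ.T`, `Finset.sum_filter`) -/
theorem esg_row_cell (Γ : CGeom m₁ m₂) (t s' : ℕ) (ht : 0 < t) (δ : ℝ) (v : ((Geo.refine Γ t).graph (Geo.ug (t * m₁) (t * m₂) s')).V → ℝ) (o : Fin Γ.T.card) :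
    (esgLw Γ t (Geo.ug (t * m₁) (t * m₂) s') δ).obs v (Fin.castAdd _ o)
      = esgAv (dGrid m₁ m₂ t s' ht) (Γ.T.equivFin.symm o).1 (locExt (Geo.refine Γ t) (Geo.ug (t * m₁) (t * m₂) s') v) := by
  unfold esgLw
  rw [esg_obs_plane, esg_av_coarse, Finset.mul_sum]
  have hT : (Geo.refine Γ t).T = Finset.univ.filter fun κ => Geo.up t κ ∈ Γ.T := rfl
  rw [hT, Finset.sum_filter]
  refine Finset.sum_congr rfl fun κ _ => ?_
  have e : esRow Γ t δ (Fin.castAdd _ o) κ = if Geo.up t κ = (Γ.T.equivFin.symm o).1 then ((t : ℝ) ^ 2)⁻¹ else 0 := by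
    unfold esRow esRow0
    rw [Fin.addCases_left]
  rw [e]
  by_cases h : Geo.up t κ = (Γ.T.equivFin.symm o).1
  · rw [if_pos h, if_pos h, if_pos (h ▸ (Γ.T.equivFin.symm o).2)]
  · rw [if_neg h, if_neg h]
    simp

/-- L-ESG-Q1b: a soft row in the plane, any fine geometry, any grid (`esSoftRow`, `esg_nb_iff`, `Finset.sum_ite_eq`; `f ∈ esSoft Γ'` gives `f.1 ∈ Γ'.T`, `esgNb f ∈ Γ'.T`, `esgNb f ≠ f.1`) -/
theorem esg_row_soft {n₁ n₂ : ℕ} (Γ' : CGeom n₁ n₂) (g : DGrid n₁ n₂) (c : ℝ) {f : C3.Cell n₁ n₂ × Bool} (hf : f ∈ esSoft Γ') (w : ℤ × ℤ → ℝ) :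
    ∑ κ ∈ Γ'.T, esSoftRow c f κ * esgAv g κ w = c * (esgAv g (esgNb f) w - esgAv g f.1 w) := by
  obtain ⟨-, h1, -, κ', h2, h3⟩ := Finset.mem_filter.1 hf
  obtain ⟨h4, h5⟩ := (esg_nb_iff f κ').1 h3
  have hnb : esgNb f ∈ Γ'.T := h4 ▸ h2
  have e : ∀ κ, esSoftRow c f κ * esgAv g κ w = c * ((if κ = esgNb f then esgAv g κ w else 0) - (if κ = f.1 then esgAv g κ w else 0)) := by
    intro κ
    unfold esSoftRow
    have hiff : egWnb f κ ↔ κ = esgNb f := by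
      rw [esg_nb_iff]
      exact ⟨fun h => h.1, fun h => ⟨h, h5⟩⟩
    by_cases q1 : κ = esgNb f
    · by_cases q2 : κ = f.1
      · exact absurd (q1.symm.trans q2) h5
      · rw [if_pos (hiff.2 q1), if_neg q2, if_pos q1, if_neg q2]; ring
    · by_cases q2 : κ = f.1
      · rw [if_neg (fun h => q1 (hiff.1 h)), if_pos q2, if_neg q1, if_pos q2]; ring
      · rw [if_neg (fun h => q1 (hiff.1 h)), if_neg q2, if_neg q1, if_neg q2]; ring
  rw [Finset.sum_congr rfl fun κ _ => e κ, ← Finset.mul_sum, Finset.sum_sub_distrib, Finset.sum_ite_eq', Finset.sum_ite_eq', if_pos hnb, if_pos h1]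

theorem esg_Q1c_fin {α : Type} (S : Finset α) (Φ : α → ℝ) : ∑ j : Fin S.card, Φ (S.equivFin.symm j).1 = ∑ f ∈ S, Φ f := by
  rw [← Finset.sum_coe_sort S Φ]
  exact Equiv.sum_comp S.equivFin.symm fun i : S => Φ i.1

/-- L-ESG-Q1c, **`Q1`: the strengthened law of a shape in the plane**.   PLAN: `HLaw.form`, `esg_en_plane`; `Fin.sum_univ_add`, `esg_row_cell` + reindexing by `Γ.T.equivFin` (`Finset.sum_coe_sort`, `Equiv.sum_comp Γ.T.equivFin.symm`);
soft rows: `esg_obs_plane`, `esRow`, `Fin.addCases_right`, `esg_row_soft`, reindexing by `(esSoft _).equivFin`, `mul_pow`, `Real.sq_sqrt hδ`, `Finset.mul_sum`. -/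
theorem esg_lw_form (Γ : CGeom m₁ m₂) (t s' : ℕ) (ht : 0 < t) (a : ℝ) {δ : ℝ} (hδ : 0 ≤ δ) (v : ((Geo.refine Γ t).graph (Geo.ug (t * m₁) (t * m₂) s')).V → ℝ) :
    (esgLw Γ t (Geo.ug (t * m₁) (t * m₂) s') δ).form a v = esgQ Γ t s' ht a δ (locExt (Geo.refine Γ t) (Geo.ug (t * m₁) (t * m₂) s') v) := by
  unfold HLaw.form esgQ
  rw [esg_en_plane, add_assoc]
  congr 1
  have hsum : ∑ o : (esgLw Γ t (Geo.ug (t * m₁) (t * m₂) s') δ).O, (esgLw Γ t (Geo.ug (t * m₁) (t * m₂) s') δ).obs v o ^ 2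
      = ∑ o : Fin (Γ.T.card + (esSoft (Geo.refine Γ t)).card), (esgLw Γ t (Geo.ug (t * m₁) (t * m₂) s') δ).obs v o ^ 2 := rfl
  rw [hsum, Fin.sum_univ_add]
  congr 1
  · rw [Finset.sum_congr rfl fun o _ => by rw [esg_row_cell Γ t s' ht δ v o]]
    exact esg_Q1c_fin Γ.T fun i => esgAv (dGrid m₁ m₂ t s' ht) i (locExt (Geo.refine Γ t) (Geo.ug (t * m₁) (t * m₂) s') v) ^ 2
  · have e : ∀ j : Fin (esSoft (Geo.refine Γ t)).card, (esgLw Γ t (Geo.ug (t * m₁) (t * m₂) s') δ).obs v (Fin.natAdd _ j) ^ 2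
        = δ * (esgAv (Geo.ug (t * m₁) (t * m₂) s') (esgNb ((esSoft (Geo.refine Γ t)).equivFin.symm j).1) (locExt (Geo.refine Γ t) (Geo.ug (t * m₁) (t * m₂) s') v)
          - esgAv (Geo.ug (t * m₁) (t * m₂) s') ((esSoft (Geo.refine Γ t)).equivFin.symm j).1.1 (locExt (Geo.refine Γ t) (Geo.ug (t * m₁) (t * m₂) s') v)) ^ 2 := by
      intro j
      unfold esgLw
      rw [esg_obs_plane]
      have e1 : ∀ κ, esRow Γ t δ (Fin.natAdd _ j) κ = esSoftRow (Real.sqrt δ) ((esSoft (Geo.refine Γ t)).equivFin.symm j).1 κ := by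
        intro κ
        unfold esRow
        rw [Fin.addCases_right]
      rw [Finset.sum_congr rfl fun κ _ => by rw [e1 κ], esg_row_soft _ _ _ ((esSoft (Geo.refine Γ t)).equivFin.symm j).2, mul_pow, Real.sq_sqrt hδ]
    rw [Finset.sum_congr rfl fun j _ => e j, ← Finset.mul_sum]
    congr 1
    exact esg_Q1c_fin (esSoft (Geo.refine Γ t)) fun f => (esgAv (Geo.ug (t * m₁) (t * m₂) s') (esgNb f) (locExt (Geo.refine Γ t) (Geo.ug (t * m₁) (t * m₂) s') v)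
      - esgAv (Geo.ug (t * m₁) (t * m₂) s') f.1 (locExt (Geo.refine Γ t) (Geo.ug (t * m₁) (t * m₂) s') v)) ^ 2

/-- L-ESG-Q2, **`Q2`: the restored law in the plane**.   PLAN: as `esg_lw_form` for the fine geometry `uncut (refine Γ t) (esUpF t F)` (`esg_en_plane`, `esg_obs_plane`: general);  `esg_refine_uncut` identifies `T`, `cutB`, `esSoft` with those of `refine (uncut Γ F) t`
(rewrite `esgQ` with `esg_refine_uncut`, or `congrArg`);  rows `esRowU = addCases (esRow Γ t δ) (new soft rows)`: `Fin.sum_univ_add` twice; `esSoft (refine Γ t) ⊆ esSoft (refine (uncut Γ F) t)` (fewer cuts), `Finset.sum_sdiff`.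
The cell rows are those of `esg_row_cell` (same `T`; `locExt` does not see the cuts: `rfl`). -/
theorem esg_lu_form (Γ : CGeom m₁ m₂) (F : Finset (C3.Cell m₁ m₂ × Bool)) (t s' : ℕ) (ht : 0 < t) (a : ℝ) {δ : ℝ} (hδ : 0 ≤ δ)
    (v : ((Geo.refine Γ t).graph (Geo.ug (t * m₁) (t * m₂) s')).V → ℝ) :
    (esgLu Γ t (Geo.ug (t * m₁) (t * m₂) s') F δ).form a v = esgQ (C3.uncut Γ F) t s' ht a δ (locExt (Geo.refine Γ t) (Geo.ug (t * m₁) (t * m₂) s') v) :=
  (esp_lwU_form Γ F t (Geo.ug (t * m₁) (t * m₂) s') δ a v).trans (esg_Q_eq_espQ (C3.uncut Γ F) t s' ht a hδ _).symm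

/-- the form of a strengthened law (copy of `esga_str_form`, helper53, `C5/EsGa.lean`, which lies downstream) -/
theorem esg_str_form {G : HGraph} (H : HLaw G) {C : Type} (κ₀ : G.V → C) (w a : ℝ) (v : G.V → ℝ) :
    (str H κ₀ w).form a v = H.form a v + w ^ 2 * avgEn κ₀ v := by
  have h3 := avg_str_sum H κ₀ w 0 v
  have c2 : ∀ o, (strAff H κ₀ w ⟨0, 0, 0⟩).c o = 0 := by
    intro o
    rcases o with o | p
    · rfl
    · rfl
  have e3 : ∀ o, ((str H κ₀ w).obs v o - (strAff H κ₀ w ⟨0, 0, 0⟩).c o) ^ 2 = (str H κ₀ w).obs v o ^ 2 := fun o => by rw [c2 o, sub_zero]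
  rw [Finset.sum_congr rfl fun o _ => e3 o] at h3
  simp only [Pi.zero_apply, sub_zero] at h3
  unfold HLaw.form
  rw [h3, add_assoc]

/-- the strengthened law of a shape and `Geo.lawS` of the shape with one box per cell have the same form (copy of `esga_form`, helper53; from `esp_pen`, `esp_pen0`, helper14, `C5/EsPotBr.lean`) -/
theorem esg_lw_lawS (Γ : CGeom m₁ m₂) (t s0 : ℕ) (ht : 0 < t) (δ a : ℝ) (v : ((Geo.refine Γ t).graph (Geo.ug _ _ s0)).V → ℝ) :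
    (C3.lawR (Geo.refine Γ t) (Geo.ug _ _ s0) (esRow Γ t δ)).form a v = (Geo.lawS (Geo.refine (espObs Γ) t) (Geo.ug _ _ s0) δ).form a v := by
  have h1 := esp_pen Γ t s0 δ 0 v
  have h2 := esp_pen0 Γ t s0 ht 0 v
  have c1 : ∀ o, esCen Γ t 0 o = 0 := by
    intro o
    refine Fin.addCases (fun i => ?_) (fun j => ?_) o
    · rw [esp_cen_left]; rfl
    · rw [esp_cen_right]
  have c0 : ∀ o, egCen Γ 0 o = 0 := fun o => rfl
  have e1 : ∑ o, (C3.lawR (Geo.refine Γ t) (Geo.ug _ _ s0) (esRow Γ t δ)).obs v o ^ 2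
      = ∑ o, ((C3.lawR (Geo.refine Γ t) (Geo.ug _ _ s0) (esRow Γ t δ)).obs v o - esCen Γ t 0 o) ^ 2 :=
    Finset.sum_congr rfl fun o _ => by rw [c1 o, sub_zero]
  have e3 : ∑ o, (((Geo.refine (espObs Γ) t).law (Geo.ug _ _ s0)).obs v o - egCen Γ 0 o) ^ 2
      = ∑ o, ((Geo.refine (espObs Γ) t).law (Geo.ug _ _ s0)).obs v o ^ 2 :=
    Finset.sum_congr rfl fun o _ => by rw [c0 o, sub_zero]
  refine Eq.trans ?_ (esg_str_form ((Geo.refine (espObs Γ) t).law (Geo.ug _ _ s0)) (Geo.cellOf (Geo.refine (espObs Γ) t) (Geo.ug _ _ s0)) (Real.sqrt δ) a v).symm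
  unfold HLaw.form
  rw [e1, h1, h2, e3, add_assoc]
  rfl

/-- **`Q3`: the law of `C5/PotD.lean` in the plane** (`esObs = espObs` by `rfl`).   The former leaves `esg_pairs_sum`, `esg_pair_fibAvg` (Q3a, Q3b) are no longer needed and were removed. -/
theorem esg_lawS_form (Γ : CGeom m₁ m₂) (t s' : ℕ) (ht : 0 < t) (a : ℝ) {δ : ℝ} (hδ : 0 ≤ δ) (v : ((Geo.refine Γ t).graph (Geo.ug (t * m₁) (t * m₂) s')).V → ℝ) :
    (Geo.lawS (Geo.refine (esObs Γ) t) (Geo.ug (t * m₁) (t * m₂) s') δ).form a v = esgQ Γ t s' ht a δ (locExt (Geo.refine Γ t) (Geo.ug (t * m₁) (t * m₂) s') v) :=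
  (esg_lw_lawS Γ t s' ht δ a v).symm.trans (esg_lw_form Γ t s' ht a hδ v)

/-- L-ESG-Q4, **`Q4`: the test in the plane** (`CGeom.cellTest`, `esTst`, `HLaw.pair`, `Finset.sum_comm`, `esg_pair_avgRow`, `esg_av_coarse`, `Finset.sum_fiberwise`-type regrouping by `Geo.up t`) -/
theorem esg_test_plane (Γ : CGeom m₁ m₂) (t s' : ℕ) (ht : 0 < t) (y : C3.Cell m₁ m₂ → ℝ) (v : ((Geo.refine Γ t).graph (Geo.ug (t * m₁) (t * m₂) s')).V → ℝ) :
    HLaw.pair (esgTest Γ t (Geo.ug (t * m₁) (t * m₂) s') y) v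
      = ∑ i ∈ Γ.T, y i * esgAv (dGrid m₁ m₂ t s' ht) i (locExt (Geo.refine Γ t) (Geo.ug (t * m₁) (t * m₂) s') v) := by
  have h1 : HLaw.pair (esgTest Γ t (Geo.ug (t * m₁) (t * m₂) s') y) v
      = ∑ κ ∈ (Geo.refine Γ t).T, esTst t y κ * esgAv (Geo.ug (t * m₁) (t * m₂) s') κ (locExt (Geo.refine Γ t) (Geo.ug (t * m₁) (t * m₂) s') v) :=
    esg_P0_comb (Geo.refine Γ t) (Geo.ug (t * m₁) (t * m₂) s') (esTst t y) v
  rw [h1]
  generalize locExt (Geo.refine Γ t) (Geo.ug (t * m₁) (t * m₂) s') v = W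
  have h2 : ∀ i ∈ Γ.T, y i * esgAv (dGrid m₁ m₂ t s' ht) i W
      = ∑ κ : C3.Cell (t * m₁) (t * m₂), if Geo.up t κ = i then esTst t y κ * esgAv (Geo.ug (t * m₁) (t * m₂) s') κ W else 0 := by
    intro i _
    rw [esg_av_coarse, ← mul_assoc, Finset.mul_sum]
    refine Finset.sum_congr rfl fun κ _ => ?_
    by_cases h : Geo.up t κ = i
    · rw [if_pos h, if_pos h]
      unfold esTst
      rw [h, div_eq_mul_inv]
    · rw [if_neg h, if_neg h, mul_zero]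
  rw [Finset.sum_congr rfl h2, Finset.sum_comm]
  have h3 : (Geo.refine Γ t).T = Finset.univ.filter fun κ => Geo.up t κ ∈ Γ.T := rfl
  rw [h3, Finset.sum_filter]
  refine Finset.sum_congr rfl fun κ _ => ?_
  rw [Finset.sum_ite_eq]

/-! ## 3. Comparison of shapes in the plane -/

section compare

variable (T : Finset (C3.Cell m₁ m₂)) (t s' : ℕ) (ht : 0 < t)

/-- a bond between two different cells of a grid crosses the face of its direction -/
theorem esg_G1_cross {n₁ n₂ : ℕ} (g : DGrid n₁ n₂) {e : Bond} {κ κ' : C3.Cell n₁ n₂} (h : e.1 ∈ g.cell κ) (h' : e.snd ∈ g.cell κ') (hne : κ ≠ κ') :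
    egWnb (κ, e.2) κ' := by
  rw [geo_mem_cell] at h h'
  obtain ⟨⟨x, y⟩, d⟩ := e
  cases d
  · have e1 : Bond.snd ((x, y), false) = (x, y + 1) := rfl
    rw [e1] at h'
    simp only at h h'
    have a1 := geo_line_lt g.mono₁ h'.1.2 h.1.1 le_rfl
    have a2 := geo_line_lt g.mono₁ h.1.2 h'.1.1 le_rfl
    have b1 := geo_line_lt g.mono₂ h'.2.2 h.2.1 (by omega)
    have b2 := geo_line_le g.mono₂ (i := κ.2) (i' := κ'.2) (by omega)
    have e1 : κ.1 = κ'.1 := Fin.ext (by omega)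
    refine Or.inr ⟨rfl, e1, ?_⟩
    by_contra hc
    exact hne (Prod.ext e1 (Fin.ext (by simp only at hc; omega)))
  · have e1 : Bond.snd ((x, y), true) = (x + 1, y) := rfl
    rw [e1] at h'
    simp only at h h'
    have a1 := geo_line_lt g.mono₂ h'.2.2 h.2.1 le_rfl
    have a2 := geo_line_lt g.mono₂ h.2.2 h'.2.1 le_rfl
    have b1 := geo_line_lt g.mono₁ h'.1.2 h.1.1 (by omega)
    have b2 := geo_line_le g.mono₁ (i := κ.1) (i' := κ'.1) (by omega)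
    have e1 : κ.2 = κ'.2 := Fin.ext (by omega)
    refine Or.inl ⟨rfl, ?_, e1⟩
    by_contra hc
    exact hne (Prod.ext (Fin.ext (by simp only at hc; omega)) e1)

theorem esg_G1_div {t a : ℕ} (h : a / t ≠ (a + 1) / t) : (a + 1) % t = 0 ∧ a / t + 1 = (a + 1) / t := by
  rw [Nat.succ_div] at h ⊢
  by_cases hd : t ∣ a + 1
  · rw [if_pos hd]
    exact ⟨Nat.mod_eq_zero_of_dvd hd, rfl⟩
  · rw [if_neg hd] at h
    exact absurd rfl h

theorem esg_G1_div' {t a : ℕ} (h : (a + 1) % t = 0) : a / t + 1 = (a + 1) / t := by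
  rw [Nat.succ_div, if_pos (Nat.dvd_of_mod_eq_zero h)]

/-- a subcell lies in its observation cell -/
theorem esg_G1_sub {t : ℕ} (s' : ℕ) (ht : 0 < t) (κ : C3.Cell (t * m₁) (t * m₂)) {p : ℤ × ℤ} (hp : p ∈ (Geo.ug (t * m₁) (t * m₂) s').cell κ) :
    p ∈ (dGrid m₁ m₂ t s' ht).cell (Geo.up t κ) := by
  rw [avg_mem_cell] at hp
  rw [potd_mem_dGrid]
  exact ⟨potd_sub1 ht hp.1.1 hp.1.2, potd_sub1 ht hp.2.1 hp.2.2⟩

/-- every site of an observation cell lies in one of its subcells -/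
theorem esg_G1_full {t : ℕ} (s' : ℕ) (ht : 0 < t) (j : C3.Cell m₁ m₂) {p : ℤ × ℤ} (hp : p ∈ (dGrid m₁ m₂ t s' ht).cell j) :
    ∃ κ : C3.Cell (t * m₁) (t * m₂), Geo.up t κ = j ∧ p ∈ (Geo.ug (t * m₁) (t * m₂) s').cell κ := by
  rw [potd_mem_dGrid] at hp
  obtain ⟨a, ha1, ha2, ha3, ha4⟩ := potd_full1 (Nat.succ_pos s') j.1.2 hp.1.1 hp.1.2
  obtain ⟨b, hb1, hb2, hb3, hb4⟩ := potd_full1 (Nat.succ_pos s') j.2.2 hp.2.1 hp.2.2
  refine ⟨(⟨a, ha1⟩, ⟨b, hb1⟩), Prod.ext (Fin.ext ha2) (Fin.ext hb2), ?_⟩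
  rw [avg_mem_cell]
  exact ⟨⟨ha3, ha4⟩, ⟨hb3, hb4⟩⟩

theorem esg_G1_face_up {t : ℕ} {f : C3.Cell (t * m₁) (t * m₂) × Bool} {κ' : C3.Cell (t * m₁) (t * m₂)} (h : egWnb f κ') (hne : Geo.up t f.1 ≠ Geo.up t κ') :
    egWnb (Geo.up t f.1, f.2) (Geo.up t κ') ∧ (if f.2 then (f.1.1.1 + 1) % t = 0 else (f.1.2.1 + 1) % t = 0) := by
  rcases h with ⟨h1, h2, h3⟩ | ⟨h1, h2, h3⟩
  · have hd : f.1.1.1 / t ≠ (f.1.1.1 + 1) / t := by
      intro e
      apply hne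
      refine Prod.ext (Fin.ext ?_) ?_
      · show f.1.1.1 / t = κ'.1.1 / t
        rw [← h2, e]
      · show Geo.up1 t f.1.2 = Geo.up1 t κ'.2
        rw [h3]
    obtain ⟨d1, d2⟩ := esg_G1_div hd
    refine ⟨Or.inl ⟨h1, ?_, ?_⟩, by rw [if_pos h1]; exact d1⟩
    · show f.1.1.1 / t + 1 = κ'.1.1 / t
      rw [← h2, d2]
    · show Geo.up1 t f.1.2 = Geo.up1 t κ'.2
      rw [h3]
  · have hd : f.1.2.1 / t ≠ (f.1.2.1 + 1) / t := by
      intro e
      apply hne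
      refine Prod.ext ?_ (Fin.ext ?_)
      · show Geo.up1 t f.1.1 = Geo.up1 t κ'.1
        rw [h2]
      · show f.1.2.1 / t = κ'.2.1 / t
        rw [← h3, e]
    obtain ⟨d1, d2⟩ := esg_G1_div hd
    refine ⟨Or.inr ⟨h1, ?_, ?_⟩, by rw [if_neg (by rw [h1]; simp)]; exact d1⟩
    · show Geo.up1 t f.1.1 = Geo.up1 t κ'.1
      rw [h2]
    · show f.1.2.1 / t + 1 = κ'.2.1 / t
      rw [← h3, d2]
/-- L-ESG-G1, **a bond of the fine grid which leaves an observation cell crosses a face of observation cells, and its subcell is the last one of the cell**.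
PLAN: `potd_mem_dGrid`, `avg_mem_cell`, `Bond.snd`; cases on `e.2`; integer arithmetic as in `potd_nocut1`, `potd_sub1` (`x < ℓ (a+1)`, `x + 1 = t ℓ (i+1)`, so `a + 1 = t (i + 1)`). -/
theorem esg_bond_face {e : Bond} {κ : C3.Cell (t * m₁) (t * m₂)} {i j : C3.Cell m₁ m₂} (h0 : e.1 ∈ (Geo.ug (t * m₁) (t * m₂) s').cell κ)
    (h1 : e.1 ∈ (dGrid m₁ m₂ t s' ht).cell i) (h2 : e.snd ∈ (dGrid m₁ m₂ t s' ht).cell j) (hne : i ≠ j) :
    egWnb (i, e.2) j ∧ Geo.up t κ = i ∧ (if e.2 then (κ.1.1 + 1) % t = 0 else (κ.2.1 + 1) % t = 0) ∧ e.snd ∉ (Geo.ug (t * m₁) (t * m₂) s').cell κ := by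
  have hu : Geo.up t κ = i := geo_cell_unique _ (esg_G1_sub s' ht κ h0) h1
  obtain ⟨κ'', hκ'', hs⟩ := esg_G1_full s' ht j h2
  have hne' : κ ≠ κ'' := by
    intro e'
    apply hne
    rw [← hu, e', hκ'']
  have hw := esg_G1_cross _ h0 hs hne'
  refine ⟨esg_G1_cross _ h1 h2 hne, hu, ?_, ?_⟩
  · exact (esg_G1_face_up (f := (κ, e.2)) hw (by rw [hu, hκ'']; exact hne)).2
  · intro hc
    exact hne' (geo_cell_unique _ hc hs)

/-- L-ESG-G1: a face of subcells between two different observation cells (`egWnb`, `Geo.up`, `Geo.up1`, `Nat.div`; `a / t ≠ (a+1) / t → (a + 1) % t = 0 ∧ (a+1)/t = a/t + 1`) -/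
theorem esg_face_up {f : C3.Cell (t * m₁) (t * m₂) × Bool} {κ' : C3.Cell (t * m₁) (t * m₂)} (h : egWnb f κ') (hne : Geo.up t f.1 ≠ Geo.up t κ') :
    egWnb (Geo.up t f.1, f.2) (Geo.up t κ') ∧ (if f.2 then (f.1.1.1 + 1) % t = 0 else (f.1.2.1 + 1) % t = 0) := by
  exact esg_G1_face_up h hne

/-- L-ESG-G1: conversely, the last subcell: the second subcell lies in the second observation cell -/
theorem esg_face_up' {f : C3.Cell (t * m₁) (t * m₂) × Bool} {κ' : C3.Cell (t * m₁) (t * m₂)} (h : egWnb f κ')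
    (hmod : if f.2 then (f.1.1.1 + 1) % t = 0 else (f.1.2.1 + 1) % t = 0) : egWnb (Geo.up t f.1, f.2) (Geo.up t κ') := by
  rcases h with ⟨h1, h2, h3⟩ | ⟨h1, h2, h3⟩
  · rw [if_pos h1] at hmod
    refine Or.inl ⟨h1, ?_, ?_⟩
    · show f.1.1.1 / t + 1 = κ'.1.1 / t
      rw [← h2, esg_G1_div' hmod]
    · show Geo.up1 t f.1.2 = Geo.up1 t κ'.2
      rw [h3]
  · rw [if_neg (by rw [h1]; simp)] at hmod
    refine Or.inr ⟨h1, ?_, ?_⟩
    · show Geo.up1 t f.1.1 = Geo.up1 t κ'.1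
      rw [h2]
    · show f.1.2.1 / t + 1 = κ'.2.1 / t
      rw [← h3, esg_G1_div' hmod]

/-- L-ESG-Q5a, **`Q5`: more cuts, smaller form**.   PLAN: the cell terms agree; `cutB` is monotone in `cutF`, `(refine (egSh T C) t).cutF ⊆ (refine (egSh T C') t).cutF`, so `domBonds D (cutB C') ⊆ domBonds D (cutB C)` and `esSoft (refine (egSh T C') t) ⊆ esSoft (refine (egSh T C) t)`;
`Finset.sum_le_sum_of_subset_of_nonneg`. -/
theorem esg_Q_cut_le {C C' : Finset (C3.Cell m₁ m₂ × Bool)} (hC : C ⊆ C') {a δ : ℝ} (ha : 0 < a) (hδ : 0 ≤ δ) (w : ℤ × ℤ → ℝ) :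
    esgQ (egSh T C') t s' ht a δ w ≤ esgQ (egSh T C) t s' ht a δ w := by
  rw [esg_Q_eq_espQ _ t s' ht a hδ, esg_Q_eq_espQ _ t s' ht a hδ]
  exact esp_Q_le (esp_sub_cut T hC) t _ δ ha w

/-- L-ESG-Q5b, **`Q5`: the forms agree on the fields which vanish on the two cells of every additional cut**.   PLAN: `Finset.sum_subset` for the two inclusions of `esg_Q_cut_le`.
A bond `e ∈ domBonds D (cutB C)`, `e ∈ cutB C'`: `f' ∈ (refine (egSh T C') t).cutF`, `e.1 ∈ cell f'.1`, `e.snd ∉ cell f'.1`, `f' ∉ (refine (egSh T C) t).cutF`, so `(up f'.1, f'.2) ∈ C' \ C`; `i = up f'.1 ∈ T`; `e.snd ∈ region` lies in a subcell `κ''`, `j = up κ'' ∈ T`;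
`i ≠ j` by `potd_nocut1` (or `(potd_coarse _ s' ht).nocut`); `esg_bond_face`; `hZ`, `hw` (`(potd_coarse ..).sub`): both values vanish.
A face `f' ∈ esSoft (refine (egSh T C) t)`, `∉ esSoft (refine (egSh T C') t)`: `f' ∈ (refine (egSh T C') t).cutF \ ..`, `esg_face_up'`, both averages vanish (`esgAv`, `Finset.sum_eq_zero`, `(potd_coarse ..).sub`). -/
theorem esg_Q_cut_eq {C C' : Finset (C3.Cell m₁ m₂ × Bool)} (hC : C ⊆ C') (Z : Set (C3.Cell m₁ m₂))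
    (hZ : ∀ f ∈ C', f ∉ C → ∀ κ', egWnb f κ' → f.1 ∈ T → κ' ∈ T → f.1 ∈ Z ∧ κ' ∈ Z) (a δ : ℝ) (w : ℤ × ℤ → ℝ)
    (hw : ∀ i ∈ Z, ∀ p ∈ (dGrid m₁ m₂ t s' ht).cell i, w p = 0) :
    esgQ (egSh T C) t s' ht a δ w = esgQ (egSh T C') t s' ht a δ w := by
  have hZ' : ∀ i ∈ Z, espZ t (Geo.ug (t * m₁) (t * m₂) s') w i := fun i hi κ hκ p hp =>
    hw i hi p (hκ ▸ (potd_coarse (egSh T C) s' ht).sub κ hp)
  have hv : EspVanC (egSh T C') (egSh T C) t (Geo.ug (t * m₁) (t * m₂) s') w :=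
    esp_van_cut T fun f hf hn K' hw' h1 h2 => ⟨hZ' _ (hZ f hf hn K' hw' h1 h2).1, hZ' _ (hZ f hf hn K' hw' h1 h2).2⟩
  have hs := esp_sub_refine (esp_sub_cut T hC) t
  have hv' := esp_van_refine hv
  have he : esgEn ((Geo.ug (t * m₁) (t * m₂) s').region (Geo.refine (egSh T C') t).T) ((Geo.refine (egSh T C') t).cutB (Geo.ug (t * m₁) (t * m₂) s')) w
      = esgEn ((Geo.ug (t * m₁) (t * m₂) s').region (Geo.refine (egSh T C) t).T) ((Geo.refine (egSh T C) t).cutB (Geo.ug (t * m₁) (t * m₂) s')) w :=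
    esp_en_eq hs hv'
  unfold esgQ
  rw [esg_soft_bridge, esg_soft_bridge, ← esp_soft_eq hs hv' 1, he]
  rfl

/-- L-ESG-Q6, **`Q6`: the open patch `(T ∩ O, C)` = the box `(T, C ∪ wall of O)` on the fields which vanish off the cells of `O`**.
PLAN: three terms.   Cells: `Finset.sum_subset` (`T ∩ O ⊆ T`; for `i ∉ O` the average vanishes).
Bonds: `domBonds (region (T ∩ O)') (cutB C) ⊆ domBonds (region T') (cutB (C ∪ W))`: both ends lie in subcells over `O`; if `e ∈ cutB (refine W)` then (`esg_bond_face` / `esg_face_up'`) the two observation cells are `i`, `j` with `(i, e.2) ∈ esgW O`: contradiction (`esg_nb_iff`: the second cell is unique).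
A bond of the larger set which is not in the smaller one: one end over a cell `∉ O`; then BOTH ends are (otherwise `i ≠ j`, `esg_bond_face` gives `e ∈ cutB (refine (egSh T (C ∪ W)) t)`), so both values vanish.   `Finset.sum_subset`.
Faces of subcells: the same with `esg_face_up`, `esg_face_up'`. -/
theorem esg_Q_patch (C : Finset (C3.Cell m₁ m₂ × Bool)) (O : Finset (C3.Cell m₁ m₂)) (a δ : ℝ) (w : ℤ × ℤ → ℝ)
    (hw : ∀ i, i ∉ O → ∀ p ∈ (dGrid m₁ m₂ t s' ht).cell i, w p = 0) :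
    esgQ (egSh T (C ∪ esgW O)) t s' ht a δ w = esgQ (egSh (T ∩ O) C) t s' ht a δ w := by
  have hZ' : ∀ i, i ∉ O → espZ t (Geo.ug (t * m₁) (t * m₂) s') w i := fun i hi κ hκ p hp =>
    hw i hi p (hκ ▸ (potd_coarse (egSh T C) s' ht).sub κ hp)
  have hv : EspVanC (egSh (T ∩ O) C) (egSh T (C ∪ espW O)) t (Geo.ug (t * m₁) (t * m₂) s') w := esp_van_patch T O C hZ'
  have hs := esp_sub_refine (esp_sub_patch T O C) t
  have hv' := esp_van_refine hv
  have he : esgEn ((Geo.ug (t * m₁) (t * m₂) s').region (Geo.refine (egSh (T ∩ O) C) t).T) ((Geo.refine (egSh (T ∩ O) C) t).cutB (Geo.ug (t * m₁) (t * m₂) s')) w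
      = esgEn ((Geo.ug (t * m₁) (t * m₂) s').region (Geo.refine (egSh T (C ∪ esgW O)) t).T) ((Geo.refine (egSh T (C ∪ esgW O)) t).cutB (Geo.ug (t * m₁) (t * m₂) s')) w :=
    esp_en_eq hs hv'
  have hsf : ∑ f ∈ esSoft (Geo.refine (egSh (T ∩ O) C) t), (∑ κ, esSoftRow 1 f κ * espA (Geo.ug (t * m₁) (t * m₂) s') w κ) ^ 2
      = ∑ f ∈ esSoft (Geo.refine (egSh T (C ∪ esgW O)) t), (∑ κ, esSoftRow 1 f κ * espA (Geo.ug (t * m₁) (t * m₂) s') w κ) ^ 2 :=
    esp_soft_eq hs hv' 1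
  have hc : ∑ i ∈ (egSh (T ∩ O) C).T, esgAv (dGrid m₁ m₂ t s' ht) i w ^ 2 = ∑ i ∈ (egSh T (C ∪ esgW O)).T, esgAv (dGrid m₁ m₂ t s' ht) i w ^ 2 := by
    refine Finset.sum_subset (Finset.inter_subset_left : T ∩ O ⊆ T) fun i hi hn => ?_
    have hiO : i ∉ O := fun h => hn (Finset.mem_inter.2 ⟨hi, h⟩)
    unfold esgAv
    rw [Finset.sum_eq_zero (hw i hiO)]
    norm_num
  unfold esgQ
  rw [esg_soft_bridge, esg_soft_bridge, ← hsf, ← he, ← hc]

end compare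

end

end Claimed.Agent.R285.C5
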