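-- KEEP
import Claimed.Agent.R285.C5.EsGaB
import Claimed.Agent.R285.Entry.GoodGaGeo

/-!
# ROW 285, [C] s5.3, package ES-GA, block B2 (helper150): THE ENERGY OF AN OPEN PATCH = THE MINIMAL AFFINE COST OF THE BOX CUT ALONG THE WALL OF THE PATCH AND PINNED OFF THE PATCH

* `esge_row`, `esge_cst`, `esge_cost`: the affine cost of `esgLw Γ t g δ` at the centres `esCen Γ t y` = `form - 2 ⟨esgTest y, ·⟩ + ∑_{Γ.T} y²`;  `esge_WE_eq`: `esgWE = ∑ y² - gVar`.
* **`esge_En_patch`**: ANY system of rows `S` on the sites of the box `(T, C)` with `Adm = ` vanishing off the cells of `O`, `form = esgQ (egSh T (C' ∪ esgW O))`, `termF z = ⟨esgTest y, ·⟩`, `∑ z² = ∑_T y²`: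
  `S.En z = esgWE (egSh (T ∩ O) C') .. y + ∑_{T \ O} y²`.     Uses the leaves `esg_lw_form` (Q1), `esg_test_plane` (Q4), `esg_Q_patch` (Q6) of `C5/EsGaB.lean` as black boxes.
* **`esge_WDE`**: `esgWDE (egSh T C) .. M .. y = Soi.En z₄ - Sci.En z₃`.
`dAmbI (esObs (egSh T C)) t s' ht` = `esgA T C t s' ht` of `C5/EsGaC.lean` (which imports this file).
-/

set_option autoImplicit false

namespace Claimed.Agent.R285.C5

open scoped BigOperators Classical
open Claimed.Agent.R285 Claimed.Agent.R285.Entry Claimed.Agent.R285.Pot Claimed.Agent.R285.Sec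

noncomputable section

variable {m₁ m₂ : ℕ}

/-! ## 1. the affine cost of the window law -/

/-- the test of the centres `esCen Γ t y` is `esgTest Γ t g y` -/
theorem esge_row (Γ : CGeom m₁ m₂) (t : ℕ) (g : DGrid (t * m₁) (t * m₂)) (δ a : ℝ) (y : C3.Cell m₁ m₂ → ℝ) :
    plRow (esgLw Γ t g δ) a 0 (esCen Γ t y) = esgTest Γ t g y := by
  funext x
  have h0 : plDiv (G := (Geo.refine Γ t).graph g) 0 = 0 := by
    funext x
    simp [plDiv]
  unfold plRow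
  rw [h0, smul_zero, sub_zero]
  have h1 : plObsT (esgLw Γ t g δ) (esCen Γ t y) x
      = ∑ o : Fin (Γ.T.card + (esSoft (Geo.refine Γ t)).card), esCen Γ t y o * ∑ κ, esRow Γ t δ o κ * (Geo.refine Γ t).avgRow g {κ} x := rfl
  rw [h1, Fin.sum_univ_add]
  unfold esCen esRow
  simp only [Fin.addCases_left, Fin.addCases_right, zero_mul, Finset.sum_const_zero, add_zero]
  have h2 : ∀ o : Fin Γ.T.card, egCen Γ y o * ∑ κ, esRow0 Γ t o κ * (Geo.refine Γ t).avgRow g {κ} x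
      = (fun K => y K * ∑ κ, (if Geo.up t κ = K then ((t : ℝ) ^ 2)⁻¹ else 0) * (Geo.refine Γ t).avgRow g {κ} x) (Γ.T.equivFin.symm o).1 :=
    fun o => rfl
  rw [Finset.sum_congr rfl fun o _ => h2 o, ega_b2_sum Γ (fun K => y K * ∑ κ, (if Geo.up t κ = K then ((t : ℝ) ^ 2)⁻¹ else 0) * (Geo.refine Γ t).avgRow g {κ} x)]
  unfold esgTest CGeom.cellTest esTst
  simp only [Finset.mul_sum]
  rw [Finset.sum_comm]
  refine Finset.sum_congr rfl fun κ _ => ?_
  by_cases hκ : Geo.up t κ ∈ Γ.T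
  · rw [Finset.sum_eq_single (Geo.up t κ)]
    · rw [if_pos rfl]; ring
    · intro K _ hK
      rw [if_neg (Ne.symm hK)]; ring
    · intro h; exact absurd hκ h
  · have : κ ∉ (Geo.refine Γ t).T := fun h => hκ (Finset.mem_filter.1 h).2
    rw [ega_avgRow_absent _ _ this]
    simp

theorem esge_cst (Γ : CGeom m₁ m₂) (t : ℕ) (g : DGrid (t * m₁) (t * m₂)) (δ a : ℝ) (y : C3.Cell m₁ m₂ → ℝ) :
    plCst (esgLw Γ t g δ) a 0 (esCen Γ t y) = ∑ κ ∈ Γ.T, y κ ^ 2 := by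
  unfold plCst
  have h0 : ∑ e : ((Geo.refine Γ t).graph g).E, ((0 : ((Geo.refine Γ t).graph g).E → ℝ) e) ^ 2 = 0 := by simp
  rw [h0, mul_zero, zero_add]
  have h1 : ∑ o : (esgLw Γ t g δ).O, esCen Γ t y o ^ 2 = ∑ o : Fin (Γ.T.card + (esSoft (Geo.refine Γ t)).card), esCen Γ t y o ^ 2 := rfl
  rw [h1, Fin.sum_univ_add]
  unfold esCen
  simp only [Fin.addCases_left, Fin.addCases_right]
  have h2 : ∀ o : Fin Γ.T.card, egCen Γ y o ^ 2 = (fun K => y K ^ 2) (Γ.T.equivFin.symm o).1 := fun o => rfl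
  rw [Finset.sum_congr rfl fun o _ => h2 o, ega_b2_sum Γ (fun K => y K ^ 2)]
  simp

/-- the affine cost of the window law -/
theorem esge_cost (Γ : CGeom m₁ m₂) (t : ℕ) (g : DGrid (t * m₁) (t * m₂)) (δ a : ℝ) (y : C3.Cell m₁ m₂ → ℝ) (v : ((Geo.refine Γ t).graph g).V → ℝ) :
    a⁻¹ * HLaw.en v 0 + ∑ o, ((esgLw Γ t g δ).obs v o - esCen Γ t y o) ^ 2
      = (esgLw Γ t g δ).form a v - 2 * HLaw.pair (esgTest Γ t g y) v + ∑ κ ∈ Γ.T, y κ ^ 2 := by
  have h := pl_cost_expand (esgLw Γ t g δ) a 0 (esCen Γ t y) v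
  rw [esge_row, esge_cst] at h
  exact h

/-- **the physical energy of a shape through the variance of the test** -/
theorem esge_WE_eq (Γ : CGeom m₁ m₂) (t : ℕ) (g : DGrid (t * m₁) (t * m₂)) (δ : ℝ) {a : ℝ} (ha : 0 < a) (y : C3.Cell m₁ m₂ → ℝ) :
    esgWE Γ t g δ a y = ∑ κ ∈ Γ.T, y κ ^ 2 - (esgLw Γ t g δ).gVar a (esgTest Γ t g y) := by
  unfold esgWE
  rw [pl_gEn_eq (esgLw Γ t g δ) ha 0 (esCen Γ t y), esge_row, esge_cst]

/-- a shape has no pins: every field is admissible -/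
theorem esge_rspan (T : Finset (C3.Cell m₁ m₂)) (C : Finset (C3.Cell m₁ m₂ × Bool)) (t : ℕ) (g : DGrid (t * m₁) (t * m₂)) (δ : ℝ)
    (v : ((Geo.refine (egSh T C) t).graph g).V → ℝ) : v ∈ (esgLw (egSh T C) t g δ).rspan := by
  have h : esgLw (egSh T C) t g δ = plPin (esgLw (egSh T C) t g δ) ∅ := by
    apply pl_law_eq_pin
    show HLaw.pinned ((Geo.refine (egSh T C) t).sites g (Geo.refine (egSh T C) t).pin) = _
    have hp : (Geo.refine (egSh T C) t).pin = ∅ := by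
      show Finset.univ.filter (fun κ => Geo.up t κ ∈ (∅ : Finset (C3.Cell m₁ m₂))) = ∅
      simp
    rw [hp, ega_sites_empty]
  rw [h, pl_mem_rspan_pin]
  intro x hx
  exact hx.elim

/-! ## 2. the open patch inside the box -/

section patch

variable (T : Finset (C3.Cell m₁ m₂)) (C C' : Finset (C3.Cell m₁ m₂ × Bool)) (O : Finset (C3.Cell m₁ m₂)) (t s' : ℕ) (ht : 0 < t)

theorem esge_region_sub : (Geo.ug (t * m₁) (t * m₂) s').region (Geo.refine (egSh (T ∩ O) C') t).T ⊆ (Geo.ug (t * m₁) (t * m₂) s').region (Geo.refine (egSh T C) t).T :=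
  Finset.biUnion_subset_biUnion_of_subset_left _ fun _ hκ =>
    Finset.mem_filter.2 ⟨Finset.mem_univ _, (Finset.mem_inter.1 (Finset.mem_filter.1 hκ).2).1⟩

/-- the observation cell of a site lies in `O` iff its position lies in the region of the patch -/
theorem esge_blk_mem (x : ((Geo.refine (egSh T C) t).graph (Geo.ug (t * m₁) (t * m₂) s')).V) :
    (dAmbI (esObs (egSh T C)) t s' ht).blk x ∈ O ↔ locPos (Geo.refine (egSh T C) t) (Geo.ug (t * m₁) (t * m₂) s') x ∈ (Geo.ug (t * m₁) (t * m₂) s').region (Geo.refine (egSh (T ∩ O) C') t).T := by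
  have hb : (dAmbI (esObs (egSh T C)) t s' ht).blk x = Geo.up t (locBlk (Geo.refine (egSh T C) t) (Geo.ug (t * m₁) (t * m₂) s') x) := rfl
  rw [hb]
  have hs := loc_blk_spec (Geo.refine (egSh T C) t) (Geo.ug (t * m₁) (t * m₂) s') x
  constructor
  · intro h
    exact Finset.mem_biUnion.2 ⟨_, Finset.mem_filter.2 ⟨Finset.mem_univ _, Finset.mem_inter.2 ⟨(Finset.mem_filter.1 hs.1).2, h⟩⟩, hs.2⟩
  · intro h
    obtain ⟨κ, hκ, hp⟩ := Finset.mem_biUnion.1 h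
    rw [(loc_blk_eq_iff _ _ x κ).2 hp]
    exact (Finset.mem_inter.1 (Finset.mem_filter.1 hκ).2).2

/-- a plane field which vanishes off the region of the patch vanishes on the observation cells outside `O` -/
theorem esge_van_cell {w : ℤ × ℤ → ℝ} (hw : ∀ p, p ∉ (Geo.ug (t * m₁) (t * m₂) s').region (Geo.refine (egSh (T ∩ O) C') t).T → w p = 0) :
    ∀ i, i ∉ O → ∀ p ∈ (dGrid m₁ m₂ t s' ht).cell i, w p = 0 := by
  intro i hi p hp
  refine hw p fun hq => hi ?_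
  obtain ⟨κ, hκ, hpκ⟩ := Finset.mem_biUnion.1 hq
  have h1 := (potd_coarse (egSh (T ∩ O) C') s' ht).sub κ hpκ
  rw [geo_cell_unique (dGrid m₁ m₂ t s' ht) hp h1]
  exact (Finset.mem_inter.1 (Finset.mem_filter.1 hκ).2).2

/-- the two forms and the two tests on a field carried by the patch -/
theorem esge_core (a : ℝ) {δ : ℝ} (hδ : 0 ≤ δ) (y : C3.Cell m₁ m₂ → ℝ) (v : ((Geo.refine (egSh T C) t).graph (Geo.ug (t * m₁) (t * m₂) s')).V → ℝ)
    (hv : ∀ p, p ∉ (Geo.ug (t * m₁) (t * m₂) s').region (Geo.refine (egSh (T ∩ O) C') t).T → locExt (Geo.refine (egSh T C) t) (Geo.ug (t * m₁) (t * m₂) s') v p = 0)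
    (v' : ((Geo.refine (egSh (T ∩ O) C') t).graph (Geo.ug (t * m₁) (t * m₂) s')).V → ℝ)
    (hv' : locExt (Geo.refine (egSh (T ∩ O) C') t) (Geo.ug (t * m₁) (t * m₂) s') v' = locExt (Geo.refine (egSh T C) t) (Geo.ug (t * m₁) (t * m₂) s') v) :
    esgQ (egSh T (C' ∪ esgW O)) t s' ht a δ (locExt (Geo.refine (egSh T C) t) (Geo.ug (t * m₁) (t * m₂) s') v)
        = (esgLw (egSh (T ∩ O) C') t (Geo.ug (t * m₁) (t * m₂) s') δ).form a v' ∧
      HLaw.pair (esgTest (egSh T C) t (Geo.ug (t * m₁) (t * m₂) s') y) v = HLaw.pair (esgTest (egSh (T ∩ O) C') t (Geo.ug (t * m₁) (t * m₂) s') y) v' := by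
  have hc := esge_van_cell T C' O t s' ht hv
  constructor
  · rw [esg_lw_form (egSh (T ∩ O) C') t s' ht a hδ v', hv', esg_Q_patch T t s' ht C' O a δ _ hc]
  · rw [esg_test_plane (egSh T C) t s' ht y v, esg_test_plane (egSh (T ∩ O) C') t s' ht y v', hv']
    symm
    refine Finset.sum_subset (Finset.inter_subset_left : T ∩ O ⊆ T) fun i hi hi' => ?_
    have hiO : i ∉ O := fun h => hi' (Finset.mem_inter.2 ⟨hi, h⟩)
    unfold esgAv
    rw [Finset.sum_eq_zero fun p hp => hc i hiO p hp]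
    ring

/-- **(B2) the minimal affine cost of the box cut along the wall of `O` and pinned off `O`** -/
theorem esge_En_patch {a δ : ℝ} (ha : 0 < a) (hδ : 0 ≤ δ) (y : C3.Cell m₁ m₂ → ℝ)
    (S : PdSys ((Geo.refine (egSh T C) t).graph (Geo.ug (t * m₁) (t * m₂) s')).V (C3.Cell m₁ m₂)) (z : S.Tm → ℝ)
    (hadm : ∀ v, S.Adm v ↔ ∀ x, (dAmbI (esObs (egSh T C)) t s' ht).blk x ∉ O → v x = 0)
    (hform : ∀ v, S.form v = esgQ (egSh T (C' ∪ esgW O)) t s' ht a δ (locExt (Geo.refine (egSh T C) t) (Geo.ug (t * m₁) (t * m₂) s') v))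
    (hterm : ∀ v, S.termF z v = HLaw.pair (esgTest (egSh T C) t (Geo.ug (t * m₁) (t * m₂) s') y) v)
    (hsq : ∑ τ, z τ ^ 2 = ∑ i ∈ T, y i ^ 2) :
    S.En z = esgWE (egSh (T ∩ O) C') t (Geo.ug (t * m₁) (t * m₂) s') δ a y + ∑ i ∈ T \ O, y i ^ 2 := by
  have hsub := esge_region_sub T C C' O t s'
  -- the cost on corresponding fields
  have key : ∀ (v : ((Geo.refine (egSh T C) t).graph (Geo.ug (t * m₁) (t * m₂) s')).V → ℝ)
      (v' : ((Geo.refine (egSh (T ∩ O) C') t).graph (Geo.ug (t * m₁) (t * m₂) s')).V → ℝ),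
      (∀ p, p ∉ (Geo.ug (t * m₁) (t * m₂) s').region (Geo.refine (egSh (T ∩ O) C') t).T → locExt (Geo.refine (egSh T C) t) (Geo.ug (t * m₁) (t * m₂) s') v p = 0) →
      locExt (Geo.refine (egSh (T ∩ O) C') t) (Geo.ug (t * m₁) (t * m₂) s') v' = locExt (Geo.refine (egSh T C) t) (Geo.ug (t * m₁) (t * m₂) s') v →
      S.aff z v = (a⁻¹ * HLaw.en v' 0 + ∑ o, ((esgLw (egSh (T ∩ O) C') t (Geo.ug (t * m₁) (t * m₂) s') δ).obs v' o - esCen (egSh (T ∩ O) C') t y o) ^ 2)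
        + ∑ i ∈ T \ O, y i ^ 2 := by
    intro v v' hv hv'
    obtain ⟨c1, c2⟩ := esge_core T C C' O t s' ht a hδ y v hv v' hv'
    rw [pd_aff_eq, hform, hterm, hsq, esge_cost, ← c1, ← c2]
    have h3 : ∑ κ ∈ (egSh (T ∩ O) C').T, y κ ^ 2 + ∑ i ∈ T \ O, y i ^ 2 = ∑ i ∈ T, y i ^ 2 := Finset.sum_inter_add_sum_sdiff T O fun i => y i ^ 2
    linarith
  -- admissible fields vanish off the patch
  have hvan : ∀ v, S.Adm v → ∀ p, p ∉ (Geo.ug (t * m₁) (t * m₂) s').region (Geo.refine (egSh (T ∩ O) C') t).T →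
      locExt (Geo.refine (egSh T C) t) (Geo.ug (t * m₁) (t * m₂) s') v p = 0 := by
    intro v hv p hp
    by_cases h : p ∈ (Geo.ug (t * m₁) (t * m₂) s').region (Geo.refine (egSh T C) t).T
    · have h1 : locExt (Geo.refine (egSh T C) t) (Geo.ug (t * m₁) (t * m₂) s') v p = v ⟨p, h⟩ := by unfold locExt; rw [dif_pos h]
      rw [h1]
      exact (hadm v).1 hv _ fun q => hp ((esge_blk_mem T C C' O t s' ht _).1 q)
    · exact ega_g5_ext_out _ _ v h
  apply le_antisymm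
  · -- trial field: the extension by zero
    rw [← sub_le_iff_le_add]
    unfold esgWE HLaw.gEn
    refine le_ciInf fun w => ?_
    have hext : locExt (Geo.refine (egSh T C) t) (Geo.ug (t * m₁) (t * m₂) s')
        (fun x => locExt (Geo.refine (egSh (T ∩ O) C') t) (Geo.ug (t * m₁) (t * m₂) s') w.1 (locPos (Geo.refine (egSh T C) t) (Geo.ug (t * m₁) (t * m₂) s') x))
        = locExt (Geo.refine (egSh (T ∩ O) C') t) (Geo.ug (t * m₁) (t * m₂) s') w.1 := by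
      funext p
      rw [ega_g5_ext_fn]
      by_cases h : p ∈ (Geo.ug (t * m₁) (t * m₂) s').region (Geo.refine (egSh T C) t).T
      · rw [if_pos h]
      · rw [if_neg h, ega_g5_ext_out _ _ w.1 fun q => h (hsub q)]
    have hA : S.Adm (fun x => locExt (Geo.refine (egSh (T ∩ O) C') t) (Geo.ug (t * m₁) (t * m₂) s') w.1 (locPos (Geo.refine (egSh T C) t) (Geo.ug (t * m₁) (t * m₂) s') x)) :=
      (hadm _).2 fun x hx => ega_g5_ext_out _ _ w.1 fun q => hx ((esge_blk_mem T C C' O t s' ht x).2 q)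
    have h1 := pd_En_le S z hA
    rw [key _ w.1 (hvan _ hA) hext.symm] at h1
    linarith
  · have : Nonempty {u : ((Geo.refine (egSh T C) t).graph (Geo.ug (t * m₁) (t * m₂) s')).V → ℝ // S.Adm u} := ⟨⟨0, fun _ _ => rfl⟩⟩
    unfold PdSys.En
    refine le_ciInf fun u => ?_
    have hres : locExt (Geo.refine (egSh (T ∩ O) C') t) (Geo.ug (t * m₁) (t * m₂) s')
        (fun x => locExt (Geo.refine (egSh T C) t) (Geo.ug (t * m₁) (t * m₂) s') u.1 (locPos (Geo.refine (egSh (T ∩ O) C') t) (Geo.ug (t * m₁) (t * m₂) s') x))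
        = locExt (Geo.refine (egSh T C) t) (Geo.ug (t * m₁) (t * m₂) s') u.1 := by
      funext p
      rw [ega_g5_ext_fn]
      by_cases h : p ∈ (Geo.ug (t * m₁) (t * m₂) s').region (Geo.refine (egSh (T ∩ O) C') t).T
      · rw [if_pos h]
      · rw [if_neg h, hvan u.1 u.2 p h]
    rw [key u.1 _ (hvan u.1 u.2) hres]
    have h2 := pl_gEn_le (esgLw (egSh (T ∩ O) C') t (Geo.ug (t * m₁) (t * m₂) s') δ) ha 0 (esCen (egSh (T ∩ O) C') t y) _ (esge_rspan (T ∩ O) C' t (Geo.ug (t * m₁) (t * m₂) s') δ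
      (fun x => locExt (Geo.refine (egSh T C) t) (Geo.ug (t * m₁) (t * m₂) s') u.1 (locPos (Geo.refine (egSh (T ∩ O) C') t) (Geo.ug (t * m₁) (t * m₂) s') x)))
    unfold esgWE
    linarith

/-- **(B2) exit**: the difference of the energies of the two open patches of a mark -/
theorem esge_WDE (M : EgWMark m₁ m₂) {a δ : ℝ} (ha : 0 < a) (hδ : 0 ≤ δ) (y : C3.Cell m₁ m₂ → ℝ)
    (Sci Soi : PdSys ((Geo.refine (egSh T C) t).graph (Geo.ug (t * m₁) (t * m₂) s')).V (C3.Cell m₁ m₂)) (z₃ : Sci.Tm → ℝ) (z₄ : Soi.Tm → ℝ)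
    (hadm₃ : ∀ v, Sci.Adm v ↔ ∀ x, (dAmbI (esObs (egSh T C)) t s' ht).blk x ∉ M.O → v x = 0)
    (hadm₄ : ∀ v, Soi.Adm v ↔ ∀ x, (dAmbI (esObs (egSh T C)) t s' ht).blk x ∉ M.O → v x = 0)
    (hform₃ : ∀ v, Sci.form v = esgQ (egSh T (C ∪ esgW M.O)) t s' ht a δ (locExt (Geo.refine (egSh T C) t) (Geo.ug (t * m₁) (t * m₂) s') v))
    (hform₄ : ∀ v, Soi.form v = esgQ (egSh T (C \ M.F ∪ esgW M.O)) t s' ht a δ (locExt (Geo.refine (egSh T C) t) (Geo.ug (t * m₁) (t * m₂) s') v))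
    (hterm₃ : ∀ v, Sci.termF z₃ v = HLaw.pair (esgTest (egSh T C) t (Geo.ug (t * m₁) (t * m₂) s') y) v)
    (hterm₄ : ∀ v, Soi.termF z₄ v = HLaw.pair (esgTest (egSh T C) t (Geo.ug (t * m₁) (t * m₂) s') y) v)
    (hsq₃ : ∑ τ, z₃ τ ^ 2 = ∑ i ∈ T, y i ^ 2) (hsq₄ : ∑ τ, z₄ τ ^ 2 = ∑ i ∈ T, y i ^ 2) :
    esgWDE (egSh T C) t (Geo.ug (t * m₁) (t * m₂) s') M δ a y = Soi.En z₄ - Sci.En z₃ := by
  rw [esge_En_patch T C (C \ M.F) M.O t s' ht ha hδ y Soi z₄ hadm₄ hform₄ hterm₄ hsq₄,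
    esge_En_patch T C C M.O t s' ht ha hδ y Sci z₃ hadm₃ hform₃ hterm₃ hsq₃]
  have h : esgWDE (egSh T C) t (Geo.ug (t * m₁) (t * m₂) s') M δ a y
      = esgWE (egSh (T ∩ M.O) (C \ M.F)) t (Geo.ug (t * m₁) (t * m₂) s') δ a y - esgWE (egSh (T ∩ M.O) C) t (Geo.ug (t * m₁) (t * m₂) s') δ a y := rfl
  rw [h]
  ring

end patch

end

end Claimed.Agent.R285.C5
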