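-- KEEP
import Claimed.Agent.R285.C5.EsGaB
import Claimed.Agent.R285.C5.EsGaE
import Claimed.Agent.R285.Pot.GaAsm

/-!
# ROW 285, [C] s5.3, package ES-GA, block (I-C5), file 2: THE FOUR SYSTEMS OF ROWS OF A MARK; blocks B1-B4; the instance      (architect helper226)

Paper-free.   `T` = present cells of the box, `C` = the REFERENCE set of removed faces (it only fixes the TYPE of the sites: all graphs `(Geo.refine (egSh T C') t).graph g` have definitionally the same vertices), `g = Geo.ug (t m₁) (t m₂) s'`, `s0 = s' + 1`.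
* `esgA T C t s' ht`: ambient (cells = OBSERVATION cells, `blk x = Geo.up t (locBlk x)`, `adj = geoAdj`);   in the instance: `(esgA ..).split ↑U`, `U` from `EgWMark.Geo.far`.
* `esgS T C t s' ht C' P a δ`: the rows of the shape `(T, C')` (`dSysI (esObs (egSh T C'))`, `C5/PotD.lean`), pins `P`.   `form = esgQ (egSh T C')` (`esg_S_form`).
* a mark `M`:  `Sc = esgS .. C ∅`,  `So = esgS .. (C \ M.F) ∅`,  `Sci = esgS .. (C ∪ esgW M.O) (esgOff M.O)`,  `Soi = esgS .. (C \ M.F ∪ esgW M.O) (esgOff M.O)`.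
* `esgF j` = the average over the observation cell `j` (`0` if `j ∉ T`);  `esgZ .. y` = the datum `y` on the box rows, `0` on the bonds and on the soft rows.
## BLOCKS (owners)
**B1** (helper226): `esg_ok, esg_res, esg_S_form, esg_S_pin, esg_sites_pin, esg_sitesOf, esg_rows_U, esg_ok_split`.     **B2** (helper150): `esg_En_patch`.
**B3** (helper145): `esg_agree, esg_met, esg_wall_D, esg_pack`.      **B4** (helper145): `esg_F_carried, esg_F_plane, esg_test_sum, esg_termF, esg_Z_sq, esg_F_gf_le`.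
Assembly: `esg_inst_grid` (PROVED from the blocks), `esg_inst_pf` (all `s0 ≥ 1`).
-/

set_option autoImplicit false

namespace Claimed.Agent.R285.C5

open scoped BigOperators Classical
open Claimed.Agent.R285 Claimed.Agent.R285.Entry Claimed.Agent.R285.Pot Claimed.Agent.R285.Sec

noncomputable section

variable {m₁ m₂ : ℕ}

/-! ## 1. Definitions -/

section sys

variable (T : Finset (C3.Cell m₁ m₂)) (C : Finset (C3.Cell m₁ m₂ × Bool)) (t s' : ℕ) (ht : 0 < t)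

/-- the ambient data of the box: cells = observation cells -/
def esgA : PdAmb ((Geo.refine (egSh T C) t).graph (Geo.ug (t * m₁) (t * m₂) s')).V (C3.Cell m₁ m₂) :=
  dAmbI (esObs (egSh T C)) t s' ht

/-- **the rows of the shape `(T, C')`**, pins `P`, on the sites of the reference shape `(T, C)` -/
def esgS (C' : Finset (C3.Cell m₁ m₂ × Bool)) (P : Set ((Geo.refine (egSh T C) t).graph (Geo.ug (t * m₁) (t * m₂) s')).V) (a δ : ℝ) :
    PdSys ((Geo.refine (egSh T C) t).graph (Geo.ug (t * m₁) (t * m₂) s')).V (C3.Cell m₁ m₂) :=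
  dSysI (esObs (egSh T C')) t s' ht (esCel (egSh T C')) P a δ

/-- the sites off the cells of `O` -/
def esgOff (O : Finset (C3.Cell m₁ m₂)) : Set ((Geo.refine (egSh T C) t).graph (Geo.ug (t * m₁) (t * m₂) s')).V :=
  {x | (esgA T C t s' ht).blk x ∉ O}

/-- the test of one observation cell -/
def esgF (j : C3.Cell m₁ m₂) : (((Geo.refine (egSh T C) t).graph (Geo.ug (t * m₁) (t * m₂) s')).V → ℝ) →ₗ[ℝ] ℝ :=
  pdRowF (esgTest (egSh T C) t (Geo.ug (t * m₁) (t * m₂) s') (Pi.single j 1))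

/-- the datum `y` on the box rows -/
def esgZ (C' : Finset (C3.Cell m₁ m₂ × Bool)) (P : Set ((Geo.refine (egSh T C) t).graph (Geo.ug (t * m₁) (t * m₂) s')).V) (a δ : ℝ)
    (y : C3.Cell m₁ m₂ → ℝ) : (esgS T C t s' ht C' P a δ).Tm → ℝ :=
  Sum.elim (Sum.elim (fun _ => 0) fun o => y (esCel (egSh T C') o)) fun _ => 0

/-- `σ = (side of an observation cell)⁻²` -/
def esgSig (t s' : ℕ) : ℝ := (((t * (s' + 1) : ℕ) : ℝ) ^ 2)⁻¹

end sys

theorem esg_sys_eqns_cite : True := by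
  have := @esgA.eq_1; have := @esgS.eq_1; have := @esgOff.eq_1; have := @esgF.eq_1; have := @esgZ.eq_1; have := @esgSig.eq_1; trivial

/-! ## 2. Block B1: the structure constants, the form, the pins      (helper226) -/

section B1

variable (T : Finset (C3.Cell m₁ m₂)) (C : Finset (C3.Cell m₁ m₂ × Bool)) (t s' : ℕ) (ht : 0 < t)

theorem esg_sites_pin : (Geo.refine (egSh T C) t).sites (Geo.ug (t * m₁) (t * m₂) s') (Geo.refine (egSh T C) t).pin = ∅ := by
  ext x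
  rw [loc_mem_sites]
  refine ⟨fun h => ?_, fun h => h.elim⟩
  simp [Geo.refine, egSh] at h

theorem esg_S_pin (C' : Finset (C3.Cell m₁ m₂ × Bool)) (P : Set ((Geo.refine (egSh T C) t).graph (Geo.ug (t * m₁) (t * m₂) s')).V) (a δ : ℝ) :
    (esgS T C t s' ht C' P a δ).pin = P := Set.union_empty P

theorem esg_ok (C' : Finset (C3.Cell m₁ m₂ × Bool)) (P : Set ((Geo.refine (egSh T C) t).graph (Geo.ug (t * m₁) (t * m₂) s')).V) {a δ : ℝ}
    (ha : 0 < a) (hδ : 0 ≤ δ) : PdOk (esgA T C t s' ht) (esgS T C t s' ht C' P a δ) (esgSig t s') (dCP 1 1 a) (dK 1 a δ) :=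
  potd_okI (esg_obsCell (egSh T C')) s' ht (P := P) (by rw [show (Geo.refine (esObs (egSh T C')) t).sites (Geo.ug (t * m₁) (t * m₂) s') (Geo.refine (esObs (egSh T C')) t).pin = ∅ from esg_sites_pin T C' t s']; exact Set.empty_subset _) ha hδ

theorem esg_res (C' : Finset (C3.Cell m₁ m₂ × Bool)) (P : Set ((Geo.refine (egSh T C) t).graph (Geo.ug (t * m₁) (t * m₂) s')).V) {a : ℝ}
    (ha : 0 < a) (δ : ℝ) : PdRes (esgA T C t s' ht) (esgS T C t s' ht C' P a δ) (esgSig t s') (locCR 1 a) :=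
  potd_resI (Γ := esObs (egSh T C')) s' ht (esCel (egSh T C')) P ha δ

theorem esg_S_form (C' : Finset (C3.Cell m₁ m₂ × Bool)) (P : Set ((Geo.refine (egSh T C) t).graph (Geo.ug (t * m₁) (t * m₂) s')).V) {a δ : ℝ}
    (ha : 0 < a) (hδ : 0 ≤ δ) (v : ((Geo.refine (egSh T C) t).graph (Geo.ug (t * m₁) (t * m₂) s')).V → ℝ) :
    (esgS T C t s' ht C' P a δ).form v = esgQ (egSh T C') t s' ht a δ (locExt (Geo.refine (egSh T C) t) (Geo.ug (t * m₁) (t * m₂) s') v) :=
  (potd_form (potd_dictI (Γ := esObs (egSh T C')) s' ht (esCel (egSh T C')) P ha δ) v).trans (esg_lawS_form (egSh T C') t s' ht a hδ v)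

theorem esg_S_adm (C' : Finset (C3.Cell m₁ m₂ × Bool)) (P : Set ((Geo.refine (egSh T C) t).graph (Geo.ug (t * m₁) (t * m₂) s')).V) (a δ : ℝ)
    (v : ((Geo.refine (egSh T C) t).graph (Geo.ug (t * m₁) (t * m₂) s')).V → ℝ) : (esgS T C t s' ht C' P a δ).Adm v ↔ ∀ x ∈ P, v x = 0 := by
  unfold PdSys.Adm
  rw [esg_S_pin]

theorem esg_sitesOf (A : Finset (C3.Cell m₁ m₂)) : (esgA T C t s' ht).sitesOf ↑A = esgSt (egSh T C) t (Geo.ug (t * m₁) (t * m₂) s') A := by
  ext x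
  exact (potd_mem_sites (Γ := egSh T C) s' A x).symm

/-- a field which vanishes on the sites of the observation cell `i` vanishes, in the plane, on the cell `i` -/
theorem esg_ext_zero {v : ((Geo.refine (egSh T C) t).graph (Geo.ug (t * m₁) (t * m₂) s')).V → ℝ} {i : C3.Cell m₁ m₂}
    (hv : ∀ x, (esgA T C t s' ht).blk x = i → v x = 0) : ∀ p ∈ (dGrid m₁ m₂ t s' ht).cell i, locExt (Geo.refine (egSh T C) t) (Geo.ug (t * m₁) (t * m₂) s') v p = 0 := by
  intro p hp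
  unfold locExt
  split_ifs with h
  · exact hv _ ((potd_blk_eq_iff (potd_coarse (egSh T C) s' ht) ⟨p, h⟩ i).2 hp)
  · rfl

/-- L-ESG-U, **no row straddles a union of components**.   PLAN: `τ = inl (inl e)` (bond): `cs = {blk src, blk tgt}` (`pd_graph_cs_inl` or `rfl`); if the two cells differ: `esg_bond_face` (`loc_blk_spec`, `potd_blk_eq_iff`, `loc_pos_src/tgt`) gives `egWnb (i, e.2) j`, `up κ = i`, the last subcell;
the bond is retained (`domBonds`: `e ∉ cutB`), so `(i, e.2) ∉ C'` (otherwise `(κ, e.2) ∈ (refine ..).cutF` and `e ∈ cutB`: unfold `CGeom.cutB`, model `potd_coarse.nocut`);  `hU`.   `τ = inl (inr o)`: a singleton.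
`τ = inr p`: `avg_pairs` gives `p = (some κ, some κ')`, `κ, κ' ∈ (refine ..).T`, adjacent, face not cut; if `up κ ≠ up κ'`: `esg_face_up`; `hU`. -/
theorem esg_rows_U (C' : Finset (C3.Cell m₁ m₂ × Bool)) (P : Set ((Geo.refine (egSh T C) t).graph (Geo.ug (t * m₁) (t * m₂) s')).V) (a δ : ℝ)
    (U : Set (C3.Cell m₁ m₂)) (hU : ∀ f κ', egWnb f κ' → f.1 ∈ T → κ' ∈ T → f ∉ C' → (f.1 ∈ U ↔ κ' ∈ U)) (τ : (esgS T C t s' ht C' P a δ).Tm) :
    (esgS T C t s' ht C' P a δ).cs τ ⊆ U ∨ (esgS T C t s' ht C' P a δ).cs τ ⊆ Uᶜ := by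
  have hc : DCoarse (Geo.refine (esObs (egSh T C')) t) s' (dGrid m₁ m₂ t s' ht) (Geo.up t) T := potd_coarse (Γ := esObs (egSh T C')) s' ht
  have key : ∀ i j : C3.Cell m₁ m₂, (i = j ∨ (i ∈ U ↔ j ∈ U)) → ({i, j} : Set (C3.Cell m₁ m₂)) ⊆ U ∨ ({i, j} : Set (C3.Cell m₁ m₂)) ⊆ Uᶜ := by
    intro i j hij
    have h : i ∈ U ↔ j ∈ U := hij.elim (fun e => e ▸ Iff.rfl) id
    by_cases hi : i ∈ U
    · left
      rintro x (rfl | rfl)
      · exact hi
      · exact h.1 hi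
    · right
      rintro x (rfl | rfl)
      · exact hi
      · exact fun hj => hi (h.2 hj)
  rcases τ with (e | o) | p
  · -- a bond
    obtain ⟨bd, hbd⟩ : ∃ bd : Bond, bd = domBond (D := (Geo.ug (t * m₁) (t * m₂) s').region (Geo.refine (esObs (egSh T C')) t).T)
      (cut := (Geo.refine (esObs (egSh T C')) t).cutB (Geo.ug (t * m₁) (t * m₂) s')) e := ⟨_, rfl⟩
    have hmem : bd ∈ domBonds ((Geo.ug (t * m₁) (t * m₂) s').region (Geo.refine (esObs (egSh T C')) t).T)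
        ((Geo.refine (esObs (egSh T C')) t).cutB (Geo.ug (t * m₁) (t * m₂) s')) := by
      rw [hbd]
      exact Subtype.property (p := fun e => e ∈ domBonds ((Geo.ug (t * m₁) (t * m₂) s').region (Geo.refine (esObs (egSh T C')) t).T)
        ((Geo.refine (esObs (egSh T C')) t).cutB (Geo.ug (t * m₁) (t * m₂) s'))) e
    have hcut : bd ∉ (Geo.refine (esObs (egSh T C')) t).cutB (Geo.ug (t * m₁) (t * m₂) s') := (Finset.mem_filter.1 hmem).2.2
    refine key (Geo.up t (locBlk (Geo.refine (esObs (egSh T C')) t) (Geo.ug (t * m₁) (t * m₂) s')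
        (((Geo.refine (esObs (egSh T C')) t).graph (Geo.ug (t * m₁) (t * m₂) s')).src e)))
      (Geo.up t (locBlk (Geo.refine (esObs (egSh T C')) t) (Geo.ug (t * m₁) (t * m₂) s')
        (((Geo.refine (esObs (egSh T C')) t).graph (Geo.ug (t * m₁) (t * m₂) s')).tgt e))) ?_
    by_cases hij : Geo.up t (locBlk (Geo.refine (esObs (egSh T C')) t) (Geo.ug (t * m₁) (t * m₂) s')
        (((Geo.refine (esObs (egSh T C')) t).graph (Geo.ug (t * m₁) (t * m₂) s')).src e))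
      = Geo.up t (locBlk (Geo.refine (esObs (egSh T C')) t) (Geo.ug (t * m₁) (t * m₂) s')
        (((Geo.refine (esObs (egSh T C')) t).graph (Geo.ug (t * m₁) (t * m₂) s')).tgt e))
    · exact Or.inl hij
    · right
      have h0 : bd.1 ∈ (Geo.ug (t * m₁) (t * m₂) s').cell (locBlk (Geo.refine (esObs (egSh T C')) t) (Geo.ug (t * m₁) (t * m₂) s')
          (((Geo.refine (esObs (egSh T C')) t).graph (Geo.ug (t * m₁) (t * m₂) s')).src e)) := by
        rw [hbd]
        exact (loc_blk_spec _ _ _).2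
      have h1 : bd.1 ∈ (dGrid m₁ m₂ t s' ht).cell (Geo.up t (locBlk (Geo.refine (esObs (egSh T C')) t) (Geo.ug (t * m₁) (t * m₂) s')
          (((Geo.refine (esObs (egSh T C')) t).graph (Geo.ug (t * m₁) (t * m₂) s')).src e))) := by
        rw [hbd]
        exact potd_pos_mem hc _
      have h2 : bd.snd ∈ (dGrid m₁ m₂ t s' ht).cell (Geo.up t (locBlk (Geo.refine (esObs (egSh T C')) t) (Geo.ug (t * m₁) (t * m₂) s')
          (((Geo.refine (esObs (egSh T C')) t).graph (Geo.ug (t * m₁) (t * m₂) s')).tgt e))) := by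
        rw [hbd]
        exact potd_pos_mem hc _
      obtain ⟨w1, w2, w3, w4⟩ := esg_bond_face t s' ht h0 h1 h2 hij
      refine hU (_, bd.2) _ w1 (potd_blk_mem hc _) (potd_blk_mem hc _) fun hC' => hcut ⟨(_, bd.2), ?_, rfl, h0, w4⟩
      exact Finset.mem_filter.2 ⟨Finset.mem_univ _, hC', w3⟩
  · -- a box row
    have := key (esCel (egSh T C') o) (esCel (egSh T C') o) (Or.inl rfl)
    rw [Set.pair_eq_singleton] at this
    exact this
  · -- a soft row
    obtain ⟨κ, κ', hp, hκ, hκ', hadj⟩ := avg_pairs (Γ := Geo.refine (esObs (egSh T C')) t) (s0 := s') p.2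
    have hcs : (esgS T C t s' ht C' P a δ).cs (Sum.inr p) = {Geo.up t κ, Geo.up t κ'} := by
      show {i | ∃ κ, (p.1.1 = some κ ∨ p.1.2 = some κ) ∧ Geo.up t κ = i} = _
      rw [hp]
      ext i
      simp only [Set.mem_ofPred_eq, Option.some.injEq, Set.mem_insert_iff, Set.mem_singleton_iff]
      constructor
      · rintro ⟨k, rfl | rfl, rfl⟩
        · exact Or.inl rfl
        · exact Or.inr rfl
      · rintro (rfl | rfl)
        · exact ⟨κ, Or.inl rfl, rfl⟩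
        · exact ⟨κ', Or.inr rfl, rfl⟩
    rw [hcs]
    refine key _ _ ?_
    by_cases hij : Geo.up t κ = Geo.up t κ'
    · exact Or.inl hij
    · right
      have hT : Geo.up t κ ∈ T := (Finset.mem_filter.1 hκ).2
      have hT' : Geo.up t κ' ∈ T := (Finset.mem_filter.1 hκ').2
      rcases hadj with ⟨a1, a2, a3⟩ | ⟨a1, a2, a3⟩
      · have hw : egWnb (κ, true) κ' := Or.inl ⟨rfl, a1, Fin.ext a2⟩
        obtain ⟨w1, w2⟩ := esg_face_up t hw hij
        exact hU (_, true) _ w1 hT hT' fun hC' => a3 (Finset.mem_filter.2 ⟨Finset.mem_univ _, hC', w2⟩)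
      · have hw : egWnb (κ, false) κ' := Or.inr ⟨rfl, Fin.ext a1, a2⟩
        obtain ⟨w1, w2⟩ := esg_face_up t hw hij
        exact hU (_, false) _ w1 hT hT' fun hC' => a3 (Finset.mem_filter.2 ⟨Finset.mem_univ _, hC', w2⟩)

theorem esg_ok_split (C' : Finset (C3.Cell m₁ m₂ × Bool)) (P : Set ((Geo.refine (egSh T C) t).graph (Geo.ug (t * m₁) (t * m₂) s')).V) {a δ : ℝ}
    (ha : 0 < a) (hδ : 0 ≤ δ) (U : Set (C3.Cell m₁ m₂)) (hU : ∀ f κ', egWnb f κ' → f.1 ∈ T → κ' ∈ T → f ∉ C' → (f.1 ∈ U ↔ κ' ∈ U)) :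
    PdOk ((esgA T C t s' ht).split U) (esgS T C t s' ht C' P a δ) (esgSig t s') (dCP 1 1 a) (dK 1 a δ) :=
  pd_ok_split (esg_ok T C t s' ht C' P ha hδ) U (esg_rows_U T C t s' ht C' P a δ U hU)

end B1

/-! ## 4. Block B4: the tests      (helper145) -/

section B4

variable (T : Finset (C3.Cell m₁ m₂)) (C : Finset (C3.Cell m₁ m₂ × Bool)) (t s' : ℕ) (ht : 0 < t)

/-- B4 (`esg_test_plane` at `y = Pi.single j 1`; `pdRowF f v = HLaw.pair f v`) -/
theorem esg_F_plane (j : C3.Cell m₁ m₂) (v : ((Geo.refine (egSh T C) t).graph (Geo.ug (t * m₁) (t * m₂) s')).V → ℝ) :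
    esgF T C t s' j v = if j ∈ T then esgAv (dGrid m₁ m₂ t s' ht) j (locExt (Geo.refine (egSh T C) t) (Geo.ug (t * m₁) (t * m₂) s') v) else 0 := by
  have h := esg_test_plane (egSh T C) t s' ht (Pi.single j 1) v
  have e : esgF T C t s' j v = HLaw.pair (esgTest (egSh T C) t (Geo.ug (t * m₁) (t * m₂) s') (Pi.single j 1)) v := rfl
  rw [e, h]
  show ∑ i ∈ T, _ = _
  simp only [Pi.single_apply, ite_mul, one_mul, zero_mul]
  rw [Finset.sum_ite_eq']

/-- B4 (`esg_F_plane`, `esg_ext_zero`, `esgAv`, `Finset.sum_eq_zero`) -/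
theorem esg_F_carried (j : C3.Cell m₁ m₂) : (esgA T C t s' ht).Carried {j} (esgF T C t s' j) := by
  intro φ hφ
  rw [esg_F_plane T C t s' ht j φ]
  split_ifs with hj
  · have h0 := esg_ext_zero T C t s' ht (v := φ) (i := j) fun x hx => hφ x (Set.mem_singleton_iff.2 hx)
    unfold esgAv
    rw [Finset.sum_eq_zero h0, mul_zero]
  · rfl

include ht in
/-- B4 (`LinearMap.ext`, `esg_test_plane`, `esg_F_plane`) -/
theorem esg_test_sum (y : C3.Cell m₁ m₂ → ℝ) :
    pdRowF (esgTest (egSh T C) t (Geo.ug (t * m₁) (t * m₂) s') y) = ∑ j, (if j ∈ T then y j else 0) • esgF T C t s' j := by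
  refine LinearMap.ext fun v => ?_
  have h1 : pdRowF (esgTest (egSh T C) t (Geo.ug (t * m₁) (t * m₂) s') y) v
      = ∑ i ∈ T, y i * esgAv (dGrid m₁ m₂ t s' ht) i (locExt (Geo.refine (egSh T C) t) (Geo.ug (t * m₁) (t * m₂) s') v) :=
    esg_test_plane (egSh T C) t s' ht y v
  rw [h1, LinearMap.sum_apply, ← Finset.sum_filter_add_sum_filter_not Finset.univ (fun j => j ∈ T)]
  have h2 : ∑ j ∈ Finset.univ.filter (fun j => ¬ j ∈ T), ((if j ∈ T then y j else 0) • esgF T C t s' j) v = 0 :=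
    Finset.sum_eq_zero fun j hj => by
      rw [if_neg (Finset.mem_filter.1 hj).2, zero_smul, LinearMap.zero_apply]
  rw [h2, add_zero, Finset.filter_mem_eq_inter, Finset.univ_inter]
  refine Finset.sum_congr rfl fun j hj => ?_
  rw [if_pos hj, LinearMap.smul_apply, esg_F_plane T C t s' ht j v, if_pos hj, smul_eq_mul]

theorem esg_sum_ite_T (Φ : C3.Cell m₁ m₂ → ℝ) : ∑ o : Fin T.card, Φ (T.equivFin.symm o).1 = ∑ j, if j ∈ T then Φ j else 0 := by
  rw [Finset.sum_ite_mem, Finset.univ_inter, ← Finset.sum_coe_sort T Φ]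
  exact Equiv.sum_comp T.equivFin.symm fun i : T => Φ i.1

/-- B4: the box rows (`PdSys.termF`, `Fintype.sum_sum_type`; the row `inl (inr o)` is the box row of the cell `esCel o`: `potd_obs (potd_coarse _ s' ht) (potd_obsI (esg_obsCell _) t)`, weight `1`; reindex by `T.equivFin`; `esg_F_plane`) -/
theorem esg_termF (C' : Finset (C3.Cell m₁ m₂ × Bool)) (P : Set ((Geo.refine (egSh T C) t).graph (Geo.ug (t * m₁) (t * m₂) s')).V) (a δ : ℝ) (y : C3.Cell m₁ m₂ → ℝ) :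
    (esgS T C t s' ht C' P a δ).termF (esgZ T C t s' ht C' P a δ y) = ∑ j, (if j ∈ T then y j else 0) • esgF T C t s' j := by
  refine LinearMap.ext fun φ => ?_
  have h1 : (esgS T C t s' ht C' P a δ).termF (esgZ T C t s' ht C' P a δ y) φ
      = (∑ e : ((Geo.refine (esObs (egSh T C')) t).graph (Geo.ug (t * m₁) (t * m₂) s')).E, (0 : ℝ) * (esgS T C t s' ht C' P a δ).row φ (Sum.inl (Sum.inl e))
          + ∑ o : Fin T.card, y (T.equivFin.symm o).1 * ((Geo.refine (esObs (egSh T C')) t).law (Geo.ug (t * m₁) (t * m₂) s')).obs φ o)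
        + ∑ p : {p : Option (C3.Cell (t * m₁) (t * m₂)) × Option (C3.Cell (t * m₁) (t * m₂)) // p ∈ cellPairs (Geo.cellOf (Geo.refine (esObs (egSh T C')) t) (Geo.ug (t * m₁) (t * m₂) s'))},
            (0 : ℝ) * (esgS T C t s' ht C' P a δ).row φ (Sum.inr p) := by
    refine (Fintype.sum_sum_type _).trans ?_
    congr 1
    exact Fintype.sum_sum_type _
  have h2 : ∀ o : Fin T.card, ((Geo.refine (esObs (egSh T C')) t).law (Geo.ug (t * m₁) (t * m₂) s')).obs φ o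
      = esgAv (dGrid m₁ m₂ t s' ht) (T.equivFin.symm o).1 (locExt (Geo.refine (egSh T C) t) (Geo.ug (t * m₁) (t * m₂) s') φ) := fun o => by
    have h3 := potd_obs (potd_coarse (esObs (egSh T C')) s' ht) (potd_obsI (esg_obsCell (egSh T C')) t) (o := o) (T.equivFin.symm o).2 φ
    rw [h3]
    have h4 : (Geo.refine (esObs (egSh T C')) t).wgt o = 1 := rfl
    rw [h4, Real.sqrt_one, one_mul]
    rfl
  rw [h1]
  simp only [h2, zero_mul, Finset.sum_const_zero, zero_add, add_zero]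
  rw [esg_sum_ite_T T fun j => y j * esgAv (dGrid m₁ m₂ t s' ht) j (locExt (Geo.refine (egSh T C) t) (Geo.ug (t * m₁) (t * m₂) s') φ), LinearMap.sum_apply]
  refine Finset.sum_congr rfl fun j _ => ?_
  rw [LinearMap.smul_apply, esg_F_plane T C t s' ht j φ, smul_eq_mul]
  split_ifs <;> simp

/-- B4 (`Fintype.sum_sum_type`, reindex by `T.equivFin`) -/
theorem esg_Z_sq (C' : Finset (C3.Cell m₁ m₂ × Bool)) (P : Set ((Geo.refine (egSh T C) t).graph (Geo.ug (t * m₁) (t * m₂) s')).V) (a δ : ℝ) (y : C3.Cell m₁ m₂ → ℝ) :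
    ∑ τ, esgZ T C t s' ht C' P a δ y τ ^ 2 = ∑ j, (if j ∈ T then y j else 0) ^ 2 := by
  have h1 : ∑ τ, esgZ T C t s' ht C' P a δ y τ ^ 2
      = (∑ _e : ((Geo.refine (esObs (egSh T C')) t).graph (Geo.ug (t * m₁) (t * m₂) s')).E, (0 : ℝ) ^ 2 + ∑ o : Fin T.card, y (T.equivFin.symm o).1 ^ 2)
        + ∑ _p : {p : Option (C3.Cell (t * m₁) (t * m₂)) × Option (C3.Cell (t * m₁) (t * m₂)) // p ∈ cellPairs (Geo.cellOf (Geo.refine (esObs (egSh T C')) t) (Geo.ug (t * m₁) (t * m₂) s'))}, (0 : ℝ) ^ 2 := by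
    refine (Fintype.sum_sum_type _).trans ?_
    congr 1
    exact Fintype.sum_sum_type _
  rw [h1, esg_sum_ite_T T fun j => y j ^ 2]
  simp only [ne_eq, OfNat.ofNat_ne_zero, not_false_eq_true, zero_pow, Finset.sum_const_zero, zero_add, add_zero]
  refine Finset.sum_congr rfl fun j _ => ?_
  split_ifs <;> simp


/-- B4 (`esg_termF` at `y = Pi.single j 1` + `pd_termF_gf_le` + `esg_Z_sq`; or `pd_gf_le_of_bound` + `esg_S_form`) -/
theorem esg_F_gf_le (C' : Finset (C3.Cell m₁ m₂ × Bool)) (P : Set ((Geo.refine (egSh T C) t).graph (Geo.ug (t * m₁) (t * m₂) s')).V) {a δ : ℝ}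
    (ha : 0 < a) (hδ : 0 ≤ δ) (j : C3.Cell m₁ m₂) : (esgS T C t s' ht C' P a δ).gf (esgF T C t s' j) (esgF T C t s' j) ≤ 1 := by
  have h1 := pd_termF_gf_le (esg_ok T C t s' ht C' P ha hδ) (esgZ T C t s' ht C' P a δ (Pi.single j 1))
  rw [esg_termF T C t s' ht C' P a δ, esg_Z_sq T C t s' ht C' P a δ] at h1
  by_cases hj : j ∈ T
  · have e1 : ∑ i, (if i ∈ T then (Pi.single j 1 : C3.Cell m₁ m₂ → ℝ) i else 0) • esgF T C t s' i = esgF T C t s' j := by
      rw [Finset.sum_eq_single j]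
      · rw [if_pos hj, Pi.single_eq_same, one_smul]
      · intro i _ hi
        rw [Pi.single_eq_of_ne hi]
        simp
      · intro h; exact absurd (Finset.mem_univ j) h
    have e2 : ∑ i, (if i ∈ T then (Pi.single j 1 : C3.Cell m₁ m₂ → ℝ) i else 0) ^ 2 = 1 := by
      rw [Finset.sum_eq_single j]
      · rw [if_pos hj, Pi.single_eq_same, one_pow]
      · intro i _ hi
        rw [Pi.single_eq_of_ne hi]
        simp
      · intro h; exact absurd (Finset.mem_univ j) h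
    rwa [e1, e2] at h1
  · have e0 : esgF T C t s' j = 0 := LinearMap.ext fun φ => by
      rw [esg_F_plane T C t s' ht j φ, if_neg hj]; rfl
    rw [e0]
    have : (esgS T C t s' ht C' P a δ).gf 0 0 = 0 := rfl
    rw [this]
    exact zero_le_one

end B4

/-! ## 4'. Block B2: the energies of the open patches      (helper150; proof in `C5/EsGaE.lean`) -/

section B2

variable (T : Finset (C3.Cell m₁ m₂)) (C : Finset (C3.Cell m₁ m₂ × Bool)) (t s' : ℕ) (ht : 0 < t)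

/-- **B2**: the minimal affine cost of the box cut along the wall of `O`, pinned off `O` = the energy of the open patch `(T ∩ O, C')` (ANOTHER vertex type) + the data of the pinned cells.
PLAN: `pd_aff_eq`: `aff z u = form u - 2 termF z u + ∑ z²`; `esg_S_form` + `esg_Q_patch` (`esg_ext_zero`), `esg_termF` + `esg_F_plane`, `esg_Z_sq`.   Patch: `HLaw.gEn` = infimum over all fields of the patch (no pins) of `a⁻¹ en + ∑ (obs - c)²`
`= form a v - 2 ∑_{j ∈ T ∩ O} y_j avg_j + ∑_{j ∈ T ∩ O} y_j²` (`esg_lw_form`, `esg_row_cell`; soft centres `0`).   Bijection adm. fields of the box ↔ fields of the patch: `u ↦ (x ↦ locExt u (locPos x))`, inverse the same formula; `locExt` of the two agree in the plane.   `Equiv.iInf_congr`. -/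
theorem esg_En_patch (C' : Finset (C3.Cell m₁ m₂ × Bool)) (O : Finset (C3.Cell m₁ m₂)) {a δ : ℝ} (ha : 0 < a) (hδ : 0 ≤ δ) (y : C3.Cell m₁ m₂ → ℝ) :
    (esgS T C t s' ht (C' ∪ esgW O) (esgOff T C t s' ht O) a δ).En (esgZ T C t s' ht (C' ∪ esgW O) (esgOff T C t s' ht O) a δ y)
      = esgWE (egSh (T ∩ O) C') t (Geo.ug (t * m₁) (t * m₂) s') δ a y + ∑ j ∈ T \ O, y j ^ 2 := by
  refine esge_En_patch T C C' O t s' ht ha hδ y _ _ (fun v => esg_S_adm T C t s' ht _ _ a δ v) (fun v => esg_S_form T C t s' ht _ _ ha hδ v) (fun v => ?_) ?_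
  · rw [esg_termF, ← esg_test_sum T C t s' ht y]
    rfl
  · rw [esg_Z_sq, ← Finset.sum_filter_add_sum_filter_not Finset.univ (fun j => j ∈ T)]
    have h2 : ∑ j ∈ Finset.univ.filter (fun j => ¬ j ∈ T), (if j ∈ T then y j else 0) ^ 2 = 0 :=
      Finset.sum_eq_zero fun j hj => by rw [if_neg (Finset.mem_filter.1 hj).2]; norm_num
    rw [h2, add_zero, Finset.filter_mem_eq_inter, Finset.univ_inter]
    exact Finset.sum_congr rfl fun j hj => by rw [if_pos hj]

end B2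

/-! ## 5. Block B3: agreement, geometry, the pack      (helper145) -/

section B3

variable (T : Finset (C3.Cell m₁ m₂)) (C : Finset (C3.Cell m₁ m₂ × Bool)) (t s' : ℕ) (ht : 0 < t)

/-- B3, **two shapes agree on the cells which touch no face cut in only one of them** (`esg_S_form`, `esg_Q_cut_eq` twice with `C₁ ∪ C₂`, `Z = Yᶜ`, `esg_ext_zero`; `esg_S_adm`) -/
theorem esg_agree (C₁ C₂ : Finset (C3.Cell m₁ m₂ × Bool)) (P₁ P₂ : Set ((Geo.refine (egSh T C) t).graph (Geo.ug (t * m₁) (t * m₂) s')).V) {a δ : ℝ}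
    (ha : 0 < a) (hδ : 0 ≤ δ) (Y : Set (C3.Cell m₁ m₂))
    (hC : ∀ f, ¬ (f ∈ C₁ ↔ f ∈ C₂) → ∀ κ', egWnb f κ' → f.1 ∈ T → κ' ∈ T → f.1 ∉ Y ∧ κ' ∉ Y)
    (hP₁ : ∀ x ∈ P₁, (esgA T C t s' ht).blk x ∉ Y) (hP₂ : ∀ x ∈ P₂, (esgA T C t s' ht).blk x ∉ Y) :
    PdAgree (esgA T C t s' ht) (esgS T C t s' ht C₁ P₁ a δ) (esgS T C t s' ht C₂ P₂ a δ) Y := by
  intro v hv
  refine ⟨?_, ?_⟩
  · rw [esg_S_adm, esg_S_adm]
    exact ⟨fun _ x hx => hv x (hP₂ x hx), fun _ x hx => hv x (hP₁ x hx)⟩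
  · rw [esg_S_form T C t s' ht C₁ P₁ ha hδ v, esg_S_form T C t s' ht C₂ P₂ ha hδ v]
    have hw : ∀ i ∈ Yᶜ, ∀ p ∈ (dGrid m₁ m₂ t s' ht).cell i, locExt (Geo.refine (egSh T C) t) (Geo.ug (t * m₁) (t * m₂) s') v p = 0 :=
      fun i hi => esg_ext_zero T C t s' ht fun x hx => hv x (hx ▸ hi)
    rw [esg_Q_cut_eq T t s' ht (C := C₁) (C' := C₁ ∪ C₂) Finset.subset_union_left Yᶜ
        (fun f hf hf1 κ' h1 h2 h3 => hC f (fun h => hf1 (h.2 ((Finset.mem_union.1 hf).resolve_left hf1))) κ' h1 h2 h3) a δ _ hw,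
      esg_Q_cut_eq T t s' ht (C := C₂) (C' := C₁ ∪ C₂) Finset.subset_union_right Yᶜ
        (fun f hf hf2 κ' h1 h2 h3 => hC f (fun h => hf2 (h.1 ((Finset.mem_union.1 hf).resolve_right hf2))) κ' h1 h2 h3) a δ _ hw]

/-- the pseudo-metric of the split ambient -/
def esgDist (U : Finset (C3.Cell m₁ m₂)) (R : ℕ) (i j : C3.Cell m₁ m₂) : ℕ := if (i ∈ U ↔ j ∈ U) then min (geoDist i j) R else R

theorem esgDist_eqns_cite : True := by have := @esgDist.eq_1; trivial

/-- B3 (`geo_dist_self, geo_dist_comm, geo_dist_triangle, geo_adj_iff`; cases on the three memberships, `omega`) -/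
theorem esg_met (U : Finset (C3.Cell m₁ m₂)) (R : ℕ) : GaMet ((esgA T C t s' ht).split ↑U) (esgDist U R) := by
  refine ⟨fun j => ?_, fun i j => ?_, fun i j k => ?_, fun i j h => ?_⟩
  · unfold esgDist
    rw [if_pos Iff.rfl, geo_dist_self]
    exact Nat.zero_min R
  · unfold esgDist
    rw [geo_dist_comm i j]
    by_cases h : (i ∈ U ↔ j ∈ U)
    · rw [if_pos h, if_pos h.symm]
    · rw [if_neg h, if_neg fun h' => h h'.symm]
  · unfold esgDist
    have h3 := geo_dist_triangle i j k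
    by_cases hi : i ∈ U <;> by_cases hj : j ∈ U <;> by_cases hk : k ∈ U <;> simp only [hi, hj, hk, iff_true, iff_false, if_true, if_false, not_true] <;> omega
  · obtain ⟨h1, h2⟩ := h
    have h2' : (i ∈ U ↔ j ∈ U) := h2
    have h1' : geoAdj i j := h1
    unfold esgDist
    rw [if_pos h2']
    exact (Nat.min_le_left _ _).trans ((geo_adj_iff i j).1 h1')

/-- the second cell of a face is unique -/
theorem esg_pack_nb_uniq {f : C3.Cell m₁ m₂ × Bool} {κ κ' : C3.Cell m₁ m₂} (h : egWnb f κ) (h' : egWnb f κ') : κ = κ' := by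
  unfold egWnb at h h'
  rcases h with ⟨a1, a2, a3⟩ | ⟨a1, a2, a3⟩ <;> rcases h' with ⟨b1, b2, b3⟩ | ⟨b1, b2, b3⟩
  · exact Prod.ext (Fin.ext (by omega)) (a3.symm.trans b3)
  · rw [a1] at b1; cases b1
  · rw [a1] at b1; cases b1
  · exact Prod.ext (a2.symm.trans b2) (Fin.ext (by omega))

/-- agreement of the forms, any pins -/
theorem esg_pack_form (C₁ C₂ : Finset (C3.Cell m₁ m₂ × Bool)) (P₁ P₂ : Set ((Geo.refine (egSh T C) t).graph (Geo.ug (t * m₁) (t * m₂) s')).V) {a δ : ℝ}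
    (ha : 0 < a) (hδ : 0 ≤ δ) (Y : Set (C3.Cell m₁ m₂))
    (hC : ∀ f, ¬ (f ∈ C₁ ↔ f ∈ C₂) → ∀ κ', egWnb f κ' → f.1 ∈ T → κ' ∈ T → f.1 ∉ Y ∧ κ' ∉ Y)
    (v : ((Geo.refine (egSh T C) t).graph (Geo.ug (t * m₁) (t * m₂) s')).V → ℝ) (hv : (esgA T C t s' ht).SuppIn Y v) :
    (esgS T C t s' ht C₁ P₁ a δ).form v = (esgS T C t s' ht C₂ P₂ a δ).form v := by
  have h := (esg_agree T C t s' ht C₁ C₂ ∅ ∅ ha hδ Y hC (fun x hx => hx.elim) (fun x hx => hx.elim) v hv).2
  rw [esg_S_form T C t s' ht C₁ ∅ ha hδ, esg_S_form T C t s' ht C₂ ∅ ha hδ] at h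
  rw [esg_S_form T C t s' ht C₁ P₁ ha hδ, esg_S_form T C t s' ht C₂ P₂ ha hδ]
  exact h

/-- B3, **the pack of a mark**.   `U` from `hG.far`;  `okc .. okoi`: `esg_ok_split` (`f ∉ C' → f ∉ C \ M.F` in the four cases);  `res`: `pd_res_split (esg_res ..)`;  `pin`: `esg_S_pin`;  `le`: `esg_S_form`, `esg_Q_cut_le`;
`core`, `a34`: `esg_agree` (`hG.face`: both cells of a face of `M.F` lie in `M.H`; unfold `C3.FaceIn`), `pd_agree_split`;
`a13`, `a24`: `esg_agree` for the pins `∅ ∪ sitesOf p` / `esgOff M.O` (`(esgS ..).addPin P = esgS .. (∅ ∪ P)` up to `Set.union` of pins: prove `PdAgree` directly from `esg_agree` + `pd_addPin_adm`, or `ga_agree_addPin2`); a face of `esgW M.O` which is not cut touches no cell of `M.D` (`hG.sepG`, `hG.D_sub`, `hG.p_sub`);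
`guard`: `hG.disj`;  `met`: `esg_met`, `ega_wd_eq` (`egWd = geoDist`, `Entry/GoodGaGeo.lean`; or unfold). -/
theorem esg_pack (M : EgWMark m₁ m₂) (R : ℕ) (hG : M.Geo (egSh T C) R) {a δ : ℝ} (ha : 0 < a) (hδ : 0 ≤ δ) : ∃ U : Finset (C3.Cell m₁ m₂),
    GaPack ((esgA T C t s' ht).split ↑U) (esgS T C t s' ht C ∅ a δ) (esgS T C t s' ht (C \ M.F) ∅ a δ)
      (esgS T C t s' ht (C ∪ esgW M.O) (esgOff T C t s' ht M.O) a δ) (esgS T C t s' ht (C \ M.F ∪ esgW M.O) (esgOff T C t s' ht M.O) a δ)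
      (esgSig t s') (dCP 1 1 a) (dK 1 a δ) (locCR 1 a) (↑M.H) (↑M.D) (↑M.p) R := by
  obtain ⟨U, hOU, hU, hfar⟩ := hG.far
  have hU' : ∀ f κ', egWnb f κ' → f.1 ∈ T → κ' ∈ T → f ∉ C \ M.F → (f.1 ∈ (↑U : Set (C3.Cell m₁ m₂)) ↔ κ' ∈ (↑U : Set (C3.Cell m₁ m₂))) := by
    intro f κ' h1 h2 h3 h4
    simpa using hU f κ' h1 h2 h3 h4
  have hsep : ∀ f κ', egWnb f κ' → f.1 ∈ T → κ' ∈ T → f ∉ C \ M.F → (f.1 ∈ M.D → κ' ∈ M.D ∪ M.p) ∧ (κ' ∈ M.D → f.1 ∈ M.D ∪ M.p) := hG.sepG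
  have hDpO : M.D ∪ M.p ⊆ M.O := Finset.union_subset hG.D_sub hG.p_sub
  -- a face of the wall which is not cut touches no cell of `D`
  have hwall : ∀ f, f ∈ esgW M.O → f ∉ C \ M.F → ∀ κ', egWnb f κ' → f.1 ∈ T → κ' ∈ T →
      f.1 ∉ (↑M.D : Set (C3.Cell m₁ m₂)) ∧ κ' ∉ (↑M.D : Set (C3.Cell m₁ m₂)) := by
    intro f hf hfC κ' h1 h2 h3
    obtain ⟨-, κ'', h4, h5⟩ := Finset.mem_filter.1 hf
    have e := esg_pack_nb_uniq h4 h1
    subst e
    obtain ⟨s1, s2⟩ := hsep f κ'' h1 h2 h3 hfC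
    refine ⟨fun hD => h5 ?_, fun hD => h5 ?_⟩
    · have hD' : f.1 ∈ M.D := by simpa using hD
      exact ⟨fun _ => hDpO (s1 hD'), fun _ => hG.D_sub hD'⟩
    · have hD' : κ'' ∈ M.D := by simpa using hD
      exact ⟨fun _ => hG.D_sub hD', fun _ => hDpO (s2 hD')⟩
  -- a face of `F` has both cells in `H`
  have hface : ∀ f ∈ M.F, ∀ κ', egWnb f κ' → f.1 ∈ M.H ∧ κ' ∈ M.H := fun f hf κ' h => ⟨(hG.face f hf).1, (hG.face f hf).2 κ' h⟩
  refine ⟨U, ?_⟩
  refine
    { okc := esg_ok_split T C t s' ht C ∅ ha hδ ↑U fun f κ' h1 h2 h3 h4 => hU' f κ' h1 h2 h3 fun h => h4 (Finset.mem_sdiff.1 h).1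
      oko := esg_ok_split T C t s' ht (C \ M.F) ∅ ha hδ ↑U hU'
      okci := esg_ok_split T C t s' ht (C ∪ esgW M.O) _ ha hδ ↑U fun f κ' h1 h2 h3 h4 => hU' f κ' h1 h2 h3 fun h =>
        h4 (Finset.mem_union_left _ (Finset.mem_sdiff.1 h).1)
      okoi := esg_ok_split T C t s' ht (C \ M.F ∪ esgW M.O) _ ha hδ ↑U fun f κ' h1 h2 h3 h4 => hU' f κ' h1 h2 h3 fun h =>
        h4 (Finset.mem_union_left _ h)
      CR_nonneg := by unfold locCR; positivity
      res := pd_res_split (esg_res T C t s' ht C ∅ ha δ) ↑U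
      pin := by rw [esg_S_pin, esg_S_pin]
      le := ?_
      core := ?_
      core_free := ?_
      a34 := ?_
      a13 := ?_
      a24 := ?_
      guard := ?_
      met := ?_ }
  · intro v
    rw [esg_S_form T C t s' ht C ∅ ha hδ, esg_S_form T C t s' ht (C \ M.F) ∅ ha hδ]
    exact esg_Q_cut_le T t s' ht Finset.sdiff_subset ha hδ _
  · intro v hv
    refine esg_pack_form T C t s' ht (C \ M.F) C ∅ ∅ ha hδ (↑M.H)ᶜ ?_ v ?_
    · intro f hf κ' h1 _ _
      have hfF : f ∈ M.F := by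
        by_contra hn
        exact hf ⟨fun h => (Finset.mem_sdiff.1 h).1, fun h => Finset.mem_sdiff.2 ⟨h, hn⟩⟩
      obtain ⟨q1, q2⟩ := hface f hfF κ' h1
      exact ⟨fun h => h (by simpa using q1), fun h => h (by simpa using q2)⟩
    · intro x hx
      have hx' : (esgA T C t s' ht).blk x ∈ M.H := by simpa using hx
      exact hv x (Finset.mem_coe.2 hx')
  · intro x _
    rw [esg_S_pin]
    exact fun h => h.elim
  · refine pd_agree_split ?_ ↑U
    intro v hv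
    refine ⟨?_, ?_⟩
    · rw [esg_S_adm, esg_S_adm]
    · refine esg_pack_form T C t s' ht _ _ _ _ ha hδ (↑M.H)ᶜ ?_ v hv
      intro f hf κ' h1 _ _
      have hfF : f ∈ M.F := by
        by_contra hn
        refine hf ⟨fun h => ?_, fun h => ?_⟩
        · rcases Finset.mem_union.1 h with h | h
          · exact Finset.mem_union_left _ (Finset.mem_sdiff.2 ⟨h, hn⟩)
          · exact Finset.mem_union_right _ h
        · rcases Finset.mem_union.1 h with h | h
          · exact Finset.mem_union_left _ (Finset.mem_sdiff.1 h).1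
          · exact Finset.mem_union_right _ h
      obtain ⟨q1, q2⟩ := hface f hfF κ' h1
      exact ⟨fun h => h (by simpa using q1), fun h => h (by simpa using q2)⟩
  · refine pd_agree_split ?_ ↑U
    intro v hv
    refine ⟨?_, ?_⟩
    · rw [pd_addPin_adm, esg_S_adm, esg_S_adm]
      refine ⟨fun _ x hx => hv x fun h => hx (hG.D_sub (by simpa using h)), fun _ => ⟨fun x hx => hx.elim, fun x hx => hv x fun h => ?_⟩⟩
      have hx' : (esgA T C t s' ht).blk x ∈ (↑M.p : Set (C3.Cell m₁ m₂)) := hx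
      exact Finset.disjoint_left.1 hG.disj (by simpa using h) (Finset.mem_coe.1 hx')
    · refine esg_pack_form T C t s' ht C (C ∪ esgW M.O) ∅ _ ha hδ ↑M.D ?_ v hv
      intro f hf κ' h1 h2 h3
      have hfW : f ∈ esgW M.O ∧ f ∉ C := by
        by_cases hC : f ∈ C
        · exact absurd ⟨fun _ => Finset.mem_union_left _ hC, fun _ => hC⟩ hf
        · refine ⟨?_, hC⟩
          by_contra hn
          exact hf ⟨fun h => absurd h hC, fun h => (Finset.mem_union.1 h).elim id fun h => absurd h hn⟩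
      exact hwall f hfW.1 (fun h => hfW.2 (Finset.mem_sdiff.1 h).1) κ' h1 h2 h3
  · refine pd_agree_split ?_ ↑U
    intro v hv
    refine ⟨?_, ?_⟩
    · rw [pd_addPin_adm, esg_S_adm, esg_S_adm]
      refine ⟨fun _ x hx => hv x fun h => hx (hG.D_sub (by simpa using h)), fun _ => ⟨fun x hx => hx.elim, fun x hx => hv x fun h => ?_⟩⟩
      have hx' : (esgA T C t s' ht).blk x ∈ (↑M.p : Set (C3.Cell m₁ m₂)) := hx
      exact Finset.disjoint_left.1 hG.disj (by simpa using h) (Finset.mem_coe.1 hx')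
    · refine esg_pack_form T C t s' ht (C \ M.F) (C \ M.F ∪ esgW M.O) ∅ _ ha hδ ↑M.D ?_ v hv
      intro f hf κ' h1 h2 h3
      have hfW : f ∈ esgW M.O ∧ f ∉ C \ M.F := by
        by_cases hC : f ∈ C \ M.F
        · exact absurd ⟨fun _ => Finset.mem_union_left _ hC, fun _ => hC⟩ hf
        · refine ⟨?_, hC⟩
          by_contra hn
          exact hf ⟨fun h => absurd h hC, fun h => (Finset.mem_union.1 h).elim id fun h => absurd h hn⟩
      exact hwall f hfW.1 hfW.2 κ' h1 h2 h3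
  · intro i hi hD
    exact Finset.disjoint_left.1 hG.disj (by simpa using hD) (by simpa using hi)
  · refine ⟨esgDist U R, esg_met T C t s' ht U R, fun k hk j hj => ?_⟩
    have hkH : k ∈ M.H := by simpa using hk
    have hkU : k ∈ U := hOU (hG.D_sub (hG.H_sub hkH))
    unfold esgDist
    split_ifs with h
    · have hjU : j ∈ U := h.1 hkU
      have h1 := hfar k hkH j hjU (by simpa using hj)
      refine le_min ?_ le_rfl
      refine h1.trans (le_of_eq ?_)
      unfold egWd geoDist Nat.dist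
      omega
    · exact le_rfl

end B3

/-! ## 6. The instance -/

/-- what `C5/EsGaM.lean` needs, with a grid parameter -/
def EsgInst (a δ CP K CR : ℝ) (t : ℕ) (g : DGrid (t * m₁) (t * m₂)) (T : Finset (C3.Cell m₁ m₂)) (cutF : Finset (C3.Cell m₁ m₂ × Bool))
    (M : EgWMark m₁ m₂) (R : ℕ) : Prop :=
  ∃ (A : PdAmb ((Geo.refine (egSh T cutF) t).graph g).V (C3.Cell m₁ m₂))
    (Sc So Sci Soi : PdSys ((Geo.refine (egSh T cutF) t).graph g).V (C3.Cell m₁ m₂)) (σ : ℝ)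
    (F : C3.Cell m₁ m₂ → (((Geo.refine (egSh T cutF) t).graph g).V → ℝ) →ₗ[ℝ] ℝ),
    GaPack A Sc So Sci Soi σ CP K CR (↑M.H) (↑M.D) (↑M.p) R ∧ GaTest A Sc So Sci Soi F ∧
    Sc.pin = (Geo.refine (egSh T cutF) t).sites g (Geo.refine (egSh T cutF) t).pin ∧
    A.sitesOf (↑M.p) = esgSt (egSh T cutF) t g M.p ∧ A.sitesOf (↑M.H) = esgSt (egSh T cutF) t g M.H ∧
    (∀ v, (esgLw (egSh T cutF) t g δ).form a v = Sc.form v) ∧ (∀ v, (esgLu (egSh T cutF) t g M.F δ).form a v = So.form v) ∧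
    ∀ y : C3.Cell m₁ m₂ → ℝ, ∃ (z₃ : Sci.Tm → ℝ) (z₄ : Soi.Tm → ℝ),
      pdRowF (esgTest (egSh T cutF) t g y) = ∑ j, (if j ∈ T then y j else 0) • F j ∧
      Sc.gf (pdRowF (esgTest (egSh T cutF) t g y)) (pdRowF (esgTest (egSh T cutF) t g y)) ≤ ∑ j, (if j ∈ T then y j else 0) ^ 2 ∧
      ∑ τ, z₃ τ ^ 2 = ∑ τ, z₄ τ ^ 2 ∧ Sci.termF z₃ = ∑ j, (if j ∈ T then y j else 0) • F j ∧ Soi.termF z₄ = ∑ j, (if j ∈ T then y j else 0) • F j ∧
      esgWDE (egSh T cutF) t g M δ a y = Soi.En z₄ - Sci.En z₃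

theorem EsgInst_eqns_cite : True := by have := @EsgInst.eq_1; trivial

theorem esg_inst_grid {a δ : ℝ} (ha : 0 < a) (hδ : 0 ≤ δ) (t s' : ℕ) (ht : 0 < t) (T : Finset (C3.Cell m₁ m₂)) (C : Finset (C3.Cell m₁ m₂ × Bool))
    (M : EgWMark m₁ m₂) (R : ℕ) (hG : M.Geo (egSh T C) R) :
    EsgInst a δ (dCP 1 1 a) (dK 1 a δ) (locCR 1 a) t (Geo.ug (t * m₁) (t * m₂) s') T C M R := by
  obtain ⟨U, hP⟩ := esg_pack T C t s' ht M R hG ha hδ
  refine ⟨_, _, _, _, _, _, esgF T C t s', hP, ⟨fun j => esg_F_carried T C t s' ht j, fun j => esg_F_gf_le T C t s' ht _ _ ha hδ j,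
    fun j => esg_F_gf_le T C t s' ht _ _ ha hδ j, fun j => esg_F_gf_le T C t s' ht _ _ ha hδ j, fun j => esg_F_gf_le T C t s' ht _ _ ha hδ j⟩,
    (esg_S_pin T C t s' ht C ∅ a δ).trans (esg_sites_pin T C t s').symm, esg_sitesOf T C t s' ht M.p, esg_sitesOf T C t s' ht M.H,
    fun v => (esg_lw_form (egSh T C) t s' ht a hδ v).trans (esg_S_form T C t s' ht C ∅ ha hδ v).symm,
    fun v => (esg_lu_form (egSh T C) M.F t s' ht a hδ v).trans (esg_S_form T C t s' ht (C \ M.F) ∅ ha hδ v).symm, fun y => ?_⟩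
  refine ⟨esgZ T C t s' ht _ _ a δ y, esgZ T C t s' ht _ _ a δ y, esg_test_sum T C t s' ht y, ?_, ?_, esg_termF T C t s' ht _ _ a δ y, esg_termF T C t s' ht _ _ a δ y, ?_⟩
  · rw [esg_test_sum T C t s' ht y, ← esg_termF T C t s' ht C ∅ a δ y, ← esg_Z_sq T C t s' ht C ∅ a δ y]
    exact pd_termF_gf_le (esg_ok T C t s' ht C ∅ ha hδ) _
  · rw [esg_Z_sq, esg_Z_sq]
  · rw [esg_En_patch T C t s' ht _ M.O ha hδ y, esg_En_patch T C t s' ht _ M.O ha hδ y]
    unfold esgWDE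
    rw [add_sub_add_right_eq_sub]
    rfl

/-- **(I-C5) the instance**, all `s0 ≥ 1` (statement of `esg_inst`, `C5/EsGaM.lean`, up to unfolding `EsgInst`, `esgY`, `esgLo`) -/
theorem esg_inst_pf (a δ : ℝ) (ha : 0 < a) (hδ : 0 ≤ δ) : ∃ CP K CR : ℝ, 0 ≤ CP ∧ 0 ≤ K ∧ ∀ (m₁ m₂ t s0 : ℕ), 1 ≤ t → 1 ≤ s0 →
    ∀ (T : Finset (C3.Cell m₁ m₂)) (cutF : Finset (C3.Cell m₁ m₂ × Bool)) (M : EgWMark m₁ m₂) (R : ℕ), M.Geo (egSh T cutF) R →
      EsgInst a δ CP K CR t (esGr m₁ m₂ t s0) T cutF M R := by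
  refine ⟨dCP 1 1 a, dK 1 a δ, locCR 1 a, by unfold dCP; positivity, by unfold dK; positivity, ?_⟩
  intro m₁ m₂ t s0 ht hs0 T cutF M R hG
  obtain ⟨s', rfl⟩ : ∃ s', s0 = s' + 1 := ⟨s0 - 1, by omega⟩
  rw [esg_grid]
  exact esg_inst_grid ha hδ t s' ht T cutF M R hG

end

end Claimed.Agent.R285.C5
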