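-- KEEP
import Claimed.Agent.R285.C5.EsDefs
import Claimed.Agent.R285.Pot.GaAsm
import Claimed.Agent.R285.C5.EsGaC

/-!
# ROW 285, [C] s5.3, package ES-GA, file `EsGaM`: `es_ga_moment` PROVED from the abstract assembly `Pot.ga_moment_abs` (`Pot/GaAsm.lean`, 0 sorry) and ONE instance statement `esg_inst`      (helper150; instance: helper226)

* `esg_WG_eq`: `esWG` = the functional of `ga_moment_abs` for any systems of rows `Sc`, `So` with `(esLw ..).form a = Sc.form`, `(esgLo ..).form a = So.form` (the restored law lives on the restored graph: same vertices, definitionally).   PROVED.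
* `es_ga_moment_pf`: the exit, `K = gaK CP K CR`, `c0 = gaC0 CP K`, `k = 2`.   PROVED from `esg_inst`.
* **`esg_inst` (I-C5), the only sorry**: constants `CP K CR` depending on `(a, δ)` only; for every window, `t, s0 ≥ 1`, shape, mark with `M.Geo (egSh T cutF) R`: an ambient `A` on the sites of the refined box with cells = OBSERVATION cells,
  four systems of rows, `GaPack`, `GaTest` (read the header of `Pot/GaAsm.lean`), the dictionary of the sets of sites, of the two forms, of the test `esTest` and of `esWDE`.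
-/

set_option autoImplicit false

namespace Claimed.Agent.R285.C5

open scoped BigOperators
open Claimed.Agent.R285 Claimed.Agent.R285.Entry Claimed.Agent.R285.Pot

noncomputable section

/-- the datum on all cells of the window: zero off the shape -/
def esgY {m₁ m₂ : ℕ} (T : Finset (C3.Cell m₁ m₂)) (y : C3.Cell m₁ m₂ → ℝ) : C3.Cell m₁ m₂ → ℝ := fun j => if j ∈ T then y j else 0

/-- the restored law of the box, on the restored graph (same vertices) -/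
def esgLo {m₁ m₂ : ℕ} (Γ : CGeom m₁ m₂) (F : Finset (C3.Cell m₁ m₂ × Bool)) (t s0 : ℕ) (δ : ℝ) :
    HLaw ((C3.uncut (Geo.refine Γ t) (esUpF t F)).graph (esGr m₁ m₂ t s0)) :=
  C3.lawR (C3.uncut (Geo.refine Γ t) (esUpF t F)) (esGr m₁ m₂ t s0) (esRowU Γ F t δ)

/-- **(I-C5) THE INSTANCE** -/
theorem esg_inst (a δ : ℝ) (ha : 0 < a) (hδ : 0 ≤ δ) : ∃ CP K CR : ℝ, 0 ≤ CP ∧ 0 ≤ K ∧ ∀ (m₁ m₂ t s0 : ℕ), 1 ≤ t → 1 ≤ s0 →
    ∀ (T : Finset (C3.Cell m₁ m₂)) (cutF : Finset (C3.Cell m₁ m₂ × Bool)) (M : EgWMark m₁ m₂) (R : ℕ), M.Geo (egSh T cutF) R →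
    ∃ (A : PdAmb ((Geo.refine (egSh T cutF) t).graph (esGr m₁ m₂ t s0)).V (C3.Cell m₁ m₂))
      (Sc So Sci Soi : PdSys ((Geo.refine (egSh T cutF) t).graph (esGr m₁ m₂ t s0)).V (C3.Cell m₁ m₂)) (σ : ℝ)
      (F : C3.Cell m₁ m₂ → (((Geo.refine (egSh T cutF) t).graph (esGr m₁ m₂ t s0)).V → ℝ) →ₗ[ℝ] ℝ),
      GaPack A Sc So Sci Soi σ CP K CR (↑M.H) (↑M.D) (↑M.p) R ∧ GaTest A Sc So Sci Soi F ∧
      Sc.pin = (Geo.refine (egSh T cutF) t).sites (esGr m₁ m₂ t s0) (Geo.refine (egSh T cutF) t).pin ∧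
      A.sitesOf (↑M.p) = esSt (egSh T cutF) t s0 M.p ∧ A.sitesOf (↑M.H) = esSt (egSh T cutF) t s0 M.H ∧
      (∀ v, (esLw (egSh T cutF) t s0 δ).form a v = Sc.form v) ∧ (∀ v, (esgLo (egSh T cutF) M.F t s0 δ).form a v = So.form v) ∧
      ∀ y : C3.Cell m₁ m₂ → ℝ, ∃ (z₃ : Sci.Tm → ℝ) (z₄ : Soi.Tm → ℝ),
        pdRowF (esTest (egSh T cutF) t s0 y) = ∑ j, esgY T y j • F j ∧
        Sc.gf (pdRowF (esTest (egSh T cutF) t s0 y)) (pdRowF (esTest (egSh T cutF) t s0 y)) ≤ ∑ j, esgY T y j ^ 2 ∧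
        ∑ τ, z₃ τ ^ 2 = ∑ τ, z₄ τ ^ 2 ∧ Sci.termF z₃ = ∑ j, esgY T y j • F j ∧ Soi.termF z₄ = ∑ j, esgY T y j • F j ∧
        esWDE (egSh T cutF) M t s0 δ a y = Soi.En z₄ - Sci.En z₃ := by
  exact esg_inst_pf a δ ha hδ

theorem esg_sum_Y {m₁ m₂ : ℕ} (T : Finset (C3.Cell m₁ m₂)) (y : C3.Cell m₁ m₂ → ℝ) : ∑ j, esgY T y j ^ 2 = ∑ κ ∈ T, y κ ^ 2 := by
  unfold esgY
  rw [← Finset.sum_filter_add_sum_filter_not Finset.univ (fun j => j ∈ T)]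
  have h1 : ∑ j ∈ Finset.univ.filter (fun j => j ∈ T), (if j ∈ T then y j else 0) ^ 2 = ∑ κ ∈ T, y κ ^ 2 := by
    rw [Finset.filter_mem_eq_inter, Finset.univ_inter]
    exact Finset.sum_congr rfl fun j hj => by rw [if_pos hj]
  have h2 : ∑ j ∈ Finset.univ.filter (fun j => ¬ j ∈ T), (if j ∈ T then y j else 0) ^ 2 = 0 :=
    Finset.sum_eq_zero fun j hj => by rw [if_neg (Finset.mem_filter.1 hj).2]; norm_num
  rw [h1, h2, add_zero]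

/-- translation of the Gaussian side of the transfer -/
theorem esg_WG_eq {m₁ m₂ : ℕ} (Γ : CGeom m₁ m₂) (M : EgWMark m₁ m₂) (t s0 : ℕ) (δ a : ℝ) (top : Bool) (y : C3.Cell m₁ m₂ → ℝ) (Φ : ℝ → ℝ → ℝ → ℝ)
    {I : Type} (Sc So : PdSys ((Geo.refine Γ t).graph (esGr m₁ m₂ t s0)).V I)
    (hc : ∀ v, (esLw Γ t s0 δ).form a v = Sc.form v) (ho : ∀ v, (esgLo Γ M.F t s0 δ).form a v = So.form v) :
    esWG Γ M t s0 δ a top y Φ =
      plExT (if top then gaLaw So else gaLaw Sc) 1 ((Geo.refine Γ t).sites (esGr m₁ m₂ t s0) (Geo.refine Γ t).pin) (esTest Γ t s0 y)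
        fun φ => Φ (plcLap (gaLaw Sc) 1 ((Geo.refine Γ t).sites (esGr m₁ m₂ t s0) (Geo.refine Γ t).pin ∪ esSt Γ t s0 M.p) (esTest Γ t s0 y) φ)
          (plcLap (gaLaw So) 1 ((Geo.refine Γ t).sites (esGr m₁ m₂ t s0) (Geo.refine Γ t).pin ∪ esSt Γ t s0 M.p) (esTest Γ t s0 y) φ)
          (plrPin (gaLaw Sc) 1 ((Geo.refine Γ t).sites (esGr m₁ m₂ t s0) (Geo.refine Γ t).pin ∪ esSt Γ t s0 M.p) (esSt Γ t s0 M.H) φ) := by
  have e1 : ∀ φ, C3.gcLap (esLw Γ t s0 δ) a ((Geo.refine Γ t).sites (esGr m₁ m₂ t s0) (Geo.refine Γ t).pin ∪ esSt Γ t s0 M.p) (esTest Γ t s0 y) φ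
      = plcLap (gaLaw Sc) 1 ((Geo.refine Γ t).sites (esGr m₁ m₂ t s0) (Geo.refine Γ t).pin ∪ esSt Γ t s0 M.p) (esTest Γ t s0 y) φ :=
    fun φ => ga_cLap_congr hc _ _ _
  have e2 : ∀ φ, C3.gcLapU (Geo.refine Γ t) (esUpF t M.F) (esGr m₁ m₂ t s0) (esRowU Γ M.F t δ) a
        ((Geo.refine Γ t).sites (esGr m₁ m₂ t s0) (Geo.refine Γ t).pin ∪ esSt Γ t s0 M.p) (esTest Γ t s0 y) φ
      = plcLap (gaLaw So) 1 ((Geo.refine Γ t).sites (esGr m₁ m₂ t s0) (Geo.refine Γ t).pin ∪ esSt Γ t s0 M.p) (esTest Γ t s0 y) φ :=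
    fun φ => ga_cLap_congr (G := (C3.uncut (Geo.refine Γ t) (esUpF t M.F)).graph (esGr m₁ m₂ t s0)) (H := esgLo Γ M.F t s0 δ) (S := So) ho _ _ _
  have e3 : ∀ φ, C3.grPin (esLw Γ t s0 δ) a ((Geo.refine Γ t).sites (esGr m₁ m₂ t s0) (Geo.refine Γ t).pin ∪ esSt Γ t s0 M.p) (esSt Γ t s0 M.H) φ
      = plrPin (gaLaw Sc) 1 ((Geo.refine Γ t).sites (esGr m₁ m₂ t s0) (Geo.refine Γ t).pin ∪ esSt Γ t s0 M.p) (esSt Γ t s0 M.H) φ :=
    fun φ => ga_rPin_congr hc _ _ _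
  unfold esWG
  simp only [e1, e2, e3]
  have e4 : ∀ Ψ, C3.gExT (esLw Γ t s0 δ) a ((Geo.refine Γ t).sites (esGr m₁ m₂ t s0) (Geo.refine Γ t).pin) (esTest Γ t s0 y) Ψ
      = plExT (gaLaw Sc) 1 ((Geo.refine Γ t).sites (esGr m₁ m₂ t s0) (Geo.refine Γ t).pin) (esTest Γ t s0 y) Ψ :=
    fun Ψ => ga_ExT_congr hc _ _ Ψ
  have e5 : ∀ Ψ, C3.gExU (Geo.refine Γ t) (esUpF t M.F) (esGr m₁ m₂ t s0) (esRowU Γ M.F t δ) a
        ((Geo.refine Γ t).sites (esGr m₁ m₂ t s0) (Geo.refine Γ t).pin) (esTest Γ t s0 y) Ψ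
      = plExT (gaLaw So) 1 ((Geo.refine Γ t).sites (esGr m₁ m₂ t s0) (Geo.refine Γ t).pin) (esTest Γ t s0 y) Ψ :=
    fun Ψ => ga_ExT_congr (G := (C3.uncut (Geo.refine Γ t) (esUpF t M.F)).graph (esGr m₁ m₂ t s0)) (H := esgLo Γ M.F t s0 δ) (S := So) ho _ _ Ψ
  cases top
  · simp only [Bool.false_eq_true, if_false]
    exact e4 _
  · simp only [if_true]
    exact e5 _

/-- **(5.20) prediction + the bound of the conditional discrepancies**, from the instance -/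
theorem es_ga_moment_pf (a δ : ℝ) (ha : 0 < a) (hδ : 0 ≤ δ) : ∃ (K c0 : ℝ) (k : ℕ), 0 ≤ K ∧ 0 < c0 ∧ ∀ (m₁ m₂ t s0 : ℕ), 1 ≤ t → 1 ≤ s0 →
    ∀ (T : Finset (C3.Cell m₁ m₂)) (cutF : Finset (C3.Cell m₁ m₂ × Bool)) (M : EgWMark m₁ m₂) (R : ℕ), M.Geo (egSh T cutF) R →
    ∀ (top : Bool) (y : C3.Cell m₁ m₂ → ℝ) (θ₁ : ℝ), 0 ≤ θ₁ → ∀ r : ℕ, 1 ≤ r →
      esWG (egSh T cutF) M t s0 δ a top y (egPhi θ₁ (esWDE (egSh T cutF) M t s0 δ a y / 2) r)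
        ≤ (4 * (θ₁ + K * ((m₁ * m₂ : ℕ) : ℝ) ^ k * (r : ℝ) ^ k * Real.exp (-c0 * R) * (1 + ∑ κ ∈ T, y κ ^ 2))) ^ r := by
  obtain ⟨CP, K, CR, hCP, hK, hinst⟩ := esg_inst a δ ha hδ
  have hM : 2 ≤ pdM CP K := by
    unfold pdM
    have : 0 ≤ 2 * K * CP := by positivity
    linarith
  have hC := ga_gadC_nonneg hM CR
  refine ⟨gaK CP K CR, gaC0 CP K, 2, by unfold gaK; positivity, ga_C0_pos hM, ?_⟩
  intro m₁ m₂ t s0 ht hs0 T cutF M R hG top y θ₁ hθ₁ r hr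
  obtain ⟨A, Sc, So, Sci, Soi, σ, F, hP, hT, hpin, hp, hH, hfc, hfo, hy⟩ := hinst m₁ m₂ t s0 ht hs0 T cutF M R hG
  obtain ⟨z₃, z₄, hf, hV, hz, hz₃, hz₄, hDE⟩ := hy y
  have key := ga_moment_abs hP hT (esgY T y) (esTest (egSh T cutF) t s0 y) hf hV z₃ z₄ hz hz₃ hz₄ top hθ₁ r hr
  rw [esg_WG_eq (egSh T cutF) M t s0 δ a top y _ Sc So hfc hfo, hDE, ← hpin, ← hp, ← hH]
  refine key.trans (le_of_eq ?_)
  rw [esg_sum_Y, Fintype.card_prod, Fintype.card_fin, Fintype.card_fin]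

end

end Claimed.Agent.R285.C5
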