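import Claimed.Agent.R285.C5.EsDefs
import Claimed.Agent.R285.Pot.LinDual
import Claimed.Agent.R285.C5.EsGaM
import Claimed.Agent.R285.C5.PotD
import Claimed.Agent.R285.C5.EsPotBr
import Claimed.Agent.R285.Entry.GoodGaInst

/-!
# ROW 285, [C] s5.3, post C5-BOX, package ES-GA (= PK-C5-POTD): THE QUANTITATIVE GAUSSIAN ESTIMATES FOR THE PHYSICAL REFERENCE, UNIFORM IN `t` AND `s0`      (contract: helper262; architect helper145)

TWIN of `Entry/GoodGa.lean` (helper109 / helper269): read its header, the mathematics (D1)-(D4), (M), (END), (PIN), (DE) is IDENTICAL with the forms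
`Q_t = a⁻¹ 𝓔_t + δ avgEn_t + |B·|²`:  `Q_o = Q_c + N`, `N ≥ 0` = restored bonds AND restored averaged bonds, carried by the sites of the core `M.H` (both observation cells of every restored face lie in `M.H`).
The generic half (POT-LIN) does not see the rows.  The decay half needs POT-DECAY for forms with the NONLOCAL term `δ avgEn`: `PdSys` joined with the soft rows, `PdCom` with a constant uniform in `t, s0`
([C] (5.8): `|(P_t (χ² f))_i - χ_i² (P_t f)_i| ≤ C (t⁻¹ |χ_i| + t⁻²) (P_t f²)_i^{1/2}`; in Lean: cutoffs which are CONSTANT on observation cells commute with the subcell averages, so only faces of observation cells where χ jumps contribute).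
**`pot_gPin_limit` (convergence of the determinant) is NOT needed: only the upper bound `es_ga_pin`.**
-/

set_option autoImplicit false

namespace Claimed.Agent.R285.C5

open scoped BigOperators
open Claimed.Agent.R285 Claimed.Agent.R285.Entry Claimed.Agent.R285.Pot

noncomputable section

/-- **(5.20) prediction + the bound of the conditional discrepancies**; `K, c0, k` depend on `(a, δ)` only -/
theorem es_ga_moment (a δ : ℝ) (ha : 0 < a) (hδ : 0 ≤ δ) : ∃ (K c0 : ℝ) (k : ℕ), 0 ≤ K ∧ 0 < c0 ∧ ∀ (m₁ m₂ t s0 : ℕ), 1 ≤ t → 1 ≤ s0 →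
    ∀ (T : Finset (C3.Cell m₁ m₂)) (cutF : Finset (C3.Cell m₁ m₂ × Bool)) (M : EgWMark m₁ m₂) (R : ℕ), M.Geo (egSh T cutF) R →
    ∀ (top : Bool) (y : C3.Cell m₁ m₂ → ℝ) (θ₁ : ℝ), 0 ≤ θ₁ → ∀ r : ℕ, 1 ≤ r →
      esWG (egSh T cutF) M t s0 δ a top y (egPhi θ₁ (esWDE (egSh T cutF) M t s0 δ a y / 2) r)
        ≤ (4 * (θ₁ + K * ((m₁ * m₂ : ℕ) : ℝ) ^ k * (r : ℝ) ^ k * Real.exp (-c0 * R) * (1 + ∑ κ ∈ T, y κ ^ 2))) ^ r :=
  es_ga_moment_pf a δ ha hδ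

/-- the Gaussian pin interaction depends on the law only through its form -/
theorem esga_gPin_congr {G : HGraph} (H H' : HLaw G) (a : ℝ) (h : ∀ v, H.form a v = H'.form a v) (P A A' : Set G.V) :
    H.gPin a P A A' = H'.gPin a P A A' := by
  classical
  have hB : ∀ u v, plB H a u v = plB H' a u v := by
    intro u v
    have h1 := pl_form_add H a u v
    have h2 := pl_form_add H' a u v
    rw [h, h, h] at h1
    linarith
  have hp : H.prec a = H'.prec a := by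
    funext x y
    have key : ∀ K : HLaw G, plB K a (Pi.single x 1) (Pi.single y 1) = K.prec a x y := by
      intro K
      rw [pl_B_prec]
      simp [Pi.single_apply]
    rw [← key H, ← key H', hB]
  unfold HLaw.gPin HLaw.detOff
  rw [hp]

/-- the form of a strengthened law -/
theorem esga_str_form {G : HGraph} (H : HLaw G) {C : Type} (κ₀ : G.V → C) (w a : ℝ) (v : G.V → ℝ) :
    (str H κ₀ w).form a v = H.form a v + w ^ 2 * avgEn κ₀ v := by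
  have h3 := avg_str_sum H κ₀ w 0 v
  have c2 : ∀ o, (strAff H κ₀ w ⟨0, 0, 0⟩).c o = 0 := by
    intro o
    rcases o with o | p
    · rfl
    · rfl
  have e3 : ∀ o, ((str H κ₀ w).obs v o - (strAff H κ₀ w ⟨0, 0, 0⟩).c o) ^ 2 = (str H κ₀ w).obs v o ^ 2 := fun o => by rw [c2 o, sub_zero]
  rw [Finset.sum_congr rfl fun o _ => e3 o] at h3
  simp only [Pi.zero_apply, sub_zero] at h3
  unfold HLaw.form
  rw [h3, add_assoc]

/-- the strengthened law of a shape and `Geo.lawS` of the shape with one box per cell have the same form -/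
theorem esga_form {m₁ m₂ : ℕ} (Γ : CGeom m₁ m₂) (t s0 : ℕ) (ht : 0 < t) (δ a : ℝ) (v : ((Geo.refine Γ t).graph (Geo.ug _ _ s0)).V → ℝ) :
    (C3.lawR (Geo.refine Γ t) (Geo.ug _ _ s0) (esRow Γ t δ)).form a v = (Geo.lawS (Geo.refine (espObs Γ) t) (Geo.ug _ _ s0) δ).form a v := by
  have h1 := esp_pen Γ t s0 δ 0 v
  have h2 := esp_pen0 Γ t s0 ht 0 v
  have c1 : ∀ o, esCen Γ t 0 o = 0 := by
    intro o
    refine Fin.addCases (fun i => ?_) (fun j => ?_) o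
    · rw [esp_cen_left]; rfl
    · rw [esp_cen_right]
  have c0 : ∀ o, egCen Γ 0 o = 0 := fun o => rfl
  have e1 : ∑ o, (C3.lawR (Geo.refine Γ t) (Geo.ug _ _ s0) (esRow Γ t δ)).obs v o ^ 2
      = ∑ o, ((C3.lawR (Geo.refine Γ t) (Geo.ug _ _ s0) (esRow Γ t δ)).obs v o - esCen Γ t 0 o) ^ 2 :=
    Finset.sum_congr rfl fun o _ => by rw [c1 o, sub_zero]
  have e3 : ∑ o, (((Geo.refine (espObs Γ) t).law (Geo.ug _ _ s0)).obs v o - egCen Γ 0 o) ^ 2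
      = ∑ o, ((Geo.refine (espObs Γ) t).law (Geo.ug _ _ s0)).obs v o ^ 2 :=
    Finset.sum_congr rfl fun o _ => by rw [c0 o, sub_zero]
  refine Eq.trans ?_ (esga_str_form ((Geo.refine (espObs Γ) t).law (Geo.ug _ _ s0)) (Geo.cellOf (Geo.refine (espObs Γ) t) (Geo.ug _ _ s0)) (Real.sqrt δ) a v).symm
  unfold HLaw.form
  rw [e1, h1, h2, e3, add_assoc]
  rfl

/-- the shape with one unit box per present cell satisfies the hypothesis of the decay instance -/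
theorem esga_obsCell {m₁ m₂ : ℕ} (Γ : CGeom m₁ m₂) : ObsCell (espObs Γ) (fun o : Fin (espObs Γ).nObs => (Γ.T.equivFin.symm o).1) 1 1 where
  box _ := rfl
  wgt_nonneg _ := zero_le_one
  w₀_pos := one_pos
  W_nonneg := zero_le_one
  cover i hi := Or.inr ⟨Γ.T.equivFin ⟨i, hi⟩, by simp, le_refl _⟩
  total i := by
    classical
    show (∑ o : Fin Γ.T.card, if (Γ.T.equivFin.symm o).1 = i then (1 : ℝ) else 0) ≤ 1
    rw [Finset.sum_ite, Finset.sum_const_zero, add_zero, Finset.sum_const, nsmul_eq_mul, mul_one]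
    have : (Finset.univ.filter fun o : Fin Γ.T.card => (Γ.T.equivFin.symm o).1 = i).card ≤ 1 := by
      refine Finset.card_le_one.2 fun o ho o' ho' => ?_
      have h1 := (Finset.mem_filter.1 ho).2
      have h2 := (Finset.mem_filter.1 ho').2
      exact Γ.T.equivFin.symm.injective (Subtype.ext (h1.trans h2.symm))
    exact_mod_cast this

theorem esga_WDg_le {m₁ m₂ : ℕ} (Γ : CGeom m₁ m₂) {t : ℕ} (s0 : ℕ) (ht : 0 < t) {a δ : ℝ} (ha : 0 < a) (hδ : 0 ≤ δ) (A A' : Finset (C3.Cell m₁ m₂)) {r : ℕ}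
    (hr : 1 ≤ r) (hsep : ∀ κ ∈ A, ∀ κ' ∈ A', r + 4 ≤ geoDist κ' κ) :
    esWDg Γ t (s0 + 1) δ a A A' ≤ ((m₁ * m₂ : ℕ) : ℝ) * pdE (dCP 1 1 a) (dK 1 a δ) r * dC3 1 1 a δ / 2 := by
  classical
  have h1 : esWDg Γ t (s0 + 1) δ a A A' = (C3.lawR (Geo.refine Γ t) (egGr (t * m₁) (t * m₂) (s0 + 1)) (esRow Γ t δ)).gPin a
      ((Geo.refine Γ t).sites (egGr (t * m₁) (t * m₂) (s0 + 1)) (Geo.refine Γ t).pin)
      ((Geo.refine Γ t).sites (egGr (t * m₁) (t * m₂) (s0 + 1)) (esUp t A)) ((Geo.refine Γ t).sites (egGr (t * m₁) (t * m₂) (s0 + 1)) (esUp t A')) := rfl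
  rw [h1, esp_grid]
  refine le_trans (le_of_eq (esga_gPin_congr (G := (Geo.refine Γ t).graph (Geo.ug _ _ s0)) (C3.lawR (Geo.refine Γ t) (Geo.ug _ _ s0) (esRow Γ t δ))
    (Geo.lawS (Geo.refine (espObs Γ) t) (Geo.ug _ _ s0) δ) a (esga_form Γ t s0 ht δ a) _ _ _)) ?_
  have h2 := potd_gPin_le (esga_obsCell Γ) s0 ht (P := (Geo.refine (espObs Γ) t).sites (Geo.ug _ _ s0) (Geo.refine (espObs Γ) t).pin) (fun _ h => h) ha hδ A A' hr hsep
  refine le_trans h2 ?_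
  have hcard : ((Finset.univ.filter fun i : C3.Cell m₁ m₂ => ∃ κ' ∈ A', geoDist i κ' ≤ 4).card : ℝ) ≤ ((m₁ * m₂ : ℕ) : ℝ) := by
    have h3 := Finset.card_filter_le (Finset.univ : Finset (C3.Cell m₁ m₂)) fun i => ∃ κ' ∈ A', geoDist i κ' ≤ 4
    have h4 : (Finset.univ : Finset (C3.Cell m₁ m₂)).card = m₁ * m₂ := by
      rw [Finset.card_univ, Fintype.card_prod, Fintype.card_fin, Fintype.card_fin]
    rw [h4] at h3
    exact_mod_cast h3
  have hE := pdE_nonneg (dCP 1 1 a) (dK 1 a δ) r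
  have hCP : 0 ≤ dCP 1 1 a := by unfold dCP; positivity
  have hK : 0 ≤ dK 1 a δ := by unfold dK; positivity
  have hC : 0 ≤ dC3 1 1 a δ := by unfold dC3 pdM; positivity
  have := mul_le_mul_of_nonneg_right (mul_le_mul_of_nonneg_right hcard hE) hC
  linarith

/-- **`D^g (H, p) ≤ C e^{-cR}`** in the cut open patch, uniformly in `t, s0` -/
theorem es_ga_pin (a δ : ℝ) (ha : 0 < a) (hδ : 0 ≤ δ) : ∃ (K c0 : ℝ) (k R1 : ℕ), 0 ≤ K ∧ 0 < c0 ∧ ∀ (m₁ m₂ t s0 : ℕ), 1 ≤ t → 1 ≤ s0 →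
    ∀ (T : Finset (C3.Cell m₁ m₂)) (cutF : Finset (C3.Cell m₁ m₂ × Bool)) (M : EgWMark m₁ m₂) (R : ℕ), R1 ≤ R → M.Geo (egSh T cutF) R →
      esWDg (egWPc (egSh T cutF) M) t s0 δ a M.H M.p ≤ K * ((m₁ * m₂ : ℕ) : ℝ) ^ k * Real.exp (-c0 * R) := by
  have hCP : 0 ≤ dCP 1 1 a := by unfold dCP; positivity
  have hK : 0 ≤ dK 1 a δ := by unfold dK; positivity
  have hM2 : 2 ≤ pdM (dCP 1 1 a) (dK 1 a δ) := by
    unfold pdM
    nlinarith [mul_nonneg hCP hK]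
  have hC : 0 ≤ dC3 1 1 a δ := by unfold dC3 pdM; positivity
  obtain ⟨K, c0, hK0, hc0, hle⟩ := ega_num_pin (dCP 1 1 a) (dK 1 a δ) (dC3 1 1 a δ) hM2 hC
  refine ⟨K, c0, 1, 5, hK0, hc0, ?_⟩
  intro m₁ m₂ t s0 ht hs T cutF M R hR hM
  obtain ⟨s1, rfl⟩ : ∃ s1, s0 = s1 + 1 := ⟨s0 - 1, by omega⟩
  have h1 := esga_WDg_le (egWPc (egSh T cutF) M) s1 ht ha hδ M.H M.p (r := R - 4) (by omega)
    (fun κ hκ κ' hκ' => by
      have h2 := ega_sep hM hR κ' hκ' κ hκ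
      rwa [geo_dist_comm] at h2)
  refine h1.trans ?_
  rw [pow_one]
  exact hle (m₁ * m₂) R hR

theorem esga_abs_sub {x y B : ℝ} (hx : 0 ≤ x) (hy : 0 ≤ y) (hxB : x ≤ B) (hyB : y ≤ B) : |x - y| ≤ B := by
  rw [abs_le]; constructor <;> linarith

/-- `∑_o (egCen Γ y o)² = ∑_{κ ∈ Γ.T} y κ²` -/
theorem esga_sum_cen {m₁ m₂ : ℕ} (Γ : CGeom m₁ m₂) (y : C3.Cell m₁ m₂ → ℝ) : ∑ o, egCen Γ y o ^ 2 = ∑ κ ∈ Γ.T, y κ ^ 2 := by
  unfold egCen
  rw [← Finset.sum_coe_sort Γ.T (fun κ => y κ ^ 2)]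
  exact Fintype.sum_equiv Γ.T.equivFin.symm _ _ fun o => rfl

theorem esga_sum_cenS {m₁ m₂ : ℕ} (Γ : CGeom m₁ m₂) (t : ℕ) (y : C3.Cell m₁ m₂ → ℝ) : ∑ o, esCen Γ t y o ^ 2 = ∑ κ ∈ Γ.T, y κ ^ 2 := by
  unfold esCen
  rw [Fin.sum_univ_add]
  simp only [Fin.addCases_left, Fin.addCases_right]
  rw [esga_sum_cen]
  simp

theorem esga_WE_bd {m₁ m₂ : ℕ} (Γ : CGeom m₁ m₂) (t s0 : ℕ) (δ : ℝ) {a : ℝ} (ha : 0 < a) (y : C3.Cell m₁ m₂ → ℝ) :
    0 ≤ esWE Γ t s0 δ a y ∧ esWE Γ t s0 δ a y ≤ ∑ κ ∈ Γ.T, y κ ^ 2 := by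
  refine ⟨pl_gEn_nonneg _ ha _ _, (pl_gEn_le_cst _ ha _ _).trans (le_of_eq ?_)⟩
  unfold plCst
  have h := esga_sum_cenS Γ t y
  simp only [Pi.zero_apply, ne_eq, OfNat.ofNat_ne_zero, not_false_eq_true, zero_pow, Finset.sum_const_zero, mul_zero, zero_add]
  exact h

theorem esga_WE0_bd {m₁ m₂ : ℕ} (Γ : CGeom m₁ m₂) (t s0 : ℕ) {a : ℝ} (ha : 0 < a) (y : C3.Cell m₁ m₂ → ℝ) :
    0 ≤ esWE0 Γ t s0 a y ∧ esWE0 Γ t s0 a y ≤ ∑ κ ∈ Γ.T, y κ ^ 2 := by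
  refine ⟨pl_gEn_nonneg _ ha _ _, (pl_gEn_le_cst _ ha _ _).trans (le_of_eq ?_)⟩
  unfold plCst
  have h := esga_sum_cen Γ y
  simp only [Pi.zero_apply, ne_eq, OfNat.ofNat_ne_zero, not_false_eq_true, zero_pow, Finset.sum_const_zero, mul_zero, zero_add]
  exact h

/-- the proxy exponents are bounded on bounded data (trial field `0`, monotonicity in the form) -/
theorem es_ga_DE (a δ : ℝ) (ha : 0 < a) (hδ : 0 ≤ δ) (m₁ m₂ t s0 : ℕ) (T : Finset (C3.Cell m₁ m₂)) (cutF : Finset (C3.Cell m₁ m₂ × Bool)) (M : EgWMark m₁ m₂)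
    (y : C3.Cell m₁ m₂ → ℝ) : |esWDE (egSh T cutF) M t s0 δ a y| ≤ ∑ κ ∈ T, y κ ^ 2 ∧ |esWDE0 (egSh T cutF) M t s0 a y| ≤ ∑ κ ∈ T, y κ ^ 2 := by
  have hsub : ∑ κ ∈ T ∩ M.O, y κ ^ 2 ≤ ∑ κ ∈ T, y κ ^ 2 :=
    Finset.sum_le_sum_of_subset_of_nonneg Finset.inter_subset_left fun _ _ _ => sq_nonneg _
  have h1 := esga_WE_bd (egWPo (egSh T cutF) M) t s0 δ ha y
  have h2 := esga_WE_bd (egWPc (egSh T cutF) M) t s0 δ ha y
  have h3 := esga_WE0_bd (egWPo (egSh T cutF) M) t s0 ha y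
  have h4 := esga_WE0_bd (egWPc (egSh T cutF) M) t s0 ha y
  exact ⟨esga_abs_sub h1.1 h2.1 (h1.2.trans hsub) (h2.2.trans hsub), esga_abs_sub h3.1 h4.1 (h3.2.trans hsub) (h4.2.trans hsub)⟩

end

end Claimed.Agent.R285.C5
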