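import Claimed.Agent.R285.C5.PotEG
import Claimed.Agent.R285.C5.Avg

/-!
# ROW 285, [C] s5, package PK-C5-POT1 (architect helper83; target fixed with helper75, helper262): THE SECOND LIMIT `t → ∞` OF L5.2 FOR THE ENERGIES, ENGINE VOCABULARY

`T : F4a.Top c` any cut topology, `c0` the subcell grid, `c.m = t * c0.m`.   `Ephys T c0 a δ y = min_v a⁻¹ 𝓔(v) + δ avgEn(v) + ∑_{cells} (avg_i v - y_i)²` = the Gaussian energy of the strengthened law (`pe_Ephys_eq`).
**`pe_main`**:  `Ephys ≤ T.Eobs a' 0 y ≤ (1 + η t) Ephys`, `a' = (a⁻¹ + δ)⁻¹`, `η t → 0`, UNIFORMLY in the volume, the topology (slits, re-entrant corners, ... all allowed), the mesh `c0.m ≥ 1` and the data.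

## Proof (all files `C5/PotE*.lean`, prefix `pe`)
* LEFT HALF: `avgEn ≤ 𝓔`, constant ONE (`pe_avgEn_le`).
* RIGHT HALF = (INT) `pe_int`: for every array `U` on the subcells there is a field `w` with `𝓔_T(w) ≤ (1 + e₁ t) S(U)`, `∑_{cells} (avg_i w - cmean_i U)² ≤ e₂ t S(U)`, `S(U) = ∑_{subFaces} (δU)²`.
  - INT-a (`PotEL`, `PotEG`): FLATTEN `U` at every junction of four cells (pigeonhole over dyadic annuli, Poincare on L-shaped annuli; local model + transfer): price `1 + C/L`, `4^L ≤ t`.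
  - INT-b (`PotEP`, `PotEI`): vertex values = means over the face-connected sectors, Q1 interpolation on every subcell: energy constant EXACTLY ONE if all singular vertices are flat; the cell means move by `O(t^{-3/2} √S)`.
* GLUE: `U = sav v`: `S(U) ≤ avgEn v ≤ 𝓔 v` (`avgEn_ge`), `cav v = cmean U` (`cav_eq_cmean`).
-/

set_option autoImplicit false

namespace Claimed.Agent.R285.C5

open Filter Topology
open Claimed.Agent.R285.RG Claimed.Agent.R285.F4a
open scoped Classical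

noncomputable section

variable {G : Geom} {c c0 : Grid G}

/-- the functional of the strengthened Gaussian reference -/
def peF (T : F4a.Top c) (c0 : Grid G) (a δ : ℝ) (y : c.I → ℝ) (v : T.graph.V → ℝ) : ℝ :=
  a⁻¹ * HLaw.en v 0 + δ * avgEn (subOf T c0) v + ∑ i ∈ T.cells, (cav T v i - y i) ^ 2

/-- **the Gaussian energy of the strengthened law** -/
def Ephys (T : F4a.Top c) (c0 : Grid G) (a δ : ℝ) (y : c.I → ℝ) : ℝ := ⨅ v : T.graph.V → ℝ, peF T c0 a δ y v

/-- aux (L-PE-B1): the real span of the full lattice -/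
theorem pe_rspan_top {G : HGraph} (H : HLaw G) (hΛ : H.Λ = ⊤) : H.rspan = ⊤ := by
  rw [eq_top_iff]
  intro φ _
  have e : φ = ∑ x, φ x • (fun v => (((Pi.single x (1 : ℤ) : G.V → ℤ) v : ℤ) : ℝ)) := by
    funext v
    rw [Finset.sum_apply, Finset.sum_eq_single v]
    · simp
    · intro x _ hx
      simp [Pi.single_apply, Ne.symm hx]
    · intro h; exact absurd (Finset.mem_univ _) h
  rw [e]
  refine Submodule.sum_mem _ fun x _ => Submodule.smul_mem _ _ (Submodule.subset_span ⟨Pi.single x 1, ?_, rfl⟩)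
  rw [hΛ]
  trivial

/-- L-PE-B1.  Bridge to `HLaw.gEn`: `rspan = ⊤` because `Λ = ⊤` (`Free.fr_mem_rspan_plain`-like: every real field is a combination of integer indicator fields), `avg_str_sum`, `Real.sq_sqrt`; `T.law.obs v ⟨i,_⟩ = cav T v i` by `rfl`;
`∑ over {i // i ∈ T.cells}` = `∑ i ∈ T.cells` (`Finset.sum_coe_sort` / `Finset.sum_subtype`). -/
theorem pe_Ephys_eq (T : F4a.Top c) (c0 : Grid G) (a δ : ℝ) (hδ : 0 ≤ δ) (y : c.I → ℝ) :
    Ephys T c0 a δ y = (lawS T c0 δ).gEn a 0 (affS T c0 δ y).c := by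
  have htop := pe_rspan_top (lawS T c0 δ) rfl
  unfold Ephys HLaw.gEn
  refine Function.Surjective.iInf_congr
    (fun v : T.graph.V → ℝ => (⟨v, by rw [htop]; exact Submodule.mem_top⟩ : (lawS T c0 δ).rspan))
    (fun v => ⟨v.1, rfl⟩) fun v => ?_
  show a⁻¹ * HLaw.en v 0 + ∑ o, ((lawS T c0 δ).obs v o - (affS T c0 δ y).c o) ^ 2 = peF T c0 a δ y v
  have h1 := avg_str_sum T.law (subOf T c0) (Real.sqrt δ) (fun i => y i.1) v
  have h2 : ∑ o, ((lawS T c0 δ).obs v o - (affS T c0 δ y).c o) ^ 2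
      = ∑ o, (T.law.obs v o - y o.1) ^ 2 + Real.sqrt δ ^ 2 * avgEn (subOf T c0) v := h1
  have h3 : ∑ o, (T.law.obs v o - y o.1) ^ 2 = ∑ i ∈ T.cells, (cav T v i - y i) ^ 2 :=
    Finset.sum_coe_sort T.cells fun i => (cav T v i - y i) ^ 2
  rw [h2, h3, Real.sq_sqrt hδ]
  unfold peF
  ring

/-! ### helpers of L-PE-B2 (prefix `pe_ae_`) -/

/-- abstract Jensen + counting: cells = fibres of `κ` with `n²` points, `τ r` = injective shifts -/
theorem pe_ae_abs {V C : Type} [Fintype V] [DecidableEq V] [DecidableEq C] (κ : V → C) (Q : Finset C) (n : ℕ) (hn : 0 < n)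
    (τ : ℕ → V → V) (h0 : ∀ x, τ 0 x = x) (hinj : ∀ r, Function.Injective (τ r)) (u g : V → ℝ) (E : Finset V)
    (hcard : ∀ q ∈ Q, (Finset.univ.filter fun x => κ x = q).card = n ^ 2)
    (hE : ∀ x, κ x ∈ Q → ∀ r < n, τ r x ∈ E ∧ u (τ (r + 1) x) - u (τ r x) = g (τ r x)) :
    ∑ q ∈ Q, (((n : ℝ) ^ 2)⁻¹ * ∑ x ∈ Finset.univ.filter (fun x => κ x = q), u (τ n x)
        - ((n : ℝ) ^ 2)⁻¹ * ∑ x ∈ Finset.univ.filter (fun x => κ x = q), u x) ^ 2 ≤ ∑ z ∈ E, g z ^ 2 := by
  have hn0 : (0 : ℝ) < n := by exact_mod_cast hn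
  have hone : ∀ q ∈ Q, (((n : ℝ) ^ 2)⁻¹ * ∑ x ∈ Finset.univ.filter (fun x => κ x = q), u (τ n x)
        - ((n : ℝ) ^ 2)⁻¹ * ∑ x ∈ Finset.univ.filter (fun x => κ x = q), u x) ^ 2
      ≤ (n : ℝ)⁻¹ * ∑ x ∈ Finset.univ.filter (fun x => κ x = q), ∑ r ∈ Finset.range n, g (τ r x) ^ 2 := by
    intro q hq
    have htel : ∀ x ∈ Finset.univ.filter (fun x => κ x = q), u (τ n x) - u x = ∑ r ∈ Finset.range n, g (τ r x) := by
      intro x hx
      have hx' : κ x ∈ Q := by rw [(Finset.mem_filter.1 hx).2]; exact hq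
      have h1 := Finset.sum_range_sub (fun r => u (τ r x)) n
      rw [h0] at h1
      rw [← h1]
      exact Finset.sum_congr rfl fun r hr => (hE x hx' r (Finset.mem_range.1 hr)).2
    rw [← mul_sub, ← Finset.sum_sub_distrib, Finset.sum_congr rfl htel, mul_pow]
    have hcs := sq_sum_le_card_mul_sum_sq (s := (Finset.univ.filter fun x => κ x = q) ×ˢ Finset.range n) (f := fun t => g (τ t.2 t.1))
    rw [Finset.sum_product, Finset.sum_product, Finset.card_product, hcard q hq, Finset.card_range] at hcs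
    have h3 : (((n : ℝ) ^ 2)⁻¹) ^ 2 * (((n ^ 2 * n : ℕ) : ℝ) * ∑ x ∈ Finset.univ.filter (fun x => κ x = q), ∑ r ∈ Finset.range n, g (τ r x) ^ 2)
        = (n : ℝ)⁻¹ * ∑ x ∈ Finset.univ.filter (fun x => κ x = q), ∑ r ∈ Finset.range n, g (τ r x) ^ 2 := by
      push_cast
      field_simp
    rw [← h3]
    exact mul_le_mul_of_nonneg_left hcs (by positivity)
  have hfil : ∀ q ∈ Q, (Finset.univ.filter fun x => κ x = q) = (Finset.univ.filter fun x => κ x ∈ Q).filter fun x => κ x = q := by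
    intro q hq
    ext x
    simp only [Finset.mem_filter, Finset.mem_univ, true_and]
    exact ⟨fun h => ⟨by rw [h]; exact hq, h⟩, fun h => h.2⟩
  calc ∑ q ∈ Q, (((n : ℝ) ^ 2)⁻¹ * ∑ x ∈ Finset.univ.filter (fun x => κ x = q), u (τ n x)
        - ((n : ℝ) ^ 2)⁻¹ * ∑ x ∈ Finset.univ.filter (fun x => κ x = q), u x) ^ 2
      ≤ ∑ q ∈ Q, (n : ℝ)⁻¹ * ∑ x ∈ Finset.univ.filter (fun x => κ x = q), ∑ r ∈ Finset.range n, g (τ r x) ^ 2 := Finset.sum_le_sum hone
    _ = (n : ℝ)⁻¹ * ∑ x ∈ Finset.univ.filter (fun x => κ x ∈ Q), ∑ r ∈ Finset.range n, g (τ r x) ^ 2 := by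
        rw [← Finset.mul_sum]
        congr 1
        rw [Finset.sum_congr rfl fun q hq => by rw [hfil q hq]]
        exact Finset.sum_fiberwise_of_maps_to (fun x hx => (Finset.mem_filter.1 hx).2) _
    _ = (n : ℝ)⁻¹ * ∑ r ∈ Finset.range n, ∑ x ∈ Finset.univ.filter (fun x => κ x ∈ Q), g (τ r x) ^ 2 := by
        rw [Finset.sum_comm]
    _ ≤ (n : ℝ)⁻¹ * ∑ _r ∈ Finset.range n, ∑ z ∈ E, g z ^ 2 := by
        refine mul_le_mul_of_nonneg_left (Finset.sum_le_sum fun r hr => ?_) (by positivity)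
        rw [← Finset.sum_image (f := fun z => g z ^ 2) (g := τ r) fun x _ y _ h => hinj r h]
        refine Finset.sum_le_sum_of_subset_of_nonneg ?_ fun _ _ _ => sq_nonneg _
        intro z hz
        obtain ⟨x, hx, rfl⟩ := Finset.mem_image.1 hz
        exact (hE x (Finset.mem_filter.1 hx).2 r (Finset.mem_range.1 hr)).1
    _ = ∑ z ∈ E, g z ^ 2 := by
        rw [Finset.sum_const, Finset.card_range, nsmul_eq_mul, ← mul_assoc, inv_mul_cancel₀ hn0.ne', one_mul]

/-- sums over a set of pairs `(a, d)`, `d : Bool` -/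
theorem pe_ae_sum_bool {A : Type} [Fintype A] [DecidableEq A] (S : Finset (A × Bool)) (H : A × Bool → ℝ) :
    ∑ φ ∈ S, H φ = ∑ a ∈ Finset.univ.filter (fun a => (a, true) ∈ S), H (a, true) + ∑ a ∈ Finset.univ.filter (fun a => (a, false) ∈ S), H (a, false) := by
  have h1 : ∑ φ ∈ S, H φ = ∑ φ : A × Bool, if φ ∈ S then H φ else 0 := by
    rw [Finset.sum_ite_mem, Finset.univ_inter]
  rw [h1, Fintype.sum_prod_type, Finset.sum_filter, Finset.sum_filter, ← Finset.sum_add_distrib]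
  refine Finset.sum_congr rfl fun a _ => ?_
  rw [Fintype.sum_bool]

/-- cyclic shift on `Fin M` -/
def peSh1 {M : ℕ} (x : Fin M) (r : ℕ) : Fin M := ⟨(x.1 + r) % M, Nat.mod_lt _ x.pos⟩

/-- cyclic shift of a site in the direction `d` -/
def peSh (d : Bool) (r : ℕ) (v : G.V) : G.V := if d then (peSh1 v.1 r, v.2) else (v.1, peSh1 v.2 r)

/-- extension by zero of a field on the retained graph -/
def peExt (T : F4a.Top c) (v : T.graph.V → ℝ) (z : G.V) : ℝ := if h : c.blk z ∈ T.cells then v ⟨z, h⟩ else 0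

theorem pe_ae_eqns_cite : True := by
  have := @peSh1.eq_1; have := @peSh.eq_1; have := @peExt.eq_1; trivial

theorem pe_ae_sh1_zero {M : ℕ} (x : Fin M) : peSh1 x 0 = x := Fin.ext (Nat.mod_eq_of_lt x.2)

theorem pe_ae_sh1_add {M : ℕ} (x : Fin M) (r s : ℕ) : peSh1 (peSh1 x r) s = peSh1 x (r + s) := by
  apply Fin.ext
  show ((x.1 + r) % M + s) % M = (x.1 + (r + s)) % M
  rw [Nat.mod_add_mod, add_assoc]

theorem pe_ae_sh1_inj {M : ℕ} (r : ℕ) : Function.Injective (fun x : Fin M => peSh1 x r) := by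
  intro x y h
  have h1 : (x.1 + r) % M = (y.1 + r) % M := congrArg Fin.val h
  have h2 : x.1 ≡ y.1 [MOD M] := Nat.ModEq.add_right_cancel' r h1
  exact Fin.ext (Nat.ModEq.eq_of_lt_of_lt h2 x.2 y.2)

theorem pe_ae_sh_zero (d : Bool) (v : G.V) : peSh d 0 v = v := by
  cases d <;> simp [peSh, pe_ae_sh1_zero]

theorem pe_ae_sh_add (d : Bool) (r s : ℕ) (v : G.V) : peSh d s (peSh d r v) = peSh d (r + s) v := by
  cases d <;> simp [peSh, pe_ae_sh1_add]

theorem pe_ae_sh_inj (d : Bool) (r : ℕ) : Function.Injective (peSh (G := G) d r) := by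
  intro v w h
  cases d
  · simp only [peSh, Bool.false_eq_true, if_false, Prod.mk.injEq] at h
    exact Prod.ext h.1 (pe_ae_sh1_inj r h.2)
  · simp only [peSh, if_true, Prod.mk.injEq] at h
    exact Prod.ext (pe_ae_sh1_inj r h.1) h.2

/-- the block of a shifted point, arithmetic -/
theorem pe_ae_div (n0 N x r : ℕ) (hN : 0 < N) (hx : x < n0 * N) (hr : r ≤ N) :
    (x + r) % (n0 * N) / N = if x % N + r < N then x / N else (x / N + 1) % n0 := by
  obtain ⟨a, s, hs, rfl⟩ : ∃ a s, s < N ∧ x = N * a + s := ⟨x / N, x % N, Nat.mod_lt _ hN, (Nat.div_add_mod x N).symm⟩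
  have ha : a < n0 := by
    by_contra h
    have h1 : N * n0 ≤ N * a := Nat.mul_le_mul_left N (not_lt.1 h)
    rw [mul_comm n0 N] at hx
    omega
  have e1 : (N * a + s) % N = s := by rw [Nat.mul_add_mod, Nat.mod_eq_of_lt hs]
  have e2 : (N * a + s) / N = a := by rw [Nat.mul_add_div hN, Nat.div_eq_of_lt hs, add_zero]
  have hle : N * a + N ≤ n0 * N := by
    have h1 : N * (a + 1) ≤ N * n0 := Nat.mul_le_mul_left N ha
    rw [mul_comm n0 N]
    rw [Nat.mul_succ] at h1
    exact h1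
  rw [e1, e2]
  split_ifs with h
  · rw [Nat.mod_eq_of_lt (by omega), add_assoc, Nat.mul_add_div hN, Nat.div_eq_of_lt h, add_zero]
  · rcases Nat.lt_or_ge (a + 1) n0 with h2 | h2
    · have hle2 : N * a + N + N ≤ n0 * N := by
        have h1 : N * (a + 2) ≤ N * n0 := Nat.mul_le_mul_left N h2
        rw [mul_comm n0 N]
        have e : N * (a + 2) = N * a + N + N := by ring
        omega
      have e3 : N * a + s + r = N * (a + 1) + (s + r - N) := by
        rw [Nat.mul_succ]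
        omega
      rw [Nat.mod_eq_of_lt (by omega), e3, Nat.mul_add_div hN, Nat.div_eq_of_lt (by omega), add_zero, Nat.mod_eq_of_lt h2]
    · have h3 : a + 1 = n0 := by omega
      have e4 : n0 * N = N * a + N := by rw [← h3]; ring
      have e3 : N * a + s + r = n0 * N + (s + r - N) := by omega
      rw [e3, Nat.add_mod_left, Nat.mod_eq_of_lt (by omega), Nat.div_eq_of_lt (by omega), h3, Nat.mod_self]

theorem pe_ae_blk1 (hc0 : Whole c0) (x : Fin G.M) (r : ℕ) (hr : r ≤ c0.m) :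
    c0.blk1 (peSh1 x r) = if x.1 % c0.m + r < c0.m then c0.blk1 x else nx (c0.blk1 x) := by
  have hM := whole_card hc0
  have h := pe_ae_div c0.n c0.m x.1 r hc0.pos (by rw [← hM]; exact x.2) hr
  rw [← hM] at h
  apply Fin.ext
  rw [whole_blk1 hc0]
  show (x.1 + r) % G.M / c0.m = _
  rw [h]
  split_ifs with h1
  · rw [whole_blk1 hc0]
  · show _ = ((c0.blk1 x).1 + 1) % c0.n
    rw [whole_blk1 hc0]

theorem pe_ae_blk (hc0 : Whole c0) (d : Bool) (v : G.V) (r : ℕ) (hr : r ≤ c0.m) :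
    c0.blk (peSh d r v) = if (resP d v).1 % c0.m + r < c0.m then c0.blk v else fnb c0 (c0.blk v, d) := by
  cases d
  · show (c0.blk1 v.1, c0.blk1 (peSh1 v.2 r)) = if v.2.1 % c0.m + r < c0.m then c0.blk v else (c0.blk1 v.1, nx (c0.blk1 v.2))
    rw [pe_ae_blk1 hc0 v.2 r hr]
    split_ifs <;> rfl
  · show (c0.blk1 (peSh1 v.1 r), c0.blk1 v.2) = if v.1.1 % c0.m + r < c0.m then c0.blk v else (nx (c0.blk1 v.1), c0.blk1 v.2)
    rw [pe_ae_blk1 hc0 v.1 r hr]
    split_ifs <;> rfl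

theorem pe_ae_stp (d : Bool) (z : G.V) (h : G.bc = BC.per ∨ (resP d z).1 + 1 < G.M) : stp z d = peSh d 1 z := by
  cases d
  · obtain ⟨h1, h2⟩ := res_stp_false z h
    exact Prod.ext h2 (Fin.ext h1)
  · obtain ⟨h1, h2⟩ := res_stp_true z h
    exact Prod.ext (Fin.ext h1) h2

theorem pe_ae_step_ok (d : Bool) (z : G.V) (h : stp z d ≠ z) : G.bc = BC.per ∨ (resP d z).1 + 1 < G.M := by
  cases hG : G.bc with
  | per => exact Or.inl rfl
  | free =>
    right
    obtain ⟨-, h2, -, h4⟩ := stp_free hG z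
    cases d
    · by_contra hc
      have := z.2.2
      exact h (h4 (by show z.2.1 + 1 = G.M; have : ¬ z.2.1 + 1 < G.M := hc; omega))
    · by_contra hc
      have := z.1.2
      exact h (h2 (by show z.1.1 + 1 = G.M; have : ¬ z.1.1 + 1 < G.M := hc; omega))

theorem pe_ae_sh_ne (hc0 : Whole c0) (d : Bool) (z : G.V) : peSh d 1 z ≠ z := by
  have hM : 2 ≤ G.M := by
    rw [whole_card hc0]
    calc 2 = 2 * 1 := rfl
      _ ≤ c0.n * c0.m := Nat.mul_le_mul hc0.two hc0.pos
  intro h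
  cases d
  · exact res_nx_ne hM z.2 (congrArg Prod.snd h)
  · exact res_nx_ne hM z.1 (congrArg Prod.fst h)

/-- the bonds used by a face of `subFaces` are retained, and the steps along them are cyclic shifts -/
theorem pe_ae_edge (hc0 : Whole c0) (N : Nest c0 c) (T : F4a.Top c) (d : Bool) (κ : c0.I) (hφ : (κ, d) ∈ subFaces T N) (x : G.V)
    (hx : c0.blk x = κ) (r : ℕ) (hr : r < c0.m) : T.IsEdge (peSh d r x, d) ∧ stp (peSh d r x) d = peSh d (r + 1) x := by
  rw [subFaces, Finset.mem_filter] at hφ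
  obtain ⟨-, hface, h1, h2, h3⟩ := hφ
  have h1' : N.up κ ∈ T.cells := h1
  have h2' : N.up (fnb c0 (κ, d)) ∈ T.cells := h2
  have h3' : N.up (fnb c0 (κ, d)) = N.up κ ∨ (N.up κ, d) ∈ T.faces := h3
  have hM : G.M = c0.m * c0.n := by rw [whole_card hc0, mul_comm]
  have hm := hc0.pos
  have hstep : G.bc = BC.per ∨ (resP d (peSh d r x)).1 + 1 < G.M := by
    rcases hface with h | h
    · exact Or.inl h
    · right
      have hco : (resP d (peSh d r x)).1 = ((resP d x).1 + r) % G.M := by cases d <;> rfl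
      have hk : (resP d κ).1 + 1 < c0.n := by cases d <;> exact h
      have hb : (resP d κ).1 = (resP d x).1 / c0.m := by
        rw [← hx]
        cases d
        · exact whole_blk1 hc0 x.2
        · exact whole_blk1 hc0 x.1
      have h4 : (resP d x).1 < c0.m * ((resP d x).1 / c0.m + 1) := Nat.lt_mul_div_succ _ hm
      have h5 : c0.m * ((resP d x).1 / c0.m + 2) ≤ c0.m * c0.n := Nat.mul_le_mul_left _ (by omega)
      have h6 := Nat.mod_le ((resP d x).1 + r) G.M
      have e : c0.m * ((resP d x).1 / c0.m + 2) = c0.m * ((resP d x).1 / c0.m + 1) + c0.m := by ring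
      rw [hco]
      omega
  have hs1 : stp (peSh d r x) d = peSh d (r + 1) x := by rw [pe_ae_stp d _ hstep, pe_ae_sh_add]
  refine ⟨?_, hs1⟩
  have hb1 := pe_ae_blk hc0 d x r hr.le
  have hb2 := pe_ae_blk hc0 d x (r + 1) hr
  rw [hx] at hb1 hb2
  have hc1 : c.blk (peSh d r x) = N.up (c0.blk (peSh d r x)) := res_blk_up N _
  have hc2 : c.blk (peSh d (r + 1) x) = N.up (c0.blk (peSh d (r + 1) x)) := res_blk_up N _
  refine ⟨?_, ?_, ?_, ?_⟩
  · show stp (peSh d r x) d ≠ peSh d r x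
    rw [pe_ae_stp d _ hstep]
    exact pe_ae_sh_ne hc0 d _
  · show c.blk (peSh d r x) ∈ T.cells
    rw [hc1, hb1]
    split_ifs <;> assumption
  · show c.blk (stp (peSh d r x) d) ∈ T.cells
    rw [hs1, hc2, hb2]
    split_ifs <;> assumption
  · show c.blk (stp (peSh d r x) d) = c.blk (peSh d r x) ∨ (c.blk (peSh d r x), d) ∈ T.faces
    rw [hs1, hc1, hc2, hb1, hb2]
    by_cases ha : (resP d x).1 % c0.m + (r + 1) < c0.m
    · rw [if_pos ha, if_pos (by omega)]
      exact Or.inl rfl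
    · rw [if_neg ha]
      by_cases hb : (resP d x).1 % c0.m + r < c0.m
      · rw [if_pos hb]
        exact h3'
      · rw [if_neg hb]
        exact Or.inl rfl

/-- every averaged bond is carried by a face of `subFaces` -/
theorem pe_ae_pairs (hc0 : Whole c0) (N : Nest c0 c) (T : F4a.Top c) :
    cellPairs (subOf T c0) ⊆ (subFaces T N).image fun φ : Face c0 => (φ.1, fnb c0 φ) := by
  intro p hp
  simp only [cellPairs, Finset.mem_filter, Finset.mem_image, Finset.mem_univ, true_and] at hp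
  obtain ⟨⟨e, rfl⟩, hne⟩ := hp
  obtain ⟨⟨z, d⟩, hE⟩ := e
  have hne' : c0.blk z ≠ c0.blk (stp z d) := hne
  obtain ⟨g1, g2, g3, g4⟩ := hE
  have g1' : stp z d ≠ z := g1
  have g2' : c.blk z ∈ T.cells := g2
  have g3' : c.blk (stp z d) ∈ T.cells := g3
  have g4' : c.blk (stp z d) = c.blk z ∨ (c.blk z, d) ∈ T.faces := g4
  have hstep := pe_ae_step_ok d z g1'
  have hs := pe_ae_stp d z hstep
  have hb := pe_ae_blk hc0 d z 1 hc0.pos
  rw [← hs] at hb
  by_cases ha : (resP d z).1 % c0.m + 1 < c0.m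
  · rw [if_pos ha] at hb
    exact absurd hb.symm hne'
  · rw [if_neg ha] at hb
    refine Finset.mem_image.2 ⟨(c0.blk z, d), ?_, ?_⟩
    · rw [subFaces, Finset.mem_filter]
      refine ⟨Finset.mem_univ _, ?_, ?_, ?_, ?_⟩
      · rcases hstep with h | h
        · exact Or.inl h
        · right
          have hM : G.M = c0.m * c0.n := by rw [whole_card hc0, mul_comm]
          have h7 := Nat.div_add_mod (resP d z).1 c0.m
          have h8 := Nat.mod_lt (resP d z).1 hc0.pos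
          have h9 : c0.m * ((resP d z).1 / c0.m + 1) < c0.m * c0.n := by
            rw [Nat.mul_succ]
            omega
          have h10 := Nat.lt_of_mul_lt_mul_left h9
          cases d
          · show (c0.blk1 z.2).1 + 1 < c0.n
            rw [whole_blk1 hc0]
            exact h10
          · show (c0.blk1 z.1).1 + 1 < c0.n
            rw [whole_blk1 hc0]
            exact h10
      · show N.up (c0.blk z) ∈ T.cells
        rw [← res_blk_up N]
        exact g2'
      · show N.up (fnb c0 (c0.blk z, d)) ∈ T.cells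
        rw [← hb, ← res_blk_up N]
        exact g3'
      · show N.up (fnb c0 (c0.blk z, d)) = N.up (c0.blk z) ∨ (N.up (c0.blk z), d) ∈ T.faces
        rw [← hb, ← res_blk_up N, ← res_blk_up N]
        exact g4'
    · show (c0.blk z, fnb c0 (c0.blk z, d)) = (c0.blk z, c0.blk (stp z d))
      rw [hb]

theorem pe_ae_ext (T : F4a.Top c) (v : T.graph.V → ℝ) (x : T.graph.V) : peExt T v x.1 = v x := by
  unfold peExt
  rw [dif_pos x.2]
  rfl

theorem pe_ae_sumV (T : F4a.Top c) (F : G.V → ℝ) :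
    ∑ x : T.graph.V, F x.1 = ∑ z ∈ Finset.univ.filter (fun z : G.V => c.blk z ∈ T.cells), F z :=
  (Finset.sum_subtype (Finset.univ.filter fun z : G.V => c.blk z ∈ T.cells) (fun x => by simp) F).symm

theorem pe_ae_sumE (T : F4a.Top c) (F : G.V × Bool → ℝ) :
    ∑ e : T.graph.E, F e.1 = ∑ e ∈ Finset.univ.filter (fun e : G.V × Bool => T.IsEdge e), F e :=
  (Finset.sum_subtype (Finset.univ.filter fun e : G.V × Bool => T.IsEdge e) (fun x => by simp) F).symm

theorem pe_ae_card (hc0 : Whole c0) (κ : c0.I) : (Finset.univ.filter fun z : G.V => c0.blk z = κ).card = c0.m ^ 2 := by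
  rw [← whole_sites_card hc0 κ]
  congr 1
  ext z
  simp [Grid.sites]

theorem pe_ae_sav (hc0 : Whole c0) (N : Nest c0 c) (T : F4a.Top c) (v : T.graph.V → ℝ) (κ : c0.I) (hκ : N.up κ ∈ T.cells) :
    sav T c0 v κ = ((c0.m : ℝ) ^ 2)⁻¹ * ∑ z ∈ Finset.univ.filter (fun z : G.V => c0.blk z = κ), peExt T v z := by
  unfold sav HLaw.pair
  have h1 : ∀ x : T.graph.V, fibAvg (subOf T c0) κ x * v x
      = (fun z : G.V => if c0.blk z = κ then ((c0.m : ℝ) ^ 2)⁻¹ * peExt T v z else 0) x.1 := by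
    intro x
    rw [res_fibAvg hc0 N T κ hκ, ← pe_ae_ext T v x]
    simp only
    split_ifs <;> simp
  rw [Finset.sum_congr rfl fun x _ => h1 x]
  refine (pe_ae_sumV T (fun z : G.V => if c0.blk z = κ then ((c0.m : ℝ) ^ 2)⁻¹ * peExt T v z else 0)).trans ?_
  rw [Finset.mul_sum, Finset.sum_filter, Finset.sum_filter]
  refine Finset.sum_congr rfl fun z _ => ?_
  by_cases hz : c0.blk z = κ
  · have : c.blk z ∈ T.cells := by rw [res_blk_up N, hz]; exact hκ
    rw [if_pos this, if_pos hz]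
  · rw [if_neg hz]
    simp

theorem pe_ae_en (T : F4a.Top c) (v : T.graph.V → ℝ) :
    HLaw.en v 0 = ∑ z ∈ Finset.univ.filter (fun z : G.V => T.IsEdge (z, true)), (peExt T v (stp z true) - peExt T v z) ^ 2
      + ∑ z ∈ Finset.univ.filter (fun z : G.V => T.IsEdge (z, false)), (peExt T v (stp z false) - peExt T v z) ^ 2 := by
  have h1 : HLaw.en v 0 = ∑ e : T.graph.E, (fun e : G.V × Bool => (peExt T v (stp e.1 e.2) - peExt T v e.1) ^ 2) e.1 := by
    unfold HLaw.en
    refine Finset.sum_congr rfl fun e _ => ?_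
    rw [← pe_ae_ext T v (T.graph.tgt e), ← pe_ae_ext T v (T.graph.src e)]
    simp only [Pi.zero_apply, add_zero]
    rfl
  rw [h1]
  refine (pe_ae_sumE T (fun e : G.V × Bool => (peExt T v (stp e.1 e.2) - peExt T v e.1) ^ 2)).trans ?_
  rw [pe_ae_sum_bool]
  simp only [Finset.mem_filter, Finset.mem_univ, true_and]

theorem pe_ae_shift_sum (hc0 : Whole c0) (d : Bool) (κ : c0.I) (u : G.V → ℝ) :
    ∑ y ∈ Finset.univ.filter (fun z : G.V => c0.blk z = fnb c0 (κ, d)), u y
      = ∑ x ∈ Finset.univ.filter (fun z : G.V => c0.blk z = κ), u (peSh d c0.m x) := by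
  have himg : (Finset.univ.filter (fun z : G.V => c0.blk z = κ)).image (peSh d c0.m)
      = Finset.univ.filter (fun z : G.V => c0.blk z = fnb c0 (κ, d)) := by
    apply Finset.eq_of_subset_of_card_le
    · intro y hy
      obtain ⟨x, hx, rfl⟩ := Finset.mem_image.1 hy
      have hx' := (Finset.mem_filter.1 hx).2
      refine Finset.mem_filter.2 ⟨Finset.mem_univ _, ?_⟩
      rw [pe_ae_blk hc0 d x c0.m le_rfl, if_neg (by omega), hx']
    · rw [Finset.card_image_of_injective _ (pe_ae_sh_inj d c0.m), pe_ae_card hc0, pe_ae_card hc0]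
  rw [← himg, Finset.sum_image fun x _ y _ h => pe_ae_sh_inj d c0.m h]

/-- one direction -/
theorem pe_ae_dir (hc0 : Whole c0) (N : Nest c0 c) (T : F4a.Top c) (v : T.graph.V → ℝ) (d : Bool) :
    ∑ κ ∈ Finset.univ.filter (fun κ : c0.I => (κ, d) ∈ subFaces T N), (sav T c0 v (fnb c0 (κ, d)) - sav T c0 v κ) ^ 2
      ≤ ∑ z ∈ Finset.univ.filter (fun z : G.V => T.IsEdge (z, d)), (peExt T v (stp z d) - peExt T v z) ^ 2 := by
  refine le_trans (le_of_eq (Finset.sum_congr rfl fun κ hκ => ?_))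
    (pe_ae_abs (V := G.V) (C := c0.I) c0.blk (Finset.univ.filter fun κ : c0.I => (κ, d) ∈ subFaces T N) c0.m hc0.pos
      (fun r => peSh d r) (pe_ae_sh_zero d) (pe_ae_sh_inj d) (peExt T v) (fun z => peExt T v (stp z d) - peExt T v z)
      (Finset.univ.filter fun z : G.V => T.IsEdge (z, d)) (fun κ _ => pe_ae_card hc0 κ) (fun x hx r hr => ?_))
  · have hφ := (Finset.mem_filter.1 hκ).2
    have hφ' := hφ
    rw [subFaces, Finset.mem_filter] at hφ'
    obtain ⟨-, -, h1, h2, -⟩ := hφ'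
    rw [pe_ae_sav hc0 N T v _ h2, pe_ae_sav hc0 N T v κ h1, pe_ae_shift_sum hc0 d κ]
  · have hφ := (Finset.mem_filter.1 hx).2
    obtain ⟨h1, h2⟩ := pe_ae_edge hc0 N T d (c0.blk x) hφ x rfl r hr
    refine ⟨Finset.mem_filter.2 ⟨Finset.mem_univ _, h1⟩, ?_⟩
    rw [h2]

/-- L-PE-B2.  **`avgEn ≤ 𝓔`, constant ONE, on a cut topology** (twin of `C5.avgEn_le`).  Every pair of `cellPairs (subOf T c0)` is `(φ.1, fnb c0 φ)` for a `φ ∈ subFaces T N` (`pe_edge_cases`), injectively;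
`(sav (fnb φ) - sav φ.1)² ≤ N⁻¹ ∑` over the `N³` triples (row, start, step) of squared bond gradients (telescoping + Cauchy-Schwarz as in `avg_dir` / `two_cell`), every bond occurs in at most `N` triples. -/
theorem pe_avgEn_le (hc : Whole c) (hc0 : Whole c0) (N : Nest c0 c) (T : F4a.Top c) (hT : T.Ok) (v : T.graph.V → ℝ) :
    avgEn (subOf T c0) v ≤ HLaw.en v 0 := by
  have _ := hc
  have _ := hT
  have h1 : avgEn (subOf T c0) v ≤ ∑ φ ∈ subFaces T N, (sav T c0 v (fnb c0 φ) - sav T c0 v φ.1) ^ 2 := by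
    unfold avgEn
    refine (Finset.sum_le_sum_of_subset_of_nonneg (pe_ae_pairs hc0 N T) fun _ _ _ => sq_nonneg _).trans ?_
    rw [Finset.sum_image fun x _ y _ h => res_face_inj hc0 h]
    exact le_of_eq rfl
  rw [pe_ae_sum_bool] at h1
  rw [pe_ae_en]
  exact h1.trans (add_le_add (pe_ae_dir hc0 N T v true) (pe_ae_dir hc0 N T v false))

/-- L-PE-B3.  The functional of `T.Eobs` at a field on `G.V` = `peF` with `δ = 0`-type expression of its restriction: `T.quad a' 0 y w = a'⁻¹ ∑_E (∇w)² + ∑ (avg c w i - y i)²` (`econn` of the zero connection vanishes: `simp [Top.econn]`). -/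
theorem pe_quad_eq (T : F4a.Top c) (a' : ℝ) (y : c.I → ℝ) (w : G.V → ℝ) :
    T.quad a' (fun f => 2 * Real.pi * ((0 : Face c → ℤ) f : ℝ)) y w
      = a'⁻¹ * ∑ e : T.graph.E, (w (stp e.1.1 e.1.2) - w e.1.1) ^ 2 + ∑ i ∈ T.cells, (avg c w i - y i) ^ 2 := by
  unfold Top.quad
  congr 2
  refine Finset.sum_congr rfl fun e _ => ?_
  have h0 : T.econn (fun f => 2 * Real.pi * ((0 : Face c → ℤ) f : ℝ)) e = 0 := by
    unfold Top.econn
    split_ifs <;> simp
  rw [h0, add_zero]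

/-- L-PE-B4.  Restriction / extension: for `w : G.V → ℝ` and `v = w ∘ Subtype.val`: `HLaw.en v 0 = ∑_E (∇w)²` (`rfl`-like) and `cav T v i = avg c w i` for present cells (`whole_sites_card`; sum over the subtype). -/
theorem pe_restrict (hc : Whole c) (T : F4a.Top c) (w : G.V → ℝ) :
    HLaw.en (G := T.graph) (fun x => w x.1) 0 = ∑ e : T.graph.E, (w (stp e.1.1 e.1.2) - w e.1.1) ^ 2 ∧
    ∀ i ∈ T.cells, cav T (fun x => w x.1) i = avg c w i := by
  refine ⟨?_, fun i hi => ?_⟩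
  · unfold HLaw.en
    refine Finset.sum_congr rfl fun e _ => ?_
    show (w (stp e.1.1 e.1.2) - w e.1.1 + 0) ^ 2 = _
    rw [add_zero]
  · show ∑ x : {v : G.V // c.blk v ∈ T.cells}, (if c.blk x.1 = i then ((c.sites {i}).card : ℝ)⁻¹ else 0) * w x.1
      = (∑ v ∈ c.sites {i}, w v) / ((c.sites {i}).card : ℝ)
    have h1 : ∑ x : {v : G.V // c.blk v ∈ T.cells}, (if c.blk x.1 = i then ((c.sites {i}).card : ℝ)⁻¹ else 0) * w x.1
        = ∑ v ∈ Finset.univ.filter (fun v : G.V => c.blk v ∈ T.cells),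
            (if c.blk v = i then ((c.sites {i}).card : ℝ)⁻¹ else 0) * w v :=
      (Finset.sum_subtype (Finset.univ.filter fun v : G.V => c.blk v ∈ T.cells) (fun v => by simp)
        (fun v : G.V => (if c.blk v = i then ((c.sites {i}).card : ℝ)⁻¹ else 0) * w v)).symm
    rw [h1, div_eq_mul_inv, Finset.sum_mul]
    have hsub : c.sites {i} ⊆ Finset.univ.filter (fun v : G.V => c.blk v ∈ T.cells) := by
      intro v hv
      have hv' : c.blk v = i := by simpa [Grid.sites] using hv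
      simp [hv', hi]
    rw [← Finset.sum_subset hsub]
    · refine Finset.sum_congr rfl fun v hv => ?_
      have hv' : c.blk v = i := by simpa [Grid.sites] using hv
      rw [if_pos hv']
      ring
    · intro v _ hv
      have hv' : c.blk v ≠ i := by simpa [Grid.sites] using hv
      rw [if_neg hv', zero_mul]

/-! ## GLUE (helper83) -/
/-- the number of dyadic scales used at ratio `t` -/
def peLf (t : ℕ) : ℕ := Nat.log 2 t / 2

theorem pe_Lf_tendsto : Tendsto (fun t => (peLf t : ℝ)) atTop atTop := by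
  refine tendsto_natCast_atTop_atTop.comp ?_
  refine tendsto_atTop_atTop.2 fun b => ⟨2 ^ (2 * b), fun a ha => ?_⟩
  have h1 : 2 * b ≤ Nat.log 2 a := Nat.le_log_of_pow_le (by norm_num) ha
  unfold peLf
  omega

theorem pe_Lf_pow (t : ℕ) (ht : 0 < t) : 4 ^ peLf t ≤ t := by
  have h1 : 2 ^ Nat.log 2 t ≤ t := Nat.pow_log_le_self 2 ht.ne'
  have h2 : 4 ^ peLf t = 2 ^ (2 * peLf t) := by rw [pow_mul]; norm_num
  rw [h2]
  refine le_trans (Nat.pow_le_pow_right (by norm_num) ?_) h1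
  unfold peLf; omega

theorem pe_Lf_ge (t : ℕ) (ht : 16 ≤ t) : 2 ≤ peLf t := by
  have h1 : 4 ≤ Nat.log 2 t := Nat.le_log_of_pow_le (by norm_num) (by norm_num; exact ht)
  unfold peLf; omega

theorem pe_Lf_room (t : ℕ) (ht : 16 ≤ t) : 2 * (2 ^ peLf t + 1) ≤ t := by
  have h1 := pe_Lf_pow t (by omega)
  have h2 := pe_Lf_ge t ht
  have h3 : 4 ^ peLf t = 2 ^ peLf t * 2 ^ peLf t := by rw [← mul_pow]; norm_num
  have h4 : 2 ^ 2 ≤ 2 ^ peLf t := Nat.pow_le_pow_right (by norm_num) h2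
  nlinarith

/-- **(INT)** -/
theorem pe_int : ∃ e₁ e₂ : ℕ → ℝ, Tendsto e₁ atTop (𝓝 0) ∧ Tendsto e₂ atTop (𝓝 0) ∧ (∀ t, 0 ≤ e₁ t ∧ 0 ≤ e₂ t) ∧
    ∀ (G : Geom) (c c0 : Grid G) (_ : Whole c) (_ : Whole c0) (N : Nest c0 c) (t : ℕ) (_ : c.m = t * c0.m) (T : F4a.Top c) (_ : T.Ok) (U : c0.I → ℝ),
      ∃ w : G.V → ℝ,
        ∑ e : T.graph.E, (w (stp e.1.1 e.1.2) - w e.1.1) ^ 2 ≤ (1 + e₁ t) * peS c0 (subFaces T N) U ∧
        ∑ i ∈ T.cells, (avg c w i - cmean N U i) ^ 2 ≤ e₂ t * peS c0 (subFaces T N) U := by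
  obtain ⟨C, hC, H⟩ := pe_flatten
  refine ⟨fun t => if 16 ≤ t then C / peLf t else 63, fun t => 256 * (1 + C) / (t : ℝ) ^ 3 + 2 * C / (t : ℝ) ^ 2, ?_, ?_, ?_, ?_⟩
  · have h1 : Tendsto (fun t => C / (peLf t : ℝ)) atTop (𝓝 0) := pe_Lf_tendsto.const_div_atTop C
    refine h1.congr' ?_
    filter_upwards [eventually_ge_atTop 16] with t ht
    rw [if_pos ht]
  · have h1 : Tendsto (fun t : ℕ => 256 * (1 + C) / (t : ℝ) ^ 3) atTop (𝓝 0) :=
      ((tendsto_pow_atTop (by norm_num : (3 : ℕ) ≠ 0)).comp tendsto_natCast_atTop_atTop).const_div_atTop _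
    have h2 : Tendsto (fun t : ℕ => 2 * C / (t : ℝ) ^ 2) atTop (𝓝 0) :=
      ((tendsto_pow_atTop (by norm_num : (2 : ℕ) ≠ 0)).comp tendsto_natCast_atTop_atTop).const_div_atTop _
    have h3 := h1.add h2
    rw [add_zero] at h3
    exact h3
  · intro t
    constructor
    · show 0 ≤ if 16 ≤ t then C / (peLf t : ℝ) else 63
      split_ifs
      · positivity
      · norm_num
    · positivity
  · intro G c c0 hc hc0 N t ht T hT U
    have ht0 : 0 < t := res_t_pos hc ht
    have htR : (0 : ℝ) < t := by exact_mod_cast ht0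
    set S := peS c0 (subFaces T N) U with hS
    have hS0 : 0 ≤ S := Finset.sum_nonneg fun _ _ => sq_nonneg _
    have hsub : ∀ g : c.I → ℝ, ∑ i ∈ T.cells, (g i) ^ 2 ≤ ∑ i : c.I, (g i) ^ 2 := fun g =>
      Finset.sum_le_sum_of_subset_of_nonneg (Finset.subset_univ _) fun _ _ _ => sq_nonneg _
    by_cases h16 : 16 ≤ t
    · obtain ⟨U', hg, hen, hmn⟩ := H (peLf t) (by have := pe_Lf_ge t h16; omega) G c c0 hc hc0 N t ht T hT (pe_Lf_room t h16) U
      refine ⟨peW c0 (subFaces T N) U', ?_, ?_⟩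
      · simp only [if_pos h16]
        exact (pe_int_energy hc hc0 N T hT U' hg).trans hen
      · have hL1 : (1 : ℝ) ≤ peLf t := by
          have := pe_Lf_ge t h16
          exact_mod_cast (by omega : 1 ≤ peLf t)
        have hCL : C / (peLf t : ℝ) ≤ C := div_le_self hC hL1
        have hm1 := pe_int_mean hc hc0 N t ht (subFaces T N) U'
        set S' := peS c0 (subFaces T N) U' with hS'
        have hS'le : S' ≤ (1 + C) * S := hen.trans (mul_le_mul_of_nonneg_right (by linarith) hS0)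
        set A := ∑ i ∈ T.cells, (avg c (peW c0 (subFaces T N) U') i - cmean N U' i) ^ 2 with hA
        set B := ∑ i ∈ T.cells, (cmean N U' i - cmean N U i) ^ 2 with hB
        have hA1 : (t : ℝ) ^ 3 * A ≤ 128 * ((1 + C) * S) := by
          have h1 := hsub (fun i => avg c (peW c0 (subFaces T N) U') i - cmean N U' i)
          have h2 : (t : ℝ) ^ 3 * A ≤ (t : ℝ) ^ 3 * ∑ i : c.I, (avg c (peW c0 (subFaces T N) U') i - cmean N U' i) ^ 2 :=
            mul_le_mul_of_nonneg_left h1 (by positivity)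
          linarith
        have h16L : (16 : ℝ) ^ peLf t ≤ (t : ℝ) ^ 2 := by
          have h1 : ((4 ^ peLf t : ℕ) : ℝ) ≤ t := by exact_mod_cast pe_Lf_pow t ht0
          push_cast at h1
          have h2 : (16 : ℝ) ^ peLf t = ((4 : ℝ) ^ peLf t) ^ 2 := by
            rw [← pow_mul, mul_comm, pow_mul]; norm_num
          rw [h2]
          exact pow_le_pow_left₀ (by positivity) h1 2
        have hB1 : (t : ℝ) ^ 4 * B ≤ C * (t : ℝ) ^ 2 * S := by
          refine hmn.trans ?_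
          exact mul_le_mul_of_nonneg_right (mul_le_mul_of_nonneg_left h16L hC) hS0
        have hA2 : A ≤ 128 * (1 + C) / (t : ℝ) ^ 3 * S := by
          rw [div_mul_eq_mul_div, le_div_iff₀ (by positivity)]
          linarith
        have hB2 : B ≤ C / (t : ℝ) ^ 2 * S := by
          rw [div_mul_eq_mul_div, le_div_iff₀ (by positivity)]
          have h5 : (t : ℝ) ^ 2 * (B * (t : ℝ) ^ 2) ≤ (t : ℝ) ^ 2 * (C * S) := by nlinarith
          exact le_of_mul_le_mul_left h5 (by positivity)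
        have hsum : ∑ i ∈ T.cells, (avg c (peW c0 (subFaces T N) U') i - cmean N U i) ^ 2 ≤ 2 * A + 2 * B := by
          rw [hA, hB, Finset.mul_sum, Finset.mul_sum, ← Finset.sum_add_distrib]
          refine Finset.sum_le_sum fun i _ => ?_
          nlinarith [sq_nonneg ((avg c (peW c0 (subFaces T N) U') i - cmean N U' i) - (cmean N U' i - cmean N U i))]
        calc _ ≤ 2 * A + 2 * B := hsum
          _ ≤ 2 * (128 * (1 + C) / (t : ℝ) ^ 3 * S) + 2 * (C / (t : ℝ) ^ 2 * S) := by linarith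
          _ = _ := by ring
    · refine ⟨peW c0 (subFaces T N) U, ?_, ?_⟩
      · simp only [if_neg h16]
        have := pe_int_energy_gen hc hc0 N T hT U
        linarith
      · have hm1 := pe_int_mean hc hc0 N t ht (subFaces T N) U
        set A := ∑ i ∈ T.cells, (avg c (peW c0 (subFaces T N) U) i - cmean N U i) ^ 2 with hA
        have hA1 : (t : ℝ) ^ 3 * A ≤ 128 * S := by
          have h1 := hsub (fun i => avg c (peW c0 (subFaces T N) U) i - cmean N U i)
          have h2 : (t : ℝ) ^ 3 * A ≤ (t : ℝ) ^ 3 * ∑ i : c.I, (avg c (peW c0 (subFaces T N) U) i - cmean N U i) ^ 2 :=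
            mul_le_mul_of_nonneg_left h1 (by positivity)
          linarith
        have hA2 : A ≤ 128 / (t : ℝ) ^ 3 * S := by
          rw [div_mul_eq_mul_div, le_div_iff₀ (by positivity)]
          linarith
        have h3 : 128 / (t : ℝ) ^ 3 * S ≤ (256 * (1 + C) / (t : ℝ) ^ 3 + 2 * C / (t : ℝ) ^ 2) * S := by
          refine mul_le_mul_of_nonneg_right ?_ hS0
          have h4 : 128 / (t : ℝ) ^ 3 ≤ 256 * (1 + C) / (t : ℝ) ^ 3 := by
            apply div_le_div_of_nonneg_right _ (by positivity)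
            linarith
          have h5 : 0 ≤ 2 * C / (t : ℝ) ^ 2 := by positivity
          linarith
        exact hA2.trans h3

theorem pe_en_nonneg {H : HGraph} (v : H.V → ℝ) : 0 ≤ HLaw.en v 0 :=
  Finset.sum_nonneg fun _ _ => sq_nonneg _

theorem pe_avgEn_nonneg {H : HGraph} {C : Type} (κ₀ : H.V → C) (v : H.V → ℝ) : 0 ≤ avgEn κ₀ v :=
  Finset.sum_nonneg fun _ _ => sq_nonneg _

theorem pe_F_nonneg (T : F4a.Top c) (c0 : Grid G) (a δ : ℝ) (ha : 0 < a) (hδ : 0 ≤ δ) (y : c.I → ℝ) (v : T.graph.V → ℝ) :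
    0 ≤ peF T c0 a δ y v := by
  unfold peF
  have h1 := pe_en_nonneg v
  have h2 := pe_avgEn_nonneg (subOf T c0) v
  have h3 : 0 ≤ ∑ i ∈ T.cells, (cav T v i - y i) ^ 2 := Finset.sum_nonneg fun _ _ => sq_nonneg _
  have h4 : 0 < a⁻¹ := inv_pos.2 ha
  positivity

theorem pe_F_bdd (T : F4a.Top c) (c0 : Grid G) (a δ : ℝ) (ha : 0 < a) (hδ : 0 ≤ δ) (y : c.I → ℝ) :
    BddBelow (Set.range (peF T c0 a δ y)) :=
  ⟨0, by rintro _ ⟨v, rfl⟩; exact pe_F_nonneg T c0 a δ ha hδ y v⟩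

theorem pe_aPrime_inv (a δ : ℝ) : (aPrime a δ)⁻¹ = a⁻¹ + δ := by
  unfold aPrime; rw [inv_inv]

/-- the exact half -/
theorem pe_left (a δ : ℝ) (ha : 0 < a) (hδ : 0 ≤ δ) (hc : Whole c) (hc0 : Whole c0) (N : Nest c0 c) (T : F4a.Top c) (hT : T.Ok) (y : c.I → ℝ) :
    Ephys T c0 a δ y ≤ T.Eobs (aPrime a δ) 0 y := by
  unfold Top.Eobs Top.En
  refine le_ciInf fun w => ?_
  rw [pe_quad_eq T (aPrime a δ) y w, pe_aPrime_inv]
  obtain ⟨h1, h2⟩ := pe_restrict hc T w
  have h3 := pe_avgEn_le hc hc0 N T hT (fun x => w x.1)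
  calc Ephys T c0 a δ y ≤ peF T c0 a δ y (fun x => w x.1) := ciInf_le (pe_F_bdd T c0 a δ ha hδ y) _
    _ ≤ _ := by
      unfold peF
      rw [Finset.sum_congr rfl fun i hi => by rw [h2 i hi]]
      rw [← h1]
      nlinarith [mul_le_mul_of_nonneg_left h3 hδ]

theorem pe_young (p q y θ : ℝ) (hθ : 0 < θ) : (p - y) ^ 2 ≤ (1 + θ) * (q - y) ^ 2 + (1 + 1 / θ) * (p - q) ^ 2 := by
  have h : 0 ≤ (θ * (q - y) - (p - q)) ^ 2 / θ := by positivity
  have h2 : (θ * (q - y) - (p - q)) ^ 2 / θ = θ * (q - y) ^ 2 - 2 * (q - y) * (p - q) + 1 / θ * (p - q) ^ 2 := by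
    field_simp
    ring
  rw [h2] at h
  nlinarith

theorem pe_quad_bdd (T : F4a.Top c) (a' : ℝ) (ha' : 0 < a') (y : c.I → ℝ) :
    BddBelow (Set.range (T.quad a' (fun f => 2 * Real.pi * ((0 : Face c → ℤ) f : ℝ)) y)) := by
  refine ⟨0, ?_⟩
  rintro _ ⟨w, rfl⟩
  show 0 ≤ T.quad a' (fun f => 2 * Real.pi * ((0 : Face c → ℤ) f : ℝ)) y w
  rw [pe_quad_eq]
  have h1 : 0 ≤ ∑ e : T.graph.E, (w (stp e.1.1 e.1.2) - w e.1.1) ^ 2 := Finset.sum_nonneg fun _ _ => sq_nonneg _
  have h3 : 0 ≤ ∑ i ∈ T.cells, (avg c w i - y i) ^ 2 := Finset.sum_nonneg fun _ _ => sq_nonneg _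
  have h4 : 0 < a'⁻¹ := inv_pos.2 ha'
  positivity

/-- **THE TARGET** -/
theorem pe_main (a δ : ℝ) (ha : 0 < a) (hδ : 0 ≤ δ) : ∃ η : ℕ → ℝ, Tendsto η atTop (𝓝 0) ∧ (∀ t, 0 ≤ η t) ∧
    ∀ (G : Geom) (c c0 : Grid G) (_ : Whole c) (_ : Whole c0) (_ : Nest c0 c) (t : ℕ) (_ : c.m = t * c0.m) (T : F4a.Top c) (_ : T.Ok) (y : c.I → ℝ),
      Ephys T c0 a δ y ≤ T.Eobs (aPrime a δ) 0 y ∧ T.Eobs (aPrime a δ) 0 y ≤ (1 + η t) * Ephys T c0 a δ y := by
  obtain ⟨e₁, e₂, he₁, he₂, hpos, H⟩ := pe_int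
  have hai : 0 < a⁻¹ := inv_pos.2 ha
  have ha' : 0 < aPrime a δ := by unfold aPrime; positivity
  have haa : aPrime a δ * (a⁻¹ + δ) = 1 := by
    unfold aPrime; exact inv_mul_cancel₀ (by positivity)
  set θ : ℕ → ℝ := fun t => Real.sqrt (e₂ t) + 1 / ((t : ℝ) + 1) with hθdef
  have hθpos : ∀ t, 0 < θ t := fun t => by
    have := Real.sqrt_nonneg (e₂ t)
    have h2 : (0 : ℝ) < 1 / ((t : ℝ) + 1) := by positivity
    simp only [hθdef]; linarith
  have hθlim : Tendsto θ atTop (𝓝 0) := by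
    have h1 : Tendsto (fun t => Real.sqrt (e₂ t)) atTop (𝓝 0) := by
      have := (Real.continuous_sqrt.tendsto 0).comp he₂
      rw [Real.sqrt_zero] at this
      exact this
    have h2 : Tendsto (fun t : ℕ => 1 / ((t : ℝ) + 1)) atTop (𝓝 0) := tendsto_one_div_add_atTop_nhds_zero_nat
    have h3 := h1.add h2
    rw [add_zero] at h3
    exact h3
  have hθsq : ∀ t, e₂ t ≤ θ t ^ 2 := fun t => by
    have h0 := Real.sqrt_nonneg (e₂ t)
    have h1 := Real.sq_sqrt (hpos t).2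
    have h2 : (0 : ℝ) < 1 / ((t : ℝ) + 1) := by positivity
    simp only [hθdef]
    nlinarith
  refine ⟨fun t => e₁ t + (e₂ t + θ t) * aPrime a δ + θ t, ?_, ?_, ?_⟩
  · have := (he₁.add ((he₂.add hθlim).mul_const (aPrime a δ))).add hθlim
    simpa using this
  · intro t
    have := hpos t
    have := hθpos t
    have h3 : 0 ≤ (e₂ t + θ t) * aPrime a δ := by
      apply mul_nonneg _ ha'.le; linarith [(hpos t).2]
    linarith [(hpos t).1]
  · intro G c c0 hc hc0 N t ht T hT y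
    refine ⟨pe_left a δ ha hδ hc hc0 N T hT y, ?_⟩
    set η : ℝ := e₁ t + (e₂ t + θ t) * aPrime a δ + θ t with hη
    have hη0 : 0 ≤ η := by
      have h3 : 0 ≤ (e₂ t + θ t) * aPrime a δ := by
        apply mul_nonneg _ ha'.le; linarith [(hpos t).2, hθpos t]
      linarith [(hpos t).1, hθpos t]
    have key : ∀ v : T.graph.V → ℝ, T.Eobs (aPrime a δ) 0 y ≤ (1 + η) * peF T c0 a δ y v := by
      intro v
      obtain ⟨w, hw1, hw2⟩ := H G c c0 hc hc0 N t ht T hT (sav T c0 v)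
      set S := peS c0 (subFaces T N) (sav T c0 v) with hS
      have hS0 : 0 ≤ S := Finset.sum_nonneg fun _ _ => sq_nonneg _
      have hSA : S ≤ avgEn (subOf T c0) v := avgEn_ge hc hc0 N T hT v
      have hAE : avgEn (subOf T c0) v ≤ HLaw.en v 0 := pe_avgEn_le hc hc0 N T hT v
      have hE : T.Eobs (aPrime a δ) 0 y ≤ T.quad (aPrime a δ) (fun f => 2 * Real.pi * ((0 : Face c → ℤ) f : ℝ)) y w :=
        ciInf_le (pe_quad_bdd T _ ha' y) w
      rw [pe_quad_eq, pe_aPrime_inv] at hE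
      set R := ∑ i ∈ T.cells, (cav T v i - y i) ^ 2 with hR
      have hR0 : 0 ≤ R := Finset.sum_nonneg fun _ _ => sq_nonneg _
      have hY : ∑ i ∈ T.cells, (avg c w i - y i) ^ 2 ≤ (1 + θ t) * R + (1 + 1 / θ t) * (e₂ t * S) := by
        calc ∑ i ∈ T.cells, (avg c w i - y i) ^ 2
            ≤ ∑ i ∈ T.cells, ((1 + θ t) * (cav T v i - y i) ^ 2 + (1 + 1 / θ t) * (avg c w i - cmean N (sav T c0 v) i) ^ 2) := by
              refine Finset.sum_le_sum fun i hi => ?_
              rw [cav_eq_cmean hc hc0 N T v i hi]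
              exact pe_young _ _ _ _ (hθpos t)
          _ = (1 + θ t) * R + (1 + 1 / θ t) * ∑ i ∈ T.cells, (avg c w i - cmean N (sav T c0 v) i) ^ 2 := by
              rw [Finset.sum_add_distrib, ← Finset.mul_sum, ← Finset.mul_sum]
          _ ≤ _ := by
              have : 0 ≤ 1 + 1 / θ t := by have := hθpos t; positivity
              have := mul_le_mul_of_nonneg_left hw2 this
              linarith
      have hq : (1 + 1 / θ t) * (e₂ t * S) ≤ (e₂ t + θ t) * S := by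
        have h1 : 1 / θ t * e₂ t ≤ θ t := by
          rw [div_mul_eq_mul_div, one_mul, div_le_iff₀ (hθpos t)]
          nlinarith [hθsq t]
        nlinarith [mul_le_mul_of_nonneg_right h1 hS0]
      set P := a⁻¹ * HLaw.en v 0 + δ * avgEn (subOf T c0) v with hP
      have hSP : (a⁻¹ + δ) * S ≤ P := by
        have h1 : a⁻¹ * S ≤ a⁻¹ * HLaw.en v 0 := mul_le_mul_of_nonneg_left (hSA.trans hAE) hai.le
        have h2 : δ * S ≤ δ * avgEn (subOf T c0) v := mul_le_mul_of_nonneg_left hSA hδ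
        linarith
      have hSP' : S ≤ aPrime a δ * P := by
        calc S = aPrime a δ * ((a⁻¹ + δ) * S) := by rw [← mul_assoc, haa, one_mul]
          _ ≤ _ := mul_le_mul_of_nonneg_left hSP ha'.le
      have hP0 : 0 ≤ P := le_trans (by positivity) hSP
      have hF : peF T c0 a δ y v = P + R := rfl
      rw [hF]
      have hg : (a⁻¹ + δ) * ∑ e : T.graph.E, (w (stp e.1.1 e.1.2) - w e.1.1) ^ 2 ≤ (1 + e₁ t) * P := by
        calc _ ≤ (a⁻¹ + δ) * ((1 + e₁ t) * S) := mul_le_mul_of_nonneg_left hw1 (by positivity)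
          _ = (1 + e₁ t) * ((a⁻¹ + δ) * S) := by ring
          _ ≤ _ := mul_le_mul_of_nonneg_left hSP (by linarith [(hpos t).1])
      have hs2 : (e₂ t + θ t) * S ≤ (e₂ t + θ t) * (aPrime a δ * P) :=
        mul_le_mul_of_nonneg_left hSP' (by linarith [(hpos t).2, hθpos t])
      have hfin : (1 + e₁ t) * P + ((1 + θ t) * R + (e₂ t + θ t) * (aPrime a δ * P)) ≤ (1 + η) * (P + R) := by
        have e1 : (1 + η) * (P + R) - ((1 + e₁ t) * P + ((1 + θ t) * R + (e₂ t + θ t) * (aPrime a δ * P)))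
            = θ t * P + (e₁ t + (e₂ t + θ t) * aPrime a δ) * R := by rw [hη]; ring
        have e2 : 0 ≤ θ t * P + (e₁ t + (e₂ t + θ t) * aPrime a δ) * R := by
          have h3 : 0 ≤ (e₂ t + θ t) * aPrime a δ := by
            apply mul_nonneg _ ha'.le; linarith [(hpos t).2, hθpos t]
          have h4 : 0 ≤ θ t * P := mul_nonneg (hθpos t).le hP0
          have h5 : 0 ≤ (e₁ t + (e₂ t + θ t) * aPrime a δ) * R := mul_nonneg (by linarith [(hpos t).1]) hR0
          linarith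
        linarith
      linarith
    have h1η : 0 < 1 + η := by linarith
    have : T.Eobs (aPrime a δ) 0 y / (1 + η) ≤ Ephys T c0 a δ y := by
      refine le_ciInf fun v => ?_
      rw [div_le_iff₀ h1η, mul_comm]
      exact key v
    rw [div_le_iff₀ h1η] at this
    linarith

end

end Claimed.Agent.R285.C5
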