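import Claimed.Agent.R285.C5.EsWin
import Claimed.Agent.R285.C5.PotE
import Claimed.Agent.R285.Map.TorSym
import Claimed.Agent.R285.Map.Defs

/-!
# ROW 285, [C] s5.3, package ES-POT: every shape is realised in a torus; the window energies `esWE`, `esWE0` are the engine energies `Ephys`, `T.Eobs` of `C5/PotE.lean`      (helper14)

`espvG` = torus of side `(m₁ + m₂ + 2) t s0`, `espvC` = cells of side `t s0`, `espvC0` = subcells of side `s0`, `espvW` = window at the origin, `espvT Γ` = image of the shape.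
Exits: `espv_WE`, `espv_WE0` (through `esw_iso`, `esw_Eobs` of helper60 and `pe_Ephys_eq` of helper83), `espv_WE0_le`.   No sorry.
-/

set_option autoImplicit false

namespace Claimed.Agent.R285.C5

open scoped BigOperators
open Filter Topology
open Claimed.Agent.R285 Claimed.Agent.R285.RG Claimed.Agent.R285.F4a Claimed.Agent.R285.Entry

noncomputable section

/-- the torus which carries the shapes of `m₁ × m₂` cells of side `t * s0` -/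
def espvG (m₁ m₂ t s0 : ℕ) (ht : 0 < t) (hs : 0 < s0) : Geom := ⟨BC.per, (m₁ + m₂ + 2) * (t * s0), by positivity⟩

theorem espv_dvd (m₁ m₂ t s0 : ℕ) (ht : 0 < t) (hs : 0 < s0) : t * s0 ∣ (espvG m₁ m₂ t s0 ht hs).M := Dvd.intro_left _ rfl

theorem espv_dvd0 (m₁ m₂ t s0 : ℕ) (ht : 0 < t) (hs : 0 < s0) : s0 ∣ (espvG m₁ m₂ t s0 ht hs).M :=
  (Dvd.intro_left t rfl).trans (espv_dvd m₁ m₂ t s0 ht hs)

/-- observation cells -/
def espvC (m₁ m₂ t s0 : ℕ) (ht : 0 < t) (hs : 0 < s0) : Grid (espvG m₁ m₂ t s0 ht hs) := torusGrid _ (t * s0) (espv_dvd m₁ m₂ t s0 ht hs)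

/-- subcells -/
def espvC0 (m₁ m₂ t s0 : ℕ) (ht : 0 < t) (hs : 0 < s0) : Grid (espvG m₁ m₂ t s0 ht hs) := torusGrid _ s0 (espv_dvd0 m₁ m₂ t s0 ht hs)

theorem espv_n (m₁ m₂ t s0 : ℕ) (ht : 0 < t) (hs : 0 < s0) : (espvC m₁ m₂ t s0 ht hs).n = m₁ + m₂ + 2 :=
  Nat.mul_div_cancel _ (Nat.mul_pos ht hs)

theorem espv_vol (m₁ m₂ t s0 : ℕ) (ht : 0 < t) (hs : 0 < s0) : EsVol (espvC m₁ m₂ t s0 ht hs) (espvC0 m₁ m₂ t s0 ht hs) t s0 where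
  hc := ⟨Nat.mul_pos ht hs, (B8.torusGrid_ok _ _ _ (Nat.mul_pos ht hs)).mono, B8.torusGrid_card _ _ _ (Nat.mul_pos ht hs), by
    rw [espv_n]; omega⟩
  hc0 := ⟨hs, (B8.torusGrid_ok _ _ _ hs).mono, B8.torusGrid_card _ _ _ hs, by
    show 2 ≤ (m₁ + m₂ + 2) * (t * s0) / s0
    rw [← mul_assoc, Nat.mul_div_cancel _ hs]
    nlinarith⟩
  nest := ⟨Tow.tgNest _ s0 (t * s0) _ _ (Dvd.intro_left t rfl)⟩
  m0 := rfl
  m := rfl

/-- the window at the origin -/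
def espvW (m₁ m₂ t s0 : ℕ) (ht : 0 < t) (hs : 0 < s0) : EgWin (espvC m₁ m₂ t s0 ht hs) m₁ m₂ where
  o := (⟨0, by rw [espv_n]; omega⟩, ⟨0, by rw [espv_n]; omega⟩)
  le₁ := by rw [espv_n]; omega
  le₂ := by rw [espv_n]; omega
  free := fun h => by cases h

open Classical in
/-- the topology of a shape -/
def espvT {m₁ m₂ : ℕ} (t s0 : ℕ) (ht : 0 < t) (hs : 0 < s0) (Γ : CGeom m₁ m₂) : Top (espvC m₁ m₂ t s0 ht hs) where
  cells := Γ.T.image (espvW m₁ m₂ t s0 ht hs).emb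
  faces := (esSoft Γ).image (espvW m₁ m₂ t s0 ht hs).embF

theorem espv_mem_soft {n₁ n₂ : ℕ} (Γ' : CGeom n₁ n₂) (f : C3.Cell n₁ n₂ × Bool) :
    f ∈ esSoft Γ' ↔ f.1 ∈ Γ'.T ∧ f ∉ Γ'.cutF ∧ ∃ κ' ∈ Γ'.T, egWnb f κ' := by
  classical
  unfold esSoft
  simp

theorem espv_ok {m₁ m₂ : ℕ} (t s0 : ℕ) (ht : 0 < t) (hs : 0 < s0) (Γ : CGeom m₁ m₂) : (espvT t s0 ht hs Γ).Ok := by
  classical
  intro f' hf'
  obtain ⟨f, hf, rfl⟩ := Finset.mem_image.1 hf'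
  obtain ⟨h1, -, κ', hκ', hn⟩ := (espv_mem_soft Γ f).1 hf
  refine ⟨Or.inl rfl, Finset.mem_image.2 ⟨f.1, h1, rfl⟩, ?_⟩
  rw [(eg_win_fnb (espv_vol m₁ m₂ t s0 ht hs).hc _ f κ' hn).1]
  exact Finset.mem_image.2 ⟨κ', hκ', rfl⟩

theorem espv_shp {m₁ m₂ : ℕ} (t s0 : ℕ) (ht : 0 < t) (hs : 0 < s0) (Γ : CGeom m₁ m₂) (hp : Γ.pin = ∅) :
    (espvW m₁ m₂ t s0 ht hs).Shp (espvT t s0 ht hs Γ) Γ := by
  classical
  have hinj := eg_win_emb_inj (espv_vol m₁ m₂ t s0 ht hs).hc (espvW m₁ m₂ t s0 ht hs)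
  refine ⟨⟨fun i hi => ?_, fun f' hf' => ?_⟩, fun κ => ?_, fun f κ' hn h1 h2 => ?_, hp⟩
  · obtain ⟨κ, -, rfl⟩ := Finset.mem_image.1 hi
    exact ⟨κ, rfl⟩
  · obtain ⟨f, hf, rfl⟩ := Finset.mem_image.1 hf'
    obtain ⟨-, -, κ', -, hn⟩ := (espv_mem_soft Γ f).1 hf
    exact ⟨f.1, eg_win_inner_of_nb _ hn, rfl⟩
  · constructor
    · intro h
      exact Finset.mem_image.2 ⟨κ, h, rfl⟩
    · intro h
      obtain ⟨κ', hκ', he⟩ := Finset.mem_image.1 h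
      rw [← hinj he]
      exact hκ'
  · constructor
    · intro hc hmem
      obtain ⟨f', hf', he⟩ := Finset.mem_image.1 hmem
      have e1 : f' = f := by
        have a1 : (espvW m₁ m₂ t s0 ht hs).emb f'.1 = (espvW m₁ m₂ t s0 ht hs).emb f.1 := congrArg Prod.fst he
        have a2 : ((espvW m₁ m₂ t s0 ht hs).embF f').2 = ((espvW m₁ m₂ t s0 ht hs).embF f).2 := congrArg Prod.snd he
        exact Prod.ext (hinj a1) a2
      subst e1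
      exact ((espv_mem_soft Γ f').1 hf').2.1 hc
    · intro hmem
      by_contra hc
      exact hmem (Finset.mem_image.2 ⟨f, (espv_mem_soft Γ f).2 ⟨h1, hc, κ', h2, hn⟩, rfl⟩)

open Classical in
/-- an observation of the window as an observation of the volume -/
def espvY {m₁ m₂ : ℕ} (t s0 : ℕ) (ht : 0 < t) (hs : 0 < s0) (y : C3.Cell m₁ m₂ → ℝ) : (espvC m₁ m₂ t s0 ht hs).I → ℝ :=
  fun i => if h : ∃ κ, (espvW m₁ m₂ t s0 ht hs).emb κ = i then y h.choose else 0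

theorem espv_obs {m₁ m₂ : ℕ} (t s0 : ℕ) (ht : 0 < t) (hs : 0 < s0) (y : C3.Cell m₁ m₂ → ℝ) :
    (espvW m₁ m₂ t s0 ht hs).obs (espvY t s0 ht hs y) = y := by
  funext κ
  have hinj := eg_win_emb_inj (espv_vol m₁ m₂ t s0 ht hs).hc (espvW m₁ m₂ t s0 ht hs)
  have hex : ∃ κ', (espvW m₁ m₂ t s0 ht hs).emb κ' = (espvW m₁ m₂ t s0 ht hs).emb κ := ⟨κ, rfl⟩
  show (if h : ∃ κ', (espvW m₁ m₂ t s0 ht hs).emb κ' = (espvW m₁ m₂ t s0 ht hs).emb κ then y h.choose else 0) = y κ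
  rw [dif_pos hex, hinj hex.choose_spec]

/-- the reference energy of a shape is the reference energy of the engine -/
theorem espv_WE0 {m₁ m₂ : ℕ} (t s0 : ℕ) (ht : 0 < t) (hs : 0 < s0) (Γ : CGeom m₁ m₂) (hp : Γ.pin = ∅) (a' : ℝ) (y : C3.Cell m₁ m₂ → ℝ) :
    esWE0 Γ t s0 a' y = (espvT t s0 ht hs Γ).Eobs a' 0 (espvY t s0 ht hs y) := by
  rw [esw_Eobs (espv_vol m₁ m₂ t s0 ht hs) _ _ (espv_ok t s0 ht hs Γ) Γ (espv_shp t s0 ht hs Γ hp) _ (esw_ref_refine Γ hp t) a', espv_obs]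
  rfl

/-- the physical energy of a shape is the physical energy of the engine -/
theorem espv_WE {m₁ m₂ : ℕ} (t s0 : ℕ) (ht : 0 < t) (hs : 0 < s0) (Γ : CGeom m₁ m₂) (hp : Γ.pin = ∅) (δ : ℝ) (hδ : 0 ≤ δ) (a : ℝ) (y : C3.Cell m₁ m₂ → ℝ) :
    esWE Γ t s0 δ a y = Ephys (espvT t s0 ht hs Γ) (espvC0 m₁ m₂ t s0 ht hs) a δ (espvY t s0 ht hs y) := by
  obtain ⟨i, -, hc⟩ := esw_iso (espv_vol m₁ m₂ t s0 ht hs) δ _ _ (espv_ok t s0 ht hs Γ) Γ (espv_shp t s0 ht hs Γ hp) _ (esw_ref_refine Γ hp t)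
    (esRow Γ t δ) (eswE Γ t) (esw_row_e Γ t δ)
  rw [pe_Ephys_eq _ _ _ _ hδ, hi_gEn i, hc, espv_obs, esw_cen_e]
  rfl

/-- the trial field `0` -/
theorem espv_gEn_le {G : HGraph} (H : HLaw G) (a : ℝ) (ha : 0 < a) (c : H.O → ℝ) : H.gEn a 0 c ≤ ∑ o, c o ^ 2 := by
  have hbdd : BddBelow (Set.range fun v : H.rspan => a⁻¹ * HLaw.en (v : G.V → ℝ) 0 + ∑ o, (H.obs (v : G.V → ℝ) o - c o) ^ 2) := by
    refine ⟨0, ?_⟩
    rintro _ ⟨v, rfl⟩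
    exact add_nonneg (mul_nonneg (inv_pos.2 ha).le (Finset.sum_nonneg fun _ _ => sq_nonneg _)) (Finset.sum_nonneg fun _ _ => sq_nonneg _)
  have h1 : H.gEn a 0 c ≤ a⁻¹ * HLaw.en (((0 : H.rspan) : G.V → ℝ)) 0 + ∑ o, (H.obs (((0 : H.rspan) : G.V → ℝ)) o - c o) ^ 2 :=
    ciInf_le hbdd 0
  have h2 : HLaw.en (((0 : H.rspan) : G.V → ℝ)) (0 : G.E → ℝ) = 0 := by
    unfold HLaw.en
    simp
  have h3 : ∀ o, H.obs (((0 : H.rspan) : G.V → ℝ)) o = 0 := by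
    intro o
    unfold HLaw.obs
    simp
  rw [h2, mul_zero, zero_add, Finset.sum_congr rfl fun o _ => by rw [h3 o, zero_sub, neg_sq]] at h1
  exact h1

theorem espv_WE0_le {m₁ m₂ : ℕ} (t s0 : ℕ) (Γ : CGeom m₁ m₂) (a' : ℝ) (ha' : 0 < a') (y : C3.Cell m₁ m₂ → ℝ) (U : ℝ) (hy : ∀ κ, |y κ| ≤ U) :
    esWE0 Γ t s0 a' y ≤ ((m₁ * m₂ : ℕ) : ℝ) * U ^ 2 := by
  have h1 : esWE0 Γ t s0 a' y ≤ ∑ o, egCen Γ y o ^ 2 := espv_gEn_le (esL0 Γ t s0) a' ha' (egCen Γ y)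
  refine h1.trans ?_
  have h4 : ∑ o, egCen Γ y o ^ 2 ≤ ∑ _o : Fin Γ.T.card, U ^ 2 := by
    refine Finset.sum_le_sum fun o _ => ?_
    exact sq_le_sq' (by have := abs_le.1 (hy (Γ.T.equivFin.symm o).1); exact this.1) (abs_le.1 (hy (Γ.T.equivFin.symm o).1)).2
  refine h4.trans ?_
  rw [Finset.sum_const, Finset.card_univ, Fintype.card_fin, nsmul_eq_mul]
  refine mul_le_mul_of_nonneg_right ?_ (sq_nonneg U)
  have h5 : Γ.T.card ≤ m₁ * m₂ := by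
    have := Finset.card_le_univ Γ.T
    simpa using this
  exact_mod_cast h5

end

end Claimed.Agent.R285.C5
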