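import Claimed.Agent.R285.C5.EsPotBr
import Claimed.Agent.R285.C5.EsPotV

/-!
# ROW 285, [C] s5.3, post C5-BOX, package ES-POT (exit of PK-C5-POT1): the second limit `t → ∞` for the energies      (contract: helper262; architect helper83)

`esWE Γ t s0 δ a y   = min_v a⁻¹ 𝓔 (v) + δ avgEn_t (v) + |B v - y|²`   (physical reference),      `esWE0 Γ t s0 a' y = min_v a'⁻¹ 𝓔 (v) + |B v - y|²`   (reference of the engine), SAME graph `(Geo.refine Γ t).graph (egGr .. s0)`.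
`≤` : `avgEn ≤ 𝓔` (`C5.avgEn_le`, `pot_gEn_le`), exact for all `t, s0`.      `≥ - ε` : `C5.pot_gEn_limit`.
BRIDGE to the vocabulary of `C5/Pot.lean`: `Γobs` = `Γ` with `nObs = Γ.T.card`, `box o = {cell o}`, `wgt = 1`; `(Geo.refine Γobs t).law g` and `esL0 Γ t s0` have the same rows (a cell average is the mean of its `t²` subcell averages),
`Geo.lawS (Geo.refine Γobs t) g δ` and `esLw Γ t s0 δ` have the same rows up to a bijection of the index types (`cellPairs (cellOf ..) ≃ esSoft (Geo.refine Γ t)`); `gEn` only sees `∑_o (obs v o - c o)²` (`Entry.hi_gEn`);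
`egGr n₁ n₂ (s0 + 1) = Geo.ug n₁ n₂ s0`.   Finitely many shapes: `Filter.eventually_all`.
STATUS (helper14, 19:20Z): BOTH EXITS PROVED, closure without sorry.   `es_pot_le`: bridge `C5/EsPotBr.lean` + `pot_gEn_le`.   `es_pot_E`: every shape is realised in a torus (`C5/EsPotV.lean`), then `C5.pe_main` (helper83); `NoDiag` is not used; `C5.pot_gEn_limit` is NOT used any more.
-/

set_option autoImplicit false

namespace Claimed.Agent.R285.C5

open scoped BigOperators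
open Filter Topology
open Claimed.Agent.R285 Claimed.Agent.R285.Entry

noncomputable section

/-- exact half -/
theorem es_pot_le (a δ : ℝ) (ha : 0 < a) (hδ : 0 ≤ δ) (m₁ m₂ t s0 : ℕ) (ht : 1 ≤ t) (hs : 1 ≤ s0) (Γ : CGeom m₁ m₂) (y : C3.Cell m₁ m₂ → ℝ) :
    esWE Γ t s0 δ a y ≤ esWE0 Γ t s0 (aPrime a δ) y := by
  obtain ⟨s, rfl⟩ : ∃ s, s0 = s + 1 := ⟨s0 - 1, by omega⟩
  rw [esp_WE Γ t s ht, esp_WE0 Γ t s ht]
  exact pot_gEn_le (espObs Γ) a δ ha hδ t s (egCen Γ y)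

/-- **the physical energy converges to the reference energy**, uniformly on compact data and on all shapes of the window -/
theorem es_pot_E (a δ : ℝ) (ha : 0 < a) (hδ : 0 ≤ δ) (m₁ m₂ : ℕ) (U ε : ℝ) (hε : 0 < ε) :
    ∀ᶠ t : ℕ in atTop, ∀ᶠ s0 : ℕ in atTop, ∀ (T : Finset (C3.Cell m₁ m₂)) (cutF : Finset (C3.Cell m₁ m₂ × Bool)), (egSh T cutF).NoDiag →
      ∀ y : C3.Cell m₁ m₂ → ℝ, (∀ κ, |y κ| ≤ U) → |esWE (egSh T cutF) t s0 δ a y - esWE0 (egSh T cutF) t s0 (aPrime a δ) y| ≤ ε := by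
  obtain ⟨η, hη, hη0, H⟩ := pe_main a δ ha hδ
  have ha' : 0 < aPrime a δ := by
    have := inv_pos.2 ha
    unfold aPrime
    positivity
  have hlim : Tendsto (fun t => η t * (((m₁ * m₂ : ℕ) : ℝ) * U ^ 2)) atTop (𝓝 0) := by
    simpa using hη.mul_const (((m₁ * m₂ : ℕ) : ℝ) * U ^ 2)
  filter_upwards [hlim.eventually (gt_mem_nhds hε), eventually_ge_atTop 1] with t h1 ht
  filter_upwards [eventually_ge_atTop 1] with s0 hs T cutF _ y hy
  have hV := espv_vol m₁ m₂ t s0 ht hs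
  obtain ⟨N⟩ := hV.nest
  obtain ⟨hE1, hE2⟩ := H _ _ _ hV.hc hV.hc0 N t rfl (espvT t s0 ht hs (egSh T cutF)) (espv_ok t s0 ht hs _) (espvY t s0 ht hs y)
  rw [← espv_WE t s0 ht hs (egSh T cutF) rfl δ hδ a y, ← espv_WE0 t s0 ht hs (egSh T cutF) rfl (aPrime a δ) y] at hE1 hE2
  have hB := espv_WE0_le t s0 (egSh T cutF) (aPrime a δ) ha' y U hy
  have h2 : η t * esWE (egSh T cutF) t s0 δ a y ≤ η t * (((m₁ * m₂ : ℕ) : ℝ) * U ^ 2) :=
    mul_le_mul_of_nonneg_left (hE1.trans hB) (hη0 t)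
  rw [abs_le]
  constructor <;> linarith

end

end Claimed.Agent.R285.C5
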