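import Claimed.Agent.R285.C5.EsDefs
import Claimed.Agent.R285.Sec.Fin

/-!
# ROW 285, [C] s5.3, package ES-SOFT, leaf L-ES-SOFT-INJ      (architect helper60)

Every constant is confined in the strengthened window laws: a real field on the refined graph with zero gradients whose averages over the present OBSERVATION cells vanish is zero.   PAPER-FREE.
Stated for every geometry `Γ'` in units of subcells whose cells are the subcells under `T₀` and whose removed faces lie in faces of observation cells (instances: `Geo.refine Γ t` and `C3.uncut (Geo.refine Γ t) (esUpF t F)`).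
PLAN = `Sec.sec_cell_const` + `Entry.eg_lw_inj_aux` (`Entry/GoodSoft.lean`) with the cell replaced by the BLOCK `{p | S K₁ ≤ p.1 < S (K₁ + 1), S K₂ ≤ p.2 < S (K₂ + 1)}`, `S = t * max s0 1`:
(1) a site `p` lies in the subcell `κ` iff `max s0 1 * κ_i ≤ p_i < max s0 1 * (κ_i + 1)` (`Sec.sec_mem_cell`, `DGrid.unif`, `egGr`), so it lies in the block of `K = up t κ`;
(2) a bond with both ends in the block of `K ∈ T₀` is a bond of the graph: if it were in `Γ'.cutB` it would leave a subcell `f.1` through a face with `(f.1_d + 1) % t = 0`, i.e. leave the block;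
(3) so `u` is constant on the block (two inductions as in `sec_cell_const`);
(4) `∑_v (∑_κ [up κ = K] t⁻² avgRow {κ} v) u v = u x * ∑_v (…)` and the last sum is positive (all terms are `≥ 0`, the one at `x` is `> 0`).
-/

set_option autoImplicit false

namespace Claimed.Agent.R285.C5

open scoped BigOperators
open Claimed.Agent.R285 Claimed.Agent.R285.Entry

theorem ess_inj_mem_cell (m₁ m₂ t s0 : ℕ) (κ : C3.Cell (t * m₁) (t * m₂)) (p : ℤ × ℤ) :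
    p ∈ (esGr m₁ m₂ t s0).cell κ ↔
      ((((max s0 1 : ℕ) : ℤ) * (κ.1.1 : ℤ) ≤ p.1 ∧ p.1 < ((max s0 1 : ℕ) : ℤ) * ((κ.1.1 : ℤ) + 1)) ∧
        (((max s0 1 : ℕ) : ℤ) * (κ.2.1 : ℤ) ≤ p.2 ∧ p.2 < ((max s0 1 : ℕ) : ℤ) * ((κ.2.1 : ℤ) + 1))) := by
  simp [DGrid.cell, DGrid.unif, egGr, Finset.mem_product, Finset.mem_Ico]

/-- one coordinate: a subcell lies in its block -/
theorem ess_inj_sub1 {t l a : ℕ} (ht : 0 < t) {x : ℤ} (h1 : (l : ℤ) * (a : ℤ) ≤ x) (h2 : x < (l : ℤ) * ((a : ℤ) + 1)) :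
    ((t * l : ℕ) : ℤ) * ((a / t : ℕ) : ℤ) ≤ x ∧ x < ((t * l : ℕ) : ℤ) * (((a / t : ℕ) : ℤ) + 1) := by
  have e1 : t * (a / t) ≤ a := Nat.mul_div_le a t
  have e2 : a + 1 ≤ t * (a / t + 1) := Nat.lt_mul_div_succ a ht
  have f1 : ((t * l : ℕ) : ℤ) * ((a / t : ℕ) : ℤ) ≤ (l : ℤ) * (a : ℤ) := by
    have : (t * l) * (a / t) ≤ l * a := by
      calc (t * l) * (a / t) = l * (t * (a / t)) := by ring
        _ ≤ l * a := Nat.mul_le_mul_left l e1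
    exact_mod_cast this
  have f2 : (l : ℤ) * ((a : ℤ) + 1) ≤ ((t * l : ℕ) : ℤ) * (((a / t : ℕ) : ℤ) + 1) := by
    have : l * (a + 1) ≤ (t * l) * (a / t + 1) := by
      calc l * (a + 1) ≤ l * (t * (a / t + 1)) := Nat.mul_le_mul_left l e2
        _ = (t * l) * (a / t + 1) := by ring
    exact_mod_cast this
  exact ⟨f1.trans h1, lt_of_lt_of_le h2 f2⟩

/-- one coordinate: a point of a block lies in a subcell over it -/
theorem ess_inj_full1 {t l k i : ℕ} (hl : 0 < l) (hi : i < k) {x : ℤ} (h1 : ((t * l : ℕ) : ℤ) * (i : ℤ) ≤ x)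
    (h2 : x < ((t * l : ℕ) : ℤ) * ((i : ℤ) + 1)) :
    ∃ a : ℕ, a < t * k ∧ a / t = i ∧ (l : ℤ) * (a : ℤ) ≤ x ∧ x < (l : ℤ) * ((a : ℤ) + 1) := by
  have hx0 : 0 ≤ x := le_trans (by positivity) h1
  obtain ⟨n, rfl⟩ := Int.eq_ofNat_of_zero_le hx0
  have g1 : (t * l) * i ≤ n := by exact_mod_cast h1
  have g2 : n < (t * l) * (i + 1) := by exact_mod_cast h2
  refine ⟨n / l, ?_, ?_, ?_, ?_⟩
  · rw [Nat.div_lt_iff_lt_mul hl]
    calc n < (t * l) * (i + 1) := g2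
      _ ≤ (t * l) * k := Nat.mul_le_mul_left _ hi
      _ = t * k * l := by ring
  · rw [Nat.div_div_eq_div_mul]
    refine Nat.div_eq_of_lt_le ?_ ?_
    · calc i * (l * t) = (t * l) * i := by ring
        _ ≤ n := g1
    · calc n < (t * l) * (i + 1) := g2
        _ = (i + 1) * (l * t) := by ring
  · exact_mod_cast Nat.mul_div_le n l
  · exact_mod_cast Nat.lt_mul_div_succ n hl

/-- one coordinate: a step across the last line of a subcell whose index is `≡ -1 mod t` leaves the block -/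
theorem ess_inj_nocut1 {t l a i : ℕ} (ht : 0 < t) (hl : 0 < l) (hmod : (a + 1) % t = 0) {x : ℤ}
    (h2 : x < (l : ℤ) * ((a : ℤ) + 1)) (h3 : ¬ (x + 1 < (l : ℤ) * ((a : ℤ) + 1)))
    (g1 : ((t * l : ℕ) : ℤ) * (i : ℤ) ≤ x) (g2 : x + 1 < ((t * l : ℕ) : ℤ) * ((i : ℤ) + 1)) : False := by
  obtain ⟨q, hq⟩ := Nat.dvd_of_mod_eq_zero hmod
  have hx : x + 1 = ((t * l : ℕ) : ℤ) * (q : ℤ) := by
    have h4 : x + 1 = (l : ℤ) * ((a : ℤ) + 1) := by omega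
    have h5 : ((a : ℤ) + 1) = (t : ℤ) * (q : ℤ) := by exact_mod_cast hq
    rw [h4, h5]
    push_cast
    ring
  have hN : (0 : ℤ) < ((t * l : ℕ) : ℤ) := by exact_mod_cast Nat.mul_pos ht hl
  have k1 : ((t * l : ℕ) : ℤ) * (i : ℤ) < ((t * l : ℕ) : ℤ) * (q : ℤ) := by omega
  have k2 : ((t * l : ℕ) : ℤ) * (q : ℤ) < ((t * l : ℕ) : ℤ) * ((i : ℤ) + 1) := by omega
  have k3 := lt_of_mul_lt_mul_left k1 hN.le
  have k4 := lt_of_mul_lt_mul_left k2 hN.le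
  omega

/-- a function on `ℤ²` without gradient on the bonds of a rectangle is constant on the rectangle -/
theorem ess_inj_rect (U : ℤ × ℤ → ℝ) (a₁ b₁ a₂ b₂ : ℤ)
    (hU : ∀ e : Bond, ((a₁ ≤ e.1.1 ∧ e.1.1 < b₁) ∧ (a₂ ≤ e.1.2 ∧ e.1.2 < b₂)) →
      ((a₁ ≤ e.snd.1 ∧ e.snd.1 < b₁) ∧ (a₂ ≤ e.snd.2 ∧ e.snd.2 < b₂)) → U e.snd = U e.1)
    (p : ℤ × ℤ) (hp : (a₁ ≤ p.1 ∧ p.1 < b₁) ∧ (a₂ ≤ p.2 ∧ p.2 < b₂)) : U p = U (a₁, a₂) := by
  have H : ∀ (q n : ℤ), a₁ ≤ n → n < b₁ → (a₂ ≤ q ∧ q < b₂) → U (n, q) = U (a₁, q) := by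
    intro q n hn
    induction n, hn using Int.leInduction with
    | base => intro _ _; rfl
    | succ n hn ih =>
      intro hlt hq
      rw [← ih (by omega) hq]
      have hs : Bond.snd ((n, q), true) = (n + 1, q) := by simp [Bond.snd]
      have := hU ((n, q), true) ⟨⟨hn, by show n < b₁; omega⟩, hq⟩ (by rw [hs]; exact ⟨⟨by show a₁ ≤ n + 1; omega, hlt⟩, hq⟩)
      rwa [hs] at this
  have Vv : ∀ (q n : ℤ), a₂ ≤ n → n < b₂ → (a₁ ≤ q ∧ q < b₁) → U (q, n) = U (q, a₂) := by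
    intro q n hn
    induction n, hn using Int.leInduction with
    | base => intro _ _; rfl
    | succ n hn ih =>
      intro hlt hq
      rw [← ih (by omega) hq]
      have hs : Bond.snd ((q, n), false) = (q, n + 1) := by simp [Bond.snd]
      have := hU ((q, n), false) ⟨hq, ⟨hn, by show n < b₂; omega⟩⟩ (by rw [hs]; exact ⟨hq, ⟨by show a₂ ≤ n + 1; omega, hlt⟩⟩)
      rwa [hs] at this
  obtain ⟨p1, p2⟩ := p
  simp only at hp
  rw [H p2 p1 hp.1.1 hp.1.2 hp.2, Vv a₁ p2 hp.2.1 hp.2.2 ⟨le_rfl, lt_of_le_of_lt hp.1.1 hp.1.2⟩]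

/-- the statement for any grid whose cells are squares of side `l` -/
theorem ess_inj_aux {m₁ m₂ : ℕ} (t : ℕ) (ht : 1 ≤ t) (Γ' : CGeom (t * m₁) (t * m₂)) (T₀ : Finset (C3.Cell m₁ m₂))
    (hT : ∀ κ, κ ∈ Γ'.T ↔ Geo.up t κ ∈ T₀)
    (hcut : ∀ f ∈ Γ'.cutF, if f.2 then (f.1.1.1 + 1) % t = 0 else (f.1.2.1 + 1) % t = 0)
    (g : DGrid (t * m₁) (t * m₂)) (l : ℕ) (hl : 0 < l)
    (hcell : ∀ (κ : C3.Cell (t * m₁) (t * m₂)) (p : ℤ × ℤ), p ∈ g.cell κ ↔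
      (((l : ℤ) * (κ.1.1 : ℤ) ≤ p.1 ∧ p.1 < (l : ℤ) * ((κ.1.1 : ℤ) + 1)) ∧
        ((l : ℤ) * (κ.2.1 : ℤ) ≤ p.2 ∧ p.2 < (l : ℤ) * ((κ.2.1 : ℤ) + 1))))
    (u : (Γ'.graph g).V → ℝ)
    (hu : ∀ e, u ((Γ'.graph g).tgt e) = u ((Γ'.graph g).src e))
    (ho : ∀ K ∈ T₀, ∑ v, (∑ κ, (if Geo.up t κ = K then ((t : ℝ) ^ 2)⁻¹ else 0) * Γ'.avgRow g {κ} v) * u v = 0) :
    u = 0 := by
  -- the block of an observation cell
  obtain ⟨Bk, hBk⟩ : ∃ Bk : C3.Cell m₁ m₂ → ℤ × ℤ → Prop, ∀ K p, Bk K p ↔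
      ((((t * l : ℕ) : ℤ) * (K.1.1 : ℤ) ≤ p.1 ∧ p.1 < ((t * l : ℕ) : ℤ) * ((K.1.1 : ℤ) + 1)) ∧
        (((t * l : ℕ) : ℤ) * (K.2.1 : ℤ) ≤ p.2 ∧ p.2 < ((t * l : ℕ) : ℤ) * ((K.2.1 : ℤ) + 1))) := ⟨_, fun _ _ => Iff.rfl⟩
  have hsub : ∀ κ p, p ∈ g.cell κ → Bk (Geo.up t κ) p := by
    intro κ p hp
    rw [hcell] at hp
    rw [hBk]
    exact ⟨ess_inj_sub1 ht hp.1.1 hp.1.2, ess_inj_sub1 ht hp.2.1 hp.2.2⟩
  have hfull : ∀ K ∈ T₀, ∀ p, Bk K p → p ∈ g.region Γ'.T := by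
    intro K hK p hp
    rw [hBk] at hp
    obtain ⟨a, ha1, ha2, ha3, ha4⟩ := ess_inj_full1 hl K.1.2 hp.1.1 hp.1.2
    obtain ⟨b, hb1, hb2, hb3, hb4⟩ := ess_inj_full1 hl K.2.2 hp.2.1 hp.2.2
    refine Finset.mem_biUnion.2 ⟨(⟨a, ha1⟩, ⟨b, hb1⟩), ?_, ?_⟩
    · rw [hT]
      have : Geo.up t ((⟨a, ha1⟩, ⟨b, hb1⟩) : Fin (t * m₁) × Fin (t * m₂)) = K := Prod.ext (Fin.ext ha2) (Fin.ext hb2)
      rw [this]
      exact hK
    · rw [hcell]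
      exact ⟨⟨ha3, ha4⟩, ⟨hb3, hb4⟩⟩
  have hnocut : ∀ e ∈ Γ'.cutB g, ∀ K, ¬ (Bk K e.1 ∧ Bk K e.snd) := by
    rintro e ⟨f, hf, he2, he1, hes⟩ K ⟨hi1, hi2⟩
    have hf' := hcut f hf
    rw [hcell] at he1 hes
    rw [hBk] at hi1 hi2
    unfold Bond.snd at hes hi2
    rcases hb : f.2 with _ | _
    · rw [hb] at he2 hf'
      rw [he2] at hes hi2
      simp only [Bool.false_eq_true, if_false] at hes hi2 hf'
      exact ess_inj_nocut1 ht hl hf' he1.2.2 (fun h => hes ⟨he1.1, ⟨by omega, h⟩⟩) hi1.2.1 hi2.2.2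
    · rw [hb] at he2 hf'
      rw [he2] at hes hi2
      simp only [if_true] at hes hi2 hf'
      exact ess_inj_nocut1 ht hl hf' he1.1.2 (fun h => hes ⟨⟨by omega, h⟩, he1.2⟩) hi1.1.1 hi2.1.2
  -- `u` is constant on the blocks
  obtain ⟨U, hUdef⟩ : ∃ U : ℤ × ℤ → ℝ, ∀ (p : ℤ × ℤ) (hp : p ∈ g.region Γ'.T), U p = u ⟨p, hp⟩ :=
    ⟨fun p => if hp : p ∈ g.region Γ'.T then u ⟨p, hp⟩ else 0, fun p hp => dif_pos hp⟩
  have hconst : ∀ K ∈ T₀, ∀ p, Bk K p → U p = U (((t * l : ℕ) : ℤ) * (K.1.1 : ℤ), ((t * l : ℕ) : ℤ) * (K.2.1 : ℤ)) := by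
    intro K hK p hp
    refine ess_inj_rect U _ _ _ _ (fun e h1 h2 => ?_) p ((hBk K p).1 hp)
    have h1' := (hBk K e.1).2 h1
    have h2' := (hBk K e.snd).2 h2
    have he : e ∈ domBonds (g.region Γ'.T) (Γ'.cutB g) := by
      classical
      rw [domBonds, Finset.mem_filter, Finset.mem_product]
      exact ⟨⟨hfull K hK _ h1', Finset.mem_univ _⟩, hfull K hK _ h2', fun hc => hnocut e hc K ⟨h1', h2'⟩⟩
    rw [hUdef _ (domBonds_snd he), hUdef _ (domBonds_fst he)]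
    exact hu ⟨e, he⟩
  have hUu : ∀ v : (Γ'.graph g).V, u v = U (domPos (D := g.region Γ'.T) (cut := Γ'.cutB g) v) := fun v => (hUdef _ v.2).symm
  funext x
  obtain ⟨κ, hκ, hx⟩ : ∃ κ ∈ Γ'.T, domPos (D := g.region Γ'.T) (cut := Γ'.cutB g) x ∈ g.cell κ := Finset.mem_biUnion.1 x.2
  have hK : Geo.up t κ ∈ T₀ := (hT κ).1 hκ
  have h1 := ho _ hK
  have hreg : ∀ κ' : C3.Cell (t * m₁) (t * m₂), g.region {κ'} = g.cell κ' := fun κ' => by simp [DGrid.region]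
  have hmem : ∀ (κ' : C3.Cell (t * m₁) (t * m₂)) (v : (Γ'.graph g).V),
      v ∈ Γ'.sites g {κ'} ↔ domPos (D := g.region Γ'.T) (cut := Γ'.cutB g) v ∈ g.cell κ' := by
    intro κ' v
    show domPos v ∈ (↑(g.region {κ'}) : Set (ℤ × ℤ)) ↔ _
    rw [hreg, Finset.mem_coe]
  have hrow0 : ∀ (κ' : C3.Cell (t * m₁) (t * m₂)) (v : (Γ'.graph g).V), 0 ≤ Γ'.avgRow g {κ'} v := by
    intro κ' v
    unfold CGeom.avgRow
    split_ifs
    · positivity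
    · exact le_rfl
  have ht2 : 0 < ((t : ℝ) ^ 2)⁻¹ := by
    have : (0 : ℝ) < t := by exact_mod_cast ht
    positivity
  have hterm0 : ∀ (κ' : C3.Cell (t * m₁) (t * m₂)) (v : (Γ'.graph g).V),
      0 ≤ (if Geo.up t κ' = Geo.up t κ then ((t : ℝ) ^ 2)⁻¹ else 0) * Γ'.avgRow g {κ'} v := by
    intro κ' v
    refine mul_nonneg ?_ (hrow0 κ' v)
    split_ifs
    · exact ht2.le
    · exact le_rfl
  have h2 : ∀ v : (Γ'.graph g).V,
      (∑ κ', (if Geo.up t κ' = Geo.up t κ then ((t : ℝ) ^ 2)⁻¹ else 0) * Γ'.avgRow g {κ'} v) * u v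
        = (∑ κ', (if Geo.up t κ' = Geo.up t κ then ((t : ℝ) ^ 2)⁻¹ else 0) * Γ'.avgRow g {κ'} v) * u x := by
    intro v
    by_cases hv : Bk (Geo.up t κ) (domPos (D := g.region Γ'.T) (cut := Γ'.cutB g) v)
    · rw [hUu v, hUu x, hconst _ hK _ hv, hconst _ hK _ (hsub κ _ hx)]
    · have hz : (∑ κ', (if Geo.up t κ' = Geo.up t κ then ((t : ℝ) ^ 2)⁻¹ else 0) * Γ'.avgRow g {κ'} v) = 0 := by
        refine Finset.sum_eq_zero fun κ' _ => ?_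
        by_cases hk : Geo.up t κ' = Geo.up t κ
        · have hnot : v ∉ Γ'.sites g {κ'} := fun hmm => hv (hk ▸ hsub κ' _ ((hmem κ' v).1 hmm))
          unfold CGeom.avgRow
          rw [if_neg hnot, mul_zero]
        · rw [if_neg hk, zero_mul]
      rw [hz, zero_mul, zero_mul]
  simp only [h2] at h1
  rw [← Finset.sum_mul] at h1
  have h3 : 0 < ∑ v : (Γ'.graph g).V, ∑ κ', (if Geo.up t κ' = Geo.up t κ then ((t : ℝ) ^ 2)⁻¹ else 0) * Γ'.avgRow g {κ'} v := by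
    refine Finset.sum_pos' (fun v _ => Finset.sum_nonneg fun κ' _ => hterm0 κ' v) ⟨x, Finset.mem_univ _, ?_⟩
    refine Finset.sum_pos' (fun κ' _ => hterm0 κ' x) ⟨κ, Finset.mem_univ _, ?_⟩
    rw [if_pos rfl]
    refine mul_pos ht2 ?_
    unfold CGeom.avgRow
    rw [if_pos ((hmem κ x).2 hx)]
    have e1 : ({κ} ∩ Γ'.T : Finset (Fin (t * m₁) × Fin (t * m₂))) = {κ} := Finset.inter_eq_left.2 (Finset.singleton_subset_iff.2 hκ)
    rw [e1, hreg]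
    exact inv_pos.2 (Nat.cast_pos.2 (Finset.card_pos.2 ⟨_, hx⟩))
  exact (mul_eq_zero.1 h1).resolve_left h3.ne'

/-- L-ES-SOFT-INJ -/
theorem ess_block_inj {m₁ m₂ : ℕ} (t s0 : ℕ) (ht : 1 ≤ t) (Γ' : CGeom (t * m₁) (t * m₂)) (T₀ : Finset (C3.Cell m₁ m₂))
    (hT : ∀ κ, κ ∈ Γ'.T ↔ Geo.up t κ ∈ T₀)
    (hcut : ∀ f ∈ Γ'.cutF, if f.2 then (f.1.1.1 + 1) % t = 0 else (f.1.2.1 + 1) % t = 0)
    (u : (Γ'.graph (esGr m₁ m₂ t s0)).V → ℝ)
    (hu : ∀ e, u ((Γ'.graph (esGr m₁ m₂ t s0)).tgt e) = u ((Γ'.graph (esGr m₁ m₂ t s0)).src e))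
    (ho : ∀ K ∈ T₀, ∑ v, (∑ κ, (if Geo.up t κ = K then ((t : ℝ) ^ 2)⁻¹ else 0) * Γ'.avgRow (esGr m₁ m₂ t s0) {κ} v) * u v = 0) :
    u = 0 :=
  ess_inj_aux t ht Γ' T₀ hT hcut (esGr m₁ m₂ t s0) (max s0 1) (lt_of_lt_of_le Nat.one_pos (le_max_right _ _))
    (ess_inj_mem_cell m₁ m₂ t s0) u hu ho

end Claimed.Agent.R285.C5
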