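import Claimed.Agent.R285.C5.EsDefs
import Claimed.Agent.R285.Entry.GoodSoft
import Claimed.Agent.R285.C5.EsSoftND
import Claimed.Agent.R285.C5.EsSoftInj
import Claimed.Agent.R285.C5.EsSoftGeo

/-!
# ROW 285, [C] s5.3, post C5-BOX, package ES-SOFT: the first limit `s0 → ∞` at FIXED `t` and at the CENTRAL parameter `b`      (contract: helper262; architect helper60)

TWIN of `Entry/GoodSoft.lean` (helper109).   [C] L5.2 first paragraph: "for fixed `t` the additional energy is a finite-rank quadratic tilt of finitely many subcell averages".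
In Lean nothing has to be tilted: `esLw Γ t s0 δ = C3.lawR (Geo.refine Γ t) (egGr ..) (esRow Γ t δ)` is an instance of the laws with GENERAL rows of `Read/C3.lean`:
`C3.mixed_tilt` (A), `C3.pin_interaction` (PIN), `C3.cond_transfer` with `row = esRow Γ t δ`, `row' = esRowU Γ M.F t δ`, `F = esUpF t M.F`, `A = esUp t M.H`, `p = esUp t M.p` (GT).
The Gaussian side is the PHYSICAL reference (stiffness `a`, form `a⁻¹ 𝓔 + δ avgEn + |B·|²`).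

## Structure (helper60, 18:30Z)
* s1: the three soft inputs for an ARBITRARY geometry `Γ'`, ARBITRARY rows and the uniform grids `egGr n₁ n₂ s` (`ess_A_one`, `ess_pin_one`, `ess_gt_core`): the proofs of `GoodSoft` do not use the shape of the rows, only `Pins.T32.Gd`.
* s2: the instance `Γ' = Geo.refine Γ t`.   Geometry leaves: `C5/EsSoftND.lean` (`ess_refine_noDiag`), `C5/EsSoftInj.lean` (`ess_block_inj`), `C5/EsSoftGeo.lean` (five small ones).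
* s3: the exits (finitely many shapes and marks).
-/

set_option autoImplicit false

namespace Claimed.Agent.R285.C5

open scoped BigOperators
open Filter Topology
open Claimed.Agent.R285 Claimed.Agent.R285.Entry

noncomputable section

/-! ## 1. General rows -/

section general

/-- a law in which every constant is confined -/
theorem ess_gd_of_inj {G : HGraph} (H : HLaw G)
    (hinj : ∀ u : G.V → ℝ, (∀ e, u (G.tgt e) = u (G.src e)) → (∀ o, ∑ v, H.B o v * u v = 0) → u = 0) {b : ℝ} (hb : 0 < b) :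
    Pins.T32.Gd H b := by
  refine ⟨hb, fun h _ h0 => ?_, HLaw.ok_of_real_injective _ b hb fun u _ hu ho => hinj u hu ho⟩
  have h1 : ∀ e, h (G.tgt e) - h (G.src e) = 0 := fun e => congrFun (congrArg Prod.fst h0) e
  have h2 : ∀ o, ∑ v, H.B o v * (2 * Real.pi * (h v : ℝ)) = 0 := fun o => congrFun (congrArg Prod.snd h0) o
  have h3 := hinj (fun v => (h v : ℝ)) (fun e => by
    have := h1 e
    have h4 : h (G.tgt e) = h (G.src e) := by omega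
    simp only [h4]) (fun o => by
    have := h2 o
    have e1 : ∑ v, H.B o v * (2 * Real.pi * (h v : ℝ)) = 2 * Real.pi * ∑ v, H.B o v * (h v : ℝ) := by
      rw [Finset.mul_sum]
      exact Finset.sum_congr rfl fun v _ => by ring
    rw [e1] at this
    exact (mul_eq_zero.1 this).resolve_left (by positivity))
  funext v
  have := congrFun h3 v
  simpa using this

variable {n₁ n₂ N : ℕ}

/-- (A) for one geometry and general rows -/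
theorem ess_A_one {a : ℝ} {𝔅 : ℕ → Set ℝ} (h𝔅 : EgTemp a 𝔅) (Γ' : CGeom n₁ n₂) (row : Fin N → C3.Cell n₁ n₂ → ℝ) (hΓ : Γ'.NoDiag)
    (hgd : ∀ (s : ℕ) (b : ℝ), 0 < b → Pins.T32.Gd (C3.lawR Γ' (egGr n₁ n₂ s) row) b) (U ε : ℝ) (hε : 0 < ε) :
    ∃ s0 : ℕ, ∀ s ≥ s0, ∀ b ∈ 𝔅 s, ∀ c : Fin N → ℝ, (∀ o, |c o| ≤ U) →
        |2 * Real.log ((C3.lawR Γ' (egGr n₁ n₂ s) row).Z b ⟨0, 0, c⟩ (fun _ => 1) / (C3.lawR Γ' (egGr n₁ n₂ s) row).Z b ⟨0, 0, 0⟩ fun _ => 1)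
            + (C3.lawR Γ' (egGr n₁ n₂ s) row).gEn a 0 c| ≤ ε := by
  apply eg_unif_of_seq
  intro ν hν
  by_contra hcon
  push Not at hcon
  choose b hb c hc hbad using hcon
  have hadm := eg_gr_admissible (m₁ := n₁) (m₂ := n₂) ν hν
  have hS : C3.Scen a b ν := h𝔅 ν b hadm.1 hb
  obtain ⟨b₀, b₁, hb0, hbb⟩ := hS.b_cpt
  have hbpos : ∀ k, 0 < b k := fun k => lt_of_lt_of_le hb0 (hbb k).1
  have hlim := C3.mixed_tilt Γ' row hS hΓ 1 (fun k => egGr n₁ n₂ (ν k)) hadm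
    (fun k => (hgd (ν k) (b k) (hbpos k)).ok) (fun _ => 0) c |U|
    (fun k κ => by simp) (fun k o => (hc k o).trans (le_abs_self U)) (fun _ => 0)
    (fun k h hh => by simp [CGeom.cellTest])
  have e1 : ∀ s, Γ'.cellTest (egGr n₁ n₂ s) 0 = 0 := by
    intro s
    funext v
    simp [CGeom.cellTest]
  have e2 : ∀ k, 2 * Real.log (((C3.lawR Γ' (egGr n₁ n₂ (ν k)) row).sys (b k)).wT
          (HLaw.Aff.amb (H := C3.lawR Γ' (egGr n₁ n₂ (ν k)) row) ⟨0, 0, c k⟩ (b k)) 0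
            / ((C3.lawR Γ' (egGr n₁ n₂ (ν k)) row).sys (b k)).w 0)
        - (C3.lawR Γ' (egGr n₁ n₂ (ν k)) row).gTilt a 0 (c k) (Γ'.cellTest (egGr n₁ n₂ (ν k)) 0)
      = 2 * Real.log ((C3.lawR Γ' (egGr n₁ n₂ (ν k)) row).Z (b k) ⟨0, 0, c k⟩ (fun _ => 1)
          / (C3.lawR Γ' (egGr n₁ n₂ (ν k)) row).Z (b k) ⟨0, 0, 0⟩ fun _ => 1)
        + (C3.lawR Γ' (egGr n₁ n₂ (ν k)) row).gEn a 0 (c k) := by
    intro k
    rw [e1]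
    exact eg_sa_gen _ (hgd (ν k) (b k) (hbpos k)).proper (b k) hS.a_pos (c k)
  simp only [e2] at hlim
  obtain ⟨K, hK⟩ := (Metric.tendsto_atTop.1 hlim) ε hε
  have h1 := hK K le_rfl
  rw [Real.dist_eq, sub_zero] at h1
  exact absurd h1 (not_lt.2 (hbad K).le)

/-- (PIN) for one geometry, general rows, one pair of pins -/
theorem ess_pin_one {a : ℝ} {𝔅 : ℕ → Set ℝ} (h𝔅 : EgTemp a 𝔅) (ε : ℝ) (hε : 0 < ε) (Γ' : CGeom n₁ n₂) (row : Fin N → C3.Cell n₁ n₂ → ℝ)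
    (hp : Γ'.pin = ∅) (hΓ : Γ'.NoDiag) (hgd : ∀ (s : ℕ) (b : ℝ), 0 < b → Pins.T32.Gd (C3.lawR Γ' (egGr n₁ n₂ s) row) b)
    (A p : Finset (C3.Cell n₁ n₂)) (hsep : C3.Sep A p) :
    ∃ s0 : ℕ, ∀ s ≥ s0, ∀ b ∈ 𝔅 s,
      |(C3.lawR Γ' (egGr n₁ n₂ s) row).dPin b (Γ'.sites (egGr n₁ n₂ s) A) (Γ'.sites (egGr n₁ n₂ s) p)
        - (C3.lawR Γ' (egGr n₁ n₂ s) row).gPin a (Γ'.sites (egGr n₁ n₂ s) Γ'.pin)
            (Γ'.sites (egGr n₁ n₂ s) A) (Γ'.sites (egGr n₁ n₂ s) p)| ≤ ε := by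
  refine eg_unif_of_seq _ fun ν hν => ?_
  by_contra hcon
  push Not at hcon
  choose b hb hviol using hcon
  have hνt : Tendsto ν atTop atTop :=
    tendsto_atTop_mono (fun k => (Nat.le_succ k).trans (hν k)) tendsto_id
  have hS : C3.Scen a b ν := h𝔅 ν b hνt hb
  obtain ⟨b₀, b₁, hb0, hbb⟩ := hS.b_cpt
  have hg : ∀ k, Pins.T32.Gd (C3.lawR Γ' (egGr n₁ n₂ (ν k)) row) (b k) := fun k => hgd (ν k) (b k) (hb0.trans_le (hbb k).1)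
  have hlim := C3.pin_interaction Γ' row hS hΓ hp 1 (fun k => egGr n₁ n₂ (ν k))
    (eg_gr_admissible ν hν) (fun k => (hg k).proper) (fun k => (hg k).ok) A p hsep
  have hev := (Metric.tendsto_nhds.1 hlim) ε hε
  obtain ⟨k, hk⟩ := hev.exists
  rw [Real.dist_eq, sub_zero] at hk
  exact absurd hk (not_lt.2 (hviol k).le)

variable {N' : ℕ}

/-- the lattice side of the transfer: geometry `Γ'` (cut), rows `row`; restored faces `F`, rows `row'`; core `A`, guard `p`; test coefficients `z` -/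
def essWL (Γ' : CGeom n₁ n₂) (row : Fin N → C3.Cell n₁ n₂ → ℝ) (row' : Fin (N + N') → C3.Cell n₁ n₂ → ℝ)
    (F : Finset (C3.Cell n₁ n₂ × Bool)) (A p : Finset (C3.Cell n₁ n₂)) (s : ℕ) (b : ℝ) (top : Bool) (z : C3.Cell n₁ n₂ → ℝ)
    (Φ : ℝ → ℝ → ℝ → ℝ) : ℝ :=
  (if top then C3.ExU Γ' F (egGr n₁ n₂ s) row' b (Γ'.cellTest (egGr n₁ n₂ s) z)
    else C3.ExT (C3.lawR Γ' (egGr n₁ n₂ s) row) b (Γ'.cellTest (egGr n₁ n₂ s) z))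
  fun h => Φ (C3.cLap (C3.lawR Γ' (egGr n₁ n₂ s) row) b (Γ'.sites (egGr n₁ n₂ s) p) (Γ'.cellTest (egGr n₁ n₂ s) z) h)
    (C3.cLapU Γ' F (egGr n₁ n₂ s) row' b (Γ'.sites (egGr n₁ n₂ s) p) (Γ'.cellTest (egGr n₁ n₂ s) z) h)
    (C3.rPin (C3.lawR Γ' (egGr n₁ n₂ s) row) b (Γ'.sites (egGr n₁ n₂ s) p) (Γ'.sites (egGr n₁ n₂ s) A) h)

/-- the Gaussian side of the transfer -/
def essWG (Γ' : CGeom n₁ n₂) (row : Fin N → C3.Cell n₁ n₂ → ℝ) (row' : Fin (N + N') → C3.Cell n₁ n₂ → ℝ)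
    (F : Finset (C3.Cell n₁ n₂ × Bool)) (A p : Finset (C3.Cell n₁ n₂)) (s : ℕ) (a : ℝ) (top : Bool) (z : C3.Cell n₁ n₂ → ℝ)
    (Φ : ℝ → ℝ → ℝ → ℝ) : ℝ :=
  (if top then C3.gExU Γ' F (egGr n₁ n₂ s) row' a (Γ'.sites (egGr n₁ n₂ s) Γ'.pin) (Γ'.cellTest (egGr n₁ n₂ s) z)
    else C3.gExT (C3.lawR Γ' (egGr n₁ n₂ s) row) a (Γ'.sites (egGr n₁ n₂ s) Γ'.pin) (Γ'.cellTest (egGr n₁ n₂ s) z))
  fun φ => Φ (C3.gcLap (C3.lawR Γ' (egGr n₁ n₂ s) row) a (Γ'.sites (egGr n₁ n₂ s) Γ'.pin ∪ Γ'.sites (egGr n₁ n₂ s) p) (Γ'.cellTest (egGr n₁ n₂ s) z) φ)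
    (C3.gcLapU Γ' F (egGr n₁ n₂ s) row' a (Γ'.sites (egGr n₁ n₂ s) Γ'.pin ∪ Γ'.sites (egGr n₁ n₂ s) p) (Γ'.cellTest (egGr n₁ n₂ s) z) φ)
    (C3.grPin (C3.lawR Γ' (egGr n₁ n₂ s) row) a (Γ'.sites (egGr n₁ n₂ s) Γ'.pin ∪ Γ'.sites (egGr n₁ n₂ s) p) (Γ'.sites (egGr n₁ n₂ s) A) φ)

theorem ess_defs_eqns_cite : True := by
  have := @essWL.eq_1
  have := @essWG.eq_1
  trivial

theorem ess_phi_le_one (t₁ t₂ : ℝ) (ht : 0 ≤ t₁) (r : ℕ) (x x' ρ : ℝ) : |egPhi t₁ t₂ r x x' ρ| ≤ 1 := by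
  have := eg_phi_mem t₁ t₂ ht r x x' ρ
  rw [abs_of_nonneg this.1]
  exact this.2

theorem ess_WL_lip (Γ' : CGeom n₁ n₂) (row : Fin N → C3.Cell n₁ n₂ → ℝ) (row' : Fin (N + N') → C3.Cell n₁ n₂ → ℝ)
    (F : Finset (C3.Cell n₁ n₂ × Bool)) (A p : Finset (C3.Cell n₁ n₂)) (s : ℕ) {b : ℝ}
    (hgd : Pins.T32.Gd (C3.lawR Γ' (egGr n₁ n₂ s) row) b) (hgd' : Pins.T32.Gd (C3.lawR (C3.uncut Γ' F) (egGr n₁ n₂ s) row') b)
    (top : Bool) (z : C3.Cell n₁ n₂ → ℝ) (θ₁ θ₂ θ₁' θ₂' : ℝ) (h : 0 ≤ θ₁) (h' : 0 ≤ θ₁') (r : ℕ) :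
    |essWL Γ' row row' F A p s b top z (egPhi θ₁ θ₂ r) - essWL Γ' row row' F A p s b top z (egPhi θ₁' θ₂' r)|
      ≤ r * (|θ₁ - θ₁'| + |θ₂ - θ₂'|) := by
  unfold essWL
  cases top
  · simp only [Bool.false_eq_true, if_false]
    exact eg_gt_lat _ hgd _ _ _ 1 _ (fun _ => ess_phi_le_one _ _ h _ _ _ _) (fun _ => ess_phi_le_one _ _ h' _ _ _ _)
      (fun _ => eg_phi_lip _ _ _ _ h h' r _ _ _)
  · simp only [if_true]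
    exact eg_gt_lat (G := (C3.uncut Γ' F).graph (egGr n₁ n₂ s)) (C3.lawR (C3.uncut Γ' F) (egGr n₁ n₂ s) row')
      hgd' _ _ _ 1 _ (fun _ => ess_phi_le_one _ _ h _ _ _ _) (fun _ => ess_phi_le_one _ _ h' _ _ _ _)
      (fun _ => eg_phi_lip _ _ _ _ h h' r _ _ _)

theorem ess_pd (Γ' : CGeom n₁ n₂) (row : Fin N → C3.Cell n₁ n₂ → ℝ) (s : ℕ) (hgd : Pins.T32.Gd (C3.lawR Γ' (egGr n₁ n₂ s) row) 1) :
    Pot.plPD (C3.lawR Γ' (egGr n₁ n₂ s) row) (Γ'.sites (egGr n₁ n₂ s) Γ'.pin) :=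
  Pot.pl_PD_of_ok (C3.lawR Γ' (egGr n₁ n₂ s) row) rfl 1 hgd.ok hgd.proper

theorem ess_WG_cont (Γ' : CGeom n₁ n₂) (row : Fin N → C3.Cell n₁ n₂ → ℝ) (row' : Fin (N + N') → C3.Cell n₁ n₂ → ℝ)
    (F : Finset (C3.Cell n₁ n₂ × Bool)) (A p : Finset (C3.Cell n₁ n₂)) (s : ℕ)
    (hgd : Pins.T32.Gd (C3.lawR Γ' (egGr n₁ n₂ s) row) 1) (hgd' : Pins.T32.Gd (C3.lawR (C3.uncut Γ' F) (egGr n₁ n₂ s) row') 1)
    {a : ℝ} (ha : 0 < a) (z : C3.Cell n₁ n₂ → ℝ) (θ₁ θ₂ : ℝ) (r : ℕ) :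
    Continuous fun φ : (Γ'.graph (egGr n₁ n₂ s)).V → ℝ =>
      egPhi θ₁ θ₂ r (C3.gcLap (C3.lawR Γ' (egGr n₁ n₂ s) row) a (Γ'.sites (egGr n₁ n₂ s) Γ'.pin ∪ Γ'.sites (egGr n₁ n₂ s) p) (Γ'.cellTest (egGr n₁ n₂ s) z) φ)
        (C3.gcLapU Γ' F (egGr n₁ n₂ s) row' a (Γ'.sites (egGr n₁ n₂ s) Γ'.pin ∪ Γ'.sites (egGr n₁ n₂ s) p) (Γ'.cellTest (egGr n₁ n₂ s) z) φ)
        (C3.grPin (C3.lawR Γ' (egGr n₁ n₂ s) row) a (Γ'.sites (egGr n₁ n₂ s) Γ'.pin ∪ Γ'.sites (egGr n₁ n₂ s) p) (Γ'.sites (egGr n₁ n₂ s) A) φ) := by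
  have c1 := eg_gt_cLap_cont (C3.lawR Γ' (egGr n₁ n₂ s) row) ha
    (Pot.pl_PD_mono _ (ess_pd Γ' row s hgd) (Set.subset_union_left (t := Γ'.sites (egGr n₁ n₂ s) p))) (Γ'.cellTest (egGr n₁ n₂ s) z)
  have c3 := eg_gt_rPin_cont (C3.lawR Γ' (egGr n₁ n₂ s) row) ha
    (Pot.pl_PD_mono _ (ess_pd Γ' row s hgd) (Set.subset_union_left (t := Γ'.sites (egGr n₁ n₂ s) p))) (Γ'.sites (egGr n₁ n₂ s) A)
  have c2 : Continuous (C3.gcLapU Γ' F (egGr n₁ n₂ s) row' a (Γ'.sites (egGr n₁ n₂ s) Γ'.pin ∪ Γ'.sites (egGr n₁ n₂ s) p)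
      (Γ'.cellTest (egGr n₁ n₂ s) z)) :=
    eg_gt_cLap_cont (G := (C3.uncut Γ' F).graph (egGr n₁ n₂ s)) (C3.lawR (C3.uncut Γ' F) (egGr n₁ n₂ s) row') ha
      (Pot.pl_PD_mono _ (ess_pd (C3.uncut Γ' F) row' s hgd') (Set.subset_union_left (t := Γ'.sites (egGr n₁ n₂ s) p)))
      (Γ'.cellTest (egGr n₁ n₂ s) z)
  exact (eg_phi_continuous θ₁ θ₂ r).comp (c1.prodMk (c2.prodMk c3))

theorem ess_WG_lip (Γ' : CGeom n₁ n₂) (row : Fin N → C3.Cell n₁ n₂ → ℝ) (row' : Fin (N + N') → C3.Cell n₁ n₂ → ℝ)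
    (F : Finset (C3.Cell n₁ n₂ × Bool)) (A p : Finset (C3.Cell n₁ n₂)) (s : ℕ)
    (hgd : Pins.T32.Gd (C3.lawR Γ' (egGr n₁ n₂ s) row) 1) (hgd' : Pins.T32.Gd (C3.lawR (C3.uncut Γ' F) (egGr n₁ n₂ s) row') 1)
    {a : ℝ} (ha : 0 < a) (top : Bool) (z : C3.Cell n₁ n₂ → ℝ) (θ₁ θ₂ θ₁' θ₂' : ℝ) (h : 0 ≤ θ₁) (h' : 0 ≤ θ₁') (r : ℕ) :
    |essWG Γ' row row' F A p s a top z (egPhi θ₁ θ₂ r) - essWG Γ' row row' F A p s a top z (egPhi θ₁' θ₂' r)|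
      ≤ r * (|θ₁ - θ₁'| + |θ₂ - θ₂'|) := by
  have k1 := ess_WG_cont Γ' row row' F A p s hgd hgd' ha z θ₁ θ₂ r
  have k2 := ess_WG_cont Γ' row row' F A p s hgd hgd' ha z θ₁' θ₂' r
  unfold essWG
  cases top
  · simp only [Bool.false_eq_true, if_false]
    exact eg_gt_gau _ ha (ess_pd Γ' row s hgd) _ _ _ 1 _ k1 k2 (fun _ => ess_phi_le_one _ _ h _ _ _ _)
      (fun _ => ess_phi_le_one _ _ h' _ _ _ _) (fun _ => eg_phi_lip _ _ _ _ h h' r _ _ _)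
  · simp only [if_true]
    exact eg_gt_gau (G := (C3.uncut Γ' F).graph (egGr n₁ n₂ s)) (C3.lawR (C3.uncut Γ' F) (egGr n₁ n₂ s) row') ha
      (ess_pd (C3.uncut Γ' F) row' s hgd') _ _ _ 1 _ k1 k2 (fun _ => ess_phi_le_one _ _ h _ _ _ _)
      (fun _ => ess_phi_le_one _ _ h' _ _ _ _) (fun _ => eg_phi_lip _ _ _ _ h h' r _ _ _)

/-- (GT) for one geometry, general rows, one mark -/
theorem ess_gt_core {a : ℝ} {𝔅 : ℕ → Set ℝ} (h𝔅 : EgTemp a 𝔅) (U η : ℝ) (hη : 0 < η) (Γ' : CGeom n₁ n₂)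
    (row : Fin N → C3.Cell n₁ n₂ → ℝ) (row' : Fin (N + N') → C3.Cell n₁ n₂ → ℝ) (F : Finset (C3.Cell n₁ n₂ × Bool))
    (A p : Finset (C3.Cell n₁ n₂)) (hp : Γ'.pin = ∅) (hΓ : Γ'.NoDiag) (hΓ' : (C3.uncut Γ' F).NoDiag) (hsep : C3.Sep A p)
    (hF : ∀ f ∈ F, C3.FaceIn A f) (hr : ∀ o, row' (Fin.castAdd N' o) = row o) (hr' : ∀ o, ∀ κ ∉ A, row' (Fin.natAdd N o) κ = 0)
    (hgd : ∀ (s : ℕ) (b : ℝ), 0 < b → Pins.T32.Gd (C3.lawR Γ' (egGr n₁ n₂ s) row) b)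
    (hgd' : ∀ (s : ℕ) (b : ℝ), 0 < b → Pins.T32.Gd (C3.lawR (C3.uncut Γ' F) (egGr n₁ n₂ s) row') b) (top : Bool) (r : ℕ) :
    ∃ s0 : ℕ, ∀ s ≥ s0, ∀ b ∈ 𝔅 s, ∀ z : C3.Cell n₁ n₂ → ℝ, (∀ κ, |z κ| ≤ U) → ∀ θ₁ θ₂ : ℝ, 0 ≤ θ₁ → θ₁ ≤ U → |θ₂| ≤ U →
      essWL Γ' row row' F A p s b top z (egPhi θ₁ θ₂ r) ≤ essWG Γ' row row' F A p s a top z (egPhi θ₁ θ₂ r) + η := by
  apply eg_unif_of_seq
  intro ν hν
  by_contra hcon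
  push Not at hcon
  choose b hb y hy θ₁ θ₂ h1 h2 h3 hv using hcon
  have hK : IsCompact (Set.Icc (0 : ℝ) U ×ˢ Set.Icc (-U) U) := isCompact_Icc.prod isCompact_Icc
  obtain ⟨⟨t₁, t₂⟩, ht, φ, hφ, hlim⟩ := hK.tendsto_subseq (x := fun k => (θ₁ k, θ₂ k))
    (fun k => ⟨⟨h1 k, h2 k⟩, abs_le.1 (h3 k)⟩)
  have ht1 : 0 ≤ t₁ := ht.1.1
  have hl1 : Tendsto (fun k => θ₁ (φ k)) atTop (𝓝 t₁) := (continuous_fst.tendsto _).comp hlim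
  have hl2 : Tendsto (fun k => θ₂ (φ k)) atTop (𝓝 t₂) := (continuous_snd.tendsto _).comp hlim
  have hν' : ∀ k, k + 1 ≤ ν (φ k) := fun k => (Nat.succ_le_succ (hφ.le_apply)).trans (hν (φ k))
  have htend : Tendsto (fun k => ν (φ k)) atTop atTop :=
    tendsto_atTop_mono (fun k => (Nat.le_succ k).trans (hν' k)) tendsto_id
  have hS : C3.Scen a (fun k => b (φ k)) (fun k => ν (φ k)) := h𝔅 _ _ htend (fun k => hb (φ k))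
  have ha : 0 < a := hS.a_pos
  obtain ⟨b₀, b₁, hb₀, hbb⟩ := hS.b_cpt
  have hbpos : ∀ k, 0 < b (φ k) := fun k => lt_of_lt_of_le hb₀ (hbb k).1
  have hGd : ∀ k, Pins.T32.Gd (C3.lawR Γ' (egGr n₁ n₂ (ν (φ k))) row) (b (φ k)) := fun k => hgd _ _ (hbpos k)
  have hΦc : Continuous fun x : (Fin 1 → ℝ) × (Fin 1 → ℝ) × ℝ => egPhi t₁ t₂ r (x.1 0) (x.2.1 0) x.2.2 :=
    (eg_phi_continuous t₁ t₂ r).comp
      (f := fun x : (Fin 1 → ℝ) × (Fin 1 → ℝ) × ℝ => ((x.1 0, x.2.1 0, x.2.2) : ℝ × ℝ × ℝ)) (by fun_prop)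
  have hΦb : ∀ x : (Fin 1 → ℝ) × (Fin 1 → ℝ) × ℝ, |egPhi t₁ t₂ r (x.1 0) (x.2.1 0) x.2.2| ≤ 1 :=
    fun x => ess_phi_le_one t₁ t₂ ht1 r _ _ _
  have hct := C3.cond_transfer Γ' row hS hΓ hp 1 (fun k => egGr n₁ n₂ (ν (φ k))) (eg_gr_admissible _ hν')
    (fun k => (hGd k).proper) (fun k => (hGd k).ok) A p hsep F hF hΓ' row' hr hr' top
    (J := 1) (J' := 1) (fun _ k => y (φ k)) (fun _ k => y (φ k)) (fun k => y (φ k)) U (fun _ k κ => hy (φ k) κ)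
    (fun _ k κ => hy (φ k) κ) (fun k κ => hy (φ k) κ) (fun x => egPhi t₁ t₂ r (x.1 0) (x.2.1 0) x.2.2) hΦc ⟨1, hΦb⟩
  have hct' : Tendsto (fun k => essWL Γ' row row' F A p (ν (φ k)) (b (φ k)) top (y (φ k)) (egPhi t₁ t₂ r)
      - essWG Γ' row row' F A p (ν (φ k)) a top (y (φ k)) (egPhi t₁ t₂ r)) atTop (𝓝 0) := hct
  have hδ : Tendsto (fun k => (r : ℝ) * (|θ₁ (φ k) - t₁| + |θ₂ (φ k) - t₂|)) atTop (𝓝 0) := by
    have d1 : Tendsto (fun k => |θ₁ (φ k) - t₁|) atTop (𝓝 0) := by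
      have := (hl1.sub_const t₁).abs
      simpa using this
    have d2 : Tendsto (fun k => |θ₂ (φ k) - t₂|) atTop (𝓝 0) := by
      have := (hl2.sub_const t₂).abs
      simpa using this
    have := (d1.add d2).const_mul (r : ℝ)
    simpa using this
  have e1 := hct'.eventually (gt_mem_nhds (show (0 : ℝ) < η / 3 by positivity))
  have e2 := hδ.eventually (gt_mem_nhds (show (0 : ℝ) < η / 3 by positivity))
  obtain ⟨k, hk1, hk2⟩ := (e1.and e2).exists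
  have l1 := abs_le.1 (ess_WL_lip Γ' row row' F A p (ν (φ k)) (hGd k) (hgd' _ _ (hbpos k)) top (y (φ k))
    (θ₁ (φ k)) (θ₂ (φ k)) t₁ t₂ (h1 _) ht1 r)
  have l2 := abs_le.1 (ess_WG_lip Γ' row row' F A p (ν (φ k)) (hgd _ _ one_pos) (hgd' _ _ one_pos) ha top (y (φ k))
    (θ₁ (φ k)) (θ₂ (φ k)) t₁ t₂ (h1 _) ht1 r)
  have hvk := hv (φ k)
  linarith [l1.1, l1.2, l2.1, l2.2]

end general

/-! ## 2. The instance `Geo.refine Γ t` -/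

section inst

variable {m₁ m₂ : ℕ}

theorem ess_refine_pin (Γ : CGeom m₁ m₂) (hp : Γ.pin = ∅) (t : ℕ) : (Geo.refine Γ t).pin = ∅ := by
  simp [Geo.refine, hp]

theorem ess_row_cast (Γ : CGeom m₁ m₂) (t : ℕ) (δ : ℝ) (o : Fin Γ.T.card) :
    esRow Γ t δ (Fin.castAdd _ o) = esRow0 Γ t o := by
  unfold esRow
  rw [Fin.addCases_left]

theorem ess_rowU_cast (Γ : CGeom m₁ m₂) (F : Finset (C3.Cell m₁ m₂ × Bool)) (t : ℕ) (δ : ℝ)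
    (o : Fin (Γ.T.card + (esSoft (Geo.refine Γ t)).card)) : esRowU Γ F t δ (Fin.castAdd _ o) = esRow Γ t δ o := by
  unfold esRowU
  rw [Fin.addCases_left]

theorem ess_rowU_off (Γ : CGeom m₁ m₂) (F : Finset (C3.Cell m₁ m₂ × Bool)) (H : Finset (C3.Cell m₁ m₂)) (t : ℕ) (ht : 1 ≤ t) (δ : ℝ)
    (h : ∀ f ∈ F, C3.FaceIn H f) (o : Fin (esSoft (Geo.refine (C3.uncut Γ F) t) \ esSoft (Geo.refine Γ t)).card)
    (κ : C3.Cell (t * m₁) (t * m₂)) (hκ : κ ∉ esUp t H) : esRowU Γ F t δ (Fin.natAdd _ o) κ = 0 := by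
  unfold esRowU
  rw [Fin.addCases_right]
  exact ess_softRow_off _ (ess_faceIn t ht h _ (ess_soft_new Γ F t _ (Finset.coe_mem _))) hκ

/-- every constant is confined in the strengthened law of a shape -/
theorem ess_lw_gd (Γ : CGeom m₁ m₂) (t : ℕ) (ht : 1 ≤ t) (δ : ℝ) (s0 : ℕ) (b : ℝ) (hb : 0 < b) :
    Pins.T32.Gd (C3.lawR (Geo.refine Γ t) (egGr (t * m₁) (t * m₂) s0) (esRow Γ t δ)) b := by
  refine ess_gd_of_inj _ (fun u hu ho => ?_) hb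
  refine ess_block_inj t s0 ht (Geo.refine Γ t) Γ.T (fun κ => by simp [Geo.refine]) (fun f hf => (Finset.mem_filter.1 hf).2.2) u hu
    fun K hK => ?_
  refine Eq.trans ?_ (ho (Fin.castAdd _ (Γ.T.equivFin ⟨K, hK⟩)))
  refine Finset.sum_congr rfl fun v _ => ?_
  congr 1
  show _ = ∑ κ, esRow Γ t δ (Fin.castAdd _ (Γ.T.equivFin ⟨K, hK⟩)) κ * _
  rw [ess_row_cast]
  refine Finset.sum_congr rfl fun κ _ => ?_
  simp [esRow0]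

/-- the same in the restored law -/
theorem ess_lwU_gd (Γ : CGeom m₁ m₂) (F : Finset (C3.Cell m₁ m₂ × Bool)) (t : ℕ) (ht : 1 ≤ t) (δ : ℝ) (s0 : ℕ) (b : ℝ) (hb : 0 < b) :
    Pins.T32.Gd (C3.lawR (C3.uncut (Geo.refine Γ t) (esUpF t F)) (egGr (t * m₁) (t * m₂) s0) (esRowU Γ F t δ)) b := by
  refine ess_gd_of_inj _ (fun u hu ho => ?_) hb
  refine ess_block_inj t s0 ht (C3.uncut (Geo.refine Γ t) (esUpF t F)) Γ.T (fun κ => by simp [Geo.refine, C3.uncut])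
    (fun f hf => (Finset.mem_filter.1 (Finset.mem_sdiff.1 hf).1).2.2) u hu fun K hK => ?_
  refine Eq.trans ?_ (ho (Fin.castAdd _ (Fin.castAdd _ (Γ.T.equivFin ⟨K, hK⟩))))
  refine Finset.sum_congr rfl fun v _ => ?_
  congr 1
  show _ = ∑ κ, esRowU Γ F t δ (Fin.castAdd _ (Fin.castAdd _ (Γ.T.equivFin ⟨K, hK⟩))) κ * _
  rw [ess_rowU_cast, ess_row_cast]
  refine Finset.sum_congr rfl fun κ _ => ?_
  simp [esRow0]

theorem ess_cen_zero (Γ : CGeom m₁ m₂) (t : ℕ) : esCen Γ t 0 = 0 := by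
  funext o
  unfold esCen
  refine Fin.addCases (fun i => ?_) (fun j => ?_) o
  · rw [Fin.addCases_left]
    rfl
  · rw [Fin.addCases_right]
    rfl

theorem ess_cen_le (Γ : CGeom m₁ m₂) (t : ℕ) (y : C3.Cell m₁ m₂ → ℝ) (U : ℝ) (hy : ∀ κ, |y κ| ≤ U) (o) : |esCen Γ t y o| ≤ |U| := by
  unfold esCen
  refine Fin.addCases (fun i => ?_) (fun j => ?_) o
  · rw [Fin.addCases_left]
    exact (hy _).trans (le_abs_self U)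
  · rw [Fin.addCases_right]
    simp

theorem ess_tst_le (t : ℕ) (ht : 1 ≤ t) (y : C3.Cell m₁ m₂ → ℝ) (U : ℝ) (hy : ∀ κ, |y κ| ≤ U) (κ) : |esTst t y κ| ≤ U := by
  unfold esTst
  have h1 : (1 : ℝ) ≤ (t : ℝ) ^ 2 := one_le_pow₀ (by exact_mod_cast ht)
  rw [abs_div, abs_of_pos (lt_of_lt_of_le one_pos h1)]
  exact (div_le_self (abs_nonneg _) h1).trans (hy _)

theorem ess_WL_eq (Γ : CGeom m₁ m₂) (M : EgWMark m₁ m₂) (t s0 : ℕ) (δ b : ℝ) (top : Bool) (y : C3.Cell m₁ m₂ → ℝ) (Φ : ℝ → ℝ → ℝ → ℝ) :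
    esWL Γ M t s0 δ b top y Φ
      = essWL (Geo.refine Γ t) (esRow Γ t δ) (esRowU Γ M.F t δ) (esUpF t M.F) (esUp t M.H) (esUp t M.p) s0 b top (esTst t y) Φ := rfl

theorem ess_WG_eq (Γ : CGeom m₁ m₂) (M : EgWMark m₁ m₂) (t s0 : ℕ) (δ a : ℝ) (top : Bool) (y : C3.Cell m₁ m₂ → ℝ) (Φ : ℝ → ℝ → ℝ → ℝ) :
    esWG Γ M t s0 δ a top y Φ
      = essWG (Geo.refine Γ t) (esRow Γ t δ) (esRowU Γ M.F t δ) (esUpF t M.F) (esUp t M.H) (esUp t M.p) s0 a top (esTst t y) Φ := rfl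

end inst

/-! ## 3. The exits -/

/-- ES-SOFT-A: `2 log (Z (y)/Z (0)) → - E^{phys} (y)` uniformly on compact data and on all shapes of the window -/
theorem es_soft_A {a b : ℝ} (h𝔅 : EgTemp a fun _ => {b}) (δ : ℝ) (hδ : 0 ≤ δ) (m₁ m₂ t : ℕ) (ht : 1 ≤ t) (U ε : ℝ) (hε : 0 < ε) :
    ∀ᶠ s0 : ℕ in atTop, ∀ (T : Finset (C3.Cell m₁ m₂)) (cutF : Finset (C3.Cell m₁ m₂ × Bool)), (egSh T cutF).NoDiag →
      ∀ y : C3.Cell m₁ m₂ → ℝ, (∀ κ, |y κ| ≤ U) → |2 * esWR (egSh T cutF) t s0 δ b y + esWE (egSh T cutF) t s0 δ a y| ≤ ε := by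
  have h1 : ∀ p : Finset (C3.Cell m₁ m₂) × Finset (C3.Cell m₁ m₂ × Bool), ∀ᶠ s0 : ℕ in atTop, (egSh p.1 p.2).NoDiag →
      ∀ y : C3.Cell m₁ m₂ → ℝ, (∀ κ, |y κ| ≤ U) → |2 * esWR (egSh p.1 p.2) t s0 δ b y + esWE (egSh p.1 p.2) t s0 δ a y| ≤ ε := by
    intro p
    by_cases hΓ : (egSh p.1 p.2).NoDiag
    · obtain ⟨s0, hs0⟩ := ess_A_one h𝔅 (Geo.refine (egSh p.1 p.2) t) (esRow (egSh p.1 p.2) t δ) (ess_refine_noDiag _ t ht hΓ)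
        (ess_lw_gd _ t ht δ) |U| ε hε
      refine eventually_atTop.2 ⟨s0, fun s hs _ y hy => ?_⟩
      have h2 := hs0 s hs b rfl (esCen (egSh p.1 p.2) t y) (ess_cen_le _ t y U hy)
      unfold esWR esWE esLw
      rw [ess_cen_zero]
      exact h2
    · exact Eventually.of_forall fun s h => absurd h hΓ
  filter_upwards [eventually_all.2 h1] with s hs T cutF hΓ
  exact hs (T, cutF) hΓ

/-- ES-SOFT-PIN -/
theorem es_soft_pin {a b : ℝ} (h𝔅 : EgTemp a fun _ => {b}) (δ : ℝ) (hδ : 0 ≤ δ) (m₁ m₂ t : ℕ) (ht : 1 ≤ t) (ε : ℝ) (hε : 0 < ε) :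
    ∀ᶠ s0 : ℕ in atTop, ∀ (T : Finset (C3.Cell m₁ m₂)) (cutF : Finset (C3.Cell m₁ m₂ × Bool)), (egSh T cutF).NoDiag →
      ∀ A p : Finset (C3.Cell m₁ m₂), C3.Sep A p → |esWD (egSh T cutF) t s0 δ b A p - esWDg (egSh T cutF) t s0 δ a A p| ≤ ε := by
  have key : ∀ x : Finset (C3.Cell m₁ m₂) × Finset (C3.Cell m₁ m₂ × Bool) × Finset (C3.Cell m₁ m₂) × Finset (C3.Cell m₁ m₂),
      ∀ᶠ s0 : ℕ in atTop, (egSh x.1 x.2.1).NoDiag → C3.Sep x.2.2.1 x.2.2.2 →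
        |esWD (egSh x.1 x.2.1) t s0 δ b x.2.2.1 x.2.2.2 - esWDg (egSh x.1 x.2.1) t s0 δ a x.2.2.1 x.2.2.2| ≤ ε := by
    rintro ⟨T, cutF, A, p⟩
    by_cases h1 : (egSh T cutF).NoDiag ∧ C3.Sep A p
    · obtain ⟨s0, hs0⟩ := ess_pin_one h𝔅 ε hε (Geo.refine (egSh T cutF) t) (esRow (egSh T cutF) t δ) (ess_refine_pin _ rfl t)
        (ess_refine_noDiag _ t ht h1.1) (ess_lw_gd _ t ht δ) (esUp t A) (esUp t p) (ess_sep t ht h1.2)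
      exact eventually_atTop.2 ⟨s0, fun s hs _ _ => hs0 s hs b rfl⟩
    · exact Eventually.of_forall fun s h2 h3 => absurd ⟨h2, h3⟩ h1
  filter_upwards [eventually_all.2 key] with s hs T cutF hΓ A p hsep
  exact hs (T, cutF, A, p) hΓ hsep

/-- ES-SOFT-GT -/
theorem es_soft_transfer {a b : ℝ} (h𝔅 : EgTemp a fun _ => {b}) (δ : ℝ) (hδ : 0 ≤ δ) (m₁ m₂ t : ℕ) (ht : 1 ≤ t) (U η : ℝ) (hη : 0 < η) (rmax : ℕ) :
    ∀ᶠ s0 : ℕ in atTop, ∀ (T : Finset (C3.Cell m₁ m₂)) (cutF : Finset (C3.Cell m₁ m₂ × Bool)), (egSh T cutF).NoDiag →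
      ∀ M : EgWMark m₁ m₂, (C3.uncut (egSh T cutF) M.F).NoDiag → C3.Sep M.H M.p → (∀ f ∈ M.F, C3.FaceIn M.H f) →
      ∀ (top : Bool) (y : C3.Cell m₁ m₂ → ℝ), (∀ κ, |y κ| ≤ U) → ∀ θ₁ θ₂ : ℝ, 0 ≤ θ₁ → θ₁ ≤ U → |θ₂| ≤ U → ∀ r ≤ rmax,
        esWL (egSh T cutF) M t s0 δ b top y (egPhi θ₁ θ₂ r) ≤ esWG (egSh T cutF) M t s0 δ a top y (egPhi θ₁ θ₂ r) + η := by
  classical
  have key : ∀ i : (Finset (C3.Cell m₁ m₂) × Finset (C3.Cell m₁ m₂ × Bool)) ×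
      (Finset (C3.Cell m₁ m₂ × Bool) × Finset (C3.Cell m₁ m₂) × Finset (C3.Cell m₁ m₂) × Finset (C3.Cell m₁ m₂) × Finset (C3.Cell m₁ m₂)) ×
      Bool × Fin (rmax + 1),
      ∀ᶠ s : ℕ in atTop, (egSh i.1.1 i.1.2).NoDiag → (C3.uncut (egSh i.1.1 i.1.2) i.2.1.1).NoDiag → C3.Sep i.2.1.2.1 i.2.1.2.2.2.1 →
        (∀ f ∈ i.2.1.1, C3.FaceIn i.2.1.2.1 f) →
        ∀ y : C3.Cell m₁ m₂ → ℝ, (∀ κ, |y κ| ≤ U) → ∀ θ₁ θ₂ : ℝ, 0 ≤ θ₁ → θ₁ ≤ U → |θ₂| ≤ U →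
          esWL (egSh i.1.1 i.1.2) ⟨i.2.1.1, i.2.1.2.1, i.2.1.2.2.1, i.2.1.2.2.2.1, i.2.1.2.2.2.2⟩ t s δ b i.2.2.1 y (egPhi θ₁ θ₂ i.2.2.2)
            ≤ esWG (egSh i.1.1 i.1.2) ⟨i.2.1.1, i.2.1.2.1, i.2.1.2.2.1, i.2.1.2.2.2.1, i.2.1.2.2.2.2⟩ t s δ a i.2.2.1 y (egPhi θ₁ θ₂ i.2.2.2) + η := by
    rintro ⟨⟨T, cutF⟩, ⟨F, H, D, p, O⟩, top, r⟩
    by_cases hc : (egSh T cutF).NoDiag ∧ (C3.uncut (egSh T cutF) F).NoDiag ∧ C3.Sep H p ∧ (∀ f ∈ F, C3.FaceIn H f)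
    · have hΓ' : (C3.uncut (Geo.refine (egSh T cutF) t) (esUpF t F)).NoDiag := by
        rw [ess_uncut_refine]
        exact ess_refine_noDiag _ t ht hc.2.1
      obtain ⟨s0, hs0⟩ := ess_gt_core h𝔅 U η hη (Geo.refine (egSh T cutF) t) (esRow (egSh T cutF) t δ) (esRowU (egSh T cutF) F t δ)
        (esUpF t F) (esUp t H) (esUp t p) (ess_refine_pin _ rfl t) (ess_refine_noDiag _ t ht hc.1) hΓ' (ess_sep t ht hc.2.2.1)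
        (ess_faceIn t ht hc.2.2.2) (ess_rowU_cast _ F t δ) (ess_rowU_off _ F H t ht δ hc.2.2.2) (ess_lw_gd _ t ht δ)
        (ess_lwU_gd _ F t ht δ) top r
      refine eventually_atTop.2 ⟨s0, fun s hs _ _ _ _ y hy θ₁ θ₂ h1 h2 h3 => ?_⟩
      rw [ess_WL_eq, ess_WG_eq]
      exact hs0 s hs b rfl (esTst t y) (ess_tst_le t ht y U hy) θ₁ θ₂ h1 h2 h3
    · exact Eventually.of_forall fun s h1 h2 h3 h4 => absurd ⟨h1, h2, h3, h4⟩ hc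
  filter_upwards [eventually_all.2 key] with s hs T cutF hΓ M hΓ' hsep hF top y hy θ₁ θ₂ h1 h2 h3 r hr
  exact hs ⟨⟨T, cutF⟩, ⟨M.F, M.H, M.D, M.p, M.O⟩, top, ⟨r, Nat.lt_succ_of_le hr⟩⟩ hΓ hΓ' hsep hF y hy θ₁ θ₂ h1 h2 h3

end

end Claimed.Agent.R285.C5
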