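import Claimed.Agent.R285.C5.EsWinDefs

/-!
# ROW 285, [C] s5.3, package ES-WIN, leaf L-ES-WIN-FINE: the window of observation cells is a window of subcells      (architect helper60)

PAPER-FREE.   `W0.o = (t * W.o.1, t * W.o.2)` in `Fin c0.n`, `c0.n = t * c.n` (`C5.res_n0`, `C5/ResL.lean`; `hV.m`, `hV.m0` give `c.m = t * c0.m`);  `le₁ : t * m₁ ≤ t * c.n`;  `free`: multiply `W.free` by `t`;
`W0.site x = G.π (c0.m * (t * o) + x) = G.π (c.m * o + x) = W.site x` (`EgWin.site`, `push_cast`, `ring_nf`).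
-/

set_option autoImplicit false

namespace Claimed.Agent.R285.C5

open Claimed.Agent.R285 Claimed.Agent.R285.RG Claimed.Agent.R285.F4a Claimed.Agent.R285.Entry

/-- L-ES-WIN-FINE -/
theorem esw_fine {G : Geom} {c c0 : Grid G} {m₁ m₂ t s0 : ℕ} (hV : EsVol c c0 t s0) (W : EgWin c m₁ m₂) :
    ∃ W0 : EgWin c0 (t * m₁) (t * m₂), ∀ x, W0.site x = W.site x := by
  have hm : c.m = t * c0.m := by rw [hV.m, hV.m0]
  have hn : c0.n = t * c.n := res_n0 hV.hc hV.hc0 hm
  have htp : 0 < t := by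
    rcases Nat.eq_zero_or_pos t with h | h
    · have := hV.hc.pos
      rw [hm, h] at this
      omega
    · exact h
  have h1 : t * (W.o.1 : ℕ) < c0.n := by
    rw [hn]
    exact Nat.mul_lt_mul_of_pos_left W.o.1.isLt htp
  have h2 : t * (W.o.2 : ℕ) < c0.n := by
    rw [hn]
    exact Nat.mul_lt_mul_of_pos_left W.o.2.isLt htp
  refine ⟨⟨(⟨t * (W.o.1 : ℕ), h1⟩, ⟨t * (W.o.2 : ℕ), h2⟩), ?_, ?_, ?_⟩, ?_⟩
  · rw [hn]
    exact Nat.mul_le_mul_left t W.le₁
  · rw [hn]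
    exact Nat.mul_le_mul_left t W.le₂
  · intro hb
    obtain ⟨a1, a2⟩ := W.free hb
    constructor
    · show t * (W.o.1 : ℕ) + t * m₁ ≤ c0.n
      rw [hn, ← Nat.mul_add]
      exact Nat.mul_le_mul_left t a1
    · show t * (W.o.2 : ℕ) + t * m₂ ≤ c0.n
      rw [hn, ← Nat.mul_add]
      exact Nat.mul_le_mul_left t a2
  · intro x
    simp only [EgWin.site]
    rw [hm]
    push_cast
    congr 2 <;> ring

end Claimed.Agent.R285.C5
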