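import Claimed.Agent.R285.C5.EsWinAr

/-!
# ROW 285, [C] s5.3, package ES-WIN, leaf L-ES-WIN-REF: the refined window and the coarse window are the same graph      (architect helper60)

PAPER-FREE, window side only (no torus): both graphs are `domG D cut` on the SAME sites and bonds of `ℤ²`.
PLAN.  `subst hS`.   Tools: `Entry.eg_win_mem_region`, `eg_win_mem_cell`, `eg_win_pos_mem`, `eg_win_cell_unique`, `eg_win_snd`, `eg_win_avgRow`, `eg_win_lwB` (`Entry/GoodWin.lean`); `esw_cell_up`, `esw_cell_down`, `esw_step_out` (`C5/EsWinAr.lean`).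
(1) regions: `x ∈ (egGr (t m₁) (t m₂) s0).region Γ'.T ↔ x ∈ (egGr m₁ m₂ (t s0)).region Γ.T` (`hR.T`, `esw_cell_up`, `esw_cell_down`);
(2) cuts: `e ∈ Γ'.cutB (egGr .. s0) ↔ e ∈ Γ.cutB (egGr .. (t s0))` (`hR.cut`, `esw_step_out`, `esw_cell_down`);   so `domBonds` agree;
(3) `eV x = ⟨x.1, _⟩`, `eE e = ⟨e.1, _⟩` (`Equiv.subtypeEquivRight`-like; `src`, `tgt` by `rfl`/`Subtype.ext`), `eO = Equiv.refl`;
(4) `lam`: both lattices are `⊤` (`hR.pin'`, `hR.pin`; see the end of `eg_win_iso`);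
(5) `row`: for `x` in the subcell `κ`: `∑_κ' esRow0 Γ t o κ' * avgRow {κ'} x = [up t κ = κ_o] t⁻² s0⁻²` and `(egLw Γ (t s0)).B o x = [x ∈ cell κ_o] (t s0)⁻²`.
-/

set_option autoImplicit false

namespace Claimed.Agent.R285.C5

open scoped BigOperators
open Claimed.Agent.R285 Claimed.Agent.R285.RG Claimed.Agent.R285.F4a Claimed.Agent.R285.Entry

/-- two laws without constraints on the same sites and bonds of `ℤ²`, with the same rows -/
theorem esw_ref_same {D D' : Finset (ℤ × ℤ)} {cut cut' : Set Bond} (hD : D = D') (hc : cut = cut')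
    (H : HLaw (domG D cut)) (H' : HLaw (domG D' cut')) (eO : H.O ≃ H'.O)
    (hΛ : ∀ h, h ∈ H.Λ) (hΛ' : ∀ h, h ∈ H'.Λ)
    (hrow : ∀ o (x : (domG D cut).V) (x' : (domG D' cut').V), domPos x' = domPos x → H'.B (eO o) x' = H.B o x) :
    ∃ i : HIso H H', (∀ x, domPos (i.eV x) = domPos x) ∧ ∀ o, i.eO o = eO o := by
  subst hD
  subst hc
  exact ⟨{ eV := Equiv.refl _
           eE := Equiv.refl _
           eO := eO
           src := fun _ => rfl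
           tgt := fun _ => rfl
           lam := fun h' => ⟨fun _ => hΛ _, fun _ => hΛ' _⟩
           row := fun o v => hrow o v v rfl }, fun _ => rfl, fun _ => rfl⟩

/-- the regions agree -/
theorem esw_ref_region {m₁ m₂ t s0 : ℕ} (ht : 0 < t) (hs : 0 < s0) (Γ' : CGeom (t * m₁) (t * m₂)) (Γ : CGeom m₁ m₂)
    (hR : EsRef t Γ' Γ) : (egGr (t * m₁) (t * m₂) s0).region Γ'.T = (egGr m₁ m₂ (t * s0)).region Γ.T := by
  have hts : 0 < t * s0 := Nat.mul_pos ht hs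
  ext x
  rw [eg_win_mem_region s0 hs, eg_win_mem_region (t * s0) hts]
  constructor
  · rintro ⟨κ, hκ, hx⟩
    exact ⟨Geo.up t κ, (hR.T κ).1 hκ, esw_cell_up ht hx⟩
  · rintro ⟨K, hK, hx⟩
    obtain ⟨κ, hκ, rfl⟩ := esw_cell_down ht hs hx
    exact ⟨κ, (hR.T κ).2 hK, hκ⟩

/-- the cuts agree -/
theorem esw_ref_cut {m₁ m₂ t s0 : ℕ} (ht : 0 < t) (hs : 0 < s0) (Γ' : CGeom (t * m₁) (t * m₂)) (Γ : CGeom m₁ m₂)
    (hR : EsRef t Γ' Γ) : Γ'.cutB (egGr (t * m₁) (t * m₂) s0) = Γ.cutB (egGr m₁ m₂ (t * s0)) := by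
  have hts : 0 < t * s0 := Nat.mul_pos ht hs
  ext e
  unfold CGeom.cutB
  simp only [Set.mem_ofPred_eq, eg_win_mem_cell s0 hs, eg_win_mem_cell (t * s0) hts, eg_win_snd]
  constructor
  · rintro ⟨f, hf, h1, h2, h3⟩
    obtain ⟨g1, g2⟩ := (hR.cut f).1 hf
    refine ⟨(Geo.up t f.1, f.2), g1, h1, esw_cell_up ht h2, ?_⟩
    refine (esw_step_out ht hs h2).2 ⟨h3, ?_⟩
    rw [h1]
    exact g2
  · rintro ⟨f, hf, h1, h2, h3⟩
    obtain ⟨κ, hκ, hup⟩ := esw_cell_down ht hs h2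
    rw [← hup] at h3
    obtain ⟨g1, g2⟩ := (esw_step_out ht hs hκ).1 h3
    refine ⟨(κ, f.2), (hR.cut (κ, f.2)).2 ⟨?_, ?_⟩, h1, hκ, g1⟩
    · show (Geo.up t κ, f.2) ∈ Γ.cutF
      rw [hup]
      exact hf
    · rw [h1] at g2
      exact g2

/-- no pins: no constraint -/
theorem esw_ref_top {n₁ n₂ : ℕ} (Γ : CGeom n₁ n₂) (g : DGrid n₁ n₂) (hp : Γ.pin = ∅) {N : ℕ} (row : Fin N → C3.Cell n₁ n₂ → ℝ)
    (h : (Γ.graph g).V → ℤ) : h ∈ (C3.lawR Γ g row).Λ := by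
  show _ ∈ HLaw.pinned (Γ.sites g Γ.pin)
  intro v hv
  exfalso
  rw [hp] at hv
  have : domPos v ∈ (↑(g.region (∅ : Finset (C3.Cell n₁ n₂))) : Set (ℤ × ℤ)) := hv
  simp [DGrid.region] at this

/-- the rows agree -/
theorem esw_ref_row {m₁ m₂ t s0 : ℕ} (ht : 0 < t) (hs : 0 < s0) (Γ' : CGeom (t * m₁) (t * m₂)) (Γ : CGeom m₁ m₂)
    (o : Fin Γ.T.card) (x : (Γ'.graph (egGr (t * m₁) (t * m₂) s0)).V) (x' : (Γ.graph (egGr m₁ m₂ (t * s0))).V)
    (hxx : domPos x' = domPos x) :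
    (egLw Γ (t * s0)).B o x' = (C3.lawR Γ' (egGr (t * m₁) (t * m₂) s0) (esRow0 Γ t)).B o x := by
  classical
  have hts : 0 < t * s0 := Nat.mul_pos ht hs
  show (egLw Γ (t * s0)).B o x' = ∑ κ, esRow0 Γ t o κ * Γ'.avgRow (egGr (t * m₁) (t * m₂) s0) {κ} x
  rw [eg_win_lwB, eg_win_avgRow (t * s0) hts, hxx]
  obtain ⟨κ, hκ, hx⟩ := (eg_win_mem_region s0 hs Γ'.T _).1 (eg_win_pos_mem Γ' _ x)
  rw [Finset.sum_eq_single κ]
  · rw [eg_win_avgRow s0 hs, if_pos hx]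
    unfold esRow0
    by_cases h : Geo.up t κ = (Γ.T.equivFin.symm o).1
    · rw [if_pos h, if_pos (h ▸ esw_cell_up ht hx)]
      push_cast
      rw [mul_pow, mul_inv]
    · rw [if_neg h, if_neg (fun h' => h (eg_win_cell_unique (esw_cell_up ht hx) h')), zero_mul]
  · intro κ' _ hκ'
    rw [eg_win_avgRow s0 hs, if_neg (fun h' => hκ' (eg_win_cell_unique h' hx)), mul_zero]
  · intro h
    exact absurd (Finset.mem_univ _) h

/-- L-ES-WIN-REF -/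
theorem esw_ref_iso {m₁ m₂ t s0 S : ℕ} (ht : 0 < t) (hs : 0 < s0) (hS : S = t * s0) (Γ' : CGeom (t * m₁) (t * m₂)) (Γ : CGeom m₁ m₂)
    (hR : EsRef t Γ' Γ) :
    ∃ i : HIso (C3.lawR Γ' (egGr (t * m₁) (t * m₂) s0) (esRow0 Γ t)) (egLw Γ S), (∀ x, domPos (i.eV x) = domPos x) ∧ ∀ o, i.eO o = o := by
  subst hS
  exact esw_ref_same (esw_ref_region ht hs Γ' Γ hR) (esw_ref_cut ht hs Γ' Γ hR)
    (C3.lawR Γ' (egGr (t * m₁) (t * m₂) s0) (esRow0 Γ t)) (egLw Γ (t * s0)) (Equiv.refl (Fin Γ.T.card))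
    (esw_ref_top Γ' _ hR.pin' _) (esw_ref_top Γ _ hR.pin _) (fun o x x' hxx => esw_ref_row ht hs Γ' Γ o x x' hxx)

end Claimed.Agent.R285.C5
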