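import Claimed.Agent.R285.C5.EsWinStr
import Claimed.Agent.R285.C5.EsWinRef
import Claimed.Agent.R285.C5.EsWinSoft
import Claimed.Agent.R285.C5.EsWinFine
import Claimed.Agent.R285.C5.EsWinRows

/-!
# ROW 285, [C] s5.3, post C5-BOX, package ES-WIN: FROM A VOLUME TO THE WINDOW LAWS      (contract: helper262; architect helper60)

TWIN of `Entry/GoodWin.lean` (helper109).   REUSED without change: `HIso` and all `hi_*`, all `eg_win_*` site lemmas, `eg_win_iso`, `eg_shp_*`, `eg_fits_*`.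
THE NEW ISOMORPHISM `esw_iso` is a composition (see `C5/EsWinDefs.lean`):  SOFT (`C5/EsWinSoft.lean`), then STR (`C5/EsWinStr.lean`) applied to REF (`C5/EsWinRef.lean`) followed by `Entry.eg_win_iso`.
The only new fact about the volume is `esw_fine` (`C5/EsWinFine.lean`): the window is also a window of subcells, with the same site map.
* s1 blocks of a site, `esw_iso`;   s2 the dictionary;   s3 the functionals;   s4 the exits (statements of helper262, verbatim).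
-/

set_option autoImplicit false

namespace Claimed.Agent.R285.C5

open scoped BigOperators
open Claimed.Agent.R285 Claimed.Agent.R285.RG Claimed.Agent.R285.F4a Claimed.Agent.R285.Entry

noncomputable section

variable {G : Geom} {c c0 : Grid G} {m₁ m₂ t s0 : ℕ}

/-! ## 1. The isomorphism -/

theorem esw_pos (hV : EsVol c c0 t s0) : 0 < t ∧ 0 < s0 := by
  have h1 := hV.hc.pos
  rw [hV.m] at h1
  exact ⟨Nat.pos_of_mul_pos_right h1, Nat.pos_of_mul_pos_left h1⟩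

/-- the observation cell of a site of the window -/
theorem esw_blk (hV : EsVol c c0 t s0) (W : EgWin c m₁ m₂) {x : ℤ × ℤ} {κ : C3.Cell (t * m₁) (t * m₂)}
    (hx : egCellOf (t * m₁) (t * m₂) s0 x κ) : c.blk (W.site x) = W.emb (Geo.up t κ) := by
  have h := esw_cell_up (esw_pos hV).1 hx
  rw [← hV.m] at h
  exact eg_win_blk_site hV.hc W x _ h

/-- two sites of the window lie in the same subcell of the volume iff they lie in the same subcell of the window -/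
theorem esw_blk0 (hV : EsVol c c0 t s0) (W : EgWin c m₁ m₂) {x x' : ℤ × ℤ} {κ κ' : C3.Cell (t * m₁) (t * m₂)}
    (hx : egCellOf (t * m₁) (t * m₂) s0 x κ) (hx' : egCellOf (t * m₁) (t * m₂) s0 x' κ') :
    c0.blk (W.site x) = c0.blk (W.site x') ↔ κ = κ' := by
  obtain ⟨W0, hW0⟩ := esw_fine hV W
  have h1 : c0.blk (W.site x) = W0.emb κ := by
    rw [← hW0]
    exact eg_win_blk_site hV.hc0 W0 x κ (by rw [hV.m0]; exact hx)
  have h2 : c0.blk (W.site x') = W0.emb κ' := by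
    rw [← hW0]
    exact eg_win_blk_site hV.hc0 W0 x' κ' (by rw [hV.m0]; exact hx')
  rw [h1, h2]
  exact ⟨fun h => eg_win_emb_inj hV.hc0 W0 h, fun h => by rw [h]⟩

/-- every site of the graph lies in a present subcell -/
theorem esw_site_cell {n₁ n₂ : ℕ} (Γ' : CGeom n₁ n₂) {s : ℕ} (hs : 0 < s) (x : (Γ'.graph (egGr n₁ n₂ s)).V) :
    ∃ κ ∈ Γ'.T, egCellOf n₁ n₂ s (domPos x) κ :=
  (eg_win_mem_region s hs Γ'.T _).1 (eg_win_pos_mem Γ' _ x)

theorem esw_cell_of {n₁ n₂ : ℕ} (Γ' : CGeom n₁ n₂) {s : ℕ} (hs : 0 < s) (x : (Γ'.graph (egGr n₁ n₂ s)).V) {κ : C3.Cell n₁ n₂}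
    (hx : egCellOf n₁ n₂ s (domPos x) κ) : eswCell Γ' s x = (((κ.1 : ℕ) : ℤ), ((κ.2 : ℕ) : ℤ)) := by
  obtain ⟨h1, h2⟩ := (esw_cell_div hs _ κ).1 hx
  exact Prod.ext h1 h2

/-- the reference law: rows of the observation cells only -/
theorem esw_iso0 (hV : EsVol c c0 t s0) (W : EgWin c m₁ m₂) (T : Top c) (hT : T.Ok) (Γ : CGeom m₁ m₂) (hS : W.Shp T Γ)
    (Γ' : CGeom (t * m₁) (t * m₂)) (hR : EsRef t Γ' Γ) :
    ∃ i : HIso (C3.lawR Γ' (esGr m₁ m₂ t s0) (esRow0 Γ t)) T.law, (∀ x, (i.eV x).1 = W.site (domPos x)) ∧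
      ∀ o : Fin Γ.T.card, (i.eO o).1 = W.emb (Γ.T.equivFin.symm o).1 := by
  obtain ⟨i2, h2V, h2O⟩ := esw_ref_iso (esw_pos hV).1 (esw_pos hV).2 hV.m Γ' Γ hR
  obtain ⟨i3, h3V, h3O⟩ := eg_win_iso hV.hc W T hT Γ hS
  refine ⟨eswTrans i2 i3, fun x => ?_, fun o => ?_⟩
  · show (i3.eV (i2.eV x)).1 = _
    rw [h3V, h2V]
  · exact (congrArg (fun z => (i3.eO z).1) (h2O o)).trans (h3O o)

/-- **the isomorphism** of the strengthened laws -/
theorem esw_iso (hV : EsVol c c0 t s0) (δ : ℝ) (W : EgWin c m₁ m₂) (T : Top c) (hT : T.Ok) (Γ : CGeom m₁ m₂) (hS : W.Shp T Γ)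
    (Γ' : CGeom (t * m₁) (t * m₂)) (hR : EsRef t Γ' Γ) {N' : ℕ} (row : Fin N' → C3.Cell (t * m₁) (t * m₂) → ℝ)
    (e : Fin N' ≃ Fin Γ.T.card ⊕ {f // f ∈ esSoft Γ'})
    (he : ∀ o, row o = Sum.elim (esRow0 Γ t) (fun f => esSoftRow (Real.sqrt δ) f.1) (e o)) :
    ∃ i : HIso (C3.lawR Γ' (esGr m₁ m₂ t s0) row) (lawS T c0 δ), (∀ x, (i.eV x).1 = W.site (domPos x)) ∧
      ∀ y : c.I → ℝ, (affS T c0 δ y).c ∘ i.eO = eswCen e (egCen Γ (W.obs y)) := by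
  have hs := (esw_pos hV).2
  obtain ⟨i0, h0V, h0O⟩ := esw_iso0 hV W T hT Γ hS Γ' hR
  obtain ⟨i1, h1V, h1l, h1r⟩ := esw_soft_iso Γ' s0 hs (Real.sqrt δ) (esRow0 Γ t) row e he
  have hκ : ∀ v v', subOf T c0 (i0.eV v) = subOf T c0 (i0.eV v') ↔ eswCell Γ' s0 v = eswCell Γ' s0 v' := by
    intro v v'
    obtain ⟨κ, -, hx⟩ := esw_site_cell Γ' hs v
    obtain ⟨κ', -, hx'⟩ := esw_site_cell Γ' hs v'
    show c0.blk (i0.eV v).1 = c0.blk (i0.eV v').1 ↔ _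
    rw [h0V, h0V, esw_blk0 hV W hx hx', esw_cell_of Γ' hs v hx, esw_cell_of Γ' hs v' hx']
    constructor
    · rintro rfl
      rfl
    · intro h
      have a1 : ((κ.1 : ℕ) : ℤ) = ((κ'.1 : ℕ) : ℤ) := congrArg Prod.fst h
      have a2 : ((κ.2 : ℕ) : ℤ) = ((κ'.2 : ℕ) : ℤ) := congrArg Prod.snd h
      exact Prod.ext (Fin.ext (by exact_mod_cast a1)) (Fin.ext (by exact_mod_cast a2))
  obtain ⟨j, hjV, hjl, hjr⟩ := esw_str i0 (eswCell Γ' s0) (subOf T c0) hκ (Real.sqrt δ)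
  refine ⟨eswTrans i1 j, fun x => ?_, fun y => ?_⟩
  · show (j.eV (i1.eV x)).1 = _
    rw [h1V, hjV, h0V]
  · funext o
    show (affS T c0 δ y).c (j.eO (i1.eO o)) = Sum.elim (egCen Γ (W.obs y)) (fun _ => 0) (e o)
    rcases ho : e o with o' | f
    · have e2 : j.eO (i1.eO o) = Sum.inl (i0.eO o') := (congrArg j.eO (h1l o o' ho)).trans (hjl o')
      rw [e2]
      show y (i0.eO o').1 = y (W.emb (Γ.T.equivFin.symm o').1)
      rw [h0O]
    · obtain ⟨p, hp⟩ := h1r o f ho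
      obtain ⟨p', hp'⟩ := hjr p
      have e3 : j.eO (i1.eO o) = Sum.inr p' := (congrArg j.eO hp).trans hp'
      rw [e3]
      rfl

/-! ## 2. The dictionary -/

/-- the dictionary of sites, tests and fields under an isomorphism which follows `W.site` (twin of `eg_win_dic`) -/
theorem esw_dic (hV : EsVol c c0 t s0) (W : EgWin c m₁ m₂) (T : Top c) (Γ' : CGeom (t * m₁) (t * m₂))
    {H : HLaw (Γ'.graph (esGr m₁ m₂ t s0))} {H' : HLaw T.graph} (i : HIso H H') (hi : ∀ x, (i.eV x).1 = W.site (domPos x)) :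
    (∀ p : Finset c.I, i.eV ⁻¹' egSites T p = Γ'.sites (esGr m₁ m₂ t s0) (esUp t (W.pre p))) ∧
    (∀ y : c.I → ℝ, egTest T y ∘ i.eV = Γ'.cellTest (esGr m₁ m₂ t s0) (esTst t (W.obs y))) ∧
    (∀ (α : Type) (h : G.V → α), egRes T h ∘ i.eV = eswPull W Γ' s0 h) ∧
    (∀ (α : Type) [Zero α] (h : (Γ'.graph (esGr m₁ m₂ t s0)).V → α), egExt T (h ∘ i.eV.symm) = eswPush W Γ' s0 h) := by
  classical
  have hs := (esw_pos hV).2
  have ht := (esw_pos hV).1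
  have hcell : ∀ x : (Γ'.graph (esGr m₁ m₂ t s0)).V, ∃ κ ∈ Γ'.T, egCellOf (t * m₁) (t * m₂) s0 (domPos x) κ ∧
      c.blk (i.eV x).1 = W.emb (Geo.up t κ) := by
    intro x
    obtain ⟨κ, hκ, hx⟩ := esw_site_cell Γ' hs x
    exact ⟨κ, hκ, hx, by rw [hi]; exact esw_blk hV W hx⟩
  refine ⟨fun p => ?_, fun y => ?_, fun α h => ?_, fun α _ h => ?_⟩
  · ext x
    obtain ⟨κ, hκ, hx, hb⟩ := hcell x
    show c.blk (i.eV x).1 ∈ p ↔ domPos x ∈ (↑((esGr m₁ m₂ t s0).region (esUp t (W.pre p))) : Set (ℤ × ℤ))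
    rw [hb, Finset.mem_coe, eg_win_mem_region s0 hs]
    constructor
    · intro h
      exact ⟨κ, by simp [esUp, EgWin.pre, h], hx⟩
    · rintro ⟨κ', hκ', hx'⟩
      have : κ' = κ := eg_win_cell_unique hx' hx
      subst this
      simpa [esUp, EgWin.pre] using hκ'
  · funext x
    obtain ⟨κ, hκ, hx, hb⟩ := hcell x
    rw [eg_win_cellTest s0 hs Γ' _ x κ hx]
    show y (c.blk (i.eV x).1) * ((c.sites {c.blk (i.eV x).1}).card : ℝ)⁻¹ = y (W.emb (Geo.up t κ)) / (t : ℝ) ^ 2 * ((s0 : ℝ) ^ 2)⁻¹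
    rw [hb, whole_sites_card hV.hc, hV.m]
    push_cast
    rw [mul_pow, mul_inv, div_eq_mul_inv, mul_assoc]
  · funext x
    show h (i.eV x).1 = h (W.site (domPos x))
    rw [hi]
  · funext v
    show (if hv : c.blk v ∈ T.cells then h (i.eV.symm ⟨v, hv⟩) else 0)
      = if hv : ∃ x : (Γ'.graph (esGr m₁ m₂ t s0)).V, W.site (domPos x) = v then h hv.choose else 0
    by_cases hv : c.blk v ∈ T.cells
    · have hex : ∃ x : (Γ'.graph (esGr m₁ m₂ t s0)).V, W.site (domPos x) = v := by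
        refine ⟨i.eV.symm ⟨v, hv⟩, ?_⟩
        rw [← hi]
        exact congrArg Subtype.val (i.eV.apply_symm_apply ⟨v, hv⟩)
      rw [dif_pos hv, dif_pos hex]
      congr 1
      apply i.eV.injective
      apply Subtype.ext
      rw [hi hex.choose, hex.choose_spec]
      exact congrArg Subtype.val (i.eV.apply_symm_apply ⟨v, hv⟩)
    · rw [dif_neg hv, dif_neg]
      rintro ⟨x, hx⟩
      apply hv
      rw [← hx, ← hi]
      exact (i.eV x).2

/-- the rows of the observation cells paired with their centres are the cell test (twin of `eg_win_cen_test`) -/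
theorem esw_cen_test (ht : 0 < t) (hs : 0 < s0) (Γ : CGeom m₁ m₂) (Γ' : CGeom (t * m₁) (t * m₂)) (hR : EsRef t Γ' Γ) {N' : ℕ}
    (row : Fin N' → C3.Cell (t * m₁) (t * m₂) → ℝ) (w : ℝ) (e : Fin N' ≃ Fin Γ.T.card ⊕ {f // f ∈ esSoft Γ'})
    (he : ∀ o, row o = Sum.elim (esRow0 Γ t) (fun f => esSoftRow w f.1) (e o)) (z : C3.Cell m₁ m₂ → ℝ)
    (x : (Γ'.graph (esGr m₁ m₂ t s0)).V) :
    Γ'.cellTest (esGr m₁ m₂ t s0) (esTst t z) x = ∑ o, eswCen e (egCen Γ z) o * (C3.lawR Γ' (esGr m₁ m₂ t s0) row).B o x := by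
  classical
  obtain ⟨κ, hκ, hx⟩ := esw_site_cell Γ' hs x
  have hK : Geo.up t κ ∈ Γ.T := (hR.T κ).1 hκ
  have hB : ∀ o, (C3.lawR Γ' (esGr m₁ m₂ t s0) row).B o x = row o κ * ((s0 : ℝ) ^ 2)⁻¹ := by
    intro o
    show ∑ κ', row o κ' * Γ'.avgRow (esGr m₁ m₂ t s0) {κ'} x = _
    rw [Finset.sum_eq_single κ]
    · rw [eg_win_avgRow s0 hs, if_pos hx]
    · intro κ' _ hκ'
      rw [eg_win_avgRow s0 hs, if_neg (fun h => hκ' (eg_win_cell_unique h hx)), mul_zero]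
    · intro h
      exact absurd (Finset.mem_univ _) h
  have hsum : ∑ o, eswCen e (egCen Γ z) o * (C3.lawR Γ' (esGr m₁ m₂ t s0) row).B o x
      = ∑ o, eswCen e (egCen Γ z) o * (row o κ * ((s0 : ℝ) ^ 2)⁻¹) :=
    Finset.sum_congr rfl fun o _ => congrArg _ (hB o)
  rw [eg_win_cellTest s0 hs Γ' _ x κ hx, hsum, ← e.symm.sum_comp, Fintype.sum_sum_type]
  have e2 : ∑ f : {f // f ∈ esSoft Γ'}, eswCen e (egCen Γ z) (e.symm (Sum.inr f)) * (row (e.symm (Sum.inr f)) κ * ((s0 : ℝ) ^ 2)⁻¹) = 0 := by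
    refine Finset.sum_eq_zero fun f _ => ?_
    simp [eswCen]
  rw [e2, add_zero, Finset.sum_eq_single (Γ.T.equivFin ⟨Geo.up t κ, hK⟩)]
  · rw [he]
    simp [eswCen, egCen, esRow0, esTst, div_eq_mul_inv, mul_assoc]
  · intro o _ ho
    rw [he]
    have : Geo.up t κ ≠ (Γ.T.equivFin.symm o).1 := by
      intro h
      apply ho
      have e3 : Γ.T.equivFin.symm o = ⟨Geo.up t κ, hK⟩ := Subtype.ext h.symm
      rw [← e3, Equiv.apply_symm_apply]
    simp [esRow0, this]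
  · intro h
    exact absurd (Finset.mem_univ _) h

/-! ## 3. The functionals -/

section dic

variable (hV : EsVol c c0 t s0) (δ : ℝ) (W : EgWin c m₁ m₂) (T : Top c) (hT : T.Ok) (Γ : CGeom m₁ m₂) (hS : W.Shp T Γ)
  (Γ' : CGeom (t * m₁) (t * m₂)) (hR : EsRef t Γ' Γ) {N' : ℕ} (row : Fin N' → C3.Cell (t * m₁) (t * m₂) → ℝ)
  (e : Fin N' ≃ Fin Γ.T.card ⊕ {f // f ∈ esSoft Γ'})
  (he : ∀ o, row o = Sum.elim (esRow0 Γ t) (fun f => esSoftRow (Real.sqrt δ) f.1) (e o))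

include hV hT hS hR

theorem esw_pull_push {α : Type} [Zero α] (h : (Γ'.graph (esGr m₁ m₂ t s0)).V → α) : eswPull W Γ' s0 (eswPush W Γ' s0 h) = h := by
  obtain ⟨i, hi, -⟩ := esw_iso0 hV W T hT Γ hS Γ' hR
  obtain ⟨_, _, d3, d5⟩ := esw_dic hV W T Γ' i hi
  rw [← d3, ← d5]
  funext x
  show (if hv : c.blk (i.eV x).1 ∈ T.cells then h (i.eV.symm ⟨(i.eV x).1, hv⟩) else 0) = h x
  rw [dif_pos (i.eV x).2]
  congr 1
  exact i.eV.symm_apply_apply x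

/-- the reference energy on the refined graph -/
theorem esw_Eobs (a : ℝ) (y : c.I → ℝ) :
    T.Eobs a 0 y = (C3.lawR Γ' (esGr m₁ m₂ t s0) (esRow0 Γ t)).gEn a 0 (egCen Γ (W.obs y)) := by
  obtain ⟨i, -, hO⟩ := esw_iso0 hV W T hT Γ hS Γ' hR
  rw [eg_win_Eobs_gEn, hi_gEn i]
  congr 1
  funext o
  exact congrArg y (hO o)

omit hV hT hS hR in
theorem esw_aff (i : HIso (C3.lawR Γ' (esGr m₁ m₂ t s0) row) (lawS T c0 δ))
    (hc : ∀ y : c.I → ℝ, (affS T c0 δ y).c ∘ i.eO = eswCen e (egCen Γ (W.obs y))) (y : c.I → ℝ) :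
    i.pullA (affS T c0 δ y) = ⟨0, 0, eswCen e (egCen Γ (W.obs y))⟩ := by
  unfold HIso.pullA
  rw [hc y]
  rfl

include he

theorem esw_Z (b : ℝ) (y : c.I → ℝ) :
    esZ T c0 δ b y = (C3.lawR Γ' (esGr m₁ m₂ t s0) row).Z b ⟨0, 0, eswCen e (egCen Γ (W.obs y))⟩ fun _ => 1 := by
  obtain ⟨i, hi, hc⟩ := esw_iso hV δ W T hT Γ hS Γ' hR row e he
  unfold esZ
  rw [hi_Z i, esw_aff δ W T Γ Γ' row e i hc y]

theorem esw_CL (b : ℝ) (p : Finset c.I) (y : c.I → ℝ) (h : G.V → ℤ) :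
    esCL T c0 δ b p y h = C3.cLap (C3.lawR Γ' (esGr m₁ m₂ t s0) row) b (Γ'.sites (esGr m₁ m₂ t s0) (esUp t (W.pre p)))
      (Γ'.cellTest (esGr m₁ m₂ t s0) (esTst t (W.obs y))) (eswPull W Γ' s0 h) := by
  obtain ⟨i, hi, -⟩ := esw_iso hV δ W T hT Γ hS Γ' hR row e he
  obtain ⟨d1, d2, d3, _⟩ := esw_dic hV W T Γ' i hi
  unfold esCL
  rw [hi_cLap i, d1, d2, d3]

theorem esw_RP (b : ℝ) (p H : Finset c.I) (h : G.V → ℤ) :
    esRP T c0 δ b p H h = C3.rPin (C3.lawR Γ' (esGr m₁ m₂ t s0) row) b (Γ'.sites (esGr m₁ m₂ t s0) (esUp t (W.pre p)))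
      (Γ'.sites (esGr m₁ m₂ t s0) (esUp t (W.pre H))) (eswPull W Γ' s0 h) := by
  obtain ⟨i, hi, -⟩ := esw_iso hV δ W T hT Γ hS Γ' hR row e he
  obtain ⟨d1, _, d3, _⟩ := esw_dic hV W T Γ' i hi
  unfold esRP
  rw [hi_rPin i, d1, d1, d3]

theorem esw_Ex (b : ℝ) (y : c.I → ℝ) (Ψ : (G.V → ℤ) → ℝ) :
    esEx T c0 δ b y Ψ = C3.ExT (C3.lawR Γ' (esGr m₁ m₂ t s0) row) b (Γ'.cellTest (esGr m₁ m₂ t s0) (esTst t (W.obs y)))
      fun h => Ψ (eswPush W Γ' s0 h) := by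
  obtain ⟨i, hi, hc⟩ := esw_iso hV δ W T hT Γ hS Γ' hR row e he
  obtain ⟨_, _, _, d5⟩ := esw_dic hV W T Γ' i hi
  have e1 : esSum T c0 δ b y Ψ = C3.ZI (C3.lawR Γ' (esGr m₁ m₂ t s0) row) b ⟨0, 0, eswCen e (egCen Γ (W.obs y))⟩
      fun h => Ψ (eswPush W Γ' s0 h) := by
    unfold esSum
    rw [hi_ZI i, esw_aff δ W T Γ Γ' row e i hc y]
    congr 1
    funext h
    rw [d5]
  have e2 : esZ T c0 δ b y = C3.ZI (C3.lawR Γ' (esGr m₁ m₂ t s0) row) b ⟨0, 0, eswCen e (egCen Γ (W.obs y))⟩ fun _ => 1 := by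
    rw [esw_Z hV δ W T hT Γ hS Γ' hR row e he]
    rfl
  have hf := esw_cen_test (esw_pos hV).1 (esw_pos hV).2 Γ Γ' hR row (Real.sqrt δ) e he (W.obs y)
  have t1 := hi_tilt (C3.lawR Γ' (esGr m₁ m₂ t s0) row) b (eswCen e (egCen Γ (W.obs y))) _ hf fun h => Ψ (eswPush W Γ' s0 h)
  have t2 := hi_tilt (C3.lawR Γ' (esGr m₁ m₂ t s0) row) b (eswCen e (egCen Γ (W.obs y))) _ hf fun _ => 1
  unfold esEx C3.ExT
  rw [e1, e2, t1, t2, mul_div_mul_left _ _ (Real.exp_pos _).ne']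
  simp only [one_mul]

theorem esw_dPin (b : ℝ) (H p : Finset c.I) :
    (lawS T c0 δ).dPin b (egSites T H) (egSites T p)
      = (C3.lawR Γ' (esGr m₁ m₂ t s0) row).dPin b (Γ'.sites (esGr m₁ m₂ t s0) (esUp t (W.pre H)))
          (Γ'.sites (esGr m₁ m₂ t s0) (esUp t (W.pre p))) := by
  obtain ⟨i, hi, -⟩ := esw_iso hV δ W T hT Γ hS Γ' hR row e he
  obtain ⟨d1, _, _, _⟩ := esw_dic hV W T Γ' i hi
  rw [hi_dPin i, d1, d1]

end dic

/-! ## 4. Exits -/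

/-- ES-WIN-EXIT: `𝒜` (twin of `eg_win_A`) -/
theorem es_win_A (hV : EsVol c c0 t s0) (δ : ℝ) (W : EgWin c m₁ m₂) (T : Top c) (hT : T.Ok) (hf : W.Fits T) (b a' : ℝ) (y : c.I → ℝ) :
    2 * Real.log (esZ T c0 δ b y / esZ T c0 δ b 0) + T.Eobs a' 0 y
      = 2 * esWR (W.shape T) t s0 δ b (W.obs y) + esWE0 (W.shape T) t s0 a' (W.obs y) := by
  have hS := eg_shp_shape W T hf
  have hR := esw_ref_refine (W.shape T) rfl t
  rw [esw_Z hV δ W T hT _ hS _ hR _ _ (esw_row_e _ t δ) b y, esw_Z hV δ W T hT _ hS _ hR _ _ (esw_row_e _ t δ) b 0,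
    esw_Eobs hV W T hT _ hS _ hR a' y, esw_cen_e, esw_cen_e]
  rfl

/-- ES-WIN-EXIT, the lattice side of the transfer (twin of `eg_win_transfer`) -/
theorem es_win_transfer (hV : EsVol c c0 t s0) (δ : ℝ) (W : EgWin c m₁ m₂) (T : Top c) (hT : T.Ok) (hf : W.Fits T) (M : EgMark c) (R : ℕ) (hM : M.Ok W T R)
    {b : ℝ} (hb : 0 < b) (top : Bool) (y : c.I → ℝ) (Φ : ℝ → ℝ → ℝ → ℝ) :
    esEx (egTop T M top) c0 δ b y (fun h => Φ (esCL (T.cut M.F) c0 δ b M.p y h) (esCL (T.glue M.F) c0 δ b M.p y h) (esRP (T.cut M.F) c0 δ b M.p M.H h))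
      = esWL (W.shape (T.cut M.F)) (M.pull W) t s0 δ b top (W.obs y) Φ := by
  have hTc : (T.cut M.F).Ok := eg_win_ok_cut T hT M.F
  have hTo : (T.glue M.F).Ok := eg_win_ok_glue T hT M.F (eg_win_ok_mark W T M R hM)
  have hSc : W.Shp (T.cut M.F) (W.shape (T.cut M.F)) := eg_shp_shape W _ (eg_fits_cut W T hf M.F)
  have hSo : W.Shp (T.glue M.F) (C3.uncut (W.shape (T.cut M.F)) (W.preF M.F)) := eg_shp_glue hV.hc W T hf M.F hM.faceW
  have hRc := esw_ref_refine (W.shape (T.cut M.F)) rfl t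
  have hRo := esw_ref_uncut (W.shape (T.cut M.F)) rfl (W.preF M.F) t
  have hec := esw_row_e (W.shape (T.cut M.F)) t δ
  obtain ⟨eo, heo⟩ := esw_rowU_e (W.shape (T.cut M.F)) (W.preF M.F) t δ
  cases top with
  | true =>
    show esEx (T.glue M.F) c0 δ b y _ = _
    rw [esw_Ex hV δ W _ hTo _ hSo _ hRo _ eo heo b y]
    unfold esWL
    simp only [if_true]
    unfold C3.ExU
    congr 1
    funext h
    have hpp : eswPull W (C3.uncut (Geo.refine (W.shape (T.cut M.F)) t) (esUpF t (W.preF M.F))) s0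
        (eswPush W (C3.uncut (Geo.refine (W.shape (T.cut M.F)) t) (esUpF t (W.preF M.F))) s0 h) = h :=
      esw_pull_push hV W _ hTo _ hSo _ hRo h
    rw [esw_CL hV δ W _ hTc _ hSc _ hRc _ _ hec b M.p y, esw_CL hV δ W _ hTo _ hSo _ hRo _ eo heo b M.p y,
      esw_RP hV δ W _ hTc _ hSc _ hRc _ _ hec b M.p M.H]
    have hpp' : eswPull W (Geo.refine (W.shape (T.cut M.F)) t) s0
        (eswPush W (C3.uncut (Geo.refine (W.shape (T.cut M.F)) t) (esUpF t (W.preF M.F))) s0 h) = h := hpp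
    rw [hpp, hpp']
    rfl
  | false =>
    show esEx (T.cut M.F) c0 δ b y _ = _
    rw [esw_Ex hV δ W _ hTc _ hSc _ hRc _ _ hec b y]
    unfold esWL
    simp only [Bool.false_eq_true, if_false]
    congr 1
    funext h
    have hpp : eswPull W (Geo.refine (W.shape (T.cut M.F)) t) s0 (eswPush W (Geo.refine (W.shape (T.cut M.F)) t) s0 h) = h :=
      esw_pull_push hV W _ hTc _ hSc _ hRc h
    have hpp' : eswPull W (C3.uncut (Geo.refine (W.shape (T.cut M.F)) t) (esUpF t (W.preF M.F))) s0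
        (eswPush W (Geo.refine (W.shape (T.cut M.F)) t) s0 h) = h := hpp
    rw [esw_CL hV δ W _ hTc _ hSc _ hRc _ _ hec b M.p y, esw_CL hV δ W _ hTo _ hSo _ hRo _ eo heo b M.p y,
      esw_RP hV δ W _ hTc _ hSc _ hRc _ _ hec b M.p M.H]
    rw [hpp, hpp']
    rfl

/-- ES-WIN-EXIT (twin of `eg_win_DE`; reference of the engine, on the refined graph) -/
theorem es_win_DE (hV : EsVol c c0 t s0) (W : EgWin c m₁ m₂) (T : Top c) (hT : T.Ok) (hf : W.Fits T) (M : EgMark c) (R : ℕ) (hM : M.Ok W T R) (a' : ℝ) (y : c.I → ℝ) :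
    egDE T M a' 0 y = esWDE0 (W.shape (T.cut M.F)) (M.pull W) t s0 a' (W.obs y) := by
  have hTc : (egPc T M).Ok := eg_win_ok_restr _ (eg_win_ok_cut T hT M.F) M.O
  have hTo : (egPo T M).Ok := eg_win_ok_restr _ (eg_win_ok_glue T hT M.F (eg_win_ok_mark W T M R hM)) M.O
  obtain ⟨hSc, hSo⟩ := eg_shp_patch hV.hc W T hf M hM.faceW
  unfold egDE esWDE0
  rw [esw_Eobs hV W _ hTo _ hSo _ (esw_ref_refine _ rfl t) a' y, esw_Eobs hV W _ hTc _ hSc _ (esw_ref_refine _ rfl t) a' y]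
  rfl

/-- ES-WIN-EXIT (twin of `eg_win_Ds`) -/
theorem es_win_Ds (hV : EsVol c c0 t s0) (δ : ℝ) (W : EgWin c m₁ m₂) (T : Top c) (hT : T.Ok) (hf : W.Fits T) (M : EgMark c) (R : ℕ) (hM : M.Ok W T R) (b : ℝ) :
    esDs T c0 δ M b = esWD (egWPc (W.shape (T.cut M.F)) (M.pull W)) t s0 δ b (M.pull W).H (M.pull W).p := by
  have hTc : (egPc T M).Ok := eg_win_ok_restr _ (eg_win_ok_cut T hT M.F) M.O
  obtain ⟨hSc, -⟩ := eg_shp_patch hV.hc W T hf M hM.faceW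
  unfold esDs
  rw [esw_dPin hV δ W _ hTc _ hSc _ (esw_ref_refine _ rfl t) _ _ (esw_row_e _ t δ) b M.H M.p]
  rfl

end

end Claimed.Agent.R285.C5
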