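import Claimed.Agent.R285.C5.EsEx
import Claimed.Agent.R285.C5.EsWin
import Claimed.Agent.R285.C5.EsSoft
import Claimed.Agent.R285.C5.EsGa
import Claimed.Agent.R285.C5.EsPot
import Claimed.Agent.R285.C5.Res
import Claimed.Agent.R285.Entry.Good

/-!
# ROW 285, [C] s5.3 (L5.4, "Bounded data and large data", 50-openness.tex l.520-660), post C5-BOX: EXITS      (architect helper262)

TWIN of `Entry/Good.lean` (helper109).   All theorems of this file are GLUE.   **Everything is at the CENTRAL parameter `b`** (except the reserve): the neighbourhood of `b` comes from the generic perturbation post PERT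
(helper221, helper118: `BoxOK` at the base point with slack ⟹ `BoxOK` at `b'`, `|b' - b| < r`), which replaces "finite-patch continuity" (l.818-845).
```
es_good_box  ⟸ es_Q_shift, eg_recentre  +  es_A_good  +  es_holder  +  es_one_mark_moment  +  eg_numeric
es_A_good    ⟸ es_win_A + [es_soft_A (s0 → ∞) + es_pot_E (t → ∞)]
es_one_mark_moment ⟸ es_delta_le + es_win_transfer, es_win_DE, es_win_Ds, eg_geo_pull, eg_wgeo_sep
                      + es_soft_transfer + [es_soft_pin + es_ga_pin] + es_ga_moment + es_ga_DE + es_pot_E on the two patches (θ₂: es_glue_phi_shift)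
es_reserve   ⟸ C5.large_field + es_ratS
```
Nested filters: `Filter.Eventually.mono`, `.and`; `∀ t ≥ 1, ∀ᶠ s0, P t s0` gives `∀ᶠ t, ∀ᶠ s0, P t s0` (`eventually_ge_atTop 1`); finitely many `m₁, m₂ ≤ mm`: `Filter.eventually_all_finset` / induction.
-/

set_option autoImplicit false

namespace Claimed.Agent.R285.C5

open scoped BigOperators
open Filter Topology
open Claimed.Agent.R285 Claimed.Agent.R285.RG Claimed.Agent.R285.F4a Claimed.Agent.R285.Entry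

noncomputable section

/-- nested thresholds for finitely many window sizes -/
theorem es_glue_thr (mm : ℕ) (P : ℕ → ℕ → ℕ → ℕ → Prop) (h : ∀ m₁ m₂, ∀ᶠ t : ℕ in atTop, ∀ᶠ s0 : ℕ in atTop, P m₁ m₂ t s0) :
    ∀ᶠ t : ℕ in atTop, ∀ᶠ s0 : ℕ in atTop, ∀ m₁ ≤ mm, ∀ m₂ ≤ mm, P m₁ m₂ t s0 := by
  have h1 : ∀ᶠ t : ℕ in atTop, ∀ m₁ ∈ Finset.range (mm + 1), ∀ m₂ ∈ Finset.range (mm + 1), ∀ᶠ s0 : ℕ in atTop, P m₁ m₂ t s0 :=
    (Filter.eventually_all_finset _).2 fun m₁ _ => (Filter.eventually_all_finset _).2 fun m₂ _ => h m₁ m₂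
  filter_upwards [h1] with t ht
  have h2 : ∀ᶠ s0 : ℕ in atTop, ∀ m₁ ∈ Finset.range (mm + 1), ∀ m₂ ∈ Finset.range (mm + 1), P m₁ m₂ t s0 :=
    (Filter.eventually_all_finset _).2 fun m₁ g1 => (Filter.eventually_all_finset _).2 fun m₂ g2 => ht m₁ g1 m₂ g2
  filter_upwards [h2] with s0 hs m₁ g1 m₂ g2
  exact hs m₁ (Finset.mem_range.2 (Nat.lt_succ_of_le g1)) m₂ (Finset.mem_range.2 (Nat.lt_succ_of_le g2))

/-- a statement at every fixed `t ≥ 1` -/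
theorem es_glue_lift (P : ℕ → ℕ → Prop) (h : ∀ t : ℕ, 1 ≤ t → ∀ᶠ s0 : ℕ in atTop, P t s0) : ∀ᶠ t : ℕ in atTop, ∀ᶠ s0 : ℕ in atTop, P t s0 :=
  (eventually_ge_atTop 1).mono fun t ht => h t ht

theorem es_A_pos {G : Geom} {c : Grid G} (hc : Whole c) (T : Top c) (c0 : Grid G) (δ : ℝ) {b : ℝ} (hb : 0 < b) (a' : ℝ) (y : c.I → ℝ) :
    0 < esA T c0 δ b a' y := by
  unfold esA
  exact div_pos (mul_pos (Real.exp_pos _) (es_Z_pos hc T c0 δ hb y)) (es_Z_pos hc T c0 δ hb 0)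

/-- **the reserve**, every `b' > 0`, every real observation, every topology, every refinement -/
theorem es_reserve (δ a' : ℝ) (hδ : 0 < δ) (ha' : 0 < a') : ∃ (cs : ℝ) (n1 : ℕ), 0 < cs ∧ cs ≤ 1 ∧
    ∀ (G : Geom) (c c0 : Grid G) (t s0 : ℕ), EsVol c c0 t s0 → n1 ≤ c.n → ∀ T : Top c, T.Ok → ∀ b' : ℝ, 0 < b' → ∀ y : c.I → ℝ,
      esA T c0 δ b' a' y ≤ Real.exp ((1 - cs) / 2 * T.Eobs a' 0 y) := by
  obtain ⟨cs, n1, h0, h1, h⟩ := large_field δ a' hδ ha'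
  refine ⟨cs, n1, h0, h1, fun G c c0 t s0 hV hn T hT b' hb' y => ?_⟩
  obtain ⟨N⟩ := hV.nest
  have h2 := h G c c0 hV.hc hV.hc0 N t (by rw [hV.m, hV.m0]) hn T hT b' hb' y
  rw [← es_ratS hV.hc T c0 δ hb' y] at h2
  have e : esA T c0 δ b' a' y = Real.exp (T.Eobs a' 0 y / 2) * (esZ T c0 δ b' y / esZ T c0 δ b' 0) := by
    unfold esA; ring
  rw [e]
  refine (mul_le_mul_of_nonneg_left h2 (Real.exp_pos _).le).trans (le_of_eq ?_)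
  rw [← Real.exp_add]
  congr 1
  ring

/-- (5.22) the positive normalised topology tends to one on compact data -/
theorem es_A_good {a b : ℝ} (h𝔅 : EgTemp a fun _ => {b}) (ha : 0 < a) (hb : 0 < b) (δ : ℝ) (hδ : 0 ≤ δ) (mm : ℕ) (U ε : ℝ) (hε : 0 < ε) :
    ∀ᶠ t : ℕ in atTop, ∀ᶠ s0 : ℕ in atTop, ∀ (G : Geom) (c c0 : Grid G), EsVol c c0 t s0 → ∀ m₁ ≤ mm, ∀ m₂ ≤ mm,
      ∀ (W : EgWin c m₁ m₂) (T : Top c), T.Ok → W.Fits T → (W.shape T).NoDiag → ∀ y : c.I → ℝ, (∀ i, |y i| ≤ U) →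
        |Real.log (esA T c0 δ b (aPrime a δ) y)| ≤ ε := by
  have hS := es_glue_thr mm _ fun m₁ m₂ => es_glue_lift _ fun t ht => es_soft_A h𝔅 δ hδ m₁ m₂ t ht U ε hε
  have hP := es_glue_thr mm _ fun m₁ m₂ => es_pot_E a δ ha hδ m₁ m₂ U ε hε
  filter_upwards [hS, hP] with t hSt hPt
  filter_upwards [hSt, hPt] with s0 hSs hPs G c c0 hV m₁ h1 m₂ h2 W T hT hf hN y hy
  have q1 : |2 * esWR (W.shape T) t s0 δ b (W.obs y) + esWE (W.shape T) t s0 δ a (W.obs y)| ≤ ε :=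
    hSs m₁ h1 m₂ h2 _ _ hN (W.obs y) (fun κ => hy _)
  have q2 : |esWE (W.shape T) t s0 δ a (W.obs y) - esWE0 (W.shape T) t s0 (aPrime a δ) (W.obs y)| ≤ ε :=
    hPs m₁ h1 m₂ h2 _ _ hN (W.obs y) (fun κ => hy _)
  have q3 := es_win_A hV δ W T hT hf b (aPrime a δ) y
  have hZy := es_Z_pos hV.hc T c0 δ hb y
  have hZ0 := es_Z_pos hV.hc T c0 δ hb 0
  have key : Real.log (esA T c0 δ b (aPrime a δ) y) = (2 * Real.log (esZ T c0 δ b y / esZ T c0 δ b 0) + T.Eobs (aPrime a δ) 0 y) / 2 := by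
    have e : esA T c0 δ b (aPrime a δ) y = Real.exp (T.Eobs (aPrime a δ) 0 y / 2) * (esZ T c0 δ b y / esZ T c0 δ b 0) := by
      unfold esA; ring
    rw [e, Real.log_mul (Real.exp_pos _).ne' (div_pos hZy hZ0).ne', Real.log_exp]
    ring
  rw [key, q3, abs_div, abs_of_pos (two_pos : (0:ℝ) < 2), div_le_iff₀ two_pos]
  have e2 : 2 * esWR (W.shape T) t s0 δ b (W.obs y) + esWE0 (W.shape T) t s0 (aPrime a δ) (W.obs y)
      = (2 * esWR (W.shape T) t s0 δ b (W.obs y) + esWE (W.shape T) t s0 δ a (W.obs y))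
        - (esWE (W.shape T) t s0 δ a (W.obs y) - esWE0 (W.shape T) t s0 (aPrime a δ) (W.obs y)) := by ring
  rw [e2]
  refine (abs_sub _ _).trans ?_
  linarith

/-- a change of `θ₂` is paid in `θ₁` -/
theorem es_glue_phi_shift (θ₁ θ₂ θ₂' : ℝ) (h : 0 ≤ θ₁) (r : ℕ) (x x' ρ : ℝ) :
    egPhi θ₁ θ₂ r x x' ρ ≤ egPhi (θ₁ + |θ₂ - θ₂'|) θ₂' r x x' ρ := by
  unfold egPhi
  refine pow_le_pow_left₀ (le_min zero_le_one (eg_EL1_arg θ₁ θ₂ h x x' ρ)) (min_le_min_left _ ?_) r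
  have e : x' - x + θ₂ = (x' - x + θ₂') + (θ₂ - θ₂') := by ring
  have := abs_add_le (x' - x + θ₂') (θ₂ - θ₂')
  rw [← e] at this
  linarith

/-- no designated face: the two adjacent topologies agree and `δ = 0` -/
theorem es_glue_delta_empty {G : Geom} {c : Grid G} (hc : Whole c) (T : Top c) (c0 : Grid G) (δ : ℝ) (M : EgMark c) (hF : M.F = ∅) {b : ℝ} (hb : 0 < b)
    (a' : ℝ) (y : c.I → ℝ) (h : G.V → ℤ) : esDelta T c0 δ M b a' y h = 0 := by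
  have e1 : T.glue M.F = T.cut M.F := by
    rw [hF]; simp [Top.glue, Top.cut]
  have hpos := (es_X_log hc T c0 δ M hb a' y h).1
  have hZ := es_Z_pos hc ((T.cut M.F).restr M.O) c0 δ hb 0
  have hX : esX T c0 δ M b a' y h = 1 := by
    unfold esX esB esC egDE egPo egPc at hpos ⊢
    rw [e1] at hpos ⊢
    rw [div_self hZ.ne', sub_self, neg_zero, zero_div, Real.exp_zero, one_mul, one_mul] at hpos ⊢
    refine div_self ?_
    intro h0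
    rw [h0, div_zero] at hpos
    exact lt_irrefl _ hpos
  unfold esDelta egDl
  rw [hX]
  simp

/-- the restored open patch, read in the window -/
theorem es_glue_nodiag_Po {G : Geom} {c : Grid G} {m₁ m₂ : ℕ} (hc : Whole c) (W : EgWin c m₁ m₂) (T : Top c) (hf : W.Fits T) (M : EgMark c)
    (hE : ∀ f ∈ M.F, W.FaceIn f) (h : (W.shape (egPo T M)).NoDiag) : (egWPo (W.shape (T.cut M.F)) (M.pull W)).NoDiag := by
  have q2 := (eg_shp_patch hc W T hf M hE).2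
  have q1 := eg_shp_shape W (egPo T M) q2.fits
  refine eg_nodiag_congr (W.shape (egPo T M)) _ ?_ (fun f κ' hn g1 g2 => ?_) h
  · ext κ
    rw [q1.cells, q2.cells]
  · exact (q1.faces f κ' hn g1 g2).trans
      (q2.faces f κ' hn ((q2.cells _).2 ((q1.cells _).1 g1)) ((q2.cells _).2 ((q1.cells _).1 g2))).symm

set_option maxHeartbeats 1000000 in
/-- the moments of one `δ_i`: `U` = the compact set (it fixes the thresholds), `V` = the ACTUAL size of the datum (twin of `eg_one_mark_moment` v2) -/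
theorem es_glue_mark_moment {a b : ℝ} (h𝔅 : EgTemp a fun _ => {b}) (ha : 0 < a) (hb : 0 < b) (δ : ℝ) (hδ : 0 ≤ δ) : ∃ (K cc : ℝ) (k R1 : ℕ), 0 ≤ K ∧ 0 < cc ∧
    ∀ (mm rmax : ℕ) (U η : ℝ), 0 < η → ∀ᶠ t : ℕ in atTop, ∀ᶠ s0 : ℕ in atTop, ∀ (G : Geom) (c c0 : Grid G), EsVol c c0 t s0 →
      ∀ m₁ ≤ mm, ∀ m₂ ≤ mm, ∀ (W : EgWin c m₁ m₂) (T : Top c), T.Ok → W.Fits T → ∀ (M : EgMark c) (R : ℕ), R1 ≤ R → M.Ok W T R →
      (W.shape (egPo T M)).NoDiag → ∀ y : c.I → ℝ, (∀ i, |y i| ≤ U) → ∀ V : ℝ, (∀ i, |y i| ≤ V) → ∀ r : ℕ, 1 ≤ r → r ≤ rmax →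
        esEx T c0 δ b y (fun h => esDelta T c0 δ M b (aPrime a δ) y h ^ r)
          ≤ (K * (mm : ℝ) ^ k * (r : ℝ) ^ k * Real.exp (-cc * R) * (1 + (mm : ℝ) ^ 2 * V ^ 2) + η) ^ r := by
  obtain ⟨Km, cm, km, hKm, hcm, hmom⟩ := es_ga_moment a δ ha hδ
  obtain ⟨Kp, cp, kp, R1p, hKp, hcp, hpin⟩ := es_ga_pin a δ ha hδ
  refine ⟨4 * (Kp + Km), min cp cm, 2 * max kp km, max R1p 2, by positivity, lt_min hcp hcm, fun mm rmax U η hη => ?_⟩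
  have hε' : 0 < η / 16 := by positivity
  have hη' : 0 < (min 1 (η / 2)) ^ rmax := pow_pos (lt_min one_pos (by positivity)) _
  obtain ⟨U', hU'⟩ : ∃ U' : ℝ, U' = max U (max (Kp * ((mm : ℝ) ^ 2) ^ kp + 2 * (η / 16)) ((mm : ℝ) ^ 2 * U ^ 2)) := ⟨_, rfl⟩
  have hU1 : U ≤ U' := hU' ▸ le_max_left _ _
  have hU2 : Kp * ((mm : ℝ) ^ 2) ^ kp + 2 * (η / 16) ≤ U' := hU' ▸ (le_max_left _ _).trans (le_max_right _ _)
  have hU3 : (mm : ℝ) ^ 2 * U ^ 2 ≤ U' := hU' ▸ (le_max_right _ _).trans (le_max_right _ _)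
  have hS := es_glue_thr mm _ fun m₁ m₂ => es_glue_lift _ fun t ht => es_soft_transfer h𝔅 δ hδ m₁ m₂ t ht U' _ hη' rmax
  have hP := es_glue_thr mm _ fun m₁ m₂ => es_glue_lift _ fun t ht => es_soft_pin h𝔅 δ hδ m₁ m₂ t ht _ hε'
  have hE := es_glue_thr mm _ fun m₁ m₂ => es_pot_E a δ ha hδ m₁ m₂ U _ hε'
  filter_upwards [hS, hP, hE, eventually_ge_atTop 1] with t hS1 hP1 hE1 ht
  filter_upwards [hS1, hP1, hE1, eventually_ge_atTop 1] with s0 hsS hsP hsE hs0 G c c0 hV m₁ h1 m₂ h2 W T hT hf M R hR hM hNPo y hy V hyV r hr1 hr2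
  have hc := hV.hc
  have hc0 := hV.hc0
  obtain ⟨N⟩ := hV.nest
  obtain ⟨a', ha'⟩ : ∃ a' : ℝ, a' = aPrime a δ := ⟨_, rfl⟩
  rw [← ha'] at hsE ⊢
  have hA0 : 0 ≤ 4 * (Kp + Km) * (mm : ℝ) ^ (2 * max kp km) * (r : ℝ) ^ (2 * max kp km) * Real.exp (-(min cp cm) * R) * (1 + (mm : ℝ) ^ 2 * V ^ 2) := by
    positivity
  by_cases hF0 : M.F = ∅
  · have e1 : (fun h => esDelta T c0 δ M b a' y h ^ r) = fun _ => 0 := by
      funext h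
      rw [es_glue_delta_empty hc T c0 δ M hF0 hb a' y h, zero_pow (by omega)]
    have e2 : esEx T c0 δ b y (fun _ => 0) = 0 := by
      unfold esEx esSum C3.ZI
      simp
    rw [e1, e2]
    exact pow_nonneg (add_nonneg hA0 hη.le) _
  obtain ⟨f0, hf0⟩ := Finset.nonempty_iff_ne_empty.2 hF0
  obtain ⟨κ0, -, -⟩ := hM.faceW f0 hf0
  have hmm : 1 ≤ mm := le_trans (Nat.succ_le_of_lt κ0.1.pos) h1
  obtain ⟨hgeo, hNP⟩ := eg_geo_pull hc W T hT hf M R hM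
  have hNPo' := es_glue_nodiag_Po hc W T hf M hM.faceW hNPo
  have hsep : C3.Sep (M.pull W).H (M.pull W).p := eg_wgeo_sep _ _ R (le_trans (le_max_right _ _) hR) hgeo
  have hNO : (egSh (W.shape (T.cut M.F)).T ((W.shape (T.cut M.F)).cutF \ (M.pull W).F)).NoDiag := by
    refine eg_nodiag_congr (W.shape (T.glue M.F)) _ rfl (fun f κ' hn g1 g2 => ?_) hM.lipO
    have q1 := (eg_shp_shape W (T.glue M.F) (eg_fits_glue W T hf M.F hM.faceW)).faces f κ' hn g1 g2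
    have q2 := (eg_shp_glue hc W T hf M.F hM.faceW).faces f κ' hn g1 g2
    exact q1.trans q2.symm
  -- the parameters
  obtain ⟨hC0, hCD⟩ := es_cs_bound hc hc0 N δ T M R hM.geo hb
  have hDs0 : 0 ≤ esDs T c0 δ M b := hC0.trans hCD
  have hpin' : esWDg (egWPc (W.shape (T.cut M.F)) (M.pull W)) t s0 δ a (M.pull W).H (M.pull W).p
      ≤ Kp * ((m₁ * m₂ : ℕ) : ℝ) ^ kp * Real.exp (-cp * R) :=
    hpin m₁ m₂ t s0 ht hs0 _ _ (M.pull W) R (le_trans (le_max_left _ _) hR) hgeo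
  have hsoftP : |esWD (egWPc (W.shape (T.cut M.F)) (M.pull W)) t s0 δ b (M.pull W).H (M.pull W).p
      - esWDg (egWPc (W.shape (T.cut M.F)) (M.pull W)) t s0 δ a (M.pull W).H (M.pull W).p| ≤ η / 16 :=
    hsP m₁ h1 m₂ h2 _ _ hNP (M.pull W).H (M.pull W).p hsep
  have hDs : esDs T c0 δ M b ≤ Kp * ((m₁ * m₂ : ℕ) : ℝ) ^ kp * Real.exp (-cp * R) + η / 16 := by
    rw [es_win_Ds hV δ W T hT hf M R hM b]
    have := (abs_le.1 hsoftP).2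
    linarith
  have hyW : ∀ κ, |W.obs y κ| ≤ U := fun κ => hy _
  have hDE := es_win_DE hV W T hT hf M R hM a' y
  obtain ⟨θ₂, hθ₂⟩ : ∃ θ₂ : ℝ, θ₂ = esWDE (W.shape (T.cut M.F)) (M.pull W) t s0 δ a (W.obs y) / 2 := ⟨_, rfl⟩
  have hpo : |esWE (egWPo (W.shape (T.cut M.F)) (M.pull W)) t s0 δ a (W.obs y)
      - esWE0 (egWPo (W.shape (T.cut M.F)) (M.pull W)) t s0 a' (W.obs y)| ≤ η / 16 := hsE m₁ h1 m₂ h2 _ _ hNPo' (W.obs y) hyW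
  have hpc : |esWE (egWPc (W.shape (T.cut M.F)) (M.pull W)) t s0 δ a (W.obs y)
      - esWE0 (egWPc (W.shape (T.cut M.F)) (M.pull W)) t s0 a' (W.obs y)| ≤ η / 16 := hsE m₁ h1 m₂ h2 _ _ hNP (W.obs y) hyW
  have hXi : |egDE T M a' 0 y / 2 - θ₂| ≤ η / 16 := by
    rw [hDE, hθ₂]
    unfold esWDE esWDE0
    rw [abs_le] at hpo hpc ⊢
    constructor <;> linarith [hpo.1, hpo.2, hpc.1, hpc.2]
  obtain ⟨θ₁, hθ₁⟩ : ∃ θ₁ : ℝ, θ₁ = esDs T c0 δ M b + |egDE T M a' 0 y / 2 - θ₂| := ⟨_, rfl⟩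
  have hθ10 : 0 ≤ θ₁ := hθ₁ ▸ add_nonneg hDs0 (abs_nonneg _)
  have hθ1le : θ₁ ≤ Kp * ((m₁ * m₂ : ℕ) : ℝ) ^ kp * Real.exp (-cp * R) + 2 * (η / 16) := by rw [hθ₁]; linarith
  have hprod : ((m₁ * m₂ : ℕ) : ℝ) ≤ (mm : ℝ) ^ 2 := by
    have : m₁ * m₂ ≤ mm ^ 2 := by rw [sq]; exact Nat.mul_le_mul h1 h2
    exact_mod_cast this
  have hθ1U : θ₁ ≤ U' := by
    refine hθ1le.trans (le_trans ?_ hU2)
    have e1 : Real.exp (-cp * R) ≤ 1 := Real.exp_le_one_iff.2 (by have : (0:ℝ) ≤ R := Nat.cast_nonneg _; nlinarith)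
    have e2 : ((m₁ * m₂ : ℕ) : ℝ) ^ kp ≤ ((mm : ℝ) ^ 2) ^ kp := pow_le_pow_left₀ (Nat.cast_nonneg _) hprod kp
    have e3 : Kp * ((m₁ * m₂ : ℕ) : ℝ) ^ kp * Real.exp (-cp * R) ≤ Kp * ((mm : ℝ) ^ 2) ^ kp * 1 := by gcongr
    linarith
  have hsq := eg_glue_sumsq h1 h2 (W.shape (T.cut M.F)).T (W.obs y) U hyW
  have hDEb := (es_ga_DE a δ ha hδ m₁ m₂ t s0 (W.shape (T.cut M.F)).T (W.shape (T.cut M.F)).cutF (M.pull W) (W.obs y)).1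
  have hθ2U : |θ₂| ≤ U' := by
    rw [hθ₂, abs_div, abs_of_pos (two_pos : (0:ℝ) < 2)]
    have : |esWDE (W.shape (T.cut M.F)) (M.pull W) t s0 δ a (W.obs y)| ≤ ∑ κ ∈ (W.shape (T.cut M.F)).T, W.obs y κ ^ 2 := hDEb
    have := abs_nonneg (esWDE (W.shape (T.cut M.F)) (M.pull W) t s0 δ a (W.obs y))
    linarith [hsq.2]
  -- the current topology is one of the two adjacent ones
  obtain ⟨top, htop⟩ : ∃ top, egTop T M top = T := by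
    rcases hM.geo.cur with h | h
    · refine ⟨true, ?_⟩
      show T.glue M.F = T
      unfold Top.glue
      rw [Finset.union_eq_left.2 h]
    · refine ⟨false, ?_⟩
      show T.cut M.F = T
      unfold Top.cut
      rw [Finset.sdiff_eq_self_of_disjoint h.symm]
  have s1 : esEx T c0 δ b y (fun h => esDelta T c0 δ M b a' y h ^ r) ≤ esEx T c0 δ b y (fun h => egPhi θ₁ θ₂ r
      (esCL (T.cut M.F) c0 δ b M.p y h) (esCL (T.glue M.F) c0 δ b M.p y h) (esRP (T.cut M.F) c0 δ b M.p M.H h)) := by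
    refine es_ex_mono hc T c0 δ hb y _ _ 1 (fun h => ?_) (fun h => ?_) (fun h => ?_)
    · have := es_delta_mem hc T c0 δ M hb a' y h
      rw [abs_of_nonneg (pow_nonneg this.1 _)]
      exact pow_le_one₀ this.1 this.2
    · have := eg_phi_mem θ₁ θ₂ hθ10 r (esCL (T.cut M.F) c0 δ b M.p y h) (esCL (T.glue M.F) c0 δ b M.p y h) (esRP (T.cut M.F) c0 δ b M.p M.H h)
      rw [abs_of_nonneg this.1]
      exact this.2
    · rw [hθ₁]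
      exact (es_delta_le hc hc0 N δ T hT M R hM.geo hb a' y h r).trans (es_glue_phi_shift _ _ _ hDs0 r _ _ _)
  have s2 := es_win_transfer hV δ W T hT hf M R hM hb top y (egPhi θ₁ θ₂ r)
  rw [htop] at s2
  have s3 : esWL (W.shape (T.cut M.F)) (M.pull W) t s0 δ b top (W.obs y) (egPhi θ₁ θ₂ r)
      ≤ esWG (W.shape (T.cut M.F)) (M.pull W) t s0 δ a top (W.obs y) (egPhi θ₁ θ₂ r) + (min 1 (η / 2)) ^ rmax :=
    hsS m₁ h1 m₂ h2 _ _ hM.lipC (M.pull W) hNO hsep hgeo.face top (W.obs y) (fun κ => (hyW κ).trans hU1) θ₁ θ₂ hθ10 hθ1U hθ2U r hr2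
  have s4 : esWG (W.shape (T.cut M.F)) (M.pull W) t s0 δ a top (W.obs y) (egPhi θ₁ θ₂ r)
      ≤ (4 * (θ₁ + Km * ((m₁ * m₂ : ℕ) : ℝ) ^ km * (r : ℝ) ^ km * Real.exp (-cm * R) * (1 + ∑ κ ∈ (W.shape (T.cut M.F)).T, W.obs y κ ^ 2))) ^ r := by
    rw [hθ₂]
    exact hmom m₁ m₂ t s0 ht hs0 _ _ (M.pull W) R hgeo top (W.obs y) θ₁ hθ10 r hr1
  have hsqV := eg_glue_sumsq h1 h2 (W.shape (T.cut M.F)).T (W.obs y) V (fun κ => hyV _)
  have har := eg_glue_arith Kp Km cp cm kp km hKp hKm m₁ m₂ mm r R h1 h2 hmm hr1 _ _ hsqV.1 hsqV.2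
  have hx0 : 0 ≤ 4 * (θ₁ + Km * ((m₁ * m₂ : ℕ) : ℝ) ^ km * (r : ℝ) ^ km * Real.exp (-cm * R) * (1 + ∑ κ ∈ (W.shape (T.cut M.F)).T, W.obs y κ ^ 2)) := by
    have := hsq.1
    positivity
  have hfin := eg_glue_absorb _ η _ hA0 hη hx0 (by linarith) r rmax hr1 hr2
  calc _ ≤ _ := s1
    _ = _ := s2
    _ ≤ _ := s3
    _ ≤ _ := add_le_add_left s4 _
    _ ≤ _ := hfin

/-- the moments of one `δ_i` on compact data.  `K, cc, k, R1` depend only on `(a, δ)`.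
`(W.shape (egPo T M)).NoDiag`: `es_pot_E` is applied to BOTH open patches; the restored one is not in `EgMark.Ok` (helper255). -/
theorem es_one_mark_moment {a b : ℝ} (h𝔅 : EgTemp a fun _ => {b}) (ha : 0 < a) (hb : 0 < b) (δ : ℝ) (hδ : 0 ≤ δ) : ∃ (K cc : ℝ) (k R1 : ℕ), 0 ≤ K ∧ 0 < cc ∧
    ∀ (mm rmax : ℕ) (U η : ℝ), 0 < η → ∀ᶠ t : ℕ in atTop, ∀ᶠ s0 : ℕ in atTop, ∀ (G : Geom) (c c0 : Grid G), EsVol c c0 t s0 →
      ∀ m₁ ≤ mm, ∀ m₂ ≤ mm, ∀ (W : EgWin c m₁ m₂) (T : Top c), T.Ok → W.Fits T → ∀ (M : EgMark c) (R : ℕ), R1 ≤ R → M.Ok W T R →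
      (W.shape (egPo T M)).NoDiag → ∀ y : c.I → ℝ, (∀ i, |y i| ≤ U) → ∀ r : ℕ, 1 ≤ r → r ≤ rmax →
        esEx T c0 δ b y (fun h => esDelta T c0 δ M b (aPrime a δ) y h ^ r)
          ≤ (K * (mm : ℝ) ^ k * (r : ℝ) ^ k * Real.exp (-cc * R) * (1 + (mm : ℝ) ^ 2 * U ^ 2) + η) ^ r := by
  obtain ⟨K, cc, k, R1, hK, hcc, h⟩ := es_glue_mark_moment h𝔅 ha hb δ hδ
  refine ⟨K, cc, k, R1, hK, hcc, fun mm rmax U η hη => ?_⟩
  filter_upwards [h mm rmax U η hη] with t h1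
  filter_upwards [h1] with s0 h2 G c c0 hV m₁ g1 m₂ g2 W T hT hf M R hR hM hN y hy r hr1 hr2
  exact h2 G c c0 hV m₁ g1 m₂ g2 W T hT hf M R hR hM hN y hy U hy r hr1 hr2

/-- **(5.21) good boxes** -/
theorem es_good_box {a b : ℝ} (h𝔅 : EgTemp a fun _ => {b}) (ha : 0 < a) (hb : 0 < b) (δ : ℝ) (hδ : 0 ≤ δ) (kP kE : ℕ) : ∃ (cg : ℝ) (R0 : ℕ), 0 < cg ∧
    ∀ R : ℕ, R0 ≤ R → ∀ U : ℝ, ∀ᶠ t : ℕ in atTop, ∀ᶠ s0 : ℕ in atTop, ∀ (G : Geom) (c c0 : Grid G), EsVol c c0 t s0 →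
      ∀ m₁ ≤ R ^ kP, ∀ m₂ ≤ R ^ kP, ∀ (W : EgWin c m₁ m₂) (T : Top c), T.Ok → W.Fits T → (W.shape T).NoDiag →
      ∀ {ι : Type} [Fintype ι] (Ms : ι → EgMark c), (∀ i, (Ms i).Ok W T R) → (∀ i, (W.shape (egPo T (Ms i))).NoDiag) → Fintype.card ι ≤ R ^ (2 * kP) →
      ∀ 𝓕 : Finset (Face c), T.faces ⊆ 𝓕 → (∀ i, (Ms i).F ⊆ 𝓕) → 𝓕.card ≤ 2 * R ^ (2 * kP) → ∀ y : c.I → ℝ, egE 𝓕 0 y ≤ U ^ 2 →
        esQ T c0 δ Ms b (aPrime a δ) y ≤ 6 * Real.exp (-cg * R * Fintype.card ι + egE 𝓕 0 y / (R : ℝ) ^ kE) := by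
  obtain ⟨K, cc, k, R1, hK, hcc, hmom⟩ := es_glue_mark_moment h𝔅 ha hb δ hδ
  obtain ⟨R0', hnum⟩ := eg_numeric (21 * K + 1) cc (3 * kP * k + 4 * kP) (2 * kP) kE (by positivity) hcc
  refine ⟨cc / 2, max (max R0' R1) 1, by positivity, fun R hR U => ?_⟩
  have hR0' : R0' ≤ R := ((le_max_left _ _).trans (le_max_left _ _)).trans hR
  have hR1 : R1 ≤ R := ((le_max_right _ _).trans (le_max_left _ _)).trans hR
  have hR1' : 1 ≤ R := (le_max_right _ _).trans hR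
  obtain ⟨U₁, hU₁⟩ : ∃ U₁ : ℝ, U₁ = Real.pi + Real.sqrt ((2 * R ^ (2 * kP) : ℕ) * U ^ 2) := ⟨_, rfl⟩
  filter_upwards [hmom (R ^ kP) (R ^ (2 * kP)) U₁ (Real.exp (-cc * R)) (Real.exp_pos _),
    es_A_good h𝔅 ha hb δ hδ (R ^ kP) U₁ (Real.log 2) (Real.log_pos one_lt_two)] with t hM1 hA1
  filter_upwards [hM1, hA1] with s0 hsM hsA G c c0 hV m₁ h1 m₂ h2 W T hT hf hN ι _ Ms hMs hNo hj 𝓕 hT𝓕 hM𝓕 hcard y hE
  have hc := hV.hc
  have hc0 := hV.hc0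
  obtain ⟨N⟩ := hV.nest
  obtain ⟨a', ha'⟩ : ∃ a' : ℝ, a' = aPrime a δ := ⟨_, rfl⟩
  rw [← ha'] at hsM hsA ⊢
  have hE0 : 0 ≤ egE 𝓕 0 y := Finset.sum_nonneg fun f _ => sq_nonneg _
  obtain ⟨κ, hκ, hy⟩ := eg_recentre 𝓕 y
  have hy2 : ∀ i, |egSh2 y κ i| ≤ Real.pi + Real.sqrt (𝓕.card * egE 𝓕 0 y) := hy
  have hy' : ∀ i, |egSh2 y κ i| ≤ U₁ := by
    intro i
    rw [hU₁]
    refine (hy2 i).trans (add_le_add_right (Real.sqrt_le_sqrt ?_) _)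
    have hc' : (𝓕.card : ℝ) ≤ ((2 * R ^ (2 * kP) : ℕ) : ℝ) := by exact_mod_cast hcard
    exact mul_le_mul hc' hE hE0 (Nat.cast_nonneg _)
  rw [es_Q_shift hc hc0 N δ T hT Ms (fun i => eg_win_ok_mark W T (Ms i) R (hMs i)) (fun i => (hMs i).geo.p_sub.trans (hMs i).geo.O_sub) b a' κ
    (fun f hf' => hκ f (hf'.elim (fun h => hT𝓕 h) (fun ⟨i, h⟩ => hM𝓕 i h))) y]
  -- the positive factor
  have hl := hsA G c c0 hV m₁ h1 m₂ h2 W T hT hf hN _ hy'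
  have hpos : 0 < esA T c0 δ b a' (egSh2 y κ) := by
    unfold esA
    exact div_pos (mul_pos (Real.exp_pos _) (es_Z_pos hc T c0 δ hb _)) (es_Z_pos hc T c0 δ hb 0)
  have hA2 : esA T c0 δ b a' (egSh2 y κ) ≤ 2 := by
    have := (abs_le.1 hl).2
    exact (Real.log_le_log_iff hpos two_pos).1 this
  -- the moments
  obtain ⟨r, hr⟩ : ∃ r : ℕ, r = max (Fintype.card ι) 1 := ⟨_, rfl⟩
  have hr1 : 1 ≤ r := hr ▸ le_max_right _ _
  have hrj : Fintype.card ι ≤ r := hr ▸ le_max_left _ _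
  have hrmax : r ≤ R ^ (2 * kP) := hr ▸ max_le hj (Nat.one_le_pow _ _ hR1')
  obtain ⟨ϰ, hϰ⟩ : ∃ ϰ : ℝ, ϰ = K * ((R ^ kP : ℕ) : ℝ) ^ k * (r : ℝ) ^ k * Real.exp (-cc * R)
      * (1 + ((R ^ kP : ℕ) : ℝ) ^ 2 * (Real.pi + Real.sqrt (𝓕.card * egE 𝓕 0 y)) ^ 2) + Real.exp (-cc * R) := ⟨_, rfl⟩
  have hϰ0 : 0 < ϰ := by
    rw [hϰ]
    have := Real.exp_pos (-cc * R)
    positivity
  have hm : ∀ i, esEx T c0 δ b (egSh2 y κ) (fun h => esDelta T c0 δ (Ms i) b a' (egSh2 y κ) h ^ r) ≤ ϰ ^ r := by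
    intro i
    rw [hϰ]
    exact hsM G c c0 hV m₁ h1 m₂ h2 W T hT hf (Ms i) R hR1 (hMs i) (hNo i) _ hy' _ hy2 r hr1 hrmax
  have hhol := es_holder hc T c0 δ hb (egSh2 y κ) (fun i h => esDelta T c0 δ (Ms i) b a' (egSh2 y κ) h)
    (fun i h => es_delta_mem hc T c0 δ (Ms i) hb a' (egSh2 y κ) h) r hrj hr1 ϰ hϰ0 hm
  have hϰle : ϰ ≤ (21 * K + 1) * (R : ℝ) ^ (3 * kP * k + 4 * kP) * Real.exp (-cc * R) * (1 + egE 𝓕 0 y) := by
    rw [hϰ]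
    exact eg_glue_box_arith K cc hK k kP R r 𝓕.card hR1' hrmax hcard _ hE0
  have hn := hnum R hR0' (Fintype.card ι) hj (egE 𝓕 0 y) hE0
  have hex0 : 0 ≤ esEx T c0 δ b (egSh2 y κ) (fun h => ∏ i, esDelta T c0 δ (Ms i) b a' (egSh2 y κ) h) :=
    (es_ex_mem hc T c0 δ hb (egSh2 y κ) _ (fun h => ⟨Finset.prod_nonneg fun i _ => (es_delta_mem hc T c0 δ (Ms i) hb a' _ h).1,
      Finset.prod_le_one (fun i _ => (es_delta_mem hc T c0 δ (Ms i) hb a' _ h).1) (fun i _ => (es_delta_mem hc T c0 δ (Ms i) hb a' _ h).2)⟩)).1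
  unfold esQ
  calc esA T c0 δ b a' (egSh2 y κ) * esEx T c0 δ b (egSh2 y κ) (fun h => ∏ i, esDelta T c0 δ (Ms i) b a' (egSh2 y κ) h)
      ≤ 2 * ϰ ^ Fintype.card ι := mul_le_mul hA2 hhol hex0 (by norm_num)
    _ ≤ 2 * ((21 * K + 1) * (R : ℝ) ^ (3 * kP * k + 4 * kP) * Real.exp (-cc * R) * (1 + egE 𝓕 0 y)) ^ Fintype.card ι :=
        mul_le_mul_of_nonneg_left (pow_le_pow_left₀ hϰ0.le hϰle _) (by norm_num)
    _ ≤ 2 * (3 * Real.exp (-(cc / 2) * R * Fintype.card ι + egE 𝓕 0 y / (R : ℝ) ^ kE)) := mul_le_mul_of_nonneg_left hn (by norm_num)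
    _ = _ := by ring

/-- **isolated tiles / positive topologies on good data** -/
theorem es_good_tile {a b : ℝ} (h𝔅 : EgTemp a fun _ => {b}) (ha : 0 < a) (hb : 0 < b) (δ : ℝ) (hδ : 0 ≤ δ) (mm : ℕ) (U ε : ℝ) (hε : 0 < ε) :
    ∀ᶠ t : ℕ in atTop, ∀ᶠ s0 : ℕ in atTop, ∀ (G : Geom) (c c0 : Grid G), EsVol c c0 t s0 → ∀ m₁ ≤ mm, ∀ m₂ ≤ mm,
      ∀ (W : EgWin c m₁ m₂) (T : Top c), T.Ok → W.Fits T → (W.shape T).NoDiag → ∀ 𝓕 : Finset (Face c), T.faces ⊆ 𝓕 → 𝓕.card ≤ 2 * mm ^ 2 →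
      ∀ y : c.I → ℝ, egE 𝓕 0 y ≤ U ^ 2 → |esA T c0 δ b (aPrime a δ) y - 1| ≤ ε := by
  have hε1 : 0 < min 1 (ε / 2) := lt_min one_pos (by positivity)
  have hA := es_A_good h𝔅 ha hb δ hδ mm (Real.pi + Real.sqrt ((2 * mm ^ 2 : ℕ) * U ^ 2)) _ hε1
  filter_upwards [hA] with t hAt
  filter_upwards [hAt] with s0 hAs G c c0 hV m₁ h1 m₂ h2 W T hT hf hN 𝓕 hT𝓕 hcard y hE
  obtain ⟨N⟩ := hV.nest
  obtain ⟨κ, hκ, hy⟩ := eg_recentre 𝓕 y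
  have hy' : ∀ i, |egSh2 y κ i| ≤ Real.pi + Real.sqrt ((2 * mm ^ 2 : ℕ) * U ^ 2) := by
    intro i
    refine (hy i).trans (add_le_add_right (Real.sqrt_le_sqrt ?_) _)
    have h0 : 0 ≤ egE 𝓕 0 y := Finset.sum_nonneg fun f _ => sq_nonneg _
    have hc' : (𝓕.card : ℝ) ≤ ((2 * mm ^ 2 : ℕ) : ℝ) := by exact_mod_cast hcard
    exact mul_le_mul hc' hE h0 (Nat.cast_nonneg _)
  have hl := hAs G c c0 hV m₁ h1 m₂ h2 W T hT hf hN _ hy'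
  rw [es_A_shift hV.hc hV.hc0 N δ T hT b (aPrime a δ) κ (fun f hf' => hκ f (hT𝓕 hf')) y]
  have hpos := es_A_pos hV.hc T c0 δ hb (aPrime a δ) (egSh2 y κ)
  have h3 := Real.abs_exp_sub_one_le (x := Real.log (esA T c0 δ b (aPrime a δ) (egSh2 y κ))) (hl.trans (min_le_left _ _))
  rw [Real.exp_log hpos] at h3
  have := hl.trans (min_le_right _ _)
  linarith

/-- **`0 ≤ d_i ≤ K mm^k e^{-cc R} + η`**: the centred pin interaction of a mark is small (twin of `Entry.eg_pin_small`; consumed by `Phy.Pins` of `strPhy`) -/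
theorem es_pin_small {a b : ℝ} (h𝔅 : EgTemp a fun _ => {b}) (ha : 0 < a) (hb : 0 < b) (δ : ℝ) (hδ : 0 ≤ δ) : ∃ (K cc : ℝ) (k R1 : ℕ), 0 ≤ K ∧ 0 < cc ∧
    ∀ (mm : ℕ) (η : ℝ), 0 < η → ∀ᶠ t : ℕ in atTop, ∀ᶠ s0 : ℕ in atTop, ∀ (G : Geom) (c c0 : Grid G), EsVol c c0 t s0 → ∀ m₁ ≤ mm, ∀ m₂ ≤ mm,
      ∀ (W : EgWin c m₁ m₂) (T : Top c), T.Ok → W.Fits T → ∀ (M : EgMark c) (R : ℕ), R1 ≤ R → M.Ok W T R →
        0 ≤ esDs T c0 δ M b ∧ esDs T c0 δ M b ≤ K * (mm : ℝ) ^ k * Real.exp (-cc * R) + η := by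
  obtain ⟨Kp, cp, kp, R1p, hKp, hcp, hpin⟩ := es_ga_pin a δ ha hδ
  refine ⟨Kp, cp, 2 * kp, max R1p 2, hKp, hcp, fun mm η hη => ?_⟩
  have hP := es_glue_thr mm _ fun m₁ m₂ => es_glue_lift _ fun t ht => es_soft_pin h𝔅 δ hδ m₁ m₂ t ht _ hη
  filter_upwards [hP, eventually_ge_atTop 1] with t hP1 ht
  filter_upwards [hP1, eventually_ge_atTop 1] with s0 hsP hs0 G c c0 hV m₁ h1 m₂ h2 W T hT hf M R hR hM
  obtain ⟨N⟩ := hV.nest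
  obtain ⟨hgeo, hNP⟩ := eg_geo_pull hV.hc W T hT hf M R hM
  have hsep : C3.Sep (M.pull W).H (M.pull W).p := eg_wgeo_sep _ _ R (le_trans (le_max_right _ _) hR) hgeo
  obtain ⟨hC0, hCD⟩ := es_cs_bound hV.hc hV.hc0 N δ T M R hM.geo hb
  refine ⟨hC0.trans hCD, ?_⟩
  have hpin' : esWDg (egWPc (W.shape (T.cut M.F)) (M.pull W)) t s0 δ a (M.pull W).H (M.pull W).p
      ≤ Kp * ((m₁ * m₂ : ℕ) : ℝ) ^ kp * Real.exp (-cp * R) :=
    hpin m₁ m₂ t s0 ht hs0 _ _ (M.pull W) R (le_trans (le_max_left _ _) hR) hgeo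
  have hsoftP : |esWD (egWPc (W.shape (T.cut M.F)) (M.pull W)) t s0 δ b (M.pull W).H (M.pull W).p
      - esWDg (egWPc (W.shape (T.cut M.F)) (M.pull W)) t s0 δ a (M.pull W).H (M.pull W).p| ≤ η :=
    hsP m₁ h1 m₂ h2 _ _ hNP (M.pull W).H (M.pull W).p hsep
  have hprod : ((m₁ * m₂ : ℕ) : ℝ) ≤ (mm : ℝ) ^ 2 := by
    have : m₁ * m₂ ≤ mm ^ 2 := by rw [sq]; exact Nat.mul_le_mul h1 h2
    exact_mod_cast this
  have e2 : ((m₁ * m₂ : ℕ) : ℝ) ^ kp ≤ (mm : ℝ) ^ (2 * kp) := by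
    rw [pow_mul]
    exact pow_le_pow_left₀ (Nat.cast_nonneg _) hprod kp
  have e3 : Kp * ((m₁ * m₂ : ℕ) : ℝ) ^ kp * Real.exp (-cp * R) ≤ Kp * (mm : ℝ) ^ (2 * kp) * Real.exp (-cp * R) := by gcongr
  rw [es_win_Ds hV δ W T hT hf M R hM b]
  have := (abs_le.1 hsoftP).2
  linarith

end

end Claimed.Agent.R285.C5
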