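import Claimed.Agent.R285.C5.EntPhys
import Claimed.Agent.R285.Entry.PertPhy
import Claimed.Agent.R285.Entry.GoodBox

/-!
# ROW 285, [C] L5.4: THE BOX BOUNDS OF THE STRENGTHENED LAW NEAR THE CENTRAL PARAMETER: `box_str : BoxStrStmt`      (architect helper262)

```
box_str : BoxStrStmt (def in C5/EntPhys.lean)
   ⟸ BoxStr0Stmt   C5/EsBox.lean   (helper60)   `BoxOK (strPhy N0 R δ a' b b) ..` at the CENTRAL parameter, eventually in `t`, `s0`   ⟸ C5/EsGood.lean (glue helper255), C5/EsFac.lean (helper60)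
   ⟸ GoodGeoStmt   #17867          (helper177)  the geometry of the engine read in windows (law-free, shared with XY)
   ⟸ generic PERT  Entry/PertPhy.lean, Entry/Pert*.lean (helper118, helper221, helper47): `BoxOK` at the base point + reserve at `b'` ⟹ `BoxOK` at `b'`, `|b' - b| < r (R, U, s)`
```
`strPhy N0 R δ a' b b' = (strPhy N0 R δ a' b b).atB b' (strWt N0 δ a' b b')` by `rfl` (`ept_atB`).
-/

set_option autoImplicit false

namespace Claimed.Agent.R285.C5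

open scoped BigOperators ENNReal NNReal
open Filter Topology
open Claimed.Agent.R285 Claimed.Agent.R285.RG Claimed.Agent.R285.F4a Claimed.Agent.R285.Ent Claimed.Agent.R285.Entry

noncomputable section

variable {G : Geom} {c0 c : Grid G}

theorem ept_atB (N0 : Nest c0 c) (R : ℕ) (dl a' b b' : ℝ) :
    strPhy N0 R dl a' b b' = (strPhy N0 R dl a' b b).atB b' (strWt N0 dl a' b b') := rfl

theorem ept_same (N0 : Nest c0 c) (dl a' b b' b'' : ℝ) : SameW (strWt N0 dl a' b b') (strWt N0 dl a' b b'') := ⟨rfl, rfl, rfl⟩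

/-- **POST GEO (#17867)**: the geometry of the engine read in windows -/
def GoodGeoStmt : Prop := ∀ (G : Geom) (c : Grid G) (R : ℕ), GeoOK c R → R ^ 5 ≤ c.n → GoodGeo c R (R ^ 5)

/-- **POST C5-BOX, exit** (`C5/EsBox.lean`, helper60: `es_boxok1`): the reserve at every real parameter and the box bounds at the central parameter.
Order: `c_*`; the exponent `kE` of the allowance; `c_g`; the bound `x > 1` of the pins; first `R`; `R = 2^{kR}`; `U`; `t`; `s0`; the volume. -/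
def BoxStr0Stmt : Prop :=
  ∀ (b a dl : ℝ), 0 < b → 0 < a → aLim b = a → 0 < dl → ∃ (cstar : ℝ) (n1 : ℕ), 0 < cstar ∧ cstar < 1 ∧
    (∀ (G : Geom) (c0 c : Grid G) (N0 : Nest c0 c) (t s0 : ℕ), EsVol c c0 t s0 → n1 ≤ c.n → ∀ (R : ℕ) (b0 b' : ℝ), 0 < b' → ∀ T : Top c, T.Ok →
      ∀ y : c.I → ℝ, (strPhy N0 R dl (aPrime a dl) b0 b').AT T y ≤ Real.exp ((1 - cstar) / 2 * T.Eobs (aPrime a dl) 0 y)) ∧
    ∀ kE : ℕ, ∃ cg : ℝ, 0 < cg ∧ ∀ x : ℝ, 1 < x → ∃ k1 : ℕ, n1 ≤ k1 ∧ ∀ kR ≥ k1, ∀ U : ℝ, ∀ᶠ t : ℕ in atTop, ∀ᶠ s0 : ℕ in atTop,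
      ∀ (G : Geom) (c0 c : Grid G) (N0 : Nest c0 c), EsVol c c0 t s0 → GeoOK c (2 ^ kR) → (2 ^ kR) ^ 5 ≤ c.n → GoodGeo c (2 ^ kR) ((2 ^ kR) ^ 5) →
      BoxOK (strPhy N0 (2 ^ kR) dl (aPrime a dl) b b) (aPrime a dl) ((2 ^ kR) ^ 5) ∅ x cstar U (Real.exp (-cg * 2 ^ kR)) 6
        (1 / ((2 : ℝ) ^ kR) ^ kE) 1

end

end Claimed.Agent.R285.C5
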