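import Claimed.Agent.R285.C5.EsPert
import Claimed.Agent.R285.C5.EntLaw
import Claimed.Agent.R285.Entry.PertEx
import Claimed.Agent.R285.Entry.NtGeo

/-!
# ROW 285, [C] L5.4 ("Uniformity and completion of entry", 50-openness.tex l.818-845): `BoxStrStmt` FROM THE CENTRAL PARAMETER      (architect helper262)
TWIN of `Entry/PertEx.lean` (helper221) for `strPhy`: `ept_in : EpIn`, `ept_main : EpC`, `ept_boxok`; then `boxStr_of : BoxStr0Stmt → GoodGeoStmt → BoxStrStmt`.   No sorry.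
The generic perturbation `ep_main`, `ep_boxok`, `ep_E_spec` (`Entry/Pert.lean`) does all the work; the neighbourhood of `b` is `|b' - b| < c_R / (t s0)²`, uniform in the torus.
-/

set_option autoImplicit false

namespace Claimed.Agent.R285.C5

open scoped BigOperators ENNReal NNReal
open Filter Topology
open Claimed.Agent.R285 Claimed.Agent.R285.RG Claimed.Agent.R285.F4a Claimed.Agent.R285.Ent Claimed.Agent.R285.Entry

noncomputable section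

variable {G : Geom} {c0 c : Grid G}

theorem ept_in (hc : Whole c) (hc0 : Whole c0) (N0 : Nest c0 c) {R : ℕ} (hg : NGeo c R) {dl a' b : ℝ} (hdl : 0 ≤ dl) (ha' : 0 < a') (hb : 0 < b) {x Cu : ℝ}
    (hx : 1 ≤ x) (hCu : 0 ≤ Cu)
    (hE : ∀ T : Top c, T.Ok → ∀ y : c.I → ℝ, 0 ≤ (strPhy N0 R dl a' b b).E T y ∧
      (strPhy N0 R dl a' b b).E T y ≤ Cu * ∑ f ∈ T.faces, (strPhy N0 R dl a' b b).w y f ^ 2) :
    EpIn (strPhy N0 R dl a' b b) (strWt N0 dl a' b b) b x Cu (2 * c.m ^ 2) where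
  sW₀ := ⟨rfl, rfl, rfl⟩
  bp := hb
  ok := str_phy_ok hc hc0 N0 R dl a' b b hdl hb
  N := fun T => (str_str hc hc0 N0 dl a' b b hdl ha' hb).N_pos T
  geo := hg
  Cn := hCu
  E := hE
  X := fun y f => by
    show Real.exp (-(strPhy N0 R dl a' b b).w y f ^ 2 / 2) ≤ 1
    exact Real.exp_le_one_iff.2 (by have := sq_nonneg ((strPhy N0 R dl a' b b).w y f); linarith)
  Ck := fun k _ => by
    have z1 : 0 < (strWt N0 dl a' b b).N (topO c R k) := (str_str hc hc0 N0 dl a' b b hdl ha' hb).N_pos _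
    have z2 : 0 < (strWt N0 dl a' b b).N (topC c R k) := (str_str hc hc0 N0 dl a' b b hdl ha' hb).N_pos _
    show (strWt N0 dl a' b b).N (topO c R k) / (strWt N0 dl a' b b).N (topC c R k)
      ≤ x * ((strWt N0 dl a' b b).N (topO c R k) / (strWt N0 dl a' b b).N (topC c R k))
    exact le_mul_of_one_le_left (div_pos z1 z2).le hx
  card := fun T _ => (pxy_bonds hc b T).trans (le_of_eq (by ring))

/-- **the three clauses of the perturbation for the strengthened law** (twin of `epx_main`) -/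
theorem ept_main (b a' dl : ℝ) (hb : 0 < b) (ha' : 0 < a') (hdl : 0 ≤ dl) : ∃ n1 : ℕ, ∀ (R P : ℕ) (U ε x0 : ℝ), 0 < ε → ∃ cR : ℝ, 0 < cR ∧
    ∀ (G : Geom) (c0 c : Grid G) (N0 : Nest c0 c), Whole c → Whole c0 → NGeo c R → R ∣ P → P ≤ c.n → n1 ≤ c.n → (strPhy N0 R dl a' b b).Pins x0 →
      ∀ b' : ℝ, |b' - b| < cR / (c.m : ℝ) ^ 2 → 0 < b' ∧ EpC (strPhy N0 R dl a' b b) (strPhy N0 R dl a' b b') P U ε := by
  obtain ⟨Cu, n1, hCu, hE⟩ := pxy_E_bd a' ha'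
  refine ⟨n1, fun R P U ε x0 hε => ?_⟩
  by_cases hx : 1 ≤ x0
  swap
  · exact ⟨1, one_pos, fun G c0 c N0 _ _ _ _ _ _ hP => absurd hP.one hx⟩
  obtain ⟨N, hN⟩ : ∃ N : ℕ, N = (2 * P) ^ 2 + (2 * R + 1) ^ 2 := ⟨_, rfl⟩
  have hN1 : (1 : ℝ) ≤ N := by
    have : 1 ≤ N := by
      rw [hN]
      have : 1 ≤ (2 * R + 1) ^ 2 := Nat.one_le_pow _ _ (by omega)
      omega
    exact_mod_cast this
  have hA : 0 < epA P x0 Cu U := by
    have := ep_B_pos P x0 Cu U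
    unfold epA
    positivity
  have hlog : 0 < Real.log (1 + ε / epA P x0 Cu U) := Real.log_pos (by have := div_pos hε hA; linarith)
  refine ⟨min (b / 2) (Real.log (1 + ε / epA P x0 Cu U) / (8 * N)), lt_min (by linarith) (by positivity), ?_⟩
  intro G c0 c N0 hc hc0 hg hRP hPn hn1 hP b' hb'
  have hm : (1 : ℝ) ≤ (c.m : ℝ) ^ 2 := by
    have : (1 : ℝ) ≤ c.m := by exact_mod_cast hc.pos
    nlinarith
  have hb1 : |b' - b| < b / 2 := by
    refine hb'.trans_le ((div_le_self (le_min (by linarith) (by positivity)) hm).trans (min_le_left _ _))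
  have hbpos : 0 < b' := by
    have := (abs_lt.1 hb1).1
    linarith
  refine ⟨hbpos, ?_⟩
  have H := ept_in hc hc0 N0 hg hdl ha' hb hx hCu (hE G c hc hn1 R b b)
  have hnd := pxy_nd hc N hb'
  have hnd2 : ((2 * (c.m ^ 2 * N) : ℕ) : ℝ) * |b' - b| ≤ Real.log (1 + ε / epA P x0 Cu U) / 4 := by
    refine hnd.trans ?_
    have h1 : 2 * (N : ℝ) * min (b / 2) (Real.log (1 + ε / epA P x0 Cu U) / (8 * N)) ≤ 2 * (N : ℝ) * (Real.log (1 + ε / epA P x0 Cu U) / (8 * N)) :=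
      mul_le_mul_of_nonneg_left (min_le_right _ _) (by positivity)
    refine h1.trans (le_of_eq ?_)
    field_simp
    ring
  have hsm : epA P x0 Cu U * (Real.exp (4 * (((2 * (c.m ^ 2 * N) : ℕ) : ℝ) * |b' - b|)) - 1) ≤ ε := by
    have h1 : Real.exp (4 * (((2 * (c.m ^ 2 * N) : ℕ) : ℝ) * |b' - b|)) ≤ 1 + ε / epA P x0 Cu U := by
      rw [← Real.exp_log (show 0 < 1 + ε / epA P x0 Cu U by have := div_pos hε hA; linarith)]
      exact Real.exp_le_exp.2 (by linarith)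
    calc _ ≤ epA P x0 Cu U * (ε / epA P x0 Cu U) := mul_le_mul_of_nonneg_left (by linarith) hA.le
      _ = ε := by field_simp
  exact ep_main H hP (ept_same N0 dl a' b b b') hbpos hRP hPn (U := U) (ε := ε) (2 * (c.m ^ 2 * N))
    (le_of_eq (by rw [hN]; show 2 * c.m ^ 2 * ((2 * P) ^ 2 + (2 * R + 1) ^ 2) = _; ring)) hsm

/-- **`BoxOK` at the central parameter + the reserve at `b'` ⟹ `BoxOK` at `b'`** (twin of `epx_boxok`) -/
theorem ept_boxok (b a' dl : ℝ) (hb : 0 < b) (ha' : 0 < a') (hdl : 0 ≤ dl) : ∃ n1 : ℕ, ∀ (R P : ℕ) (U x0 x γ0 γ C0 C : ℝ), x0 < x → 0 ≤ γ0 → γ0 < γ → γ ≤ 1 →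
    0 ≤ C0 → C0 < C → ∃ cR : ℝ, 0 < cR ∧ ∀ (G : Geom) (c0 c : Grid G) (N0 : Nest c0 c), Whole c → Whole c0 → NGeo c R → R ∣ P → P ≤ c.n → n1 ≤ c.n →
      ∀ (cstar ea : ℝ), 0 ≤ ea → BoxOK (strPhy N0 R dl a' b b) a' P ∅ x0 cstar U γ0 C0 ea 1 →
      ∀ b' : ℝ, |b' - b| < cR / (c.m : ℝ) ^ 2 → 0 < b' ∧
        ((∀ T : Top c, T.Ok → ∀ y : c.I → ℝ, (strPhy N0 R dl a' b b').AT T y ≤ Real.exp ((1 - cstar) / 2 * T.Eobs a' 0 y)) →
          BoxOK (strPhy N0 R dl a' b b') a' P ∅ x cstar U γ C ea 1) := by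
  obtain ⟨n1, h⟩ := ept_main b a' dl hb ha' hdl
  refine ⟨n1, fun R P U x0 x γ0 γ C0 C hx hγ0 hγ hγ1 hC0 hC => ?_⟩
  have hγp : 0 < γ := lt_of_le_of_lt hγ0 hγ
  obtain ⟨hε, s1, s2, s3⟩ := ep_E_spec ((2 * P) ^ 2) hx hγ hγp hC0 hC
  obtain ⟨cR, hcR, hmain⟩ := h R P U (epE ((2 * P) ^ 2) x0 x γ0 γ C0 C) x0 hε
  refine ⟨cR, hcR, fun G c0 c N0 hc hc0 hg hRP hPn hn1 cstar ea hea H0 b' hb' => ?_⟩
  obtain ⟨hbp, h3⟩ := hmain G c0 c N0 hc hc0 hg hRP hPn hn1 H0.pins b' hb'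
  refine ⟨hbp, fun hr => ?_⟩
  exact ep_boxok (Y := strPhy N0 R dl a' b b) (x := x) (ept_same N0 dl a' b b b) (ept_same N0 dl a' b b b')
    (fun T => (str_str hc hc0 N0 dl a' b b hdl ha' hb).N_pos T) h3 ((2 * P) ^ 2)
    (fun S t bx hS ht => (ep_keptB_card hg _ hS bx).trans (pc_box_card (pc_lt hg.pos hRP ht) hPn bx))
    hε.le s1 hγ0 s2 hγp hγ1 hC0 hea s3 H0 (fun T hT _ y => hr T hT y) (fun T hT y => by rw [one_mul]; exact hr T hT y)

/-- **`BoxStrStmt` from the box bounds at the central parameter.** -/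
theorem boxStr_of (h0 : BoxStr0Stmt) (hGG : GoodGeoStmt) : BoxStrStmt := by
  intro b a dl hb ha hab hdl
  have ha' : 0 < aPrime a dl := aPrime_pos ha hdl
  obtain ⟨cstar, n0, hc0, hc1, hres, hbox⟩ := h0 b a dl hb ha hab hdl
  generalize aPrime a dl = a' at ha' hres hbox ⊢
  obtain ⟨cg, hcg, hbox0⟩ := hbox 12
  obtain ⟨k1, hn0, hbox1⟩ := hbox0 2 (by norm_num)
  obtain ⟨n1, hpert⟩ := ept_boxok b a' dl hb ha' hdl.le
  refine ⟨cstar, cg / 2, max k1 n1, hc0, hc1, by positivity, fun kR hkR U hU => ?_⟩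
  simp only [ge_iff_le, max_le_iff] at hkR
  obtain ⟨hk1, hkn⟩ := hkR
  have hR0 : (0 : ℝ) < 2 ^ kR := by positivity
  obtain ⟨cR, hcR, hp⟩ := hpert (2 ^ kR) ((2 ^ kR) ^ 5) U 2 4 (Real.exp (-cg * 2 ^ kR)) (Real.exp (-(cg / 2) * 2 ^ kR)) 6 13 (by norm_num)
    (Real.exp_pos _).le (Real.exp_lt_exp.2 (by nlinarith)) (Real.exp_le_one_iff.2 (by nlinarith)) (by norm_num) (by norm_num)
  filter_upwards [hbox1 kR hk1 U, eventually_gt_atTop 0] with t ht ht0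
  filter_upwards [ht, eventually_gt_atTop 0] with s0 hs hs0
  have hpos : (0 : ℝ) < cR / ((t * s0 : ℕ) : ℝ) ^ 2 := by
    have : (0 : ℝ) < ((t * s0 : ℕ) : ℝ) := by exact_mod_cast Nat.mul_pos ht0 hs0
    positivity
  filter_upwards [Metric.ball_mem_nhds b hpos] with b' hb' G c0 c N0 _ hes hgeo h5
  have hb'' : |b' - b| < cR / (c.m : ℝ) ^ 2 := by
    rw [hes.m, ← Real.dist_eq]
    exact hb'
  have hkn5 : kR ≤ c.n := by
    refine le_trans ?_ h5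
    calc kR ≤ 2 ^ kR := Nat.lt_two_pow_self.le
      _ = (2 ^ kR) ^ 1 := (pow_one _).symm
      _ ≤ (2 ^ kR) ^ 5 := Nat.pow_le_pow_right (by positivity) (by norm_num)
  have hn1 : n1 ≤ c.n := hkn.trans hkn5
  obtain ⟨hb'0, hfin⟩ := hp G c0 c N0 hes.hc hes.hc0 (ngeo_of hgeo) (Dvd.intro_left ((2 ^ kR) ^ 4) (by ring)) h5 hn1 cstar _ (by positivity)
    (hs G c0 c N0 hes hgeo h5 (hGG G c _ hgeo h5)) b' hb''
  exact hfin fun T hT y => hres G c0 c N0 t s0 hes ((hn0.trans hk1).trans hkn5) (2 ^ kR) b b' hb'0 T hT y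

end

end Claimed.Agent.R285.C5
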