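import Claimed.Agent.R285.C5.EsWinDefs

/-!
# ROW 285, [C] s5.3, package ES-WIN, leaf L-ES-WIN-AR: arithmetic of subcells and observation cells in `ℤ²`      (architect helper60)

PAPER-FREE.   `Entry.egCellOf n₁ n₂ s x κ : s κ_i ≤ x_i < s (κ_i + 1)`;  `Geo.up t κ = (κ.1 / t, κ.2 / t)`.
-/

set_option autoImplicit false

namespace Claimed.Agent.R285.C5

open Claimed.Agent.R285 Claimed.Agent.R285.RG Claimed.Agent.R285.F4a Claimed.Agent.R285.Entry

variable {m₁ m₂ : ℕ}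

/-- one coordinate: the interval `[s k, s (k+1))` as an integer quotient -/
theorem esw_div1 {s : ℕ} (hs : 0 < s) (x k : ℤ) : ((s : ℤ) * k ≤ x ∧ x < (s : ℤ) * (k + 1)) ↔ x / (s : ℤ) = k := by
  have hs' : (0 : ℤ) < s := by exact_mod_cast hs
  constructor
  · rintro ⟨h1, h2⟩
    apply le_antisymm
    · have h3 : x / (s : ℤ) < k + 1 := (Int.ediv_lt_iff_lt_mul hs').2 (by linarith [mul_comm (s : ℤ) (k + 1)])
      omega
    · exact (Int.le_ediv_iff_mul_le hs').2 (by linarith [mul_comm (s : ℤ) k])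
  · rintro rfl
    constructor
    · have h3 := Int.ediv_mul_le x hs'.ne'
      linarith [mul_comm (s : ℤ) (x / s)]
    · have h3 := Int.lt_ediv_add_one_mul_self x hs'
      linarith [mul_comm (s : ℤ) (x / s + 1)]

/-- iterated quotients -/
theorem esw_div_div (t s0 : ℕ) (y : ℤ) : y / ((t * s0 : ℕ) : ℤ) = y / (s0 : ℤ) / (t : ℤ) := by
  rw [Int.ediv_ediv_of_nonneg (Int.natCast_nonneg s0)]
  push_cast
  rw [mul_comm]

/-- the cell as an integer quotient.   (`Int.ediv_eq_iff` / `Int.le_ediv_iff_mul_le`, `Int.ediv_lt_iff_lt_mul`.) -/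
theorem esw_cell_div {n₁ n₂ s : ℕ} (hs : 0 < s) (x : ℤ × ℤ) (κ : C3.Cell n₁ n₂) :
    egCellOf n₁ n₂ s x κ ↔ x.1 / (s : ℤ) = (κ.1 : ℕ) ∧ x.2 / (s : ℤ) = (κ.2 : ℕ) := by
  constructor
  · intro h
    exact ⟨(esw_div1 hs x.1 _).1 ⟨h.1, h.2.1⟩, (esw_div1 hs x.2 _).1 ⟨h.2.2.1, h.2.2.2⟩⟩
  · rintro ⟨h1, h2⟩
    have a := (esw_div1 hs x.1 _).2 h1
    have b := (esw_div1 hs x.2 _).2 h2
    exact ⟨a.1, a.2, b.1, b.2⟩

/-- a site of the subcell `κ` lies in the observation cell `up t κ`.   (`κ_i = t (κ_i / t) + κ_i % t`, `nlinarith`/`omega` after `Nat.div_add_mod`, `Nat.mod_lt`.) -/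
theorem esw_cell_up {t s0 : ℕ} (ht : 0 < t) {x : ℤ × ℤ} {κ : C3.Cell (t * m₁) (t * m₂)} (h : egCellOf (t * m₁) (t * m₂) s0 x κ) :
    egCellOf m₁ m₂ (t * s0) x (Geo.up t κ) := by
  rcases Nat.eq_zero_or_pos s0 with hs | hs
  · subst hs
    have h1 := h.1
    have h2 := h.2.1
    simp only [Nat.cast_zero, zero_mul] at h1 h2
    omega
  · obtain ⟨h1, h2⟩ := (esw_cell_div hs x κ).1 h
    rw [esw_cell_div (Nat.mul_pos ht hs)]
    constructor
    · rw [esw_div_div, h1]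
      rfl
    · rw [esw_div_div, h2]
      rfl

/-- one coordinate of `esw_cell_down` -/
theorem esw_down1 {t s0 m : ℕ} (ht : 0 < t) (hs : 0 < s0) (x : ℤ) (K : Fin m) (h : x / ((t * s0 : ℕ) : ℤ) = ((K : ℕ) : ℤ)) :
    ∃ k : Fin (t * m), x / (s0 : ℤ) = ((k : ℕ) : ℤ) ∧ Geo.up1 t k = K := by
  rw [esw_div_div] at h
  obtain ⟨h1, h2⟩ := (esw_div1 ht _ _).2 h
  have h3 : (t : ℤ) * (((K : ℕ) : ℤ) + 1) ≤ (t : ℤ) * (m : ℤ) := by
    have : ((K : ℕ) : ℤ) + 1 ≤ (m : ℤ) := by exact_mod_cast K.2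
    exact mul_le_mul_of_nonneg_left this (Int.natCast_nonneg t)
  have h0 : 0 ≤ x / (s0 : ℤ) := le_trans (mul_nonneg (Int.natCast_nonneg t) (Int.natCast_nonneg _)) h1
  have e : (((x / (s0 : ℤ)).toNat : ℕ) : ℤ) = x / (s0 : ℤ) := Int.toNat_of_nonneg h0
  have hlt : (x / (s0 : ℤ)).toNat < t * m := by
    have : (((x / (s0 : ℤ)).toNat : ℕ) : ℤ) < ((t * m : ℕ) : ℤ) := by
      rw [e]
      push_cast
      linarith
    exact_mod_cast this
  refine ⟨⟨(x / (s0 : ℤ)).toNat, hlt⟩, e.symm, Fin.ext ?_⟩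
  show (x / (s0 : ℤ)).toNat / t = (K : ℕ)
  have : (((x / (s0 : ℤ)).toNat / t : ℕ) : ℤ) = ((K : ℕ) : ℤ) := by
    rw [Int.natCast_ediv, e, h]
  exact_mod_cast this

/-- every site of an observation cell lies in one of its subcells.   (`κ_i = x_i / s0` (`Int.toNat`), `x_i < t s0 (K_i + 1) ≤ s0 (t m_i)`.) -/
theorem esw_cell_down {t s0 : ℕ} (ht : 0 < t) (hs : 0 < s0) {x : ℤ × ℤ} {K : C3.Cell m₁ m₂} (h : egCellOf m₁ m₂ (t * s0) x K) :
    ∃ κ : C3.Cell (t * m₁) (t * m₂), egCellOf (t * m₁) (t * m₂) s0 x κ ∧ Geo.up t κ = K := by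
  obtain ⟨h1, h2⟩ := (esw_cell_div (Nat.mul_pos ht hs) x K).1 h
  obtain ⟨k1, a1, b1⟩ := esw_down1 ht hs x.1 K.1 h1
  obtain ⟨k2, a2, b2⟩ := esw_down1 ht hs x.2 K.2 h2
  exact ⟨(k1, k2), (esw_cell_div hs x (k1, k2)).2 ⟨a1, a2⟩, Prod.ext b1 b2⟩

/-- one coordinate of `esw_step_out` -/
theorem esw_out1 {t s0 : ℕ} (ht : 0 < t) (hs : 0 < s0) (x : ℤ) (k : ℕ) (h : x / (s0 : ℤ) = (k : ℤ)) :
    ¬ (x + 1) / ((t * s0 : ℕ) : ℤ) = ((k / t : ℕ) : ℤ) ↔ ¬ (x + 1) / (s0 : ℤ) = (k : ℤ) ∧ (k + 1) % t = 0 := by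
  have hs' : (0 : ℤ) < s0 := by exact_mod_cast hs
  obtain ⟨h1, h2⟩ := (esw_div1 hs _ _).2 h
  have hq : (x + 1) / (s0 : ℤ) = (k : ℤ) ∨ (x + 1) / (s0 : ℤ) = (k : ℤ) + 1 := by
    rcases lt_or_ge (x + 1) ((s0 : ℤ) * ((k : ℤ) + 1)) with h3 | h3
    · exact Or.inl ((esw_div1 hs _ _).1 ⟨by linarith, h3⟩)
    · right
      have h4 : x + 1 = (s0 : ℤ) * ((k : ℤ) + 1) := by omega
      rw [h4]
      exact Int.mul_ediv_cancel_left _ hs'.ne'
  rw [esw_div_div]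
  rcases hq with hq | hq
  · rw [hq]
    constructor
    · intro h3
      exact absurd (Int.natCast_ediv k t).symm h3
    · rintro ⟨h3, -⟩
      exact absurd rfl h3
  · rw [hq]
    have e : ((k : ℤ) + 1) / (t : ℤ) = (((k + 1) / t : ℕ) : ℤ) := by
      rw [Int.natCast_ediv]
      push_cast
      rfl
    rw [e, Nat.succ_div]
    constructor
    · intro h3
      refine ⟨by omega, ?_⟩
      by_contra h4
      apply h3
      rw [if_neg (fun hd => h4 (Nat.mod_eq_zero_of_dvd hd)), Nat.add_zero]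
    · rintro ⟨-, h3⟩
      rw [if_pos (Nat.dvd_of_mod_eq_zero h3)]
      push_cast
      omega

/-- a step which leaves the subcell `κ` leaves the observation cell iff the face of `κ` lies in a face of observation cells -/
theorem esw_step_out {t s0 : ℕ} (ht : 0 < t) (hs : 0 < s0) {x : ℤ × ℤ} {d : Bool} {κ : C3.Cell (t * m₁) (t * m₂)}
    (h : egCellOf (t * m₁) (t * m₂) s0 x κ) :
    ¬ egCellOf m₁ m₂ (t * s0) (x + bdir d) (Geo.up t κ) ↔
      ¬ egCellOf (t * m₁) (t * m₂) s0 (x + bdir d) κ ∧ (if d then (κ.1.1 + 1) % t = 0 else (κ.2.1 + 1) % t = 0) := by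
  have hx := (esw_cell_div hs x κ).1 h
  have hup := (esw_cell_div (Nat.mul_pos ht hs) x (Geo.up t κ)).1 (esw_cell_up ht h)
  rw [esw_cell_div (Nat.mul_pos ht hs), esw_cell_div hs]
  cases d
  · have e1 : (x + bdir false).1 = x.1 := by simp [bdir]
    have e2 : (x + bdir false).2 = x.2 + 1 := by simp [bdir]
    rw [e1, e2]
    have key := esw_out1 ht hs x.2 κ.2.1 hx.2
    simp only [hx.1, hup.1, true_and, Bool.false_eq_true, if_false]
    exact key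
  · have e1 : (x + bdir true).1 = x.1 + 1 := by simp [bdir]
    have e2 : (x + bdir true).2 = x.2 := by simp [bdir]
    rw [e1, e2]
    have key := esw_out1 ht hs x.1 κ.1.1 hx.1
    simp only [hx.2, hup.2, and_true, if_true]
    exact key

end Claimed.Agent.R285.C5
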