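import Claimed.Agent.R285.C5.EsDefs
import Claimed.Agent.R285.Entry.GoodWin

/-!
# ROW 285, [C] s5.3, post C5-BOX, package ES-WIN: DEFINITIONS      (architect helper60)

Nothing is sorried here.   The isomorphism `esLw Γ t s0 δ ≅ lawS T c0 δ` is a COMPOSITION of four isomorphisms (`HIso` of `Entry/GoodWin.lean`), so that `Entry.eg_win_iso` (the only place with torus arithmetic) is reused as it is:
  `C3.lawR Γ' g row`  ≅(SOFT)  `str (C3.lawR Γ' g (esRow0 Γ t)) (eswCell Γ' s0) √δ`  ≅(STR of (REF then `eg_win_iso`))  `str T.law (subOf T c0) √δ = lawS T c0 δ`,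
  (REF) `C3.lawR Γ' g (esRow0 Γ t) ≅ egLw Γ (t * s0)`: the same sites and bonds of `ℤ²`, read in subcells or in observation cells.
`Γ'` = any `t`-refinement of `Γ` (`EsRef`): `Geo.refine Γ t` and `C3.uncut (Geo.refine Γc t) (esUpF t F)` (which is only PROPOSITIONALLY equal to `Geo.refine (C3.uncut Γc F) t`).
`row` = any enumeration of (rows of the observation cells) + (rows of the averaged bonds `esSoft Γ'`), given by an equivalence `e : Fin N' ≃ Fin Γ.T.card ⊕ {f // f ∈ esSoft Γ'}`: covers `esRow` and `esRowU`.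
-/

set_option autoImplicit false

namespace Claimed.Agent.R285.C5

open scoped BigOperators
open Claimed.Agent.R285 Claimed.Agent.R285.RG Claimed.Agent.R285.F4a Claimed.Agent.R285.Entry

noncomputable section

/-- composition of isomorphisms of height laws -/
def eswTrans {G G' G'' : HGraph} {H : HLaw G} {H' : HLaw G'} {H'' : HLaw G''} (i : HIso H H') (j : HIso H' H'') : HIso H H'' where
  eV := i.eV.trans j.eV
  eE := i.eE.trans j.eE
  eO := i.eO.trans j.eO
  src := fun e => by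
    show G''.src (j.eE (i.eE e)) = j.eV (i.eV (G.src e))
    rw [j.src, i.src]
  tgt := fun e => by
    show G''.tgt (j.eE (i.eE e)) = j.eV (i.eV (G.tgt e))
    rw [j.tgt, i.tgt]
  lam := fun h'' => by
    rw [j.lam, i.lam]
    rfl
  row := fun o v => by
    show H''.B (j.eO (i.eO o)) (j.eV (i.eV v)) = H.B o v
    rw [j.row, i.row]

/-- `Γ'` (units of subcells) is a `t`-refinement of the shape `Γ` (units of observation cells) -/
structure EsRef {m₁ m₂ : ℕ} (t : ℕ) (Γ' : CGeom (t * m₁) (t * m₂)) (Γ : CGeom m₁ m₂) : Prop where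
  T : ∀ κ, κ ∈ Γ'.T ↔ Geo.up t κ ∈ Γ.T
  cut : ∀ f, f ∈ Γ'.cutF ↔ (Geo.up t f.1, f.2) ∈ Γ.cutF ∧ (if f.2 then (f.1.1.1 + 1) % t = 0 else (f.1.2.1 + 1) % t = 0)
  pin' : Γ'.pin = ∅
  pin : Γ.pin = ∅

/-- the cell of side `s` of a site of a window, as a point of `ℤ²` -/
def eswCell {n₁ n₂ : ℕ} (Γ' : CGeom n₁ n₂) (s : ℕ) (x : (Γ'.graph (egGr n₁ n₂ s)).V) : ℤ × ℤ :=
  ((domPos x).1 / (s : ℤ), (domPos x).2 / (s : ℤ))

/-- the centres of rows enumerated through `e`: `c` on the first block, `0` on the second -/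
def eswCen {N N' : ℕ} {S : Type} (e : Fin N' ≃ Fin N ⊕ S) (c : Fin N → ℝ) : Fin N' → ℝ := fun o => Sum.elim c (fun _ => 0) (e o)

variable {G : Geom} {c : Grid G} {m₁ m₂ : ℕ}

/-- a global field read on the graph of a geometry in subcells -/
def eswPull {α : Type} (W : EgWin c m₁ m₂) {n₁ n₂ : ℕ} (Γ' : CGeom n₁ n₂) (s : ℕ) (h : G.V → α) : (Γ'.graph (egGr n₁ n₂ s)).V → α :=
  fun x => h (W.site (domPos x))

open Classical in
/-- a field on the graph of a geometry in subcells as a global field (zero elsewhere) -/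
def eswPush {α : Type} [Zero α] (W : EgWin c m₁ m₂) {n₁ n₂ : ℕ} (Γ' : CGeom n₁ n₂) (s : ℕ) (h : (Γ'.graph (egGr n₁ n₂ s)).V → α) : G.V → α :=
  fun v => if hv : ∃ x : (Γ'.graph (egGr n₁ n₂ s)).V, W.site (domPos x) = v then h hv.choose else 0

/-- the enumeration of the rows of `esRow` -/
def eswE (Γ : CGeom m₁ m₂) (t : ℕ) :
    Fin (Γ.T.card + (esSoft (Geo.refine Γ t)).card) ≃ Fin Γ.T.card ⊕ {f // f ∈ esSoft (Geo.refine Γ t)} :=
  finSumFinEquiv.symm.trans (Equiv.sumCongr (Equiv.refl _) (esSoft (Geo.refine Γ t)).equivFin.symm)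

theorem esw_defs_eqns_cite : True := by
  have := @eswTrans.eq_1
  have := @eswCell.eq_1
  have := @eswCen.eq_1
  have := @eswPull.eq_1
  have := @eswPush.eq_1
  have := @eswE.eq_1
  trivial

end

end Claimed.Agent.R285.C5
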