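import Claimed.Agent.R285.C5.EsWinDefs

/-!
# ROW 285, [C] s5.3, package ES-WIN, leaf L-ES-WIN-STR: the strengthening `C5.str` is functorial      (architect helper60)

PAPER-FREE, generic (any two finite height laws).   `str H κ w` (`C5/Defs.lean`): `O = H.O ⊕ {p // p ∈ cellPairs κ}`, new rows `w (fibAvg κ p.2 - fibAvg κ p.1)`, `cellPairs κ` = the pairs `(κ (src e), κ (tgt e))` of DISTINCT values.
PLAN.  `eV := i.eV`, `eE := i.eE`, `lam := i.lam` (`(str H κ w).Λ = H.Λ` by `rfl`).   Rows: for `p ∈ cellPairs κ` choose a bond `e` with `p = (κ (src e), κ (tgt e))` (`Finset.mem_filter`, `Finset.mem_image`) and put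
`φ p = (κ' (i.eV (src e)), κ' (i.eV (tgt e)))`; it lies in `cellPairs κ'` (bond `i.eE e`, `i.src`, `i.tgt`; distinct by `hκ`).   `φ` is injective by `hκ` and surjective (bond `i.eE.symm e'`): `Equiv.ofBijective`, `Equiv.sumCongr i.eO _`.
`row` on `Sum.inr p`: `fibAvg κ' (κ' (i.eV x)) (i.eV v) = fibAvg κ (κ x) v`: the conditions agree by `hκ`, the cardinalities of the two fibres agree (`Finset.card_bij` / `Finset.card_equiv i.eV`).
-/

set_option autoImplicit false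

namespace Claimed.Agent.R285.C5

open scoped BigOperators
open Claimed.Agent.R285 Claimed.Agent.R285.RG Claimed.Agent.R285.F4a Claimed.Agent.R285.Entry

theorem esw_mem_cellPairs {G : HGraph} {C : Type} (κ : G.V → C) (p : C × C) :
    p ∈ cellPairs κ ↔ (∃ e : G.E, (κ (G.src e), κ (G.tgt e)) = p) ∧ p.1 ≠ p.2 := by
  classical
  unfold cellPairs
  rw [Finset.mem_filter, Finset.mem_image]
  simp

/-- the fibre averages correspond -/
theorem esw_fibAvg {G G' : HGraph} (eV : G.V ≃ G'.V) {C C' : Type} (κ : G.V → C) (κ' : G'.V → C')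
    (hκ : ∀ v v', κ' (eV v) = κ' (eV v') ↔ κ v = κ v') (x v : G.V) :
    fibAvg κ' (κ' (eV x)) (eV v) = fibAvg κ (κ x) v := by
  classical
  unfold fibAvg
  have hc : (Finset.univ.filter fun w => κ w = κ x).card = (Finset.univ.filter fun w => κ' w = κ' (eV x)).card :=
    Finset.card_equiv eV fun w => by simp [hκ]
  rw [hc]
  by_cases h : κ v = κ x
  · rw [if_pos h, if_pos ((hκ v x).2 h)]
  · rw [if_neg h, if_neg fun h' => h ((hκ v x).1 h')]

/-- L-ES-WIN-STR -/
theorem esw_str {G G' : HGraph} {H : HLaw G} {H' : HLaw G'} (i : HIso H H') {C C' : Type} (κ : G.V → C) (κ' : G'.V → C')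
    (hκ : ∀ v v', κ' (i.eV v) = κ' (i.eV v') ↔ κ v = κ v') (w : ℝ) :
    ∃ j : HIso (str H κ w) (str H' κ' w), (∀ x, j.eV x = i.eV x) ∧ (∀ o : H.O, j.eO (Sum.inl o) = Sum.inl (i.eO o)) ∧
      ∀ p : {p : C × C // p ∈ cellPairs κ}, ∃ p' : {p : C' × C' // p ∈ cellPairs κ'}, j.eO (Sum.inr p) = Sum.inr p' := by
  classical
  -- a bond for every pair
  have hb : ∀ p : {p : C × C // p ∈ cellPairs κ}, ∃ e : G.E, (κ (G.src e), κ (G.tgt e)) = p.1 :=
    fun p => ((esw_mem_cellPairs κ p.1).1 p.2).1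
  choose be hbe using hb
  have hmem : ∀ e : G.E, κ (G.src e) ≠ κ (G.tgt e) → (κ' (i.eV (G.src e)), κ' (i.eV (G.tgt e))) ∈ cellPairs κ' := by
    intro e hne
    refine (esw_mem_cellPairs κ' _).2 ⟨⟨i.eE e, by rw [i.src, i.tgt]⟩, fun h => hne ((hκ _ _).1 h)⟩
  have hne : ∀ p : {p : C × C // p ∈ cellPairs κ}, κ (G.src (be p)) ≠ κ (G.tgt (be p)) := by
    intro p
    have h1 := ((esw_mem_cellPairs κ p.1).1 p.2).2
    rw [← hbe p] at h1
    exact h1
  let φ : {p : C × C // p ∈ cellPairs κ} → {p : C' × C' // p ∈ cellPairs κ'} :=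
    fun p => ⟨(κ' (i.eV (G.src (be p))), κ' (i.eV (G.tgt (be p)))), hmem _ (hne p)⟩
  have hinj : Function.Injective φ := by
    intro p q hpq
    have h1 : (κ' (i.eV (G.src (be p))), κ' (i.eV (G.tgt (be p)))) = (κ' (i.eV (G.src (be q))), κ' (i.eV (G.tgt (be q)))) :=
      congrArg Subtype.val hpq
    have h2 := (hκ _ _).1 (congrArg Prod.fst h1)
    have h3 := (hκ _ _).1 (congrArg Prod.snd h1)
    apply Subtype.ext
    rw [← hbe p, ← hbe q, h2, h3]
  have hsurj : Function.Surjective φ := by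
    intro p'
    obtain ⟨⟨e', he'⟩, hne'⟩ := (esw_mem_cellPairs κ' p'.1).1 p'.2
    have hs : G'.src e' = i.eV (G.src (i.eE.symm e')) := by rw [← i.src, Equiv.apply_symm_apply]
    have ht : G'.tgt e' = i.eV (G.tgt (i.eE.symm e')) := by rw [← i.tgt, Equiv.apply_symm_apply]
    have hne0 : κ (G.src (i.eE.symm e')) ≠ κ (G.tgt (i.eE.symm e')) := by
      intro h
      apply hne'
      rw [← he']
      show κ' (G'.src e') = κ' (G'.tgt e')
      rw [hs, ht]
      exact (hκ _ _).2 h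
    have hp : (κ (G.src (i.eE.symm e')), κ (G.tgt (i.eE.symm e'))) ∈ cellPairs κ :=
      (esw_mem_cellPairs κ _).2 ⟨⟨_, rfl⟩, hne0⟩
    refine ⟨⟨_, hp⟩, Subtype.ext ?_⟩
    have h0 := hbe ⟨_, hp⟩
    have h1 : κ (G.src (be ⟨_, hp⟩)) = κ (G.src (i.eE.symm e')) := congrArg Prod.fst h0
    have h2 : κ (G.tgt (be ⟨_, hp⟩)) = κ (G.tgt (i.eE.symm e')) := congrArg Prod.snd h0
    show (κ' (i.eV (G.src (be ⟨_, hp⟩))), κ' (i.eV (G.tgt (be ⟨_, hp⟩)))) = p'.1
    rw [(hκ _ _).2 h1, (hκ _ _).2 h2, ← hs, ← ht, he']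
  refine ⟨{ eV := i.eV
            eE := i.eE
            eO := Equiv.sumCongr i.eO (Equiv.ofBijective φ ⟨hinj, hsurj⟩)
            src := i.src
            tgt := i.tgt
            lam := i.lam
            row := ?_ }, fun _ => rfl, fun _ => rfl, fun p => ⟨φ p, rfl⟩⟩
  rintro (o | p) v
  · exact i.row o v
  · show w * (fibAvg κ' (κ' (i.eV (G.tgt (be p)))) (i.eV v) - fibAvg κ' (κ' (i.eV (G.src (be p)))) (i.eV v))
      = w * (fibAvg κ p.1.2 v - fibAvg κ p.1.1 v)
    rw [esw_fibAvg i.eV κ κ' hκ, esw_fibAvg i.eV κ κ' hκ, ← hbe p]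

end Claimed.Agent.R285.C5
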