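import Claimed.Agent.R285.Entry.Norm
import Claimed.Agent.R285.C5.Cont

/-!
# ROW 285, [C] s5 (50-openness.tex l.818-845 "Uniformity and completion of entry"), post CONT of `C5.str_box`: JOINT CONTINUITY OF ALL FUNCTIONALS OF A FACTOR MODEL      (architect + prover helper118)

Paper-free.  Prefix `fc_`.  "Fixed-graph sums and conditional bounded integrals are continuous in `b~`": here JOINTLY in the temperatures `β : E → ℝ` and the observation centres `c : O → ℝ`,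
in `Tendsto` form along an arbitrary filter `l` (so `ContinuousAt`, `ContinuousOn`, sequences `(b_k, y_k) → (b, y)` are all instances).
* `𝔉.atB β`, `M.atB β` : the same sites and forms, temperatures `β` (`facT c b = (facT c b₀).atB fun _ => b` by `rfl`; masks, data and sets of factors are carried by `atB`, all `rfl`).
* `M.Sp` : the separation half of `M.Ok` (it does not see the temperatures).
* `fc_Z_tendsto` : THE dominated convergence.  Majorant: `p_β(k) ≤ e^{hi} p_{hi}(k)` (`C5.c5_bes_le`) and `(u - δ)² ≥ u²/2 - δ²`, i.e. the weight of the model with temperature `hi` and real forms divided by `√2`.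
* consequences: `fc_rw_tendsto`, `fc_Z1_tendsto`, `fc_Ex_tendsto`, `fc_cE_tendsto`, `fc_rho_tendsto`, `fc_dlt_tendsto`, `fc_dls_tendsto`, `fc_xPin_tendsto`.
* `fc_tube` : compactness: a strict bound at `b₀` on a compact set of data survives in a neighbourhood of `b₀`.
-/

set_option autoImplicit false

namespace Claimed.Agent.R285.Entry

open scoped BigOperators
open Claimed.Agent.R285 Fac Filter Topology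

noncomputable section

/-- the same sites and forms; temperatures `β`, real forms multiplied by `s` -/
def Fac.re (𝔉 : Fac) (β : 𝔉.E → ℝ) (s : ℝ) : Fac :=
  { V := 𝔉.V, E := 𝔉.E, O := 𝔉.O, b := β, d := 𝔉.d, r := fun o v => s * 𝔉.r o v }

/-- the same sites and forms; temperatures `β` -/
abbrev Fac.atB (𝔉 : Fac) (β : 𝔉.E → ℝ) : Fac :=
  { V := 𝔉.V, E := 𝔉.E, O := 𝔉.O, b := β, d := 𝔉.d, r := 𝔉.r }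

variable {𝔉 : Fac}

/-- the same mask in the model `𝔉.re β s` -/
def Fac.Msk.re (M : 𝔉.Msk) (β : 𝔉.E → ℝ) (s : ℝ) : (𝔉.re β s).Msk := ⟨M.A, M.E, M.O⟩

/-- the same mask at the temperatures `β` -/
def Fac.Msk.atB (M : 𝔉.Msk) (β : 𝔉.E → ℝ) : (𝔉.atB β).Msk := ⟨M.A, M.E, M.O⟩

/-- the separation half of `Ok` -/
def Fac.Msk.Sp (M : 𝔉.Msk) : Prop :=
  ∀ u : 𝔉.V → ℝ, (∀ v, v ∉ M.A → u v = 0) → (∀ e ∈ M.E, ∑ v, (𝔉.d e v : ℝ) * u v = 0) →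
    (∀ o ∈ M.O, ∑ v, 𝔉.r o v * u v = 0) → u = 0

theorem fc_ok_iff (M : 𝔉.Msk) : M.Ok ↔ (∀ e ∈ M.E, 0 < 𝔉.b e) ∧ M.Sp := Iff.rfl

theorem fc_ok_atB (M : 𝔉.Msk) (hM : M.Sp) (β : 𝔉.E → ℝ) (hβ : ∀ e ∈ M.E, 0 < β e) : (M.atB β).Ok := ⟨hβ, hM⟩

theorem fc_ok_re (M : 𝔉.Msk) (hM : M.Sp) (β : 𝔉.E → ℝ) (hβ : ∀ e ∈ M.E, 0 < β e) (s : ℝ) (hs : s ≠ 0) : (M.re β s).Ok := by
  refine ⟨hβ, fun u h1 h2 h3 => hM u h1 h2 fun o ho => ?_⟩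
  have := h3 o ho
  have e : ∑ v, (s * 𝔉.r o v) * u v = s * ∑ v, 𝔉.r o v * u v := by
    rw [Finset.mul_sum]; exact Finset.sum_congr rfl fun v _ => by ring
  have h4 : s * ∑ v, 𝔉.r o v * u v = 0 := e ▸ this
  exact (mul_eq_zero.1 h4).resolve_left hs

/-- the explicit weight -/
def fcW (M : 𝔉.Msk) (β : 𝔉.E → ℝ) (τ : 𝔉.E → ℤ) (c : 𝔉.O → ℝ) (h : 𝔉.Ht) : ℝ :=
  (∏ e ∈ M.E, bes (β e) (𝔉.dv e h + τ e)) * Real.exp (-(∑ o ∈ M.O, (𝔉.rv o h - c o) ^ 2) / 2)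

theorem fc_wt_eq (M : 𝔉.Msk) (β : 𝔉.E → ℝ) (x : 𝔉.Ht) (τ : 𝔉.E → ℤ) (c : 𝔉.O → ℝ) (h : 𝔉.Ht) :
    (M.atB β).wt ⟨x, τ, c⟩ h = fcW M β τ c h := rfl

theorem fc_Z_eq (M : 𝔉.Msk) (β : 𝔉.E → ℝ) (x : 𝔉.Ht) (τ : 𝔉.E → ℤ) (c : 𝔉.O → ℝ) (Ψ : 𝔉.Ht → ℝ) :
    (M.atB β).Z ⟨x, τ, c⟩ Ψ = ∑' g : 𝔉.sup M.A, Ψ (x + (g : 𝔉.Ht)) * fcW M β τ c (x + (g : 𝔉.Ht)) := rfl

/-! ## 1. The majorant -/

/-- `√(1/2)` -/
def fcS : ℝ := Real.sqrt (1 / 2)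

theorem fc_S_sq : fcS * fcS = 1 / 2 := Real.mul_self_sqrt (by norm_num)

theorem fc_S_ne : fcS ≠ 0 := by
  intro h
  have := fc_S_sq
  rw [h] at this
  norm_num at this

theorem fc_re_wt (M : 𝔉.Msk) (β : 𝔉.E → ℝ) (x : 𝔉.Ht) (τ : 𝔉.E → ℤ) (c : 𝔉.O → ℝ) (h : 𝔉.Ht) :
    (M.re β fcS).wt ⟨x, τ, fun o => fcS * c o⟩ h
      = (∏ e ∈ M.E, bes (β e) (𝔉.dv e h + τ e)) * Real.exp (-(∑ o ∈ M.O, (𝔉.rv o h - c o) ^ 2 / 2) / 2) := by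
  have e1 : ∀ o : 𝔉.O, (𝔉.re β fcS).rv o h = fcS * 𝔉.rv o h := by
    intro o
    have e0 : (𝔉.re β fcS).rv o h = ∑ v : 𝔉.V, (fcS * 𝔉.r o v) * (2 * Real.pi * ((h v : ℤ) : ℝ)) := rfl
    rw [e0]
    unfold Fac.rv
    rw [Finset.mul_sum]
    exact Finset.sum_congr rfl fun v _ => by ring
  have e2 : ∑ o ∈ M.O, ((𝔉.re β fcS).rv o h - fcS * c o) ^ 2 = ∑ o ∈ M.O, (𝔉.rv o h - c o) ^ 2 / 2 := by
    refine Finset.sum_congr rfl fun o _ => ?_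
    rw [e1]
    have := fc_S_sq
    calc (fcS * 𝔉.rv o h - fcS * c o) ^ 2 = (fcS * fcS) * (𝔉.rv o h - c o) ^ 2 := by ring
      _ = _ := by rw [this]; ring
  show (∏ e ∈ M.E, bes (β e) (𝔉.dv e h + τ e)) * Real.exp (-(∑ o ∈ M.O, ((𝔉.re β fcS).rv o h - fcS * c o) ^ 2) / 2) = _
  rw [e2]

/-- **the majorant**, uniform for `0 ≤ β ≤ hi` and `|c - c₀| ≤ 1` -/
theorem fc_dom (M : 𝔉.Msk) (hi : ℝ) (β : 𝔉.E → ℝ) (hβ : ∀ e ∈ M.E, 0 ≤ β e ∧ β e ≤ hi) (x : 𝔉.Ht) (τ : 𝔉.E → ℤ)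
    (c c₀ : 𝔉.O → ℝ) (hc : ∀ o ∈ M.O, |c o - c₀ o| ≤ 1) (h : 𝔉.Ht) :
    fcW M β τ c h ≤ (Real.exp hi ^ M.E.card * Real.exp ((M.O.card : ℝ) / 2))
      * (M.re (fun _ => hi) fcS).wt ⟨x, τ, fun o => fcS * c₀ o⟩ h := by
  rw [fc_re_wt]
  unfold fcW
  have h1 : (∏ e ∈ M.E, bes (β e) (𝔉.dv e h + τ e)) ≤ Real.exp hi ^ M.E.card * ∏ e ∈ M.E, bes hi (𝔉.dv e h + τ e) := by
    calc (∏ e ∈ M.E, bes (β e) (𝔉.dv e h + τ e)) ≤ ∏ e ∈ M.E, Real.exp hi * bes hi (𝔉.dv e h + τ e) :=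
          Finset.prod_le_prod (fun e he => bes_nonneg _ (hβ e he).1 _) fun e he => C5.c5_bes_le (hβ e he).1 (hβ e he).2 _
      _ = _ := by rw [Finset.prod_mul_distrib, Finset.prod_const]
  have h2 : Real.exp (-(∑ o ∈ M.O, (𝔉.rv o h - c o) ^ 2) / 2)
      ≤ Real.exp ((M.O.card : ℝ) / 2) * Real.exp (-(∑ o ∈ M.O, (𝔉.rv o h - c₀ o) ^ 2 / 2) / 2) := by
    rw [← Real.exp_add, Real.exp_le_exp]
    have h3 : ∑ o ∈ M.O, ((𝔉.rv o h - c₀ o) ^ 2 / 2 - 1) ≤ ∑ o ∈ M.O, (𝔉.rv o h - c o) ^ 2 := by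
      refine Finset.sum_le_sum fun o ho => ?_
      have hd := abs_le.1 (hc o ho)
      have hd2 : (c o - c₀ o) ^ 2 ≤ 1 := by nlinarith [hd.1, hd.2]
      nlinarith [sq_nonneg ((𝔉.rv o h - c₀ o) - 2 * (c o - c₀ o))]
    rw [Finset.sum_sub_distrib, Finset.sum_const, nsmul_eq_mul, mul_one] at h3
    linarith
  have h0 : 0 ≤ ∏ e ∈ M.E, bes (β e) (𝔉.dv e h + τ e) := Finset.prod_nonneg fun e he => bes_nonneg _ (hβ e he).1 _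
  calc _ ≤ (Real.exp hi ^ M.E.card * ∏ e ∈ M.E, bes hi (𝔉.dv e h + τ e))
        * (Real.exp ((M.O.card : ℝ) / 2) * Real.exp (-(∑ o ∈ M.O, (𝔉.rv o h - c₀ o) ^ 2 / 2) / 2)) :=
        mul_le_mul h1 h2 (Real.exp_pos _).le (le_trans h0 h1)
    _ = _ := by ring

theorem fc_W_nonneg (M : 𝔉.Msk) (β : 𝔉.E → ℝ) (hβ : ∀ e ∈ M.E, 0 ≤ β e) (τ : 𝔉.E → ℤ) (c : 𝔉.O → ℝ) (h : 𝔉.Ht) :
    0 ≤ fcW M β τ c h :=
  mul_nonneg (Finset.prod_nonneg fun e he => bes_nonneg _ (hβ e he) _) (Real.exp_pos _).le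

/-! ## 2. Dominated convergence -/

section lim

variable {ι : Type*} {l : Filter ι}

/-- pointwise convergence of the weight -/
theorem fc_W_tendsto (M : 𝔉.Msk) {β : ι → 𝔉.E → ℝ} {β₀ : 𝔉.E → ℝ} (hβ : ∀ e ∈ M.E, Tendsto (fun i => β i e) l (𝓝 (β₀ e)))
    (τ : 𝔉.E → ℤ) {c : ι → 𝔉.O → ℝ} {c₀ : 𝔉.O → ℝ} (hc : ∀ o ∈ M.O, Tendsto (fun i => c i o) l (𝓝 (c₀ o))) (h : 𝔉.Ht) :
    Tendsto (fun i => fcW M (β i) τ (c i) h) l (𝓝 (fcW M β₀ τ c₀ h)) := by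
  unfold fcW
  refine Tendsto.mul ?_ ?_
  · exact tendsto_finsetProd _ fun e he => ((C5.c5_bes_continuous _).tendsto _).comp (hβ e he)
  · refine (Real.continuous_exp.tendsto _).comp ?_
    refine Tendsto.div_const (Tendsto.neg ?_) _
    exact tendsto_finsetSum _ fun o ho => ((tendsto_const_nhds.sub (hc o ho)).pow 2)

/-- **THE dominated convergence**: joint continuity of the partition sum with a bounded functional which may depend on the parameters -/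
theorem fc_Z_tendsto (M : 𝔉.Msk) (hM : M.Sp) {β : ι → 𝔉.E → ℝ} {β₀ : 𝔉.E → ℝ}
    (hβ : ∀ e ∈ M.E, Tendsto (fun i => β i e) l (𝓝 (β₀ e))) (h0 : ∀ e ∈ M.E, 0 < β₀ e) (x : 𝔉.Ht) (τ : 𝔉.E → ℤ)
    {c : ι → 𝔉.O → ℝ} {c₀ : 𝔉.O → ℝ} (hc : ∀ o ∈ M.O, Tendsto (fun i => c i o) l (𝓝 (c₀ o)))
    {Ψ : ι → 𝔉.Ht → ℝ} {Ψ₀ : 𝔉.Ht → ℝ} (hΨ : ∀ h, Tendsto (fun i => Ψ i h) l (𝓝 (Ψ₀ h)))
    {C : ℝ} (hC : ∀ᶠ i in l, ∀ h, |Ψ i h| ≤ C) :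
    Tendsto (fun i => (M.atB (β i)).Z ⟨x, τ, c i⟩ (Ψ i)) l (𝓝 ((M.atB β₀).Z ⟨x, τ, c₀⟩ Ψ₀)) := by
  simp only [fc_Z_eq]
  -- a common upper bound of the temperatures
  set hi : ℝ := (∑ e ∈ M.E, β₀ e) + 1 with hhi
  have hlt : ∀ e ∈ M.E, β₀ e < hi := by
    intro e he
    have := Finset.single_le_sum (f := β₀) (fun e' he' => (h0 e' he').le) he
    linarith
  have hhi0 : 0 < hi := by
    have : 0 ≤ ∑ e ∈ M.E, β₀ e := Finset.sum_nonneg fun e he => (h0 e he).le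
    linarith
  have ev1 : ∀ᶠ i in l, ∀ e ∈ M.E, 0 ≤ β i e ∧ β i e ≤ hi := by
    rw [Filter.eventually_all_finset]
    intro e he
    filter_upwards [(hβ e he).eventually (lt_mem_nhds (h0 e he)), (hβ e he).eventually (gt_mem_nhds (hlt e he))] with i h1 h2
    exact ⟨h1.le, h2.le⟩
  have ev2 : ∀ᶠ i in l, ∀ o ∈ M.O, |c i o - c₀ o| ≤ 1 := by
    rw [Filter.eventually_all_finset]
    intro o ho
    have := (hc o ho).eventually (Metric.ball_mem_nhds (c₀ o) one_pos)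
    filter_upwards [this] with i hi'
    rw [Real.dist_eq] at hi'
    exact hi'.le
  have hOk : (M.re (fun _ => hi) fcS).Ok := fc_ok_re M hM _ (fun _ _ => hhi0) _ fc_S_ne
  have hsum := fk_sys_summable_wt (M.re (fun _ => hi) fcS) hOk ⟨x, τ, fun o => fcS * c₀ o⟩
  refine tendsto_tsum_of_dominated_convergence
    (bound := fun g : 𝔉.sup M.A => (|C| * (Real.exp hi ^ M.E.card * Real.exp ((M.O.card : ℝ) / 2)))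
      * (M.re (fun _ => hi) fcS).wt ⟨x, τ, fun o => fcS * c₀ o⟩ (x + (g : 𝔉.Ht))) (hsum.mul_left _) ?_ ?_
  · intro g
    exact (hΨ _).mul (fc_W_tendsto M hβ τ hc _)
  · filter_upwards [ev1, ev2, hC] with i h1 h2 h3 g
    have hw := fc_W_nonneg M (β i) (fun e he => (h1 e he).1) τ (c i) (x + (g : 𝔉.Ht))
    rw [Real.norm_eq_abs, abs_mul, abs_of_nonneg hw, mul_assoc]
    exact mul_le_mul ((h3 _).trans (le_abs_self C)) (fc_dom M hi (β i) h1 x τ (c i) c₀ h2 _) hw (abs_nonneg _)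

/-- the standing hypotheses: temperatures and centres converge, the limiting temperatures are positive -/
structure FcLim (l : Filter ι) (β : ι → 𝔉.E → ℝ) (β₀ : 𝔉.E → ℝ) (c : ι → 𝔉.O → ℝ) (c₀ : 𝔉.O → ℝ) : Prop where
  hβ : ∀ e, Tendsto (fun i => β i e) l (𝓝 (β₀ e))
  h0 : ∀ e, 0 < β₀ e
  hc : ∀ o, Tendsto (fun i => c i o) l (𝓝 (c₀ o))

variable {β : ι → 𝔉.E → ℝ} {β₀ : 𝔉.E → ℝ} {c : ι → 𝔉.O → ℝ} {c₀ : 𝔉.O → ℝ}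

theorem FcLim.pos (H : FcLim l β β₀ c c₀) : ∀ᶠ i in l, ∀ e, 0 < β i e := by
  rw [Filter.eventually_all]
  exact fun e => (H.hβ e).eventually (lt_mem_nhds (H.h0 e))

/-- `Z` -/
theorem FcLim.Z (H : FcLim l β β₀ c c₀) (M : 𝔉.Msk) (hM : M.Sp) (x : 𝔉.Ht) (τ : 𝔉.E → ℤ)
    {Ψ : ι → 𝔉.Ht → ℝ} {Ψ₀ : 𝔉.Ht → ℝ} (hΨ : ∀ h, Tendsto (fun i => Ψ i h) l (𝓝 (Ψ₀ h)))
    {C : ℝ} (hC : ∀ᶠ i in l, ∀ h, |Ψ i h| ≤ C) :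
    Tendsto (fun i => (M.atB (β i)).Z ⟨x, τ, c i⟩ (Ψ i)) l (𝓝 ((M.atB β₀).Z ⟨x, τ, c₀⟩ Ψ₀)) :=
  fc_Z_tendsto M hM (fun e _ => H.hβ e) (fun e _ => H.h0 e) x τ (fun o _ => H.hc o) hΨ hC

/-- `Z1` -/
theorem FcLim.Z1 (H : FcLim l β β₀ c c₀) (M : 𝔉.Msk) (hM : M.Sp) (x : 𝔉.Ht) (τ : 𝔉.E → ℤ) :
    Tendsto (fun i => (M.atB (β i)).Z1 ⟨x, τ, c i⟩) l (𝓝 ((M.atB β₀).Z1 ⟨x, τ, c₀⟩)) :=
  H.Z M hM x τ (Ψ := fun _ _ => 1) (fun _ => tendsto_const_nhds) (C := 1) (Eventually.of_forall fun _ _ => by simp)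

theorem FcLim.Z1_pos (H : FcLim l β β₀ c c₀) (M : 𝔉.Msk) (hM : M.Sp) (x : 𝔉.Ht) (τ : 𝔉.E → ℤ) :
    0 < (M.atB β₀).Z1 ⟨x, τ, c₀⟩ :=
  fk_Z1_pos _ (fc_ok_atB M hM β₀ fun e _ => H.h0 e) _

/-- `Ex` -/
theorem FcLim.Ex (H : FcLim l β β₀ c c₀) (M : 𝔉.Msk) (hM : M.Sp) (x : 𝔉.Ht) (τ : 𝔉.E → ℤ)
    {Ψ : ι → 𝔉.Ht → ℝ} {Ψ₀ : 𝔉.Ht → ℝ} (hΨ : ∀ h, Tendsto (fun i => Ψ i h) l (𝓝 (Ψ₀ h)))
    {C : ℝ} (hC : ∀ᶠ i in l, ∀ h, |Ψ i h| ≤ C) :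
    Tendsto (fun i => (M.atB (β i)).Ex ⟨x, τ, c i⟩ (Ψ i)) l (𝓝 ((M.atB β₀).Ex ⟨x, τ, c₀⟩ Ψ₀)) :=
  (H.Z M hM x τ hΨ hC).div (H.Z1 M hM x τ) (H.Z1_pos M hM x τ).ne'

/-- the weight of a set of factors at a fixed height -/
theorem FcLim.rw (H : FcLim l β β₀ c c₀) (F : 𝔉.Fs) (x : 𝔉.Ht) (τ : 𝔉.E → ℤ) (h : 𝔉.Ht) :
    Tendsto (fun i => Fac.rw (𝔉 := 𝔉.atB (β i)) F ⟨x, τ, c i⟩ h) l (𝓝 (Fac.rw (𝔉 := 𝔉.atB β₀) F ⟨x, τ, c₀⟩ h)) :=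
  fc_W_tendsto (⟨∅, F.1, F.2⟩ : 𝔉.Msk) (fun e _ => H.hβ e) τ (fun o _ => H.hc o) h

theorem fc_sp_loc (M : 𝔉.Msk) (hM : M.Sp) (I : Finset 𝔉.V) (hI : I ⊆ M.A) : (M.loc I).Sp :=
  (fk_ok_loc (M.atB fun _ => 1) (fc_ok_atB M hM _ fun _ _ => one_pos) I hI).2

theorem fc_sp_pin (M : 𝔉.Msk) (hM : M.Sp) (B : Finset 𝔉.V) : (M.pin B).Sp :=
  (fk_ok_pin (M.atB fun _ => 1) (fc_ok_atB M hM _ fun _ _ => one_pos) B).2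

theorem fc_sp_add (M : 𝔉.Msk) (hM : M.Sp) (F : 𝔉.Fs) : (M.add F).Sp :=
  (fk_ok_add (M.atB fun _ => 1) (fc_ok_atB M hM _ fun _ _ => one_pos) F fun _ _ => one_pos).2

/-- conditional expectations at fixed boundary data -/
theorem FcLim.cE (H : FcLim l β β₀ c c₀) (M : 𝔉.Msk) (hM : M.Sp) (I : Finset 𝔉.V) (hI : I ⊆ M.A) (x : 𝔉.Ht) (τ : 𝔉.E → ℤ)
    {g : ι → 𝔉.Ht → ℝ} {g₀ : 𝔉.Ht → ℝ} (hg : ∀ h, Tendsto (fun i => g i h) l (𝓝 (g₀ h)))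
    {C : ℝ} (hC : ∀ᶠ i in l, ∀ h, |g i h| ≤ C) (h : 𝔉.Ht) :
    Tendsto (fun i => (M.atB (β i)).cE I ⟨x, τ, c i⟩ (g i) h) l (𝓝 ((M.atB β₀).cE I ⟨x, τ, c₀⟩ g₀ h)) :=
  (H.Z (M.loc I) (fc_sp_loc M hM I hI) h τ hg hC).div (H.Z1 (M.loc I) (fc_sp_loc M hM I hI) h τ)
    (H.Z1_pos (M.loc I) (fc_sp_loc M hM I hI) h τ).ne'

/-- the kernel quotient -/
theorem FcLim.rho (H : FcLim l β β₀ c c₀) (M : 𝔉.Msk) (hM : M.Sp) (I : Finset 𝔉.V) (hI : I ⊆ M.A) (F : 𝔉.Fs) (x : 𝔉.Ht) (τ : 𝔉.E → ℤ)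
    {χ : ι → ℝ} {χ₀ : ℝ} (hχ : Tendsto χ l (𝓝 χ₀)) (h : 𝔉.Ht) :
    Tendsto (fun i => Entry.rho (M.atB (β i)) I F (χ i) ⟨x, τ, c i⟩ h) l (𝓝 (Entry.rho (M.atB β₀) I F χ₀ ⟨x, τ, c₀⟩ h)) := by
  refine H.cE M hM I hI x τ (g := fun i h' => χ i * Fac.rw (𝔉 := 𝔉.atB (β i)) F ⟨x, τ, c i⟩ h')
    (fun h' => hχ.mul (H.rw F x τ h')) (C := |χ₀| + 1) ?_ h
  have h1 : ∀ᶠ i in l, |χ i| ≤ |χ₀| + 1 := by
    have := hχ.abs.eventually (gt_mem_nhds (show |χ₀| < |χ₀| + 1 by linarith))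
    filter_upwards [this] with i hi using hi.le
  filter_upwards [h1, H.pos] with i hi hp h'
  obtain ⟨a1, a2⟩ := fk_rw_mem (𝔉 := 𝔉.atB (β i)) F (fun e _ => hp e) ⟨x, τ, c i⟩ h'
  rw [abs_mul, abs_of_pos a1]
  calc |χ i| * _ ≤ |χ i| * 1 := mul_le_mul_of_nonneg_left a2 (abs_nonneg _)
    _ ≤ _ := by rw [mul_one]; exact hi

/-- **`δ`** -/
theorem FcLim.dlt (H : FcLim l β β₀ c c₀) (M : 𝔉.Msk) (hM : M.Sp) (I : Finset 𝔉.V) (hI : I ⊆ M.A) (F : 𝔉.Fs) (x : 𝔉.Ht) (τ : 𝔉.E → ℤ)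
    {χ : ι → ℝ} {χ₀ : ℝ} (hχ : Tendsto χ l (𝓝 χ₀)) (hχ0 : 0 ≤ χ₀) {p : ι → ℝ} {p₀ : ℝ} (hp : Tendsto p l (𝓝 p₀)) (hp0 : 0 < p₀) (h : 𝔉.Ht) :
    Tendsto (fun i => Entry.dlt (M.atB (β i)) I F (χ i) (p i) ⟨x, τ, c i⟩ h) l (𝓝 (Entry.dlt (M.atB β₀) I F χ₀ p₀ ⟨x, τ, c₀⟩ h)) := by
  have hr := H.rho M hM I hI F x τ hχ h
  have h0 : 0 ≤ Entry.rho (M.atB β₀) I F χ₀ ⟨x, τ, c₀⟩ h :=
    nm_rho_nonneg (M.atB β₀) (fc_ok_atB M hM β₀ fun e _ => H.h0 e) I hI F (fun e _ => H.h0 e) χ₀ hχ0 _ h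
  exact (hr.sub hp).abs.div (hr.add hp) (by positivity)

/-- **the product of the `δ_k`** (every mark has its own mask), pointwise convergence and the bound by `1` -/
theorem FcLim.dls (H : FcLim l β β₀ c c₀) {κ : Type*} (K : Finset κ) (M : κ → 𝔉.Msk) (hM : ∀ k ∈ K, (M k).Sp) (I : κ → Finset 𝔉.V)
    (hI : ∀ k ∈ K, I k ⊆ (M k).A) (F : κ → 𝔉.Fs) (x : 𝔉.Ht) (τ : 𝔉.E → ℤ)
    {χ : ι → κ → ℝ} {χ₀ : κ → ℝ} (hχ : ∀ k ∈ K, Tendsto (fun i => χ i k) l (𝓝 (χ₀ k))) (hχ0 : ∀ i, ∀ k ∈ K, 0 ≤ χ i k) (hχ0' : ∀ k ∈ K, 0 ≤ χ₀ k)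
    {p : ι → κ → ℝ} {p₀ : κ → ℝ} (hp : ∀ k ∈ K, Tendsto (fun i => p i k) l (𝓝 (p₀ k))) (hp0 : ∀ k ∈ K, 0 < p₀ k) :
    (∀ h, Tendsto (fun i => ∏ k ∈ K, Entry.dlt ((M k).atB (β i)) (I k) (F k) (χ i k) (p i k) ⟨x, τ, c i⟩ h) l
      (𝓝 (∏ k ∈ K, Entry.dlt ((M k).atB β₀) (I k) (F k) (χ₀ k) (p₀ k) ⟨x, τ, c₀⟩ h))) ∧
    ∀ᶠ i in l, ∀ h, |∏ k ∈ K, Entry.dlt ((M k).atB (β i)) (I k) (F k) (χ i k) (p i k) ⟨x, τ, c i⟩ h| ≤ 1 := by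
  refine ⟨fun h => tendsto_finsetProd _ fun k hk => H.dlt (M k) (hM k hk) (I k) (hI k hk) (F k) x τ (hχ k hk) (hχ0' k hk) (hp k hk) (hp0 k hk) h, ?_⟩
  have hpp : ∀ᶠ i in l, ∀ k ∈ K, 0 ≤ p i k := by
    rw [Filter.eventually_all_finset]
    intro k hk
    filter_upwards [(hp k hk).eventually (lt_mem_nhds (hp0 k hk))] with i hi using hi.le
  filter_upwards [H.pos, hpp] with i h1 h2 h
  rw [Finset.abs_prod]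
  refine Finset.prod_le_one (fun k _ => abs_nonneg _) fun k hk => ?_
  obtain ⟨a1, a2⟩ := nm_dlt_mem ((M k).atB (β i)) (fc_ok_atB (M k) (hM k hk) (β i) fun e _ => h1 e) (I k) (hI k hk) (F k) (fun e _ => h1 e)
    (χ i k) (p i k) (hχ0 i k hk) (h2 k hk) ⟨x, τ, c i⟩ h
  rw [abs_of_nonneg a1]
  exact a2

/-- **`𝔼_T ∏ δ_k`** -/
theorem FcLim.ET (H : FcLim l β β₀ c c₀) (T : 𝔉.Msk) (hT : T.Sp) {κ : Type*} (K : Finset κ) (M : κ → 𝔉.Msk) (hM : ∀ k ∈ K, (M k).Sp) (I : κ → Finset 𝔉.V)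
    (hI : ∀ k ∈ K, I k ⊆ (M k).A) (F : κ → 𝔉.Fs) (x : 𝔉.Ht) (τ : 𝔉.E → ℤ)
    {χ : ι → κ → ℝ} {χ₀ : κ → ℝ} (hχ : ∀ k ∈ K, Tendsto (fun i => χ i k) l (𝓝 (χ₀ k))) (hχ0 : ∀ i, ∀ k ∈ K, 0 ≤ χ i k) (hχ0' : ∀ k ∈ K, 0 ≤ χ₀ k)
    {p : ι → κ → ℝ} {p₀ : κ → ℝ} (hp : ∀ k ∈ K, Tendsto (fun i => p i k) l (𝓝 (p₀ k))) (hp0 : ∀ k ∈ K, 0 < p₀ k) :
    Tendsto (fun i => (T.atB (β i)).Ex ⟨x, τ, c i⟩ fun h => ∏ k ∈ K, Entry.dlt ((M k).atB (β i)) (I k) (F k) (χ i k) (p i k) ⟨x, τ, c i⟩ h) l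
      (𝓝 ((T.atB β₀).Ex ⟨x, τ, c₀⟩ fun h => ∏ k ∈ K, Entry.dlt ((M k).atB β₀) (I k) (F k) (χ₀ k) (p₀ k) ⟨x, τ, c₀⟩ h)) := by
  obtain ⟨a1, a2⟩ := H.dls K M hM I hI F x τ hχ hχ0 hχ0' hp hp0
  exact H.Ex T hT x τ a1 a2

end lim

/-- Stores the on-demand equation lemmas of the definitions above in THIS module (rule 6 hygiene). -/
theorem fc_forced : True := by
  have := @Fac.re.eq_1
  have := @Fac.atB.eq_1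
  have := @Fac.Msk.re.eq_1
  have := @Fac.Msk.atB.eq_1
  have := @Fac.Msk.Sp.eq_1
  have := @fcW.eq_1
  have := @fcS.eq_1
  trivial

end

end Claimed.Agent.R285.Entry
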