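import Claimed.Agent.R285.C5.GW
import Claimed.Agent.R285.Cut.Main
import Claimed.Agent.R285.Rdo.Ker

/-!
# ROW 285, [C] s5, package PK-C5-BRIDGE (architect helper212; ordered by helper75): the strengthened torus variance is the variance of the observation weight `WS`

`G` periodic of side `n = G.M`, `c` whole observation cells of side `s = c.m`, `c0` whole subcells of side `s0 = c0.m`.
`WS dl b c c0 y = Z_{str}(y)` = partition sum of the strengthened law (5.2) on the full graph with observation data `y`.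
TARGET `gbridge`: (i) `Rdo.WtOK c (WS dl b c c0)`; (ii) `strTorVar dl s0 s b n = Var_W X - |f|^2`.
Twin of `Cut/Tor.lean` + `F4a/Unfold.lean` (helper167, helper251).  New: the factor `gbTh = exp (-(dl/2) avgEn (2 pi h))` in the weight of a height: in `(0, 1]`, invariant under the common shift.  No cutoff.

## Route
`WS y = sum_h gbW h exp (-|havg h - y|^2/2)` (`gb_WS_eq`), `gbW = fwt * gbTh`.   Unfolding of the translation copies (`gb_unfold`) + Gaussian density (`Cut.nz_density`):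
`int_fund F WS = (2 pi)^{N/2} sum_{h pinned} gbW h * int F (havg h + e) dnz(e)` (`gb_pint`), for `F = 1, X, X^2`.   The torus side is the same sum (`gb_torus_Z`, `gb_row`).

## STATUS: everything in this file is PROVED (leaves GB1-GB9: helper278, helper294, helper179, helper215, helper54, helper203, helper2, helper212).
-/

set_option autoImplicit false

namespace Claimed.Agent.R285.C5

open scoped BigOperators ENNReal
open MeasureTheory ProbabilityTheory
open Claimed.Agent.R285.RG Claimed.Agent.R285.F4a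
open scoped Classical

noncomputable section

/-! ## A. Generic facts on the strengthened law -/

theorem gb278_W {G : HGraph} (H : HLaw G) {C : Type} (κ : G.V → C) (w b : ℝ) (α : H.Aff) (h : G.V → ℤ) :
    ((str H κ w).sys b).W ((str H κ w).coordA b h + (strAff H κ w α).amb b)
      = Real.exp (-(w ^ 2 * avgEn κ fun v => 2 * Real.pi * ((h v + α.x v : ℤ) : ℝ)) / 2) * (H.sys b).W (H.coordA b h + α.amb b) := by
  have hsum : ∑ o : H.O ⊕ {p : C × C // p ∈ cellPairs κ}, (((str H κ w).coordA b h + (strAff H κ w α).amb b).2 o) ^ 2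
      = ∑ o : H.O, ((H.coordA b h + α.amb b).2 o) ^ 2 + w ^ 2 * avgEn κ fun v => 2 * Real.pi * ((h v + α.x v : ℤ) : ℝ) := by
    rw [Fintype.sum_sum_type]
    congr 1
    unfold avgEn
    rw [Finset.mul_sum, ← Finset.sum_coe_sort (cellPairs κ)]
    refine Finset.sum_congr rfl fun p _ => ?_
    rw [← mul_pow]
    congr 1
    show (∑ v, w * (fibAvg κ p.1.2 v - fibAvg κ p.1.1 v) * (2 * Real.pi * (h v : ℝ)))
        + ((∑ v, w * (fibAvg κ p.1.2 v - fibAvg κ p.1.1 v) * (2 * Real.pi * (α.x v : ℝ))) + -0) = _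
    unfold HLaw.pair
    rw [neg_zero, add_zero, ← Finset.sum_add_distrib, ← Finset.sum_sub_distrib, Finset.mul_sum]
    refine Finset.sum_congr rfl fun v _ => ?_
    push_cast
    ring
  show (∏ e, bes b (((str H κ w).coordA b h + (strAff H κ w α).amb b).1 e))
      * Real.exp (-(∑ o : H.O ⊕ {p : C × C // p ∈ cellPairs κ}, (((str H κ w).coordA b h + (strAff H κ w α).amb b).2 o) ^ 2) / 2)
    = _ * ((∏ e, bes b ((H.coordA b h + α.amb b).1 e)) * Real.exp (-(∑ o : H.O, ((H.coordA b h + α.amb b).2 o) ^ 2) / 2))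
  rw [hsum]
  have e1 : ∀ e, ((str H κ w).coordA b h + (strAff H κ w α).amb b).1 e = (H.coordA b h + α.amb b).1 e := fun _ => rfl
  simp only [e1]
  rw [mul_left_comm, ← Real.exp_add]
  congr 2
  ring


/-- **L-C5-GB1.**  Termwise.  `HLaw.Z` of both sides is a `tsum` over the same `Λ` (`tsum_congr`).  `LSys.W`: the Bessel products agree (`rfl`); `Fintype.sum_sum_type` splits `∑ o : H.O ⊕ {p // p ∈ cellPairs κ}`;
on `Sum.inr p` the coordinate is `w * (pair (fibAvg κ p.2) φ - pair (fibAvg κ p.1) φ)`, `φ = 2π (h + α.x)` (`HLaw.coord`, `Aff.amb`, `strAff`: centre `0`; `Finset.sum_add_distrib`, `mul_add`, `Int.cast_add`);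
`∑ p : {p // p ∈ s}, g p = ∑ p ∈ s, g p` (`Finset.sum_coe_sort`), `mul_pow`, `Finset.mul_sum`; `Real.exp_add`. -/
theorem gb_str_Z {G : HGraph} (H : HLaw G) {C : Type} (κ : G.V → C) (w b : ℝ) (α : H.Aff) (F : (G.V → ℝ) → ℝ) :
    (str H κ w).Z b (strAff H κ w α) F = H.Z b α fun φ => F φ * Real.exp (-(w ^ 2 * avgEn κ φ) / 2) := by
  unfold HLaw.Z
  refine tsum_congr fun h => ?_
  rw [gb278_W, mul_assoc]
  rfl

/-- **L-C5-GB1.** -/
theorem gb_str_zero {G : HGraph} (H : HLaw G) {C : Type} (κ : G.V → C) (w : ℝ) :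
    HLaw.Aff.zero (str H κ w) = strAff H κ w (HLaw.Aff.zero H) := by
  unfold HLaw.Aff.zero strAff
  congr 1
  funext o
  cases o <;> rfl

theorem gb_avgEn_nonneg {G : HGraph} {C : Type} (κ : G.V → C) (φ : G.V → ℝ) : 0 ≤ avgEn κ φ :=
  Finset.sum_nonneg fun _ _ => sq_nonneg _

theorem gb278_fib_sum {G : HGraph} {C : Type} (κ : G.V → C) (v0 : G.V) : ∑ v, fibAvg κ (κ v0) v = 1 := by
  unfold fibAvg
  rw [← Finset.sum_filter, Finset.sum_const, nsmul_eq_mul]
  have hne : ((Finset.univ.filter fun w => κ w = κ v0).card : ℝ) ≠ 0 := by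
    have : 0 < (Finset.univ.filter fun w => κ w = κ v0).card :=
      Finset.card_pos.2 ⟨v0, Finset.mem_filter.2 ⟨Finset.mem_univ _, rfl⟩⟩
    exact_mod_cast this.ne'
  exact mul_inv_cancel₀ hne

theorem gb278_pair_add {G : HGraph} {C : Type} (κ : G.V → C) (v0 : G.V) (φ : G.V → ℝ) (r : ℝ) :
    HLaw.pair (fibAvg κ (κ v0)) (fun v => φ v + r) = HLaw.pair (fibAvg κ (κ v0)) φ + r := by
  unfold HLaw.pair
  simp only [mul_add, Finset.sum_add_distrib, ← Finset.sum_mul, gb278_fib_sum, one_mul]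


/-- **L-C5-GB2a.**  For `p ∈ cellPairs κ` both fibres are non-empty (`p.1 = κ (src e)`, `p.2 = κ (tgt e)`), so `∑ v, fibAvg κ a v = 1` (`Finset.sum_ite`, `Finset.sum_const`, `card ≠ 0`) and
`pair (fibAvg κ a) (φ + r) = pair (fibAvg κ a) φ + r`; the differences do not see `r`. -/
theorem gb_avgEn_add {G : HGraph} {C : Type} (κ : G.V → C) (φ : G.V → ℝ) (r : ℝ) :
    avgEn κ (fun v => φ v + r) = avgEn κ φ := by
  unfold avgEn
  refine Finset.sum_congr rfl fun p hp => ?_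
  unfold cellPairs at hp
  obtain ⟨e, -, he⟩ := Finset.mem_image.1 (Finset.mem_filter.1 hp).1
  rw [← he]
  show (HLaw.pair (fibAvg κ (κ (G.tgt e))) _ - HLaw.pair (fibAvg κ (κ (G.src e))) _) ^ 2 = _
  rw [gb278_pair_add, gb278_pair_add]
  congr 1
  ring

theorem gb_tr_fibAvg {G₁ G₂ : HGraph} (eV : G₁.V ≃ G₂.V)
    {C₁ C₂ : Type} (κ₁ : G₁.V → C₁) (κ₂ : G₂.V → C₂) (ι : C₂ → C₁) (hι : Function.Injective ι)
    (hκ : ∀ v, κ₁ v = ι (κ₂ (eV v))) (a : C₂) (v : G₁.V) :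
    fibAvg κ₁ (ι a) v = fibAvg κ₂ a (eV v) := by
  unfold fibAvg
  have hc : (Finset.univ.filter fun w => κ₁ w = ι a).card = (Finset.univ.filter fun w => κ₂ w = a).card := by
    refine Finset.card_equiv eV fun w => ?_
    simp only [Finset.mem_filter, Finset.mem_univ, true_and, hκ w]
    exact hι.eq_iff
  rw [hc]
  by_cases h : κ₂ (eV v) = a
  · rw [if_pos h, if_pos (by rw [hκ v, h])]
  · rw [if_neg h, if_neg (by rw [hκ v]; exact fun h' => h (hι h'))]

theorem gb_tr_pair {G₁ G₂ : HGraph} (eV : G₁.V ≃ G₂.V)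
    {C₁ C₂ : Type} (κ₁ : G₁.V → C₁) (κ₂ : G₂.V → C₂) (ι : C₂ → C₁) (hι : Function.Injective ι)
    (hκ : ∀ v, κ₁ v = ι (κ₂ (eV v))) (a : C₂) (φ : G₂.V → ℝ) :
    HLaw.pair (fibAvg κ₁ (ι a)) (fun v => φ (eV v)) = HLaw.pair (fibAvg κ₂ a) φ := by
  unfold HLaw.pair
  rw [← Equiv.sum_comp eV]
  refine Finset.sum_congr rfl fun v _ => ?_
  rw [gb_tr_fibAvg eV κ₁ κ₂ ι hι hκ a v]

theorem gb_tr_cellPairs {G₁ G₂ : HGraph} (eV : G₁.V ≃ G₂.V) (eE : G₁.E ≃ G₂.E)
    (hs : ∀ e, G₂.src (eE e) = eV (G₁.src e)) (ht : ∀ e, G₂.tgt (eE e) = eV (G₁.tgt e))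
    {C₁ C₂ : Type} (κ₁ : G₁.V → C₁) (κ₂ : G₂.V → C₂) (ι : C₂ → C₁) (hι : Function.Injective ι)
    (hκ : ∀ v, κ₁ v = ι (κ₂ (eV v))) :
    cellPairs κ₁ = (cellPairs κ₂).image (Prod.map ι ι) := by
  ext p
  simp only [cellPairs, Finset.mem_filter, Finset.mem_image, Finset.mem_univ, true_and]
  constructor
  · rintro ⟨⟨e, rfl⟩, hne⟩
    refine ⟨(κ₂ (G₂.src (eE e)), κ₂ (G₂.tgt (eE e))), ⟨⟨eE e, rfl⟩, ?_⟩, ?_⟩
    · intro h
      apply hne
      show κ₁ (G₁.src e) = κ₁ (G₁.tgt e)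
      rw [hκ, hκ, ← hs, ← ht]
      exact congrArg ι h
    · show (ι (κ₂ (G₂.src (eE e))), ι (κ₂ (G₂.tgt (eE e)))) = _
      rw [hs, ht, ← hκ, ← hκ]
  · rintro ⟨q, ⟨⟨e, rfl⟩, hne⟩, rfl⟩
    obtain ⟨e, rfl⟩ := eE.surjective e
    refine ⟨⟨e, ?_⟩, ?_⟩
    · show _ = (ι (κ₂ (G₂.src (eE e))), ι (κ₂ (G₂.tgt (eE e))))
      rw [hs, ht, ← hκ, ← hκ]
    · intro h
      exact hne (hι h)

/-- **L-C5-GB2b.**  Transport of the averaged energy along an isomorphism of graphs and an injection of the cell labels.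
`cellPairs κ₁ = (cellPairs κ₂).image (Prod.map ι ι)` (`Finset.ext`; `eE.surjective`), `Finset.sum_image` (injectivity); `fibAvg κ₁ (ι a) v = fibAvg κ₂ a (eV v)` (the two filters have the same card: `Finset.card_bij` / `Finset.card_equiv eV`);
`pair` : `Equiv.sum_comp eV`. -/
theorem gb_avgEn_transport {G₁ G₂ : HGraph} (eV : G₁.V ≃ G₂.V) (eE : G₁.E ≃ G₂.E)
    (hs : ∀ e, G₂.src (eE e) = eV (G₁.src e)) (ht : ∀ e, G₂.tgt (eE e) = eV (G₁.tgt e))
    {C₁ C₂ : Type} (κ₁ : G₁.V → C₁) (κ₂ : G₂.V → C₂) (ι : C₂ → C₁) (hι : Function.Injective ι)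
    (hκ : ∀ v, κ₁ v = ι (κ₂ (eV v))) (φ : G₂.V → ℝ) :
    avgEn κ₁ (fun v => φ (eV v)) = avgEn κ₂ φ := by
  unfold avgEn
  rw [gb_tr_cellPairs eV eE hs ht κ₁ κ₂ ι hι hκ,
    Finset.sum_image (fun x _ y _ h => (hι.prodMap hι) h)]
  refine Finset.sum_congr rfl fun p _ => ?_
  show (HLaw.pair (fibAvg κ₁ (ι p.2)) _ - HLaw.pair (fibAvg κ₁ (ι p.1)) _) ^ 2 = _
  rw [gb_tr_pair eV κ₁ κ₂ ι hι hκ, gb_tr_pair eV κ₁ κ₂ ι hι hκ]

/-! ## B. The weight -/

variable {G : Geom}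

/-! `WS dl b c c0 y = (lawS (Top.full c) c0 dl).Z b (affS (Top.full c) c0 dl y) fun _ => 1` is defined in `C5/GW.lean` (helper75). -/

/-- `Θ(h) = exp (-(δ/2) ∑ (avg_j 2πh - avg_i 2πh)²)` -/
def gbTh (dl : ℝ) (c c0 : Grid G) (h : (Top.full c).graph.V → ℤ) : ℝ :=
  Real.exp (-(Real.sqrt dl ^ 2 * avgEn (subOf (Top.full c) c0) fun v => 2 * Real.pi * (h v : ℝ)) / 2)

/-- the weight of a height -/
def gbW (dl b : ℝ) (c c0 : Grid G) (h : (Top.full c).graph.V → ℤ) : ℝ := fwt b c 0 h * gbTh dl c c0 h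

/-- heights pinned at the origin -/
abbrev gbP (c : Grid G) : Type := {h : (Top.full c).graph.V → ℤ // h (Cut.v0 c) = 0}

/-- the Gaussian smoothing -/
def gbSm {I : Type} [Fintype I] (F : (I → ℝ) → ℝ) (m : I → ℝ) : ℝ := ∫ e, F (fun i => m i + e i) ∂(Cut.nz I)

/-- the sum over the pinned heights -/
def gbS (dl b : ℝ) (c c0 : Grid G) (Φ : (c.I → ℝ) → ℝ) : ℝ := ∑' h : gbP c, gbW dl b c c0 h.1 * Φ (havg c h.1)

theorem gbTh_pos (dl : ℝ) (c c0 : Grid G) (h : (Top.full c).graph.V → ℤ) : 0 < gbTh dl c c0 h := Real.exp_pos _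

theorem gbTh_le_one (dl : ℝ) (c c0 : Grid G) (h : (Top.full c).graph.V → ℤ) : gbTh dl c c0 h ≤ 1 := by
  unfold gbTh
  rw [Real.exp_le_one_iff]
  have := mul_nonneg (sq_nonneg (Real.sqrt dl)) (gb_avgEn_nonneg (subOf (Top.full c) c0) fun v => 2 * Real.pi * (h v : ℝ))
  linarith

theorem gbTh_add (dl : ℝ) (c c0 : Grid G) (h : (Top.full c).graph.V → ℤ) (k : ℤ) :
    gbTh dl c c0 (fun v => h v + k) = gbTh dl c c0 h := by
  unfold gbTh
  rw [← gb_avgEn_add (subOf (Top.full c) c0) (fun v => 2 * Real.pi * (h v : ℝ)) (2 * Real.pi * k)]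
  congr 5
  funext v
  push_cast
  ring

theorem gbW_nonneg (dl b : ℝ) (hb : 0 < b) (c c0 : Grid G) (h : (Top.full c).graph.V → ℤ) : 0 ≤ gbW dl b c c0 h :=
  mul_nonneg (unf_wt_nonneg _ b hb _ _) (gbTh_pos dl c c0 h).le

theorem gbW_le (dl b : ℝ) (hb : 0 < b) (c c0 : Grid G) (h : (Top.full c).graph.V → ℤ) : gbW dl b c c0 h ≤ fwt b c 0 h :=
  mul_le_of_le_one_right (unf_wt_nonneg _ b hb _ _) (gbTh_le_one dl c c0 h)

theorem gbW_add (dl b : ℝ) (c c0 : Grid G) (h : (Top.full c).graph.V → ℤ) (k : ℤ) :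
    gbW dl b c c0 (fun v => h v + k) = gbW dl b c c0 h := by
  unfold gbW
  rw [gbTh_add]
  congr 1
  exact unf_wt_add _ b _ h k

/-- **L-C5-GB3a.**  `bes_pos`, `Finset.prod_pos`. -/
theorem gbW_pos (dl b : ℝ) (hb : 0 < b) (c c0 : Grid G) (h : (Top.full c).graph.V → ℤ) : 0 < gbW dl b c c0 h :=
  mul_pos (Finset.prod_pos fun _ _ => bes_pos b hb _) (gbTh_pos dl c c0 h)

theorem gb_econn_zero (c : Grid G) : (Top.full c).econn (0 : Face c → ℤ) = 0 := by
  funext e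
  unfold Top.econn
  split_ifs <;> rfl

/-- **L-C5-GB3a.**  `WS = (str T.law κ w).Z b (strAff T.law κ w ⟨0, 0, y⟩) 1` by `rfl` (`lawS`, `affS`); `gb_str_Z`; then as `F4a.unf_Zobs` + `F4a.unf_full_sum` (`AddSubgroup.topEquiv`, `F4a.unf_W` at `τ = 0`:
`(Top.full c).econn (0 : Face c → ℤ) = 0` by `funext`, `Top.econn`, `split_ifs`); `h + 0 = h` inside `avgEn`. -/
theorem gb_WS_eq (dl b : ℝ) (c c0 : Grid G) (y : c.I → ℝ) :
    WS dl b c c0 y = ∑' h : (Top.full c).graph.V → ℤ,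
      gbW dl b c c0 h * Real.exp (-(∑ i, (havg c h i - y i) ^ 2) / 2) := by
  have h0 : WS dl b c c0 y = (str (Top.full c).law (subOf (Top.full c) c0) (Real.sqrt dl)).Z b
      (strAff (Top.full c).law (subOf (Top.full c) c0) (Real.sqrt dl) ⟨0, 0, fun i => y i.1⟩) fun _ => 1 := rfl
  rw [h0, gb_str_Z]
  unfold HLaw.Z
  rw [← (AddSubgroup.topEquiv (G := (Top.full c).graph.V → ℤ)).toEquiv.tsum_eq]
  refine tsum_congr fun h => ?_
  have h1 := unf_W (Top.full c) b 0 y ((AddSubgroup.topEquiv (G := (Top.full c).graph.V → ℤ)).toEquiv h)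
  rw [gb_econn_zero] at h1
  rw [unf_full_sum] at h1
  have h2 : (fun φ => 1 * Real.exp (-(Real.sqrt dl ^ 2 * avgEn (subOf (Top.full c) c0) φ) / 2))
      (fun v => 2 * Real.pi * (((h : (Top.full c).graph.V → ℤ) v + (0 : ℤ) : ℤ) : ℝ))
      = gbTh dl c c0 ((AddSubgroup.topEquiv (G := (Top.full c).graph.V → ℤ)).toEquiv h) := by
    show 1 * Real.exp _ = _
    rw [one_mul]
    unfold gbTh
    congr 5
    funext v
    rw [add_zero]
    rfl
  refine (congrArg₂ (· * ·) h2 h1).trans ?_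
  unfold gbW fwt
  rw [gb_econn_zero]
  ring

theorem gb_summable {c : Grid G} (hc : Whole c) (dl b : ℝ) (hb : 0 < b) (c0 : Grid G) (y : c.I → ℝ) :
    Summable fun h : (Top.full c).graph.V → ℤ => gbW dl b c c0 h * Real.exp (-(∑ i, (havg c h i - y i) ^ 2) / 2) :=
  Summable.of_nonneg_of_le (fun h => mul_nonneg (gbW_nonneg dl b hb c c0 h) (Real.exp_pos _).le)
    (fun h => mul_le_mul_of_nonneg_right (gbW_le dl b hb c c0 h) (Real.exp_pos _).le) (unf_full_summable hc b hb 0 y)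

theorem gb_WS_nonneg (dl b : ℝ) (hb : 0 < b) (c c0 : Grid G) (y : c.I → ℝ) : 0 ≤ WS dl b c c0 y := by
  rw [gb_WS_eq]
  exact tsum_nonneg fun h => mul_nonneg (gbW_nonneg dl b hb c c0 h) (Real.exp_pos _).le

theorem gb_WS_le {c : Grid G} (hc : Whole c) (dl b : ℝ) (hb : 0 < b) (c0 : Grid G) (y : c.I → ℝ) :
    WS dl b c c0 y ≤ (Top.full c).Zobs b 0 y := by
  rw [gb_WS_eq, Zobs_full_eq]
  exact (gb_summable hc dl b hb c0 y).tsum_le_tsum
    (fun h => mul_le_mul_of_nonneg_right (gbW_le dl b hb c c0 h) (Real.exp_pos _).le) (unf_full_summable hc b hb 0 y)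

/-- **L-C5-GB3b.**  As `F4a.Zobs_measurable`: `gb_WS_eq`, `ENNReal.tsum_toReal_eq`, `Measurable.tsum`. -/
theorem gb_WS_meas (dl b : ℝ) (hb : 0 < b) (c c0 : Grid G) : Measurable (WS dl b c c0) := by
  have h1 : WS dl b c c0 = fun y => (∑' h : (Top.full c).graph.V → ℤ, ENNReal.ofReal
      (gbW dl b c c0 h * Real.exp (-(∑ i, (havg c h i - y i) ^ 2) / 2))).toReal := by
    funext y
    rw [gb_WS_eq, ENNReal.tsum_toReal_eq (fun _ => ENNReal.ofReal_ne_top)]
    refine tsum_congr fun h => ?_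
    rw [ENNReal.toReal_ofReal (mul_nonneg (gbW_nonneg dl b hb c c0 h) (Real.exp_pos _).le)]
  rw [h1]
  refine (Measurable.tsum fun h => ?_).ennreal_toReal
  refine ENNReal.measurable_ofReal.comp (measurable_const.mul (Real.measurable_exp.comp ?_))
  refine ((Finset.measurable_sum _ fun i _ => ?_).neg).div_const _
  exact (measurable_const.sub (measurable_pi_apply i)).pow_const 2

/-- **L-C5-GB3b.**  As `F4a.Zobs_per`: `gb_WS_eq`, `Equiv.addRight (fun _ => 1)`, `gbW_add` (`k = 1`), `F4a.unf_havg_add`. -/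
theorem gb_WS_per {c : Grid G} (hc : Whole c) (dl b : ℝ) (c0 : Grid G) : Per c (WS dl b c c0) := by
  intro y
  rw [gb_WS_eq, gb_WS_eq, ← (Equiv.addRight (fun _ => (1 : ℤ)) : ((Top.full c).graph.V → ℤ) ≃ ((Top.full c).graph.V → ℤ)).tsum_eq]
  refine tsum_congr fun h => ?_
  show gbW dl b c c0 (fun v => h v + 1) *
    Real.exp (-(∑ i, (havg c (fun v => h v + 1) i - (y i + 2 * Real.pi)) ^ 2) / 2) = _
  rw [gbW_add]
  congr 4
  refine Finset.sum_congr rfl fun i _ => ?_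
  rw [unf_havg_add hc]
  congr 1
  push_cast
  ring

/-! ## C. Unfolding -/

/-- **L-C5-GB4.**  COPY of the proof of `F4a.lintegral_fund_Zobs` with `fwt b c τ` replaced by `ω` (`Zobs_full_eq` is not needed; `unf_full_summable` is `hsum`; `unf_wt_add` is `hωs`). -/
theorem gb_unfold {c : Grid G} (hc : Whole c) (i0 : c.I) (v0 : (Top.full c).graph.V)
    (ω : ((Top.full c).graph.V → ℤ) → ℝ) (hω0 : ∀ h, 0 ≤ ω h) (hωs : ∀ h (k : ℤ), ω (fun v => h v + k) = ω h)
    (hsum : ∀ y : c.I → ℝ, Summable fun h => ω h * Real.exp (-(∑ i, (havg c h i - y i) ^ 2) / 2))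
    (g : (c.I → ℝ) → ℝ≥0∞) (hg : Measurable g) (hper : ∀ y, g (fun i => y i + 2 * Real.pi) = g y) :
    ∫⁻ y in fund c i0, g y * ENNReal.ofReal (∑' h, ω h * Real.exp (-(∑ i, (havg c h i - y i) ^ 2) / 2))
      = ∑' h : {h : (Top.full c).graph.V → ℤ // h v0 = 0}, ENNReal.ofReal (ω h.1) *
          ∫⁻ y, g y * ENNReal.ofReal (Real.exp (-(∑ i, (havg c h.1 i - y i) ^ 2) / 2)) := by
  have h1 : ∀ y : c.I → ℝ, ENNReal.ofReal (∑' h, ω h * Real.exp (-(∑ i, (havg c h i - y i) ^ 2) / 2)) =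
      ∑' h : {h : (Top.full c).graph.V → ℤ // h v0 = 0}, ∑' k : ℤ, ENNReal.ofReal (ω h.1) *
        ENNReal.ofReal (Real.exp (-(∑ i, (havg c h.1 i - (y i - 2 * Real.pi * k)) ^ 2) / 2)) := by
    intro y
    rw [ENNReal.ofReal_tsum_of_nonneg (fun h => mul_nonneg (hω0 h) (Real.exp_pos _).le)
      (hsum y), ← (unfE v0).tsum_eq, ENNReal.tsum_prod']
    refine tsum_congr fun h => tsum_congr fun k => ?_
    show ENNReal.ofReal (ω (fun v => h.1 v + k) *
      Real.exp (-(∑ i, (havg c (fun v => h.1 v + k) i - y i) ^ 2) / 2)) = _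
    rw [ENNReal.ofReal_mul (hω0 _)]
    congr 1
    · congr 1
      exact hωs h.1 k
    · congr 4
      refine Finset.sum_congr rfl fun i _ => ?_
      rw [unf_havg_add hc]
      ring
  simp only [h1]
  have hm : ∀ (h : {h : (Top.full c).graph.V → ℤ // h v0 = 0}) (k : ℤ), Measurable fun y : c.I → ℝ =>
      ENNReal.ofReal (Real.exp (-(∑ i, (havg c h.1 i - (y i - 2 * Real.pi * k)) ^ 2) / 2)) := fun h k =>
    (unf_phi_meas (havg c h.1)).comp (measurable_pi_lambda _ fun i => (measurable_pi_apply i).sub_const _)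
  have h2 : ∀ y, g y * ∑' h : {h : (Top.full c).graph.V → ℤ // h v0 = 0}, ∑' k : ℤ, ENNReal.ofReal (ω h.1) *
        ENNReal.ofReal (Real.exp (-(∑ i, (havg c h.1 i - (y i - 2 * Real.pi * k)) ^ 2) / 2)) =
      ∑' h : {h : (Top.full c).graph.V → ℤ // h v0 = 0}, ∑' k : ℤ, ENNReal.ofReal (ω h.1) *
        (g y * ENNReal.ofReal (Real.exp (-(∑ i, (havg c h.1 i - (y i - 2 * Real.pi * k)) ^ 2) / 2))) := by
    intro y
    rw [← ENNReal.tsum_mul_left]
    refine tsum_congr fun h => ?_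
    rw [← ENNReal.tsum_mul_left]
    refine tsum_congr fun k => ?_
    ring
  simp only [h2]
  have hm2 : ∀ (h : {h : (Top.full c).graph.V → ℤ // h v0 = 0}) (k : ℤ), Measurable fun y : c.I → ℝ =>
      g y * ENNReal.ofReal (Real.exp (-(∑ i, (havg c h.1 i - (y i - 2 * Real.pi * k)) ^ 2) / 2)) := fun h k =>
    hg.mul (hm h k)
  have hm3 : ∀ (h : {h : (Top.full c).graph.V → ℤ // h v0 = 0}) (k : ℤ), Measurable fun y : c.I → ℝ =>
      ENNReal.ofReal (ω h.1) *
        (g y * ENNReal.ofReal (Real.exp (-(∑ i, (havg c h.1 i - (y i - 2 * Real.pi * k)) ^ 2) / 2))) := fun h k =>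
    measurable_const.mul (hm2 h k)
  have hm4 : ∀ (h : {h : (Top.full c).graph.V → ℤ // h v0 = 0}), Measurable fun y : c.I → ℝ =>
      ∑' k : ℤ, ENNReal.ofReal (ω h.1) *
        (g y * ENNReal.ofReal (Real.exp (-(∑ i, (havg c h.1 i - (y i - 2 * Real.pi * k)) ^ 2) / 2))) := fun h =>
    Measurable.tsum fun k => hm3 h k
  rw [lintegral_tsum fun h => (hm4 h).aemeasurable]
  refine tsum_congr fun h => ?_
  rw [lintegral_tsum fun k => (hm3 h k).aemeasurable]
  simp only [lintegral_const_mul _ (hm2 h _)]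
  rw [ENNReal.tsum_mul_left]
  congr 1
  exact unf_tile c i0 g _ hg (unf_phi_meas (havg c h.1)) hper

/-- the unfolded integral, in `ℝ≥0∞` -/
theorem gb_lintegral {c : Grid G} (hc : Whole c) (dl b : ℝ) (hb : 0 < b) (c0 : Grid G) (i0 : c.I)
    (g : (c.I → ℝ) → ℝ≥0∞) (hg : Measurable g) (hper : ∀ y, g (fun i => y i + 2 * Real.pi) = g y) :
    ∫⁻ y in fund c i0, g y * ENNReal.ofReal (WS dl b c c0 y)
      = ENNReal.ofReal ((2 * Real.pi) ^ ((Fintype.card c.I : ℝ) / 2)) *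
        ∑' h : gbP c, ENNReal.ofReal (gbW dl b c c0 h.1) * ∫⁻ e, g (fun i => havg c h.1 i + e i) ∂(Cut.nz c.I) := by
  simp only [gb_WS_eq]
  rw [gb_unfold hc i0 (Cut.v0 c) (gbW dl b c c0) (gbW_nonneg dl b hb c c0) (gbW_add dl b c c0)
    (gb_summable hc dl b hb c0) g hg hper, ← ENNReal.tsum_mul_left]
  refine tsum_congr fun h => ?_
  rw [Cut.nz_density _ g hg]
  ring

/-- **L-C5-GB5.**  Non-negative tests.  Twin of `Cut.pint_pos`.  `key`: `gb_lintegral` with `g = ofReal ∘ F`; `∫⁻ e, ofReal (F (m + e)) = ofReal (gbSm F m)` (`ofReal_integral_eq_lintegral_ofReal`, `Cut.adm_integrable`).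
Finiteness: `∫⁻_fund ofReal (F * WS) ≤ ∫⁻_fund ofReal (F * Zobs) < ∞` (`gb_WS_le`, `(Cut.pint_pos hG hc b hb i0 hF hper h0).1`, `hasFiniteIntegral_iff_ofReal`).  Hence `∑' ofReal (gbW h * gbSm F (havg h)) < ∞` (the constant is `≠ 0`):
`ENNReal.summable_toReal`; `ENNReal.ofReal_tsum_of_nonneg`; `integral_eq_lintegral_of_nonneg_ae`. -/
theorem gb_pint_pos (hG : G.bc = BC.per) {c : Grid G} (hc : Whole c) (dl b : ℝ) (hb : 0 < b) (c0 : Grid G) (i0 : c.I)
    {A : ℝ} {l : c.I → ℝ} {F : (c.I → ℝ) → ℝ} (hF : Cut.Adm A l F) (hper : Per c F) (h0 : ∀ y, 0 ≤ F y) :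
    IntegrableOn (fun y => F y * WS dl b c c0 y) (fund c i0) ∧
    Summable (fun h : gbP c => gbW dl b c c0 h.1 * gbSm F (havg c h.1)) ∧
    ∫ y in fund c i0, F y * WS dl b c c0 y = (2 * Real.pi) ^ ((Fintype.card c.I : ℝ) / 2) * gbS dl b c c0 (gbSm F) := by
  have hWm := gb_WS_meas dl b hb c c0
  have hW0 := gb_WS_nonneg dl b hb c c0
  have hK : 0 < (2 * Real.pi) ^ ((Fintype.card c.I : ℝ) / 2) := by positivity
  have hsm0 : ∀ m, 0 ≤ gbSm F m := fun m => integral_nonneg fun e => h0 _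
  have ht0 : ∀ h : gbP c, 0 ≤ gbW dl b c c0 h.1 * gbSm F (havg c h.1) := fun h =>
    mul_nonneg (gbW_nonneg dl b hb c c0 h.1) (hsm0 _)
  have key : ∫⁻ y in fund c i0, ENNReal.ofReal (F y * WS dl b c c0 y)
      = ENNReal.ofReal ((2 * Real.pi) ^ ((Fintype.card c.I : ℝ) / 2)) *
        ∑' h : gbP c, ENNReal.ofReal (gbW dl b c c0 h.1 * gbSm F (havg c h.1)) := by
    have h1 := gb_lintegral hc dl b hb c0 i0 (fun y => ENNReal.ofReal (F y)) hF.1.ennreal_ofReal
      (fun y => by show ENNReal.ofReal (F _) = _; rw [hper y])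
    have e1 : ∀ y, ENNReal.ofReal (F y * WS dl b c c0 y)
        = ENNReal.ofReal (F y) * ENNReal.ofReal (WS dl b c c0 y) := fun y => ENNReal.ofReal_mul (h0 y)
    simp only [e1]
    rw [h1]
    congr 1
    refine tsum_congr fun h => ?_
    rw [ENNReal.ofReal_mul (gbW_nonneg dl b hb c c0 h.1)]
    congr 1
    unfold gbSm
    rw [ofReal_integral_eq_lintegral_ofReal (Cut.adm_integrable hF _) (Filter.Eventually.of_forall fun e => h0 _)]
  have hfin : ∫⁻ y in fund c i0, ENNReal.ofReal (F y * WS dl b c c0 y) < ∞ := by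
    have hi := (Cut.pint_pos hG hc b hb i0 hF hper h0).1
    have hnn : 0 ≤ᵐ[volume.restrict (fund c i0)] fun y => F y * (Top.full c).Zobs b 0 y :=
      Filter.Eventually.of_forall fun y => mul_nonneg (h0 y) (Zobs_pos hc (Top.full c) b hb 0 y).le
    have h2 := hi.2
    rw [hasFiniteIntegral_iff_ofReal hnn] at h2
    exact lt_of_le_of_lt (lintegral_mono fun y => ENNReal.ofReal_le_ofReal
      (mul_le_mul_of_nonneg_left (gb_WS_le hc dl b hb c0 y) (h0 y))) h2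
  have hts : ∑' h : gbP c, ENNReal.ofReal (gbW dl b c c0 h.1 * gbSm F (havg c h.1)) ≠ ∞ := by
    intro htop
    rw [key, htop, ENNReal.mul_top (by simpa using hK)] at hfin
    exact lt_irrefl _ hfin
  have hsum : Summable (fun h : gbP c => gbW dl b c c0 h.1 * gbSm F (havg c h.1)) := by
    refine (ENNReal.summable_toReal hts).congr fun h => ?_
    rw [ENNReal.toReal_ofReal (ht0 h)]
  have key2 : ∫⁻ y in fund c i0, ENNReal.ofReal (F y * WS dl b c c0 y)
      = ENNReal.ofReal ((2 * Real.pi) ^ ((Fintype.card c.I : ℝ) / 2) * gbS dl b c c0 (gbSm F)) := by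
    rw [key, ENNReal.ofReal_mul hK.le]
    congr 1
    unfold gbS
    rw [ENNReal.ofReal_tsum_of_nonneg ht0 hsum]
  have hnn : 0 ≤ᵐ[volume.restrict (fund c i0)] fun y => F y * WS dl b c c0 y :=
    Filter.Eventually.of_forall fun y => mul_nonneg (h0 y) (hW0 y)
  have hmeas : AEStronglyMeasurable (fun y => F y * WS dl b c c0 y) (volume.restrict (fund c i0)) :=
    (hF.1.mul hWm).aestronglyMeasurable
  refine ⟨⟨hmeas, ?_⟩, hsum, ?_⟩
  · rw [hasFiniteIntegral_iff_ofReal hnn]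
    exact hfin
  · have hS0 : 0 ≤ gbS dl b c c0 (gbSm F) := tsum_nonneg ht0
    rw [integral_eq_lintegral_of_nonneg_ae hnn hmeas, key2, ENNReal.toReal_ofReal (mul_nonneg hK.le hS0)]

/-- **L-C5-GB6.**  Signed tests.  Twin of `Cut.pint_eq`: `F = max F 0 - max (-F) 0`, both `Adm A l`, `Per`, `≥ 0`; `gb_pint_pos` twice; `integral_sub`, `Summable.sub`, `Summable.tsum_sub`, `integral_sub` for `gbSm` (`Cut.adm_integrable`). -/
theorem gb_pint (hG : G.bc = BC.per) {c : Grid G} (hc : Whole c) (dl b : ℝ) (hb : 0 < b) (c0 : Grid G) (i0 : c.I)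
    {A : ℝ} {l : c.I → ℝ} {F : (c.I → ℝ) → ℝ} (hF : Cut.Adm A l F) (hper : Per c F) :
    IntegrableOn (fun y => F y * WS dl b c c0 y) (fund c i0) ∧
    Summable (fun h : gbP c => gbW dl b c c0 h.1 * gbSm F (havg c h.1)) ∧
    ∫ y in fund c i0, F y * WS dl b c c0 y = (2 * Real.pi) ^ ((Fintype.card c.I : ℝ) / 2) * gbS dl b c c0 (gbSm F) := by
  have hp : Cut.Adm A l fun y => max (F y) 0 :=
    ⟨hF.1.max measurable_const, fun y => le_trans (by
      show |max (F y) 0| ≤ |F y|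
      rcases le_total (F y) 0 with h | h
      · rw [max_eq_right h, abs_zero]; exact abs_nonneg _
      · rw [max_eq_left h]) (hF.2 y)⟩
  have hn : Cut.Adm A l fun y => max (-F y) 0 :=
    ⟨hF.1.neg.max measurable_const, fun y => le_trans (by
      show |max (-F y) 0| ≤ |F y|
      rcases le_total (-F y) 0 with h | h
      · rw [max_eq_right h, abs_zero]; exact abs_nonneg _
      · rw [max_eq_left h, abs_neg]) (hF.2 y)⟩
  obtain ⟨i1, s1, e1⟩ := gb_pint_pos hG hc dl b hb c0 i0 hp (fun y => by show max (F _) 0 = _; rw [hper y])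
    fun y => le_max_right _ _
  obtain ⟨i2, s2, e2⟩ := gb_pint_pos hG hc dl b hb c0 i0 hn (fun y => by show max (-F _) 0 = _; rw [hper y])
    fun y => le_max_right _ _
  have eF : ∀ y, F y = max (F y) 0 - max (-F y) 0 := by
    intro y
    rcases le_total (F y) 0 with h | h
    · rw [max_eq_right h, max_eq_left (by linarith)]; ring
    · rw [max_eq_left h, max_eq_right (by linarith)]; ring
  have eFW : (fun y => F y * WS dl b c c0 y)
      = fun y => max (F y) 0 * WS dl b c c0 y - max (-F y) 0 * WS dl b c c0 y := by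
    funext y
    rw [← sub_mul, ← eF y]
  have eSm : ∀ m : c.I → ℝ, gbSm F m = gbSm (fun y => max (F y) 0) m - gbSm (fun y => max (-F y) 0) m := by
    intro m
    unfold gbSm
    rw [← integral_sub (Cut.adm_integrable hp m) (Cut.adm_integrable hn m)]
    exact integral_congr_ae (Filter.Eventually.of_forall fun e => eF _)
  have eT : (fun h : gbP c => gbW dl b c c0 h.1 * gbSm F (havg c h.1))
      = fun h : gbP c => gbW dl b c c0 h.1 * gbSm (fun y => max (F y) 0) (havg c h.1)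
          - gbW dl b c c0 h.1 * gbSm (fun y => max (-F y) 0) (havg c h.1) := by
    funext h
    rw [eSm, mul_sub]
  refine ⟨?_, ?_, ?_⟩
  · rw [eFW]
    exact i1.sub i2
  · rw [eT]
    exact s1.sub s2
  · have e3 : gbS dl b c c0 (gbSm F)
        = gbS dl b c c0 (gbSm fun y => max (F y) 0) - gbS dl b c c0 (gbSm fun y => max (-F y) 0) := by
      unfold gbS
      rw [← s1.tsum_sub s2]
      exact congrArg tsum eT
    rw [eFW, integral_sub i1 i2, e1, e2, e3]
    ring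

/-! ## D. The torus side -/

/-- **L-C5-GB7.**  `gb_avgEn_transport` with `eV = Cut.vF c`, `eE = Cut.eF hG hc` (`Cut.eF_src`, `Cut.eF_tgt`), `ι a = (a.1.val, a.2.val)` (injective: `Fin.ext`, `Prod.ext`);
`tcell n s0 v = (v.1.val / s0, v.2.val / s0)`, `((c0.blk1 t : Fin c0.n) : ℕ) = t / c0.m` (`F4a.whole_blk1 hc0`), `(Cut.zf n x).val = x.val` by `rfl`. -/
theorem gb_avgEn (hG : G.bc = BC.per) {c c0 : Grid G} (hc : Whole c) (hc0 : Whole c0) (φ : (Top.full c).graph.V → ℝ) :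
    avgEn (G := torus G.M) (tcell G.M c0.m) (fun v => φ (Cut.vF c v)) = avgEn (subOf (Top.full c) c0) φ := by
  refine gb_avgEn_transport (G₁ := torus G.M) (G₂ := (Top.full c).graph) (Cut.vF c) (Cut.eF hG hc)
    (Cut.eF_src hG hc) (Cut.eF_tgt hG hc) (tcell G.M c0.m) (subOf (Top.full c) c0)
    (fun a : c0.I => ((a.1 : ℕ), (a.2 : ℕ))) ?_ ?_ φ
  · intro a a' h
    have h1 : (a.1 : ℕ) = (a'.1 : ℕ) := congrArg Prod.fst h
    have h2 : (a.2 : ℕ) = (a'.2 : ℕ) := congrArg Prod.snd h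
    exact Prod.ext (Fin.ext h1) (Fin.ext h2)
  · intro v
    have e1 := whole_blk1 hc0 (Cut.vF c v).1.1
    have e2 := whole_blk1 hc0 (Cut.vF c v).1.2
    show (v.1.val / c0.m, v.2.val / c0.m)
      = (((c0.blk1 (Cut.vF c v).1.1 : Fin c0.n) : ℕ), ((c0.blk1 (Cut.vF c v).1.2 : Fin c0.n) : ℕ))
    rw [e1, e2]
    rfl

/-- the weight of a pinned height of the torus (twin of `Cut.relE_W`). -/
theorem gb_torus_W (hG : G.bc = BC.per) {c : Grid G} (hc : Whole c) (b : ℝ) (h : gbP c) :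
    ((torLaw G.M).sys b).W ((torLaw G.M).coordA b ((Cut.relH c h : (torLaw G.M).Λ) : (torus G.M).V → ℤ)
      + (HLaw.Aff.zero (torLaw G.M)).amb b) = fwt b c 0 h.1 := by
  unfold LSys.W fwt HGraph.wt
  have h1 : ∀ z : ((torLaw G.M).sys b).Amb, Real.exp (-(∑ o : ((torLaw G.M).sys b).O, z.2 o ^ 2) / 2) = 1 := by
    intro z
    have : ∑ o : ((torLaw G.M).sys b).O, z.2 o ^ 2 = 0 :=
      Finset.sum_eq_zero fun o _ => (o : Empty).elim
    rw [this]
    simp
  rw [h1, mul_one]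
  refine Fintype.prod_equiv (Cut.eF hG hc) _ _ fun e => ?_
  have e0 : (Top.full c).econn (0 : Face c → ℤ) (Cut.eF hG hc e) = 0 := by
    unfold Top.econn
    split_ifs <;> rfl
  rw [e0, add_zero, Cut.eF_src, Cut.eF_tgt]
  show bes b ((h.1 (Cut.vF c ((torus G.M).tgt e)) - h.1 (Cut.vF c ((torus G.M).src e)))
    + (((0 : (torus G.M).V → ℤ) ((torus G.M).tgt e) - (0 : (torus G.M).V → ℤ) ((torus G.M).src e)) + 0)) = _
  simp

/-- **L-C5-GB8.**  `gb_str_zero`, `gb_str_Z`; unfold `HLaw.Z`, `torLaw`; reindex by `Cut.relH c` (`Equiv.tsum_eq`, `Cut.relH_apply`); the weight is `fwt b c 0 h.1` as in `Cut.relE_W` (`Fintype.prod_equiv (Cut.eF hG hc)`, `econn 0 = 0`, no observation row: `O = Empty`);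
`gb_avgEn` turns the exponential into `gbTh`. -/
theorem gb_torus_Z (hG : G.bc = BC.per) {c c0 : Grid G} (hc : Whole c) (hc0 : Whole c0) (dl b : ℝ)
    (F : ((torus G.M).V → ℝ) → ℝ) :
    (str (torLaw G.M) (tcell G.M c0.m) (Real.sqrt dl)).Z b (HLaw.Aff.zero _) F
      = ∑' h : gbP c, gbW dl b c c0 h.1 * F (fun v => 2 * Real.pi * (h.1 (Cut.vF c v) : ℝ)) := by
  have h1 := gb_str_zero (torLaw G.M) (tcell G.M c0.m) (Real.sqrt dl)
  have h2 := gb_str_Z (torLaw G.M) (tcell G.M c0.m) (Real.sqrt dl) b (HLaw.Aff.zero (torLaw G.M)) F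
  refine ((congrArg (fun α => HLaw.Z _ b α F) h1).trans h2).trans ?_
  unfold HLaw.Z
  refine ((Cut.relH c).tsum_eq _).symm.trans (tsum_congr fun h => ?_)
  have e1 : (fun v : (torus G.M).V => 2 * Real.pi *
      ((((Cut.relH c h : (torLaw G.M).Λ) : (torus G.M).V → ℤ) v + (HLaw.Aff.zero (torLaw G.M)).x v : ℤ) : ℝ))
      = fun v => 2 * Real.pi * (h.1 (Cut.vF c v) : ℝ) := by
    funext v
    show 2 * Real.pi * ((h.1 (Cut.vF c v) + 0 : ℤ) : ℝ) = _
    rw [add_zero]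
  rw [e1, gb_torus_W hG hc b h]
  have e2 := gb_avgEn hG hc hc0 (fun x => 2 * Real.pi * (h.1 x : ℝ))
  have e3 : Real.exp (-(Real.sqrt dl ^ 2 * avgEn (G := torus G.M) (tcell G.M c0.m)
      (fun v => 2 * Real.pi * (h.1 (Cut.vF c v) : ℝ))) / 2) = gbTh dl c c0 h.1 := by
    unfold gbTh
    exact congrArg (fun t => Real.exp (-(Real.sqrt dl ^ 2 * t) / 2)) e2
  show F (fun v => 2 * Real.pi * (h.1 (Cut.vF c v) : ℝ)) * Real.exp (-(Real.sqrt dl ^ 2 *
    avgEn (G := torus G.M) (tcell G.M c0.m) (fun v => 2 * Real.pi * (h.1 (Cut.vF c v) : ℝ))) / 2) * fwt b c 0 h.1 = _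
  refine (congrArg (fun t => F (fun v => 2 * Real.pi * (h.1 (Cut.vF c v) : ℝ)) * t * fwt b c 0 h.1) e3).trans ?_
  unfold gbW
  ring

theorem gbr_beta_pos {c : Grid G} (hc : Whole c) : 0 < Rdo.beta G.M c.m := by
  have hM := whole_card hc
  have hm : (0 : ℝ) < c.m := by exact_mod_cast hc.pos
  have h2 : 2 * c.m ≤ G.M := by
    rw [hM]
    exact Nat.mul_le_mul_right _ hc.two
  have h2' : 2 * (c.m : ℝ) ≤ G.M := by exact_mod_cast h2
  have hM0 : (0 : ℝ) < G.M := by linarith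
  have hm1 : (1 : ℝ) ≤ c.m := by exact_mod_cast hc.pos
  have hpi := Real.pi_pos
  unfold Rdo.beta
  apply div_pos
  · apply Real.sin_pos_of_pos_of_lt_pi
    · positivity
    · rw [div_lt_iff₀ hM0]
      nlinarith
  · apply mul_pos hm
    apply Real.sin_pos_of_pos_of_lt_pi
    · positivity
    · rw [div_lt_iff₀ hM0]
      nlinarith

/-- **L-C5-GB9.**  `Rdo.Xobs c y = ∑ Q, ftest c Q * y Q`, `havg c h Q = avg c (2π h) Q`: as `Cut.row_eq` (`Finset.sum_fiberwise`, `Cut.sites_single`, `Equiv.sum_comp (Cut.vE G)`) the right side is `∑ v, (ftest c (blk (vE v)) / card) * 2π h (vF v)`;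
`ftest c Q / card = n⁻² cos (2π (s Q₁ + (s-1)/2)/n)`: `Rdo.rdo_avg_cos`, `Rdo.rdo_sites_card`, `beta ≠ 0` (`sin (π s/n) > 0`, `sin (π/n) > 0` as `2 s ≤ n`: `hc.two`, `whole_card`), `Q₁ = v.1.val / s` (`whole_blk1`). -/
theorem gb_row {c : Grid G} (hc : Whole c) (h : (Top.full c).graph.V → ℤ) :
    HLaw.pair (G := torus G.M) (cellCosRow G.M c.m) (fun v => 2 * Real.pi * (h (Cut.vF c v) : ℝ)) = Rdo.Xobs c (havg c h) := by
  have hb := gbr_beta_pos hc
  have hm : (0 : ℝ) < c.m := by exact_mod_cast hc.pos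
  have hM0 : (0 : ℝ) < G.M := by exact_mod_cast G.hM
  show ∑ v : (torus G.M).V, cellCosRow G.M c.m v * (2 * Real.pi * (h (Cut.vF c v) : ℝ))
    = ∑ Q, Rdo.ftest c Q * ((∑ x ∈ c.sites {Q}, 2 * Real.pi * (h ⟨x, by simp [Top.full]⟩ : ℝ)) / ((c.sites {Q}).card : ℝ))
  rw [← Equiv.sum_comp (Cut.vE G).symm (fun v : (torus G.M).V => cellCosRow G.M c.m v * (2 * Real.pi * (h (Cut.vF c v) : ℝ)))]
  rw [← Finset.sum_fiberwise Finset.univ c.blk]
  apply Finset.sum_congr rfl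
  intro Q _
  rw [Rdo.rdo_sites_card hc Q, Cut.sites_single, Finset.sum_div, Finset.mul_sum]
  apply Finset.sum_congr rfl
  intro x hx
  have hx' : c.blk x = Q := (Finset.mem_filter.1 hx).2
  have e1 : Cut.vF c ((Cut.vE G).symm x) = ⟨x, by simp [Top.full]⟩ := by
    apply Subtype.ext
    show (Cut.vE G) ((Cut.vE G).symm x) = x
    rw [Equiv.apply_symm_apply]
  rw [e1]
  have e2 : (((Cut.vE G).symm x).1.val : ℕ) = (x.1 : ℕ) := by
    show (((x.1 : ℕ) : ZMod G.M)).val = (x.1 : ℕ)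
    exact ZMod.val_cast_of_lt x.1.2
  have e3 : ((Q.1 : Fin c.n) : ℕ) = (x.1 : ℕ) / c.m := by
    rw [← hx']
    exact whole_blk1 hc x.1
  unfold cellCosRow Rdo.ftest Rdo.snr
  rw [(Rdo.rdo_avg_cos c hc Q).2, e2, e3]
  push_cast
  have e4 : (c.m : ℝ) * (((x.1 : ℕ) / c.m : ℕ) : ℝ) = (((x.1 : ℕ) / c.m : ℕ) : ℝ) * (c.m : ℝ) := mul_comm _ _
  rw [e4]
  field_simp

/-! ## E. Gaussian smoothing of the three tests (PROVED from `Cut/Tor.lean`) -/

theorem gbSm_one {I : Type} [Fintype I] (m : I → ℝ) : gbSm (fun _ => (1 : ℝ)) m = 1 := by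
  unfold gbSm
  simp

theorem gbSm_lin {I : Type} [Fintype I] (l m : I → ℝ) : gbSm (fun y => Cut.lin l y) m = Cut.lin l m := by
  unfold gbSm
  simp only [Cut.lin_add]
  rw [integral_add (integrable_const _) (Cut.smg_lin_int l), Cut.smg_lin_val]
  simp

theorem gbSm_lin_sq {I : Type} [Fintype I] (l m : I → ℝ) :
    gbSm (fun y => Cut.lin l y ^ 2) m = Cut.lin l m ^ 2 + ∑ i, l i ^ 2 := by
  unfold gbSm
  have e : ∀ e : I → ℝ, Cut.lin l (fun i => m i + e i) ^ 2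
      = Cut.lin l m ^ 2 + (2 * Cut.lin l m) * Cut.lin l e + Cut.lin l e ^ 2 := by
    intro e
    rw [Cut.lin_add]
    ring
  simp only [e]
  have i1 : Integrable (fun e : I → ℝ => Cut.lin l m ^ 2 + (2 * Cut.lin l m) * Cut.lin l e) (Cut.nz I) :=
    (integrable_const _).add ((Cut.smg_lin_int l).const_mul _)
  rw [integral_add i1 (Cut.smg_lin_sq_int l),
    integral_add (integrable_const _) ((Cut.smg_lin_int l).const_mul _), integral_const_mul, Cut.smg_lin_val,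
    Cut.smg_lin_sq_val]
  simp

/-! ## F. Assembly (PROVED from the leaves) -/

theorem gb_adm_exp (c : Grid G) (t : ℝ) : Cut.Adm 1 (fun i => t * Cut.fX c i) fun y => Real.exp (t * Cut.obsX c y) :=
  ⟨Real.measurable_exp.comp ((Cut.obsX_measurable c).const_mul t), fun y => by
    have hlin : Cut.lin (fun i => t * Cut.fX c i) y = t * Cut.obsX c y := by
      simp only [Cut.obsX, Cut.lin, Finset.mul_sum, mul_assoc]
    rw [hlin, abs_of_pos (Real.exp_pos _), one_mul]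
    have := Real.exp_pos (-(t * Cut.obsX c y))
    linarith⟩

theorem gb_per_exp {c : Grid G} (hc : Whole c) (t : ℝ) : Per c fun y => Real.exp (t * Cut.obsX c y) := fun y => by
  show Real.exp (t * Cut.obsX c _) = _
  rw [Cut.obsX_shift hc]

/-- **PK-C5-BRIDGE**: the observation weight of the strengthened law is an admissible weight of READOUT, and the strengthened torus variance is its variance of `X_{n,s}` minus the noise. -/
theorem gbridge (hG : G.bc = BC.per) {c c0 : Grid G} (hc : Whole c) (hc0 : Whole c0) (dl b : ℝ) (hb : 0 < b) :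
    Rdo.WtOK c (WS dl b c c0) ∧
      strTorVar dl c0.m c.m b G.M = (Rdo.EhW c (WS dl b c c0) fun y => Rdo.Xobs c y ^ 2)
        - (Rdo.EhW c (WS dl b c c0) (Rdo.Xobs c)) ^ 2 - Rdo.fsq c := by
  have hK : 0 < (2 * Real.pi) ^ ((Fintype.card c.I : ℝ) / 2) := by positivity
  obtain ⟨-, a2, a3⟩ := gb_pint hG hc dl b hb c0 (c.blk (B8.org G)) (Cut.adm_one (Cut.fX c)) (fun _ => rfl)
  obtain ⟨-, b2, b3⟩ := gb_pint hG hc dl b hb c0 (c.blk (B8.org G)) (Cut.adm_X c) (Cut.per_X hc)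
  obtain ⟨-, c2, c3⟩ := gb_pint hG hc dl b hb c0 (c.blk (B8.org G)) (Cut.adm_X2 c) (Cut.per_X2 hc)
  have e1 : gbSm (fun _ : c.I → ℝ => (1 : ℝ)) = fun _ => 1 := funext fun m => gbSm_one m
  have e2 : gbSm (Cut.obsX c) = Cut.obsX c := funext fun m => gbSm_lin (Cut.fX c) m
  have e3 : gbSm (fun y => Cut.obsX c y ^ 2) = fun m => Cut.obsX c m ^ 2 + Cut.nf2 c :=
    funext fun m => gbSm_lin_sq (Cut.fX c) m
  rw [e1] at a2 a3
  rw [e2] at b2 b3
  rw [e3] at c2 c3
  -- the three sums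
  have hS0 : 0 < gbS dl b c c0 fun _ => 1 :=
    a2.tsum_pos (fun h => mul_nonneg (gbW_nonneg dl b hb c c0 h.1) zero_le_one) ⟨0, rfl⟩
      (mul_pos (gbW_pos dl b hb c c0 _) one_pos)
  have c2' : Summable fun h : gbP c => gbW dl b c c0 h.1 * Cut.obsX c (havg c h.1) ^ 2 := by
    refine (c2.sub (a2.mul_right (Cut.nf2 c))).congr fun h => ?_
    ring
  have hS2 : gbS dl b c c0 (fun m => Cut.obsX c m ^ 2 + Cut.nf2 c)
      = gbS dl b c c0 (fun m => Cut.obsX c m ^ 2) + Cut.nf2 c * gbS dl b c c0 fun _ => 1 := by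
    unfold gbS
    rw [← tsum_mul_left, ← c2'.tsum_add (a2.mul_left (Cut.nf2 c))]
    refine tsum_congr fun h => ?_
    ring
  have p1 : Rdo.PhW c (WS dl b c c0) (fun _ => 1)
      = (2 * Real.pi) ^ ((Fintype.card c.I : ℝ) / 2) * gbS dl b c c0 fun _ => 1 := a3
  have p2 : Rdo.PhW c (WS dl b c c0) (Rdo.Xobs c)
      = (2 * Real.pi) ^ ((Fintype.card c.I : ℝ) / 2) * gbS dl b c c0 (Cut.obsX c) := b3
  have p3 : Rdo.PhW c (WS dl b c c0) (fun y => Rdo.Xobs c y ^ 2)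
      = (2 * Real.pi) ^ ((Fintype.card c.I : ℝ) / 2) * gbS dl b c c0 (fun m => Cut.obsX c m ^ 2 + Cut.nf2 c) := c3
  refine ⟨⟨gb_WS_nonneg dl b hb c c0, gb_WS_meas dl b hb c c0, gb_WS_per hc dl b c0, fun t => ?_, ?_⟩, ?_⟩
  · exact (gb_pint hG hc dl b hb c0 (c.blk (B8.org G)) (gb_adm_exp c t) (gb_per_exp hc t)).1
  · rw [p1]
    exact mul_pos hK hS0
  · have hn : ¬ G.M = 0 := G.hM.ne'
    unfold strTorVar Rdo.EhW
    rw [dif_neg hn, p1, p2, p3, hS2]
    unfold Vr HLaw.Ex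
    rw [gb_torus_Z hG hc hc0, gb_torus_Z hG hc hc0, gb_torus_Z hG hc hc0]
    simp only [gb_row hc]
    show gbS dl b c c0 (fun m => Cut.obsX c m ^ 2) / gbS dl b c c0 (fun _ => 1)
      - (gbS dl b c c0 (Cut.obsX c) / gbS dl b c c0 (fun _ => 1)) ^ 2 = _
    rw [mul_div_mul_left _ _ hK.ne', mul_div_mul_left _ _ hK.ne']
    show _ = _ - _ - Cut.nf2 c
    field_simp
    ring

/-- Stores the on-demand equation lemmas of the definitions above in THIS module (rule 6 hygiene). -/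
theorem gbr_forced : True := by
  have := @gbTh.eq_1
  have := @gbW.eq_1
  have := @gbSm.eq_1
  have := @gbS.eq_1
  trivial

end

end Claimed.Agent.R285.C5
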