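import Claimed.Agent.R285.Map.PackC
import Claimed.Agent.R285.C5.GRaw

/-!
# ROW 285, [C] s5.4: the GAPPED MAP in the Banach spaces of `Read/B8b.lean`      (architect helper75)

`B8.Cfg` has the flag `cosOn` and a free period `ω` (`α² = a'`).  Here: `cfgG` (`cosOn = false`), the embedding `rawG`, `torG` into `B10.Raw`, `B10.Tor` with the DUMMY `z`-slot of `Flow/Gap.lean`
(`Φ (t, z, R) = (t', z, R')`, `lam = 1`, `σ = id`), and the export **`gmap_system`**, PROVED from the leaves of MAP-PACK (`Map/PackA-C.lean`, helper114; generic in `cosOn`) and `B8.weak_step_gapped`, `B8.entry_diag`.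
As in MAP-PACK: the linear part is the Fréchet derivative at `0`; the constants are FLEXIBLE (thresholds `Cm, ρm, dm`).  Uniform in `ω` with `α² ∈ [a₁, a₂] ⊂ (8π, ∞)`, in the regulators / cells, and in the entry index `j0 ≥ jmin`.
NOT here: the read-out fields (`TorOK.rV_bd`, `kV_bd`, `PureOK.resp`, `GDynOK.kV_up`): `C5/GRead.lean`.
-/

set_option autoImplicit false

namespace Claimed.Agent.R285.C5

open scoped BigOperators ENNReal NNReal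
open Filter Topology
open Claimed.Agent.R285.RG Claimed.Agent.R285.B8 Claimed.Agent.R285.Pack

noncomputable section

/-- the configuration of the gapped entry-family map: period `ω`, `α² = (2π/ω)² = a'`, no cosine coordinate -/
def cfgG (c : Geo) (δ κ : ℝ) (h0 : ℝ≥0) (A ω : ℝ) (c0 ℓ D0 : ℕ) (hD : 0 < D0) : Cfg :=
  ⟨c, ⟨δ, κ, h0, A, ω⟩, c0, ⟨ℓ, D0, hD⟩, Fam.entry, false⟩

/-- the plane map with the dummy slot -/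
def PhiG (K : Cfg) (𝓡 : Reg K.s) (j : ℕ) (x : ℂ × ℂ × K.Pl 𝓡 j) : ℂ × ℂ × K.Pl 𝓡 (j + 1) :=
  ((K.Phi 𝓡 j (x.1, 0, x.2.2)).1, x.2.1, (K.Phi 𝓡 j (x.1, 0, x.2.2)).2.2)

/-- the torus remainder map with the dummy slot -/
def PsiG (K : Cfg) (𝓡 : Reg K.s) (j h : ℕ) (X : (ℂ × ℂ) × K.To 𝓡 j h) : K.To 𝓡 (j + 1) h := K.Psi 𝓡 j h ((X.1.1, 0), X.2)

/-- the plane data in the format of `B10`, dummy `z`-slot -/
def rawG (K : Cfg) (𝓡 : Reg K.s) (hA : 0 < K.p.A) (j0 : ℕ) : B10.Raw where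
  j0 := j0
  A := K.Pl 𝓡
  cA := fun j => (bulkSp_isClosed K.p hA K.c.col K.c.R K.c0 (K.fam 𝓡 j)).completeSpace_coe
  Φ := PhiG K 𝓡
  Pt := fun j => dPt (PhiG K 𝓡 j)
  Pz := fun j => dPz (PhiG K 𝓡 j)
  Cc := fun j => dCc (PhiG K 𝓡 j)
  lam := fun _ => 1
  σ := fun _ => ContinuousLinearMap.id ℂ _
  cj := cjg K 𝓡

/-! ## 1. The glue: from `Pack.PackIn` (with `cosOn = false`) to `B10.RawOK` -/

section glue

variable {K : Cfg} {𝓡 : Reg K.s} {j0 : ℕ} {θ C ε0 : ℝ≥0} {Ce dm : ℝ}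

theorem gm_norm_z0 {E : Type*} [SeminormedAddCommGroup E] (x : ℂ × ℂ × E) : ‖((x.1, 0, x.2.2) : ℂ × ℂ × E)‖ ≤ ‖x‖ := by
  simp only [Prod.norm_def, norm_zero]
  refine max_le (le_max_left _ _) (max_le (by positivity) ?_)
  exact (le_max_right _ _).trans (le_max_right _ _)

theorem gm_norm_z0' {E : Type*} [SeminormedAddCommGroup E] (X : (ℂ × ℂ) × E) : ‖(((X.1.1, 0), X.2) : (ℂ × ℂ) × E)‖ ≤ ‖X‖ := by
  simp only [Prod.norm_def, norm_zero]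
  refine max_le (max_le ?_ (by positivity)) (le_max_right _ _)
  exact (le_max_left _ _).trans (le_max_left _ _)

/-- one plane step -/
theorem gm_plane (H : PackIn K 𝓡 j0 θ C ε0) (j : ℕ) (hj : j0 ≤ j) (x : ℂ × ℂ × K.Pl 𝓡 j) (hx : 3 * ‖x‖ ≤ ε0) :
    ‖(PhiG K 𝓡 j x).2.2‖ ≤ θ * ‖x.2.2‖ + 9 * C * ‖x‖ ^ 2 ∧ ‖(PhiG K 𝓡 j x).1 - x.1‖ ≤ C * ‖x.2.2‖ := by
  have h0 := gm_norm_z0 x
  have h := pk_plane_step H j hj (x.1, 0, x.2.2) (fun _ => rfl) (by linarith)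
  refine ⟨h.2.2.2.1.trans ?_, h.2.2.2.2.1⟩
  have h1 : ‖((x.1, 0, x.2.2) : ℂ × ℂ × K.Pl 𝓡 j)‖ ^ 2 ≤ ‖x‖ ^ 2 := pow_le_pow_left₀ (norm_nonneg _) h0 2
  have hC0 : (0 : ℝ) ≤ C := C.2
  show (θ : ℝ) * ‖x.2.2‖ + C * (3 * ‖((x.1, 0, x.2.2) : ℂ × ℂ × K.Pl 𝓡 j)‖) ^ 2 ≤ _
  nlinarith

theorem gm_PhiG_an (H : PackIn K 𝓡 j0 θ C ε0) (j : ℕ) (hj : j0 ≤ j) (ρ : ℝ) (hρ : 3 * ρ ≤ ε0) :
    DifferentiableOn ℂ (PhiG K 𝓡 j) (Metric.ball 0 ρ) := by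
  refine pk_gateaux (Metric.ball 0 ρ) Metric.isOpen_ball (PhiG K 𝓡 j) (fun x _ v => ?_) (fun x hx => ?_)
  · have L := pk_Phi_line H j hj ρ hρ (x.1, 0, x.2.2) (v.1, 0, v.2.2) (fun _ => ⟨rfl, rfl⟩)
    have e' : ∀ s : ℂ, ((x.1, 0, x.2.2) : ℂ × ℂ × K.Pl 𝓡 j) + s • ((v.1, 0, v.2.2) : ℂ × ℂ × K.Pl 𝓡 j)
          = ((x + s • v).1, 0, (x + s • v).2.2) := by
      intro s
      ext <;> simp
    have hsub : {s : ℂ | x + s • v ∈ Metric.ball (0 : ℂ × ℂ × K.Pl 𝓡 j) ρ}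
        ⊆ {s : ℂ | ((x.1, 0, x.2.2) : ℂ × ℂ × K.Pl 𝓡 j) + s • ((v.1, 0, v.2.2) : ℂ × ℂ × K.Pl 𝓡 j) ∈ Metric.ball (0 : ℂ × ℂ × K.Pl 𝓡 j) ρ} := by
      intro s hs
      have hs' : ‖x + s • v‖ < ρ := by simpa using hs
      show ((x.1, 0, x.2.2) : ℂ × ℂ × K.Pl 𝓡 j) + s • ((v.1, 0, v.2.2) : ℂ × ℂ × K.Pl 𝓡 j) ∈ Metric.ball (0 : ℂ × ℂ × K.Pl 𝓡 j) ρ
      rw [Metric.mem_ball, dist_zero_right, e']
      exact lt_of_le_of_lt (gm_norm_z0 _) hs'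
    have L' := L.mono hsub
    have e : (fun s : ℂ => PhiG K 𝓡 j (x + s • v)) = fun s : ℂ =>
        ((K.Phi 𝓡 j (((x.1, 0, x.2.2) : ℂ × ℂ × K.Pl 𝓡 j) + s • ((v.1, 0, v.2.2) : ℂ × ℂ × K.Pl 𝓡 j))).1, x.2.1 + s • v.2.1,
          (K.Phi 𝓡 j (((x.1, 0, x.2.2) : ℂ × ℂ × K.Pl 𝓡 j) + s • ((v.1, 0, v.2.2) : ℂ × ℂ × K.Pl 𝓡 j))).2.2) := by
      funext s
      rw [e']
      rfl
    rw [e]
    refine L'.fst.prodMk (DifferentiableOn.prodMk ?_ L'.snd.snd)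
    exact ((differentiable_const _).add (differentiable_id.smul_const _)).differentiableOn
  · have hx' : ‖x‖ < ρ := by simpa using hx
    refine ⟨ρ - ‖x‖, by linarith, ρ + C * ρ + (θ * ρ + 9 * C * ρ ^ 2), fun y hy => ?_⟩
    have hy' : ‖y‖ < ρ := by
      have h1 : ‖y - x‖ < ρ - ‖x‖ := by simpa [dist_eq_norm] using hy
      have h2 : ‖y‖ ≤ ‖y - x‖ + ‖x‖ := by simpa using norm_add_le (y - x) x
      linarith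
    have hs := gm_plane H j hj y (by linarith)
    have hC0 : (0 : ℝ) ≤ C := C.2
    have hθ0 : (0 : ℝ) ≤ θ := θ.2
    have n1 : ‖y.1‖ ≤ ‖y‖ := le_max_left _ _
    have n2 : ‖y.2.1‖ ≤ ‖y‖ := (le_max_left _ _).trans (le_max_right _ _)
    have n3 : ‖y.2.2‖ ≤ ‖y‖ := (le_max_right _ _).trans (le_max_right _ _)
    have hρ0 : 0 ≤ ρ := (norm_nonneg y).trans hy'.le
    have a1 : ‖(PhiG K 𝓡 j y).1‖ ≤ ρ + C * ρ := by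
      have : ‖(PhiG K 𝓡 j y).1‖ ≤ ‖(PhiG K 𝓡 j y).1 - y.1‖ + ‖y.1‖ := by simpa using norm_add_le ((PhiG K 𝓡 j y).1 - y.1) y.1
      have h3 : (C : ℝ) * ‖y.2.2‖ ≤ C * ρ := mul_le_mul_of_nonneg_left (by linarith) hC0
      linarith [hs.2]
    have a3 : ‖(PhiG K 𝓡 j y).2.2‖ ≤ θ * ρ + 9 * C * ρ ^ 2 := by
      have h3 : (θ : ℝ) * ‖y.2.2‖ ≤ θ * ρ := mul_le_mul_of_nonneg_left (by linarith) hθ0
      have h4 : ‖y‖ ^ 2 ≤ ρ ^ 2 := pow_le_pow_left₀ (norm_nonneg _) hy'.le 2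
      have h5 : 9 * (C : ℝ) * ‖y‖ ^ 2 ≤ 9 * C * ρ ^ 2 := mul_le_mul_of_nonneg_left h4 (by positivity)
      linarith [hs.1]
    have a2 : ‖(PhiG K 𝓡 j y).2.1‖ ≤ ρ := by
      show ‖y.2.1‖ ≤ ρ
      linarith
    have p1 : 0 ≤ (C : ℝ) * ρ := by positivity
    have p2 : 0 ≤ (θ : ℝ) * ρ + 9 * C * ρ ^ 2 := by positivity
    refine max_le (by linarith) (max_le (by linarith) (by linarith))

/-- the triangular structure of the gapped plane map on the fixed ball of radius `ε₀/3` -/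
theorem gm_tri (H : PackIn K 𝓡 j0 θ C ε0) (j : ℕ) (hj : j0 ≤ j) :
    ‖dPt (PhiG K 𝓡 j)‖ ≤ 9 * C ∧ ‖dPz (PhiG K 𝓡 j)‖ ≤ 9 * C ∧ ‖dCc (PhiG K 𝓡 j)‖ ≤ θ ∧
      ∀ X ∈ Metric.ball (0 : ℂ × ℂ × K.Pl 𝓡 j) (ε0 / 3),
        ‖PhiG K 𝓡 j X - (X.1 + dPt (PhiG K 𝓡 j) X.2.2, (1 : ℂ) * X.2.1 + dPz (PhiG K 𝓡 j) X.2.2, dCc (PhiG K 𝓡 j) X.2.2)‖
          ≤ 4 * (1 + 2 + 9 * C + θ + 9 * C * (ε0 / 3)) / (ε0 / 3) * ‖X‖ ^ 2 := by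
  have hε : (0 : ℝ) < ε0 / 3 := by have : (0 : ℝ) < ε0 := by exact_mod_cast H.hε
                                   positivity
  have hC0 : (0 : ℝ) ≤ C := C.2
  have key := pk_triangular (PhiG K 𝓡 j) (ε0 / 3) (9 * C) θ (1 : ℂ) hε (by positivity) θ.2
    (gm_PhiG_an H j hj (ε0 / 3) (by linarith))
    (fun X hX => by
      have h := (gm_plane H j hj X (pk_ball_le le_rfl hX)).2
      refine h.trans ?_
      have := norm_nonneg X.2.2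
      nlinarith)
    (fun X hX => by
      have : (PhiG K 𝓡 j X).2.1 - 1 * X.2.1 = 0 := by
        show X.2.1 - 1 * X.2.1 = 0
        ring
      rw [this, norm_zero]
      positivity)
    (fun X hX => (gm_plane H j hj X (pk_ball_le le_rfl hX)).1)
  refine ⟨key.1, key.2.1, key.2.2.1, fun X hX => (key.2.2.2 X hX).trans ?_⟩
  have hl : ‖(1 : ℂ)‖ ≤ 2 := by rw [norm_one]; norm_num
  gcongr

/-- **`B10.RawOK`** for the gapped map -/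
theorem gm_rawOK (H : PackIn K 𝓡 j0 θ C ε0) (κr : B10.RawC) (hθ : κr.θ = θ)
    (hC : Cmap θ C ε0 Ce 0 ≤ κr.C) (hρ : κr.ρ ≤ ε0 / 3)
    (hsm : κr.C * Real.exp (-κr.c * j0) / (1 - Real.exp (-κr.c)) ≤ 1 / 4) :
    B10.RawOK κr (rawG K 𝓡 H.hA j0) where
  an := fun j hj => gm_PhiG_an H j hj κr.ρ (by linarith)
  quad := fun j hj X hX => by
    have h := (gm_tri H j hj).2.2.2 X (Metric.ball_subset_ball hρ hX)
    refine h.trans ?_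
    exact mul_le_mul_of_nonneg_right ((pk_Cmap_le1 θ C ε0 Ce 0).trans hC) (sq_nonneg _)
  Pt_bd := fun j hj => (gm_tri H j hj).1.trans ((pk_Cmap_le2 θ C ε0 Ce 0).trans hC)
  Pz_bd := fun j hj => (gm_tri H j hj).2.1.trans ((pk_Cmap_le2 θ C ε0 Ce 0).trans hC)
  Cc_bd := fun j hj => (gm_tri H j hj).2.2.1.trans (le_of_eq hθ.symm)
  lam_bd := fun j _ => by
    show ‖(1 : ℂ) - 1‖ ≤ _
    rw [sub_self, norm_zero]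
    have := κr.hC
    positivity
  lam_sm := hsm
  lam_re := fun _ _ => Complex.one_im
  σ_inv := fun _ _ => rfl
  σ_bd := fun _ _ => le_rfl
  par := fun _ _ _ _ => rfl
  cj_add := fun j _ R R' => pk_cjg_add K 𝓡 H.hA j R R'
  cj_smul := fun j _ a R => pk_cjg_smul K 𝓡 H.hA j a R
  cj_inv := fun j _ R => pk_cjg_inv K 𝓡 H.hA j R
  cj_bd := fun j _ R => pk_cjg_bd K 𝓡 H.hA j R
  real := fun j hj X hX => by
    have h := pk_Phi_real H j hj (X.1, 0, X.2.2) (fun _ => rfl)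
      ((mul_le_mul_of_nonneg_left (gm_norm_z0 X) (by norm_num)).trans (pk_ball_le hρ hX))
    simp only [map_zero] at h
    show ((K.Phi 𝓡 j (starRingEnd ℂ X.1, 0, cjg K 𝓡 j X.2.2)).1, starRingEnd ℂ X.2.1, (K.Phi 𝓡 j (starRingEnd ℂ X.1, 0, cjg K 𝓡 j X.2.2)).2.2)
      = (starRingEnd ℂ (K.Phi 𝓡 j (X.1, 0, X.2.2)).1, starRingEnd ℂ X.2.1, cjg K 𝓡 (j + 1) (K.Phi 𝓡 j (X.1, 0, X.2.2)).2.2)
    rw [h]

/-- one torus step -/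
theorem gm_torus (H : PackIn K 𝓡 j0 θ C ε0) (j h : ℕ) (hj0 : j0 ≤ j) (hj : j < h) (X : (ℂ × ℂ) × K.To 𝓡 j h) (hX : 3 * ‖X‖ ≤ ε0) :
    ‖PsiG K 𝓡 j h X‖ ≤ θ * ‖X.2‖ + 9 * C * ‖X‖ ^ 2 := by
  have h0 := gm_norm_z0' X
  have h1 := (pk_torus_step H j h hj0 hj ((X.1.1, 0), X.2) (fun _ => rfl) (by linarith)).2.2
  refine h1.trans ?_
  have h2 : ‖(((X.1.1, 0), X.2) : (ℂ × ℂ) × K.To 𝓡 j h)‖ ^ 2 ≤ ‖X‖ ^ 2 := pow_le_pow_left₀ (norm_nonneg _) h0 2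
  have hC0 : (0 : ℝ) ≤ C := C.2
  show (θ : ℝ) * ‖X.2‖ + C * (3 * ‖(((X.1.1, 0), X.2) : (ℂ × ℂ) × K.To 𝓡 j h)‖) ^ 2 ≤ _
  nlinarith

theorem gm_PsiG_an (H : PackIn K 𝓡 j0 θ C ε0) (j h : ℕ) (hj0 : j0 ≤ j) (hj : j < h) (ρ : ℝ) (hρ : 3 * ρ ≤ ε0) :
    DifferentiableOn ℂ (PsiG K 𝓡 j h) (Metric.ball 0 ρ) := by
  refine pk_gateaux (Metric.ball 0 ρ) Metric.isOpen_ball (PsiG K 𝓡 j h) (fun x _ v => ?_) (fun x hx => ?_)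
  · have L := pk_Psi_line H j h hj0 hj ρ hρ ((x.1.1, 0), x.2) ((v.1.1, 0), v.2) (fun _ => ⟨rfl, rfl⟩)
    have e' : ∀ s : ℂ, (((x.1.1, 0), x.2) : (ℂ × ℂ) × K.To 𝓡 j h) + s • (((v.1.1, 0), v.2) : (ℂ × ℂ) × K.To 𝓡 j h)
          = (((x + s • v).1.1, 0), (x + s • v).2) := by
      intro s
      ext <;> simp
    have hsub : {s : ℂ | x + s • v ∈ Metric.ball (0 : (ℂ × ℂ) × K.To 𝓡 j h) ρ}
        ⊆ {s : ℂ | (((x.1.1, 0), x.2) : (ℂ × ℂ) × K.To 𝓡 j h) + s • (((v.1.1, 0), v.2) : (ℂ × ℂ) × K.To 𝓡 j h) ∈ Metric.ball (0 : (ℂ × ℂ) × K.To 𝓡 j h) ρ} := by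
      intro s hs
      have hs' : ‖x + s • v‖ < ρ := by simpa using hs
      show (((x.1.1, 0), x.2) : (ℂ × ℂ) × K.To 𝓡 j h) + s • (((v.1.1, 0), v.2) : (ℂ × ℂ) × K.To 𝓡 j h) ∈ Metric.ball (0 : (ℂ × ℂ) × K.To 𝓡 j h) ρ
      rw [Metric.mem_ball, dist_zero_right, e']
      exact lt_of_le_of_lt (gm_norm_z0' _) hs'
    have L' := L.mono hsub
    have e : (fun s : ℂ => PsiG K 𝓡 j h (x + s • v)) = fun s : ℂ =>
        K.Psi 𝓡 j h ((((x.1.1, 0), x.2) : (ℂ × ℂ) × K.To 𝓡 j h) + s • (((v.1.1, 0), v.2) : (ℂ × ℂ) × K.To 𝓡 j h)) := by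
      funext s
      rw [e']
      rfl
    rw [e]
    exact L'
  · have hx' : ‖x‖ < ρ := by simpa using hx
    refine ⟨ρ - ‖x‖, by linarith, θ * ρ + 9 * C * ρ ^ 2, fun y hy => ?_⟩
    have hy' : ‖y‖ < ρ := by
      have h1 : ‖y - x‖ < ρ - ‖x‖ := by simpa [dist_eq_norm] using hy
      have h2 : ‖y‖ ≤ ‖y - x‖ + ‖x‖ := by simpa using norm_add_le (y - x) x
      linarith
    have hs := gm_torus H j h hj0 hj y (by linarith)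
    have hC0 : (0 : ℝ) ≤ C := C.2
    have hθ0 : (0 : ℝ) ≤ θ := θ.2
    have n3 : ‖y.2‖ ≤ ‖y‖ := le_max_right _ _
    have h3 : (θ : ℝ) * ‖y.2‖ ≤ θ * ρ := mul_le_mul_of_nonneg_left (by linarith) hθ0
    have h4 : ‖y‖ ^ 2 ≤ ρ ^ 2 := pow_le_pow_left₀ (norm_nonneg _) hy'.le 2
    have h5 : 9 * (C : ℝ) * ‖y‖ ^ 2 ≤ 9 * C * ρ ^ 2 := mul_le_mul_of_nonneg_left h4 (by positivity)
    linarith

/-! ## 2. The export for one tower -/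

/-- **everything MAP delivers about one gapped tower** (twin of `Pack.MapSys`; all states have `z = 0`) -/
structure GMapSys (K : Cfg) (𝓡 : Reg K.s) (j0 : ℕ) (hA : 0 < K.p.A) (κr : B10.RawC) (d1 : ℝ) : Prop where
  cos : K.cosOn = false
  raw : B10.RawOK κr (rawG K 𝓡 hA j0)
  j0_pos : 1 ≤ j0
  Ψ_an : ∀ j h, j0 ≤ j → j < h → DifferentiableOn ℂ (PsiG K 𝓡 j h) (Metric.ball 0 κr.ρ)
  Ψ_bd : ∀ j h, j0 ≤ j → j < h → ∀ X ∈ Metric.ball (0 : (ℂ × ℂ) × K.To 𝓡 j h) κr.ρ, ‖PsiG K 𝓡 j h X‖ ≤ κr.θ * ‖X.2‖ + κr.C * ‖X‖ ^ 2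
  /-- pure Gaussian entries, at ALL levels -/
  e_an : ∀ j, DifferentiableOn ℂ (fun d : ℂ => K.eExp 𝓡 j d 0) (Metric.ball 0 d1)
  e_R : ∀ j (d : ℂ), ‖d‖ < d1 → ‖(K.eExp 𝓡 j d 0).2.2‖ ≤ κr.C * ‖d‖ ^ 2
  e_re : ∀ j (d : ℂ), ‖d‖ < d1 → cjg K 𝓡 j (K.eExp 𝓡 j d 0).2.2 = (K.eExp 𝓡 j (starRingEnd ℂ d) 0).2.2
  eT_an : ∀ j h, DifferentiableOn ℂ (fun d : ℂ => K.eExpT 𝓡 j h d 0) (Metric.ball 0 d1)
  eT_bd : ∀ j h (d : ℂ), ‖d‖ < d1 → ‖K.eExpT 𝓡 j h d 0‖ ≤ κr.C * ‖d‖ ^ 2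
  /-- the hypotheses of MAP-PACK themselves (for `Rdo.ChainOK`: copying, exact identity, exponential entries) -/
  pack : ∃ (θ C ε0 : ℝ≥0) (Ce dm : ℝ), κr.ρ ≤ ε0 / 3 ∧ d1 ≤ dm ∧ Ce ≤ κr.C ∧ PackIn K 𝓡 j0 θ C ε0 ∧ ExpIn K Ce dm

theorem gm_e_an (E : ExpIn K Ce dm) (d1 : ℝ) (hd : d1 ≤ dm) (j : ℕ) :
    DifferentiableOn ℂ (fun d : ℂ => K.eExp 𝓡 j d 0) (Metric.ball 0 d1) := by
  have h1 : DifferentiableOn ℂ (fun w : ℂ × ℂ => K.eExp 𝓡 j w.1 w.2) (Metric.ball 0 d1) :=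
    (pk_eExp_an E j).mono (Metric.ball_subset_ball hd)
  have := h1.comp (pk_diff_inl d1) (pk_mapsTo_ball d1)
  exact this

theorem gm_eT_an (E : ExpIn K Ce dm) (d1 : ℝ) (hd : d1 ≤ dm) (j h : ℕ) :
    DifferentiableOn ℂ (fun d : ℂ => K.eExpT 𝓡 j h d 0) (Metric.ball 0 d1) := by
  have h1 : DifferentiableOn ℂ (fun w : ℂ × ℂ => K.eExpT 𝓡 j h w.1 w.2) (Metric.ball 0 d1) :=
    (pk_eExpT_an E j h).mono (Metric.ball_subset_ball hd)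
  have := h1.comp (pk_diff_inl d1) (pk_mapsTo_ball d1)
  exact this

theorem gm_e_R (E : ExpIn K Ce dm) (j : ℕ) (d : ℂ) (hd : ‖d‖ ≤ dm) : ‖(K.eExp 𝓡 j d 0).2.2‖ ≤ Ce * ‖d‖ ^ 2 := by
  have h0 : ‖(0 : ℂ)‖ ≤ dm := by rw [norm_zero]; exact E.hd1.le
  have := (pk_eExp_spec (𝓡 := 𝓡) E j d 0 hd h0).2
  rwa [norm_zero, add_zero] at this

theorem gm_eT_bd (E : ExpIn K Ce dm) (j h : ℕ) (d : ℂ) (hd : ‖d‖ ≤ dm) : ‖K.eExpT 𝓡 j h d 0‖ ≤ Ce * ‖d‖ ^ 2 := by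
  have h0 : ‖(0 : ℂ)‖ ≤ dm := by rw [norm_zero]; exact E.hd1.le
  have := (pk_eExpT_spec (𝓡 := 𝓡) E j h d 0 hd h0).2
  rwa [norm_zero, add_zero] at this

theorem gm_e_re (E : ExpIn K Ce dm) (j : ℕ) (d : ℂ) (hd : ‖d‖ ≤ dm) :
    cjg K 𝓡 j (K.eExp 𝓡 j d 0).2.2 = (K.eExp 𝓡 j (starRingEnd ℂ d) 0).2.2 := by
  have h0 : ‖(0 : ℂ)‖ ≤ dm := by rw [norm_zero]; exact E.hd1.le
  have := pk_eExp_re (𝓡 := 𝓡) E j d 0 hd h0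
  rwa [map_zero] at this

theorem gm_Psi_bd (H : PackIn K 𝓡 j0 θ C ε0) (κr : B10.RawC) (hθ : κr.θ = θ) (hC : Cmap θ C ε0 Ce 0 ≤ κr.C) (hρ : κr.ρ ≤ ε0 / 3)
    (j h : ℕ) (hj : j0 ≤ j) (hjh : j < h) (X : (ℂ × ℂ) × K.To 𝓡 j h) (hX : X ∈ Metric.ball (0 : (ℂ × ℂ) × K.To 𝓡 j h) κr.ρ) :
    ‖PsiG K 𝓡 j h X‖ ≤ κr.θ * ‖X.2‖ + κr.C * ‖X‖ ^ 2 := by
  refine (gm_torus H j h hj hjh X (pk_ball_le hρ hX)).trans ?_
  rw [hθ]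
  have h2 : 9 * (C : ℝ) ≤ κr.C := (pk_Cmap_le2 θ C ε0 Ce 0).trans hC
  have h4 := mul_le_mul_of_nonneg_right h2 (sq_nonneg ‖X‖)
  linarith

/-- **`GMapSys` from the two bundles of hypotheses**, for every admissible choice of the constants -/
theorem gm_mapSys (hcos : K.cosOn = false) (H : PackIn K 𝓡 j0 θ C ε0) (E : ExpIn K Ce dm) (κr : B10.RawC) (d1 : ℝ) (hθ : κr.θ = θ)
    (hC : Cmap θ C ε0 Ce 0 ≤ κr.C) (hρ : κr.ρ ≤ ε0 / 3) (hd : d1 ≤ dm) (hj0 : 1 ≤ j0)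
    (hsm : κr.C * Real.exp (-κr.c * j0) / (1 - Real.exp (-κr.c)) ≤ 1 / 4) :
    GMapSys K 𝓡 j0 H.hA κr d1 where
  cos := hcos
  raw := gm_rawOK H κr hθ hC hρ hsm
  j0_pos := hj0
  Ψ_an := fun j h hj hjh => gm_PsiG_an H j h hj hjh κr.ρ (by linarith)
  Ψ_bd := fun j h hj hjh X hX => gm_Psi_bd H κr hθ hC hρ j h hj hjh X hX
  e_an := fun j => gm_e_an E d1 hd j
  e_R := fun j d hd' => (gm_e_R E j d (by linarith)).trans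
    (mul_le_mul_of_nonneg_right ((pk_Cmap_le3 θ C ε0 Ce 0).trans hC) (sq_nonneg _))
  e_re := fun j d hd' => gm_e_re E j d (by linarith)
  eT_an := fun j h => gm_eT_an E d1 hd j h
  eT_bd := fun j h d hd' => (gm_eT_bd E j h d (by linarith)).trans
    (mul_le_mul_of_nonneg_right ((pk_Cmap_le3 θ C ε0 Ce 0).trans hC) (sq_nonneg _))
  pack := ⟨θ, C, ε0, Ce, dm, hρ, hd, (pk_Cmap_le3 θ C ε0 Ce 0).trans hC, H, E⟩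

end glue

/-! ## 3. The final statement -/

/-- the diagonal of the shells of the entry family is within `C_d e^{-(ℓ log 2/2) j}` of `ℓ log 2/2π` (`B8.entry_diag`) -/
theorem gm_diag (ℓ : ℕ) (hℓ : 1 ≤ ℓ) : ∃ (Cd : ℝ) (D1 : ℕ), 0 ≤ Cd ∧ ∀ (K : Cfg) (𝓡 : Reg K.s), K.s.ℓ = ℓ → K.F = Fam.entry → D1 < K.s.D0 →
    ∀ (h j : ℕ) (hj : j < h), |(K.step 𝓡 h j hj).Γ (org _) (org _) - ℓ * Real.log 2 / (2 * Real.pi)| ≤ Cd * Real.exp (-(ℓ * Real.log 2 / 2) * j) := by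
  obtain ⟨C, D1, H⟩ := entry_diag ℓ hℓ
  refine ⟨|C|, D1, abs_nonneg _, fun K 𝓡 hl hF hD h j hj => ?_⟩
  have hLpos : 0 < K.s.L ^ j := Nat.pow_pos K.s.L_pos
  have hL : K.s.L = 2 ^ ℓ := by unfold Sc.L; rw [hl]
  have eS : K.s.L ^ (j + 1) = 2 ^ ℓ * K.s.L ^ j := by rw [pow_succ, mul_comm, hL]
  have hclear : D1 * (2 ^ ℓ * K.s.L ^ j) < (K.s.T h).M := by
    rw [← eS]
    show D1 * K.s.L ^ (j + 1) < K.s.D0 * K.s.L ^ h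
    have h1 : K.s.L ^ (j + 1) ≤ K.s.L ^ h := Nat.pow_le_pow_right K.s.L_pos hj
    have h2 : 0 < K.s.L ^ h := Nat.pow_pos K.s.L_pos
    calc D1 * K.s.L ^ (j + 1) ≤ D1 * K.s.L ^ h := Nat.mul_le_mul_left _ h1
      _ < K.s.D0 * K.s.L ^ h := Nat.mul_lt_mul_of_pos_right hD h2
  have hΓ := H (K.s.T h) rfl (K.s.L ^ j) hLpos hclear (org _)
  rw [← eS] at hΓ
  have hu : Real.sqrt ((K.s.L ^ j : ℕ) : ℝ) = Real.exp ((ℓ * Real.log 2 / 2) * j) := by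
    have e1 : ((K.s.L ^ j : ℕ) : ℝ) = Real.exp ((ℓ * Real.log 2) * j) := by
      rw [hL]
      push_cast
      rw [mul_comm _ (j : ℝ), Real.exp_nat_mul, Real.exp_nat_mul, Real.exp_log (by norm_num)]
    rw [e1, ← Real.exp_half]
    congr 1
    ring
  have hinv : 1 / Real.sqrt ((K.s.L ^ j : ℕ) : ℝ) = Real.exp (-(ℓ * Real.log 2 / 2) * j) := by
    rw [hu, one_div, ← Real.exp_neg]
    congr 1
    ring
  show |shell (K.s.T h) K.F (K.s.L ^ j) (K.s.L ^ (j + 1)) (org _) (org _) - ℓ * Real.log 2 / (2 * Real.pi)| ≤ _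
  rw [hF]
  refine hΓ.trans ?_
  rw [← hinv, div_eq_mul_one_div]
  exact mul_le_mul_of_nonneg_right (le_abs_self C) (by positivity)

/-- **the hypotheses of MAP-PACK for the gapped towers**, from `B8.weak_step_gapped`, `B8.entry_diag` and the leaves C7, C9 of MAP-PACK.
Order: geometry, padding, the window `[a₁, a₂] ⊂ (8π, ∞)`; `δ, κ`; `h₀ ≥ C₁`; `θ`; `L = 2^ℓ` (depends on the gap); `A ≥ A₀`, `D₁`; then `C, ε₀, C_e, d_m, jmin`.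
NOT depending on `ω` in the window, on `D₀ ≥ D₁`, on the regulators / cells, on the entry index `j0 ≥ jmin`. -/
theorem gmap_pack (c : Geo) (hc : c.Ok) (c0 : ℕ) (hc0 : 2 * (c.ρ + 4) ≤ c0) (hcR : c.R ≤ c0) (hpp : pp + 4 ≤ c0) (a1 a2 : ℝ) (h1 : k0 < a1) (h2 : a1 ≤ a2) :
    ∃ C1 : ℝ≥0, ∀ (δ κ : ℝ) (h0 : ℝ≥0), 0 < δ → 0 < κ → C1 ≤ h0 → ∀ θ : ℝ≥0, 0 < θ →
    ∃ ℓ0 : ℕ, ∀ ℓ ≥ ℓ0, ∃ (A0 : ℝ) (D1 : ℕ), 0 < A0 ∧ ∀ A, A0 ≤ A →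
    ∃ (C ε0 : ℝ≥0) (Ce dm : ℝ) (jmin : ℕ), 0 < ε0 ∧ 0 < dm ∧
    ∀ (D0 : ℕ) (hD : 0 < D0), D1 ≤ D0 → ∀ ω : ℝ, 0 < ω → a1 ≤ Step.alpha ω ^ 2 → Step.alpha ω ^ 2 ≤ a2 →
    ∀ (𝓡 : Reg (cfgG c δ κ h0 A ω c0 ℓ D0 hD).s) (j0 : ℕ), jmin ≤ j0 → (cfgG c δ κ h0 A ω c0 ℓ D0 hD).TowerOK 𝓡 j0 →
      PackIn (cfgG c δ κ h0 A ω c0 ℓ D0 hD) 𝓡 j0 θ C ε0 ∧ ExpIn (cfgG c δ κ h0 A ω c0 ℓ D0 hD) Ce dm := by
  obtain ⟨C1, W⟩ := weak_step_gapped c hc a1 a2 h1 h2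
  refine ⟨max C1 1, fun δ κ h0 hδ hκ hh θ hθ0 => ?_⟩
  have hh0 : 0 < h0 := lt_of_lt_of_le one_pos ((le_max_right _ _).trans hh)
  obtain ⟨ℓ0, D1w, W⟩ := W δ κ h0 hδ hκ ((le_max_left _ _).trans hh) θ hθ0
  refine ⟨max ℓ0 (max 1 (c.R * c.n0)), fun ℓ hℓ => ?_⟩
  have hℓ0 : ℓ0 ≤ ℓ := (le_max_left _ _).trans hℓ
  have hℓ1 : 1 ≤ ℓ := ((le_max_left _ _).trans (le_max_right _ _)).trans hℓ
  have hℓ2 : c.R * c.n0 ≤ 2 ^ ℓ := (((le_max_right _ _).trans (le_max_right _ _)).trans hℓ).trans Nat.lt_two_pow_self.le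
  obtain ⟨A0, W⟩ := W ℓ hℓ0
  obtain ⟨Cd, D1l, _, hdiag⟩ := gm_diag ℓ hℓ1
  refine ⟨max A0 1, max (D1w + 1) (max (D1l + 1) (max (2 * c0 + 5) (pp + 2))), by positivity, fun A hA => ?_⟩
  have hA0 : A0 ≤ A := (le_max_left _ _).trans hA
  have hApos : 0 < A := lt_of_lt_of_le one_pos ((le_max_right _ _).trans hA)
  obtain ⟨C, ε0, hε, W⟩ := W A hA0
  obtain ⟨Ce, dm, hCe, hdm, hR⟩ := pk_Rexp_norm δ κ h0 A (Real.sqrt a2) hδ hκ hApos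
  have hk0 : 0 < k0 := by unfold k0; have := Real.pi_pos; positivity
  have ha1 : 0 < a1 := hk0.trans h1
  have hcm : 0 < (ℓ : ℝ) * Real.log 2 / 2 := by
    have h1 : (0 : ℝ) < ℓ := by exact_mod_cast hℓ1
    have h2 := Real.log_pos one_lt_two
    positivity
  have hg : 0 < (a1 - k0) / (2 * a1) * (ℓ * Real.log 2 / (2 * Real.pi)) := by
    have h3 : (0 : ℝ) < ℓ := by exact_mod_cast hℓ1
    have h4 := Real.log_pos one_lt_two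
    have h5 := Real.pi_pos
    have h6 : 0 < a1 - k0 := by linarith
    positivity
  obtain ⟨j2, hj2⟩ := pk_exp_small Cd _ (ℓ * Real.log 2 / 2) hg hcm
  refine ⟨C, ε0, Ce, dm, j2, hε, hdm, fun D0 hD hD1 ω hω hω1 hω2 𝓡 j0 hj0 hT => ?_⟩
  have hDa : D1w + 1 ≤ D0 := (le_max_left _ _).trans hD1
  have hDb : D1l + 1 ≤ D0 := ((le_max_left _ _).trans (le_max_right _ _)).trans hD1
  have hDc : 2 * c0 + 5 ≤ D0 := ((le_max_left _ _).trans ((le_max_right _ _).trans (le_max_right _ _))).trans hD1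
  have hDd : pp + 2 ≤ D0 := ((le_max_right _ _).trans ((le_max_right _ _).trans (le_max_right _ _))).trans hD1
  refine ⟨{ hA := hApos
            hω := hω
            hh := hh0
            hA1 := (le_max_right _ _).trans hA
            cpp := hpp
            geo := hc
            c0 := hc0
            cR := hcR
            hℓ := hℓ2
            hD := by show 2 * c0 + 4 ≤ D0 - 1; omega
            hε := hε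
            tower := hT
            weak := fun h j hjj hj => by
              refine W (D0 - 1) (by omega) ω ((cfgG c δ κ h0 A ω c0 ℓ D0 hD).s.T h) (𝓡.gs h) ((cfgG c δ κ h0 A ω c0 ℓ D0 hD).step 𝓡 h j hj) hω hω1 hω2 ?_ (hT.step h j hjj hj)
              have e1 := hdiag (cfgG c δ κ h0 A ω c0 ℓ D0 hD) 𝓡 rfl rfl (by show D1l < D0; omega) h j hj
              have e2 := hj2 j (hj0.trans hjj)
              have e3 := (abs_le.1 (e1.trans e2)).1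
              linarith
            scopy := fun h h' j _ hj hj' => pk_stepCopy (cfgG c δ κ h0 A ω c0 ℓ D0 hD) 𝓡 rfl h h' j hj hj'
            lamc := fun h j _ hj => pk_lam_const (cfgG c δ κ h0 A ω c0 ℓ D0 hD) 𝓡 rfl (by show pp + 1 < D0; omega) h j hj },
          { hA := hApos
            hω := hω
            col := hc.col_pos
            c0 := by show 1 ≤ c0; omega
            cR := hcR
            hD := by show 3 ≤ D0; omega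
            hd1 := hdm
            hCe := hCe
            bd := fun G g hg V t z ht hz => hR (cfgG c δ κ h0 A ω c0 ℓ D0 hD).p rfl rfl rfl rfl (Real.abs_le_sqrt hω2) G g hg V c.R t z ht hz }⟩

/-- **THE EXPORT OF [B] P8.3 (gapped window) TO `B10`** : twin of `Pack.map_system`, flexible constants. -/
theorem gmap_system (c : Geo) (hc : c.Ok) (c0 : ℕ) (hc0 : 2 * (c.ρ + 4) ≤ c0) (hcR : c.R ≤ c0) (hpp : pp + 4 ≤ c0) (a1 a2 : ℝ) (h1 : k0 < a1) (h2 : a1 ≤ a2) :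
    ∃ C1 : ℝ≥0, ∀ (δ κ : ℝ) (h0 : ℝ≥0), 0 < δ → 0 < κ → C1 ≤ h0 → ∀ θ : ℝ, 0 < θ → θ < 1 →
    ∃ ℓ0 : ℕ, ∀ ℓ ≥ ℓ0, ∃ (A0 : ℝ) (D1 : ℕ), 0 < A0 ∧ ∀ A, A0 ≤ A →
    ∃ (Cm ρm dm : ℝ), 0 < ρm ∧ 0 < dm ∧
    ∀ κr : B10.RawC, κr.θ = θ → Cm ≤ κr.C → κr.ρ ≤ ρm → ∃ jmin : ℕ,
    ∀ d1 : ℝ, d1 ≤ dm → ∀ (D0 : ℕ) (hD : 0 < D0), D1 ≤ D0 → ∀ ω : ℝ, 0 < ω → a1 ≤ Step.alpha ω ^ 2 → Step.alpha ω ^ 2 ≤ a2 →
    ∀ (𝓡 : Reg (cfgG c δ κ h0 A ω c0 ℓ D0 hD).s) (j0 : ℕ), jmin ≤ j0 → (cfgG c δ κ h0 A ω c0 ℓ D0 hD).TowerOK 𝓡 j0 →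
    ∀ hA' : 0 < (cfgG c δ κ h0 A ω c0 ℓ D0 hD).p.A, GMapSys (cfgG c δ κ h0 A ω c0 ℓ D0 hD) 𝓡 j0 hA' κr d1 := by
  obtain ⟨C1, W⟩ := gmap_pack c hc c0 hc0 hcR hpp a1 a2 h1 h2
  refine ⟨C1, fun δ κ h0 hδ hκ hh θ hθ0 _ => ?_⟩
  obtain ⟨ℓ0, W⟩ := W δ κ h0 hδ hκ hh ⟨θ, hθ0.le⟩ (by exact_mod_cast hθ0)
  refine ⟨ℓ0, fun ℓ hℓ => ?_⟩
  obtain ⟨A0, D1, hA0, W⟩ := W ℓ hℓ
  refine ⟨A0, D1, hA0, fun A hA => ?_⟩
  obtain ⟨C, ε0, Ce, dm, j2, hε, hdm, W⟩ := W A hA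
  have hε' : (0 : ℝ) < ε0 := by exact_mod_cast hε
  refine ⟨Cmap ⟨θ, hθ0.le⟩ C ε0 Ce 0, ε0 / 3, dm, by positivity, hdm, fun κr hθ hC hρ => ?_⟩
  obtain ⟨j1, hj1⟩ := pk_lam_sm κr
  refine ⟨max j1 (max j2 1), fun d1 hd1 D0 hD hD1 ω hω hω1 hω2 𝓡 j0 hj0 hT hA' => ?_⟩
  have hjA : j1 ≤ j0 := (le_max_left _ _).trans hj0
  have hjB : j2 ≤ j0 := ((le_max_left _ _).trans (le_max_right _ _)).trans hj0
  have hjC : 1 ≤ j0 := ((le_max_right _ _).trans (le_max_right _ _)).trans hj0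
  obtain ⟨H, E⟩ := W D0 hD hD1 ω hω hω1 hω2 𝓡 j0 hjB hT
  exact gm_mapSys rfl H E κr d1 hθ hC hρ hd1 hjC (hj1 j0 hjA)

end

end Claimed.Agent.R285.C5
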