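import Claimed.Agent.R285.Rdo.Ker
import Claimed.Agent.R285.C5.Defs

/-!
# ROW 285, [C] s5: READ-OUT of `C5.graw_system`, the two limits of `GReadOK'` in grid form   (helper57)

`grl_hvar_tendsto` (= `v0_lim` after multiplication by `a'`), `grl_gam_bd` (= `β_bd`).  No sorry.
-/

set_option autoImplicit false

namespace Claimed.Agent.R285.C5

open Filter Topology
open Claimed.Agent.R285.RG Claimed.Agent.R285.F4a
open scoped Classical

noncomputable section

/-- `8 n² sin² (π/n) → 8 π²` -/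
theorem grl_sin_tendsto : Tendsto (fun n : ℕ => 1 / (8 * (n : ℝ) ^ 2 * Real.sin (Real.pi / n) ^ 2)) atTop (𝓝 (1 / (8 * Real.pi ^ 2))) := by
  have h1 : Tendsto (fun n : ℕ => Real.pi / (n : ℝ)) atTop (𝓝 0) :=
    tendsto_const_div_atTop_nhds_zero_nat Real.pi
  have h2 : Tendsto (fun n : ℕ => Real.sinc (Real.pi / (n : ℝ))) atTop (𝓝 1) := by
    have := (Real.continuous_sinc.tendsto 0).comp h1
    rwa [Real.sinc_zero] at this
  have h3 : Tendsto (fun n : ℕ => 1 / (8 * Real.pi ^ 2 * Real.sinc (Real.pi / (n : ℝ)) ^ 2)) atTop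
      (𝓝 (1 / (8 * Real.pi ^ 2 * 1 ^ 2))) :=
    tendsto_const_nhds.div ((h2.pow 2).const_mul _) (by positivity)
  rw [one_pow, mul_one] at h3
  refine h3.congr' ?_
  filter_upwards [eventually_ne_atTop 0] with n hn
  have hn' : (n : ℝ) ≠ 0 := by exact_mod_cast hn
  have hp : Real.pi / (n : ℝ) ≠ 0 := div_ne_zero Real.pi_pos.ne' hn'
  rw [Real.sinc_of_ne_zero hp]
  congr 1
  have := Real.pi_pos.ne'
  field_simp

/-- **`v0_lim` in grid form**: the reference variance of the height part of the test on whole cells, number of cells `→ ∞` -/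
theorem grl_hvar_tendsto (G : ℕ → Geom) (c : ∀ h, Grid (G h)) (hper : ∀ᶠ h in atTop, (G h).bc = BC.per) (hW : ∀ᶠ h in atTop, Whole (c h))
    (hn : Tendsto (fun h => (c h).n) atTop atTop) : Tendsto (fun h => Rdo.hvar (c h)) atTop (𝓝 (1 / (8 * Real.pi ^ 2))) := by
  obtain ⟨C, hC⟩ := Rdo.rdo_hvar
  -- the side of the torus tends to infinity
  have hM : Tendsto (fun h => (G h).M) atTop atTop := by
    refine tendsto_atTop_mono' _ ?_ hn
    filter_upwards [hW, hn.eventually_ge_atTop 3] with h h1 h2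
    have e : ((G h).M : ℝ) = (c h).n * (c h).m := (Rdo.rdo_hvar_num (c h) h1 h2).1
    have e' : (G h).M = (c h).n * (c h).m := by exact_mod_cast e
    rw [e']
    exact Nat.le_mul_of_pos_right _ h1.pos
  have hS := grl_sin_tendsto.comp hM
  have hsn : Tendsto (fun h => 1 / ((c h).n : ℝ)) atTop (𝓝 0) :=
    (tendsto_const_div_atTop_nhds_zero_nat (1 : ℝ)).comp hn
  have hsn2 : Tendsto (fun h => (1 / ((c h).n : ℝ)) ^ 2) atTop (𝓝 0) := by
    have := hsn.pow 2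
    rwa [zero_pow (by norm_num)] at this
  -- `β → 1`
  have hβ : Tendsto (fun h => Rdo.beta (G h).M (c h).m) atTop (𝓝 1) := by
    have hlow : Tendsto (fun h => 1 - 2 * (1 / ((c h).n : ℝ)) ^ 2) atTop (𝓝 (1 - 2 * 0)) := (hsn2.const_mul 2).const_sub 1
    rw [mul_zero, sub_zero] at hlow
    refine tendsto_of_tendsto_of_tendsto_of_le_of_le' hlow tendsto_const_nhds ?_ ?_
    · filter_upwards [hW, hn.eventually_ge_atTop 3] with h h1 h2
      obtain ⟨-, -, e, -, -, -, -, h3⟩ := Rdo.rdo_hvar_num (c h) h1 h2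
      rw [e] at h3
      linarith
    · filter_upwards [hW, hn.eventually_ge_atTop 3] with h h1 h2
      exact (Rdo.rdo_hvar_num (c h) h1 h2).2.2.2.2.2.2.1
  -- `hvar / β² → 1/(8π²)`
  have hq : Tendsto (fun h => Rdo.hvar (c h) / Rdo.beta (G h).M (c h).m ^ 2) atTop (𝓝 (1 / (8 * Real.pi ^ 2))) := by
    have hup : Tendsto (fun h => 1 / (8 * ((G h).M : ℝ) ^ 2 * Real.sin (Real.pi / (G h).M) ^ 2) + C * (1 / ((c h).n : ℝ)) ^ 2) atTop
        (𝓝 (1 / (8 * Real.pi ^ 2) + C * 0)) := hS.add (hsn2.const_mul C)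
    rw [mul_zero, add_zero] at hup
    refine tendsto_of_tendsto_of_tendsto_of_le_of_le' hS hup ?_ ?_
    · filter_upwards [hper, hW, hn.eventually_ge_atTop 3] with h h0 h1 h2
      have := (hC (G h) h0 (c h) h1 h2).2.1
      simp only [Function.comp]
      linarith
    · filter_upwards [hper, hW, hn.eventually_ge_atTop 3] with h h0 h1 h2
      have := (hC (G h) h0 (c h) h1 h2).2.2
      rw [(Rdo.rdo_hvar_num (c h) h1 h2).2.2.1] at this
      linarith
  have hfin := hq.mul (hβ.pow 2)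
  rw [one_pow, mul_one] at hfin
  refine hfin.congr' ?_
  filter_upwards [hW, hn.eventually_ge_atTop 3] with h h1 h2
  have hb : 4 / 5 ≤ Rdo.beta (G h).M (c h).m := (Rdo.rdo_hvar_num (c h) h1 h2).2.2.2.2.2.1
  have hb0 : Rdo.beta (G h).M (c h).m ≠ 0 := by
    intro h0
    rw [h0] at hb
    norm_num at hb
  field_simp

/-- **`β_bd` in grid form**: the squared amplitude is bounded, uniformly in the torus, in the cells and in `a ∈ [a₁, a₂]` -/
theorem grl_gam_bd (a1 a2 : ℝ) (h1 : 0 < a1) : ∃ Cg : ℝ, 0 < Cg ∧ ∀ a : ℝ, a1 ≤ a → a ≤ a2 → ∀ G : Geom, G.bc = BC.per → ∀ c : Grid G, Whole c → 3 ≤ c.n →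
    |Rdo.gam a c ^ 2| ≤ Cg := by
  obtain ⟨C, hC⟩ := Rdo.rdo_hvar
  refine ⟨(2 * (1 + |a2| * (1 + |C|)) / (Real.sqrt a1 * (4 / 5))) ^ 2 + 1, by positivity, fun a ha1 ha2 G hG c hc hn => ?_⟩
  obtain ⟨hMr, hM3, hsnr, hs, hN3, hβ1, hβ2, -⟩ := Rdo.rdo_hvar_num c hc hn
  obtain ⟨hf, hv1, hv2⟩ := hC G hG c hc hn
  have ha0 : 0 < a := h1.trans_le ha1
  -- `1/(8 n² sin²(π/n)) ≤ 1`
  have hsin : 1 / (8 * (G.M : ℝ) ^ 2 * Real.sin (Real.pi / G.M) ^ 2) ≤ 1 := by
    have hM0 : (3 : ℝ) ≤ G.M := by exact_mod_cast hM3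
    have hx0 : 0 < Real.pi / G.M := by positivity
    have hx1 : Real.pi / G.M ≤ Real.pi / 2 := by
      apply div_le_div_of_nonneg_left Real.pi_pos.le (by norm_num) (by linarith)
    have hj := Real.mul_le_sin hx0.le hx1
    have e : 2 / Real.pi * (Real.pi / G.M) = 2 / G.M := by
      have := Real.pi_pos.ne'
      field_simp
    rw [e] at hj
    have h2 : (2 : ℝ) ≤ G.M * Real.sin (Real.pi / G.M) := by
      rw [div_le_iff₀ (by linarith)] at hj
      linarith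
    have h3 : (4 : ℝ) ≤ (G.M : ℝ) ^ 2 * Real.sin (Real.pi / G.M) ^ 2 := by nlinarith
    rw [div_le_one (by nlinarith)]
    nlinarith
  have hsn1 : Rdo.snr c ^ 2 ≤ 1 := by
    rw [hsnr]
    have : 1 / (c.n : ℝ) ≤ 1 := by
      rw [div_le_one (by linarith)]
      linarith
    have h0 : 0 ≤ 1 / (c.n : ℝ) := by positivity
    nlinarith
  have hsn0 : 0 ≤ Rdo.snr c ^ 2 := sq_nonneg _
  have hβ0 : 0 < Rdo.beta G.M c.m := by linarith
  have hβsq : Rdo.beta G.M c.m ^ 2 ≤ 1 := by nlinarith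
  -- `0 ≤ hvar ≤ 1 + |C|`
  have hq1 : Rdo.hvar c / Rdo.beta G.M c.m ^ 2 ≤ 1 + |C| := by
    have : C * Rdo.snr c ^ 2 ≤ |C| := by
      calc C * Rdo.snr c ^ 2 ≤ |C| * Rdo.snr c ^ 2 := by gcongr; exact le_abs_self _
        _ ≤ |C| * 1 := by gcongr
        _ = |C| := mul_one _
    linarith
  have hq0 : 0 ≤ Rdo.hvar c / Rdo.beta G.M c.m ^ 2 := by
    have : 0 ≤ 1 / (8 * (G.M : ℝ) ^ 2 * Real.sin (Real.pi / G.M) ^ 2) := by positivity
    linarith
  have hh : Rdo.hvar c = Rdo.hvar c / Rdo.beta G.M c.m ^ 2 * Rdo.beta G.M c.m ^ 2 := by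
    field_simp
  have hh0 : 0 ≤ Rdo.hvar c := by rw [hh]; positivity
  have hh1 : Rdo.hvar c ≤ 1 + |C| := by
    rw [hh]
    calc Rdo.hvar c / Rdo.beta G.M c.m ^ 2 * Rdo.beta G.M c.m ^ 2 ≤ (1 + |C|) * 1 := by gcongr
      _ = 1 + |C| := mul_one _
  have hv0 : 0 ≤ Rdo.v0raw a c := by
    unfold Rdo.v0raw
    rw [hf]
    positivity
  have hv : Rdo.v0raw a c ≤ 1 + |a2| * (1 + |C|) := by
    unfold Rdo.v0raw
    rw [hf]
    have : a * Rdo.hvar c ≤ |a2| * (1 + |C|) := by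
      have : a ≤ |a2| := ha2.trans (le_abs_self _)
      gcongr
    linarith
  have hden : Real.sqrt a1 * (4 / 5) ≤ Real.sqrt a * Rdo.beta G.M c.m := by
    have := Real.sqrt_le_sqrt ha1
    gcongr
  have hden0 : 0 < Real.sqrt a1 * (4 / 5) := by positivity
  have hg0 : 0 ≤ Rdo.gam a c := by
    unfold Rdo.gam
    positivity
  have hg : Rdo.gam a c ≤ 2 * (1 + |a2| * (1 + |C|)) / (Real.sqrt a1 * (4 / 5)) := by
    unfold Rdo.gam
    gcongr
  rw [abs_of_nonneg (sq_nonneg _)]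
  have := pow_le_pow_left₀ hg0 hg 2
  linarith

end

end Claimed.Agent.R285.C5
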