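import Claimed.Agent.R285.C5.GReadDefs
import Claimed.Agent.R285.C5.GEnt
import Claimed.Agent.R285.C5.GBr
import Claimed.Agent.R285.C5.GReadLaw
import Claimed.Agent.R285.Map.Chain
import Claimed.Agent.R285.Rdo.Main
import Claimed.Agent.R285.Rdo.Gok

/-!
# ROW 285, [C] s5.4 (50-openness.tex l.931-975): READ-OUT of the gapped tower, GENERIC CORE      (architect helper143)

Everything is glue on top of READOUT layer A (`Rdo/Main.lean`, helper16), CHAIN (`Map/Chain.lean`, helper38), BRIDGE (`C5/GBr.lean`, helper212), ENT-SPACE (`C5/GEnt.lean`, helper75/247), the limits (`C5/GReadLaw.lean`, helper57).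
Generic in the tower: `K : Cfg` with `cosOn = false`, ANY regulators `𝓡`, entry index `j0`.
* s1 `grd_hist`     : a history of `B10.pl`, `B10.tr` for `rawG`, `torG` (dummy slot) which starts with `z = 0` IS a `Rdo.HistOK`;
* s2 `grd_gokG`     : the terminal package `Rdo.GOK` with `σ = Pack.sigT` (the half-period translation exists in every tower; it is NOT the `σT = id` of `torG`);
* s3 `grd_rV_bd`, `grd_resp`, `grd_rep` : the three analytic fields;   s4 `grd_out` : all fields with thresholds `(ρr, Cr, dr)` which depend on `(δ, κ, h₀, A, a₁, a₂, c_T, D₀)` only.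
The exit in the vocabulary of the assembly (`GFixed`, `GSideOK`, `GReadTop`): `C5/GReadTop.lean`.
-/

set_option autoImplicit false

namespace Claimed.Agent.R285.C5

open scoped BigOperators ENNReal NNReal
open Filter Topology
open Claimed.Agent.R285.RG Claimed.Agent.R285.B8 Claimed.Agent.R285.Pack Claimed.Agent.R285.F4a

noncomputable section

variable {K : Cfg} {𝓡 : Reg K.s}

/-! ## 1. Histories -/

/-- without the cosine coordinate the new `z` vanishes -/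
theorem grd_Phi_z (hcos : K.cosOn = false) (j : ℕ) (x : ℂ × ℂ × K.Pl 𝓡 j) : (K.Phi 𝓡 j x).2.1 = 0 := by
  simp [Cfg.Phi, Cfg.PhiT, Step.Phi, Step.tz, hcos]

theorem grd_PhiG_eq (hcos : K.cosOn = false) (j : ℕ) (x : ℂ × ℂ × K.Pl 𝓡 j) (hz : x.2.1 = 0) : PhiG K 𝓡 j x = K.Phi 𝓡 j x := by
  have e : ((x.1, 0, x.2.2) : ℂ × ℂ × K.Pl 𝓡 j) = x := Prod.ext rfl (Prod.ext hz.symm rfl)
  unfold PhiG
  rw [e]
  exact Prod.ext rfl (Prod.ext (by rw [hz, grd_Phi_z hcos]) rfl)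

theorem grd_PsiG_eq (j h : ℕ) (X : (ℂ × ℂ) × K.To 𝓡 j h) (hz : X.1.2 = 0) : PsiG K 𝓡 j h X = K.Psi 𝓡 j h X := by
  have e : (((X.1.1, 0), X.2) : (ℂ × ℂ) × K.To 𝓡 j h) = X := Prod.ext (Prod.ext rfl hz.symm) rfl
  unfold PsiG
  rw [e]

section hist

variable (hA : 0 < K.p.A) (j0 : ℕ) (e : B10.Curve (rawG K 𝓡 hA j0)) (eT : ∀ j h, ℂ → K.To 𝓡 j h)

/-- the dummy slot stays where it was at the entry -/
theorem grd_pl_z (d : ℂ) (hz : (e j0 d).2.1 = 0) : ∀ j, j0 ≤ j → (B10.pl (rawG K 𝓡 hA j0) e j d).2.1 = 0 := by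
  intro j hj
  induction j, hj using Nat.le_induction with
  | base =>
    rw [B10.gc_pl_le (rawG K 𝓡 hA j0) e (le_refl j0)]
    exact hz
  | succ j hj ih =>
    rw [B10.gc_pl_succ (rawG K 𝓡 hA j0) e hj d]
    exact ih

/-- **a history of the dummy-slot maps is a history of MAP** -/
theorem grd_hist (hcos : K.cosOn = false) (d : ℂ) (h : ℕ) (ρ : ℝ) (hz : (e j0 d).2.1 = 0)
    (hin : ∀ j, j0 ≤ j → j ≤ h → ‖B10.pl (rawG K 𝓡 hA j0) e j d‖ < ρ ∧ ‖B10.tr (rawG K 𝓡 hA j0) (torG K 𝓡) e eT h j d‖ < ρ)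
    (hcp : Rdo.IsCp K 𝓡 j0 h (eT j0 h d) (e j0 d).2.2) :
    Rdo.HistOK K 𝓡 j0 h ρ (fun j => B10.pl (rawG K 𝓡 hA j0) e j d) (fun j => B10.tr (rawG K 𝓡 hA j0) (torG K 𝓡) e eT h j d) where
  xs := fun j hj _ => by
    show B10.pl (rawG K 𝓡 hA j0) e (j + 1) d = K.Phi 𝓡 j (B10.pl (rawG K 𝓡 hA j0) e j d)
    rw [B10.gc_pl_succ (rawG K 𝓡 hA j0) e hj d]
    exact grd_PhiG_eq hcos j _ (grd_pl_z hA j0 e d hz j hj)
  as := fun j hj _ => by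
    show B10.tr (rawG K 𝓡 hA j0) (torG K 𝓡) e eT h (j + 1) d = _
    rw [B10.gc_tr_succ (rawG K 𝓡 hA j0) (torG K 𝓡) e eT h hj d]
    exact grd_PsiG_eq j h _ (grd_pl_z hA j0 e d hz j hj)
  xin := fun j hj hjh => (hin j hj hjh).1
  ain := fun j hj hjh => (hin j hj hjh).2
  zz := fun _ j hj _ => grd_pl_z hA j0 e d hz j hj
  cp0 := by
    show Rdo.IsCp K 𝓡 j0 h (B10.tr (rawG K 𝓡 hA j0) (torG K 𝓡) e eT h j0 d) (B10.pl (rawG K 𝓡 hA j0) e j0 d).2.2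
    rw [B10.gc_pl_le (rawG K 𝓡 hA j0) e (le_refl j0), B10.gc_tr_le (rawG K 𝓡 hA j0) (torG K 𝓡) e eT h (le_refl j0)]
    exact hcp

end hist

/-! ## 2. The inputs -/

/-- CHAIN on a smaller ball -/
theorem grd_chain_mono {j0 : ℕ} {ρ ρ' d1 Ce : ℝ} (H : Rdo.ChainOK K 𝓡 j0 ρ d1 Ce) (hρ : ρ' ≤ ρ) : Rdo.ChainOK K 𝓡 j0 ρ' d1 Ce where
  cp := fun j h hj0 hj x a hx ha hz hcp => H.cp j h hj0 hj x a (hx.trans_le hρ) (ha.trans_le hρ) hz hcp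
  cp_of_eq := H.cp_of_eq
  exact := fun j h hj0 hj X hX hz => H.exact j h hj0 hj X (Metric.ball_subset_ball hρ hX) hz
  exp_eq := H.exp_eq
  exp_bd := H.exp_bd
  exp_cp := H.exp_cp

/-- **the terminal package** of READOUT with the half-period translation of MAP-PACK -/
theorem grd_gokG : ∃ D1 : ℕ, ∀ (δ κ : ℝ) (h0 : ℝ≥0) (A αmax : ℝ) (cT : ℝ≥0) (D0 : ℕ), 0 < δ → 0 < κ → 0 < h0 → 1 ≤ A → D1 ≤ D0 →
    ∃ ρ1 C1 : ℝ, 0 < ρ1 ∧ 0 ≤ C1 ∧ ∀ K : Cfg, K.p.δ = δ → K.p.κ = κ → K.p.h0 = h0 → K.p.A = A → K.s.D0 = D0 → K.F = Fam.entry → 1 ≤ K.s.ℓ →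
      0 < K.p.ω → Step.alpha K.p.ω ≤ αmax → ∀ (𝓡 : Reg K.s) (j0 : ℕ), Rdo.TermGeo K 𝓡 j0 cT → ∀ h, j0 ≤ h →
      Rdo.GOK K 𝓡 h (sigT K 𝓡 h h) ρ1 C1 := by
  obtain ⟨D1, H⟩ := Rdo.rdo_gok
  refine ⟨D1, fun δ κ h0 A αmax cT D0 hδ hκ hh hA hD => ?_⟩
  obtain ⟨ρ1, C1, h1, h2, H⟩ := H δ κ h0 A αmax cT D0 hδ hκ hh hA hD
  refine ⟨ρ1, C1, h1, h2, fun K e1 e2 e3 e4 e5 hF hℓ hω hα 𝓡 j0 geo h hj => ?_⟩
  refine H K e1 e2 e3 e4 e5 hF hℓ hω hα 𝓡 j0 geo h hj _ fun a => ?_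
  rw [pk_sigT_act K 𝓡 (by rw [e4]; linarith)]
  exact pk_eqOn_refl _ _

/-- the eigenvalue of `𝖯_{L^j}` on the first cosine lies in `[0, 1]` -/
theorem grd_pG (hF : K.F = Fam.entry) (hD : 2 ≤ K.s.D0) (j h : ℕ) (hj : j ≤ h) : 0 ≤ Rdo.pG K j h ∧ Rdo.pG K j h ≤ 1 := by
  obtain ⟨C, hC⟩ := Rdo.rdo_pG
  have hu : 1 ≤ K.s.L ^ j := Nat.one_le_pow _ _ K.s.L_pos
  have h2 : 2 * K.s.L ^ j ≤ (K.s.T h).M := by
    show 2 * K.s.L ^ j ≤ K.s.D0 * K.s.L ^ h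
    exact Nat.mul_le_mul hD (Nat.pow_le_pow_right K.s.L_pos hj)
  have := hC (K.s.T h).M (K.s.L ^ j) hu h2
  unfold Rdo.pG
  rw [hF]
  exact ⟨this.1, this.2.1⟩

/-- `k_V = 2 n² sin² (π/n) ∈ [6, 20]` -/
theorem grd_kV (K : Cfg) (hD : 3 ≤ K.s.D0) (h : ℕ) : 1 / 20 ≤ K.kV h ∧ K.kV h ≤ 20 := by
  have hM3 : 3 ≤ (K.s.T h).M := by
    show 3 ≤ K.s.D0 * K.s.L ^ h
    calc 3 ≤ K.s.D0 * 1 := by omega
      _ ≤ _ := Nat.mul_le_mul_left _ (Nat.one_le_pow _ _ K.s.L_pos)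
  have e : K.kV h = 2 * (((K.s.T h).M : ℝ) ^ 2 * Real.sin (Real.pi / (K.s.T h).M) ^ 2) := Rdo.rdo_mult_kV rfl hM3
  obtain ⟨c1, c2⟩ := Rdo.rdo_cosCost (K.s.T h).M hM3
  have hsin := (Rdo.rdo_hvar_eig (G := K.s.T h) rfl hM3).1
  have hn : (3 : ℝ) ≤ ((K.s.T h).M : ℝ) := by exact_mod_cast hM3
  rw [e]
  generalize ((K.s.T h).M : ℝ) = n at *
  have hq : 0 < n ^ 2 * Real.sin (Real.pi / n) ^ 2 := by positivity
  generalize n ^ 2 * Real.sin (Real.pi / n) ^ 2 = q at *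
  have hpi := Real.pi_gt_three
  have hpi2 := Real.pi_lt_d2
  have hpos := Real.pi_pos
  have h1 : 1 / Real.pi ≤ Real.pi / q := by linarith
  have h2 : q ≤ Real.pi ^ 2 := by
    rw [div_le_div_iff₀ hpos hq] at h1
    nlinarith
  have h3 : 2 / n ^ 2 ≤ 2 / 9 := by
    apply div_le_div_of_nonneg_left (by norm_num) (by norm_num)
    nlinarith
  have h4 : 1 / Real.pi ≤ 1 / 3 := by
    apply div_le_div_of_nonneg_left (by norm_num) (by norm_num) hpi.le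
  have h5 : Real.pi / q ≤ 1 := by linarith
  have h6 : Real.pi ≤ q := by
    rwa [div_le_one hq] at h5
  constructor
  · linarith
  · nlinarith

/-- **the standing hypotheses of the read-out of one gapped tower**: `(ρ1, C1)` = constants of the terminal package, `(ρc, dc, Ce)` = constants of CHAIN, `dst` = radius of the exact Gaussian response -/
structure GRdIn (K : Cfg) (𝓡 : Reg K.s) (j0 : ℕ) (cT : ℝ≥0) (ρ1 C1 ρc dc Ce dst : ℝ) : Prop where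
  cos : K.cosOn = false
  base : Rdo.Base K 𝓡 j0 cT
  chain : Rdo.ChainOK K 𝓡 j0 ρc dc Ce
  gok : ∀ h, j0 ≤ h → Rdo.GOK K 𝓡 h (sigT K 𝓡 h h) ρ1 C1
  pure : Rdo.PureAt K dst
  hρ1 : 0 < ρ1
  hdc : 0 < dc
  hdst : 0 < dst
  hD : 3 ≤ K.s.D0
  hℓ : 1 ≤ K.s.ℓ
  n3 : ∀ h, j0 ≤ h → 3 ≤ (𝓡.gs h).n

/-! ## 3. The analytic fields -/

section fields

variable {j0 : ℕ} {cT : ℝ≥0} {ρ1 C1 ρc dc Ce dst : ℝ}

/-- `TorOK.rV_bd` -/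
theorem grd_rV_bd (H : GRdIn K 𝓡 j0 cT ρ1 C1 ρc dc Ce dst) (h : ℕ) (hj : j0 ≤ h) (X : (ℂ × ℂ) × K.To 𝓡 h h)
    (hX : X ∈ Metric.ball (0 : (ℂ × ℂ) × K.To 𝓡 h h) ρ1) :
    ‖Rdo.rV0 K 𝓡 h X - K.kV h * X.1.1‖ ≤ (2 * (4 * C1) / ρ1 + 4 * (4 * C1) / ρ1 ^ 2) * (‖X.2‖ + ‖X‖ ^ 2) := by
  have hp := grd_pG H.base.hF (by have := H.hD; omega) h h le_rfl
  exact (Rdo.rdo_r0 (wM := 0) H.base.hh H.chain H.pure H.hdc H.hdst (H.gok h hj) H.hρ1 hp.1 hp.2 (by simp)).V_bd X hX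

/-- `PureOK.resp` -/
theorem grd_resp (H : GRdIn K 𝓡 j0 cT ρ1 C1 ρc dc Ce dst) (hA : 0 < K.p.A) (ρ : ℝ) (hρ1 : ρ ≤ ρ1) (hρc : ρ ≤ ρc) (h : ℕ) (hj : j0 ≤ h)
    (d : ℂ) (hd1 : ‖d‖ < dc) (hd2 : ‖d‖ < dst) (hd3 : ‖d‖ ≤ 1 / 2)
    (hin : ∀ j, j0 ≤ j → j ≤ h → ‖B10.pl (rawG K 𝓡 hA j0) (fun j d => K.eExp 𝓡 j d 0) j d‖ < ρ ∧
      ‖B10.tr (rawG K 𝓡 hA j0) (torG K 𝓡) (fun j d => K.eExp 𝓡 j d 0) (fun j h d => K.eExpT 𝓡 j h d 0) h j d‖ < ρ) :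
    ‖Rdo.rV0 K 𝓡 h (((B10.pl (rawG K 𝓡 hA j0) (fun j d => K.eExp 𝓡 j d 0) h d).1, (B10.pl (rawG K 𝓡 hA j0) (fun j d => K.eExp 𝓡 j d 0) h d).2.1),
      B10.tr (rawG K 𝓡 hA j0) (torG K 𝓡) (fun j d => K.eExp 𝓡 j d 0) (fun j h d => K.eExpT 𝓡 j h d 0) h h d)‖ ≤ 40 * ‖d‖ := by
  have hch := grd_chain_mono H.chain hρc
  have hH := grd_hist hA j0 (fun j d => K.eExp 𝓡 j d 0) (fun j h d => K.eExpT 𝓡 j h d 0) H.cos d h ρ rfl hin (H.chain.exp_cp j0 h hj d hd1)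
  have hT := Rdo.HistOK.toT hch hH
  have hp := grd_pG H.base.hF (by have := H.hD; omega) j0 h hj
  have hk := grd_kV K H.hD h
  have key := Rdo.rdo_resp0 H.base hch H.pure hj (H.gok h hj) hρ1 hp.1 hp.2 hT d hd1 hd2 (by linarith) (by
    show (((B10.pl (rawG K 𝓡 hA j0) (fun j d => K.eExp 𝓡 j d 0) j0 d).1, (B10.pl (rawG K 𝓡 hA j0) (fun j d => K.eExp 𝓡 j d 0) j0 d).2.1),
      B10.tr (rawG K 𝓡 hA j0) (torG K 𝓡) (fun j d => K.eExp 𝓡 j d 0) (fun j h d => K.eExpT 𝓡 j h d 0) h j0 d) = _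
    have e1 := congrFun (B10.gc_pl_le (rawG K 𝓡 hA j0) (fun j d => K.eExp 𝓡 j d 0) (le_refl j0)) d
    have e2 := congrFun (B10.gc_tr_le (rawG K 𝓡 hA j0) (torG K 𝓡) (fun j d => K.eExp 𝓡 j d 0) (fun j h d => K.eExpT 𝓡 j h d 0) h (le_refl j0)) d
    exact Prod.ext (Prod.ext (congrArg (fun x => x.1) e1) (congrArg (fun x => x.2.1) e1)) e2)
  rw [key, norm_div, norm_mul, Complex.norm_real, Real.norm_of_nonneg (by linarith [hk.1])]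
  have hlow : 1 / 2 ≤ ‖(1 : ℂ) - Rdo.pG K j0 h * d‖ := by
    have h1 : ‖(Rdo.pG K j0 h : ℂ) * d‖ ≤ 1 / 2 := by
      rw [norm_mul, Complex.norm_real, Real.norm_of_nonneg hp.1]
      nlinarith [norm_nonneg d]
    have h2 : ‖(1 : ℂ)‖ - ‖(Rdo.pG K j0 h : ℂ) * d‖ ≤ ‖(1 : ℂ) - Rdo.pG K j0 h * d‖ := norm_sub_norm_le _ _
    rw [norm_one] at h2
    linarith
  rw [div_le_iff₀ (by linarith)]
  nlinarith [norm_nonneg d, hk.2]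

/-- **`GReadOK'.rep`** at one stop -/
theorem grd_rep (H : GRdIn K 𝓡 j0 cT ρ1 C1 ρc dc Ce dst) (hA : 0 < K.p.A) (K0 : ∀ j, ℝ → K.Pl 𝓡 j) (T0 : ∀ j h, ℝ → K.To 𝓡 j h)
    (δs : ℝ) (s0 : ℕ) (I : Set ℝ) (ε : ℝ) (E : GEntOK K 𝓡 j0 δs s0 I ε (K0 j0) (fun h => T0 j0 h)) (ρ : ℝ) (hρ1 : ρ ≤ ρ1) (hρc : ρ ≤ ρc)
    (h : ℕ) (hj : j0 < h) (hm : 𝓡.hmin ≤ h) (hs0 : Whole (subGrid (K.s.T h) s0)) (b : ℝ) (hb : b ∈ I) (hb0 : 0 < b)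
    (hin : (sysG K 𝓡 hA j0 K0 T0).Inside ρ b h) :
    strTorVar δs (subGrid (K.s.T h) s0).m (𝓡.gs h).m b (K.s.T h).M
      = grd_v0 K 𝓡 h + grd_bV K 𝓡 h * (Rdo.rV0 K 𝓡 h ((sysG K 𝓡 hA j0 K0 T0).ts b h h)).re := by
  have hW : Whole (𝓡.gs h) := H.base.geo.cells h hj.le
  obtain ⟨wt, br⟩ := gbridge (G := K.s.T h) rfl hW hs0 δs b hb0
  have hch := grd_chain_mono H.chain hρc
  have hre : ((b : ℂ)).re = b := Complex.ofReal_re b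
  have hH := grd_hist hA j0 (sysG K 𝓡 hA j0 K0 T0).eK (fun j h b => T0 j h b.re) H.cos (b : ℂ) h ρ rfl
    (fun j h1 h2 => ⟨(hin j h1 h2).1, lt_of_le_of_lt (norm_snd_le ((sysG K 𝓡 hA j0 K0 T0).ts b h j)) (hin j h1 h2).2⟩)
    (by
      show Rdo.IsCp K 𝓡 j0 h (T0 j0 h ((b : ℂ)).re) (K0 j0 ((b : ℂ)).re)
      rw [hre]
      exact H.chain.cp_of_eq j0 h hj hm _ _ (E.copy b hb h hj hm))
  have hT := Rdo.HistOK.toT hch hH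
  have e1 := congrFun (B10.gc_pl_le (rawG K 𝓡 hA j0) (sysG K 𝓡 hA j0 K0 T0).eK (le_refl j0)) (b : ℂ)
  have e2 := congrFun (B10.gc_tr_le (rawG K 𝓡 hA j0) (torG K 𝓡) (sysG K 𝓡 hA j0 K0 T0).eK (fun j h b => T0 j h b.re) h (le_refl j0)) (b : ℂ)
  have e2' : B10.tr (rawG K 𝓡 hA j0) (torG K 𝓡) (sysG K 𝓡 hA j0 K0 T0).eK (fun j h b => T0 j h b.re) h j0 (b : ℂ) = T0 j0 h b := by
    rw [e2]
    show T0 j0 h ((b : ℂ)).re = _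
    rw [hre]
  have R : Rdo.RepIn K 𝓡 j0 h ρ (fun j => (((B10.pl (rawG K 𝓡 hA j0) (sysG K 𝓡 hA j0 K0 T0).eK j (b : ℂ)).1,
      (B10.pl (rawG K 𝓡 hA j0) (sysG K 𝓡 hA j0 K0 T0).eK j (b : ℂ)).2.1),
      B10.tr (rawG K 𝓡 hA j0) (torG K 𝓡) (sysG K 𝓡 hA j0 K0 T0).eK (fun j h b => T0 j h b.re) h j (b : ℂ)))
      (WS δs b (𝓡.gs h) (subGrid (K.s.T h) s0)) :=
    { hj := hj.le
      h3 := H.n3 h hj.le
      hist := hT
      wt := wt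
      scal := Prod.ext (congrArg (fun x => x.1) e1) (congrArg (fun x => x.2.1) e1)
      ident := by
        obtain ⟨cG, hc, hid⟩ := E.ident b hb h hj.le hm
        refine ⟨cG, hc, fun ψ => ?_⟩
        show _ = (cG : ℂ) * Rdo.Zlev K 𝓡 j0 h ((0, 0), B10.tr (rawG K 𝓡 hA j0) (torG K 𝓡) (sysG K 𝓡 hA j0 K0 T0).eK (fun j h b => T0 j h b.re) h j0 (b : ℂ)) (toC ψ)
        rw [e2']
        exact hid ψ }
  have key := Rdo.rdo_repV H.base hch (H.gok h hj.le) hρ1 R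
  have hβ : 4 / 5 ≤ Rdo.beta (K.s.T h).M (𝓡.gs h).m := (Rdo.rdo_hvar_num (𝓡.gs h) hW (H.n3 h hj.le)).2.2.2.2.2.1
  have hβ0 : Rdo.beta (K.s.T h).M (𝓡.gs h).m ≠ 0 := by
    intro h0
    rw [h0] at hβ
    norm_num at hβ
  have key2 := congrArg Complex.re key
  rw [Complex.ofReal_re, Complex.add_re, Complex.ofReal_re] at key2
  unfold Rdo.rV at key2
  rw [Complex.re_ofReal_mul] at key2
  rw [br]
  unfold Rdo.cVW Rdo.v0 Rdo.nV at key2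
  unfold grd_v0 grd_bV
  rw [div_eq_iff (pow_ne_zero 2 hβ0)] at key2
  rw [key2]
  show _ = Rdo.aa K * Rdo.hvar (𝓡.gs h) + Rdo.gam (Rdo.aa K) (𝓡.gs h) ^ 2 *
    (Rdo.rV0 K 𝓡 h (((B10.pl (rawG K 𝓡 hA j0) (sysG K 𝓡 hA j0 K0 T0).eK h (b : ℂ)).1,
      (B10.pl (rawG K 𝓡 hA j0) (sysG K 𝓡 hA j0 K0 T0).eK h (b : ℂ)).2.1),
      B10.tr (rawG K 𝓡 hA j0) (torG K 𝓡) (sysG K 𝓡 hA j0 K0 T0).eK (fun j h b => T0 j h b.re) h h (b : ℂ))).re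
  field_simp

/-- the number of cells per side tends to infinity -/
theorem grd_n_tendsto (H : GRdIn K 𝓡 j0 cT ρ1 C1 ρc dc Ce dst) : Tendsto (fun h => (𝓡.gs h).n) atTop atTop := by
  obtain ⟨sd, hsd, hc⟩ := H.base.tower.cells
  refine tendsto_atTop.2 fun N => ?_
  filter_upwards [eventually_ge_atTop (max (j0 + 1) (N * sd))] with h hh
  have h1 : j0 < h := lt_of_lt_of_le (Nat.lt_succ_self j0) ((le_max_left _ _).trans hh)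
  have h2 : N * sd ≤ h := (le_max_right _ _).trans hh
  have hW : Whole (𝓡.gs h) := H.base.geo.cells h h1.le
  have hM : (K.s.T h).M = (𝓡.gs h).n * (𝓡.gs h).m := whole_card hW
  rw [(hc h h1).1] at hM
  have hL : 2 ≤ K.s.L := by
    show 2 ≤ 2 ^ K.s.ℓ
    calc 2 = 2 ^ 1 := rfl
      _ ≤ 2 ^ K.s.ℓ := Nat.pow_le_pow_right (by norm_num) H.hℓ
  have h3 : h < K.s.L ^ h := Nat.lt_pow_self hL
  have h4 : K.s.L ^ h ≤ (K.s.T h).M := by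
    show K.s.L ^ h ≤ K.s.D0 * K.s.L ^ h
    exact Nat.le_mul_of_pos_left _ (by have := H.hD; omega)
  have h5 : N * sd ≤ (𝓡.gs h).n * sd := by omega
  exact Nat.le_of_mul_le_mul_right h5 hsd

/-- **`GReadOK'.v0_lim`** -/
theorem grd_v0_lim (H : GRdIn K 𝓡 j0 cT ρ1 C1 ρc dc Ce dst) : Tendsto (grd_v0 K 𝓡) atTop (𝓝 (Rdo.aa K / (8 * Real.pi ^ 2))) := by
  have h1 := grl_hvar_tendsto (fun h => K.s.T h) (fun h => 𝓡.gs h) (Eventually.of_forall fun _ => rfl)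
    ((eventually_ge_atTop j0).mono fun h hh => H.base.geo.cells h hh) (grd_n_tendsto H)
  have h2 := h1.const_mul (Rdo.aa K)
  rw [mul_one_div] at h2
  exact h2

end fields

end

end Claimed.Agent.R285.C5
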