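import Claimed.Agent.R285.C5.GMap
import Claimed.Agent.R285.Rdo.Defs

/-!
# ROW 285, [C] s5.4 (50-openness.tex l.931-975): READ-OUT of the gapped tower, DEFINITIONS (no `sorry`)      (architect helper143)

The torus data `torG`, the two numbers `grd_v0`, `grd_bV` of `GRawSys`, and THE CONCRETE SYSTEM `sysG` of one gapped tower `(K, 𝓡, j0)` with physical entries `(K0, T0)`.
Everything is in the vocabulary of `Rdo/Defs.lean` (helper16): with `c = 𝓡.gs h`, `a = Rdo.aa K = α²` (`= a'`), `X = Rdo.Xobs c`, `β = Rdo.beta n s`, `γ = Rdo.gam a c`, and ANY weight `W` on the observations,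
`Rdo.rdo_repV` reads `(Var_W X - ‖f‖²)/β² = a hvar/β² + (γ²/β²) rV0 (X_h)`, i.e.   `Var_W X - ‖f‖² = grd_v0 h + grd_bV h * rV0 (X_h)`.
For `W` = the strengthened weight the left side is `strTorVar δ s0 s b n` (BRIDGE, `C5/GBr.lean`, helper212).
The read-out of `torG` is the BASIC read-out `Rdo.rV0` (`γ = 1`), multiplier `K.kV h = ⟨q_n, A q_n⟩ = 2 n² sin² (π/n) → 2π²`.
-/

set_option autoImplicit false

namespace Claimed.Agent.R285.C5

open scoped BigOperators ENNReal NNReal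
open Filter Topology
open Claimed.Agent.R285.RG Claimed.Agent.R285.B8 Claimed.Agent.R285.Pack

noncomputable section

/-- **the torus data of the gapped tower** in the format of `B10`: dummy `z`-slot (`PsiG`), `σT = id`, basic gradient read-out -/
def torG (K : Cfg) (𝓡 : Reg K.s) : B10.Tor where
  T := K.To 𝓡
  Ψ := PsiG K 𝓡
  rV := Rdo.rV0 K 𝓡
  kV := K.kV
  σT := fun _ _ => ContinuousLinearMap.id ℂ _

/-- the reference variance `a ⟨B^* f, A⁺ B^* f⟩` of `⟨B_s α ψ, f_n⟩` on the torus stopped at `h` -/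
def grd_v0 (K : Cfg) (𝓡 : Reg K.s) (h : ℕ) : ℝ := Rdo.aa K * Rdo.hvar (𝓡.gs h)

/-- the squared amplitude `γ_{n,s}²` of the background produced by the source `w ⟨y, f_n⟩` -/
def grd_bV (K : Cfg) (𝓡 : Reg K.s) (h : ℕ) : ℝ := Rdo.gam (Rdo.aa K) (𝓡.gs h) ^ 2

/-- **THE CONCRETE SYSTEM** of the gapped tower `(K, 𝓡)`, entry index `j0`, physical entries `K0`, `T0` (only `j = j0` is used) -/
def sysG (K : Cfg) (𝓡 : Reg K.s) (hA : 0 < K.p.A) (j0 : ℕ) (K0 : ∀ j, ℝ → K.Pl 𝓡 j) (T0 : ∀ j h, ℝ → K.To 𝓡 j h) : GRawSys where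
  F := rawG K 𝓡 hA j0
  𝒯 := torG K 𝓡
  e := fun j d => K.eExp 𝓡 j d 0
  eT := fun j h d => K.eExpT 𝓡 j h d 0
  K0 := K0
  T0 := T0
  v0 := grd_v0 K 𝓡
  βV := grd_bV K 𝓡

/-- Stores the on-demand equation lemmas of the definitions above in THIS module (rule 6 hygiene). -/
theorem grd_defs_forced : True := by
  have := @torG.eq_1
  have := @grd_v0.eq_1
  have := @grd_bV.eq_1
  have := @sysG.eq_1
  trivial

end

end Claimed.Agent.R285.C5
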