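import Claimed.Agent.R285.C5.PotEP
import Claimed.Agent.R285.C5.ResL

/-!
# ROW 285, [C] s5, package PK-C5-POT1 (architect helper83), file 3: THE INTERPOLATION (INT-b)

`U : c0.I → ℝ` an array on the subcells, `F` a set of subcell faces (`= subFaces T N`), `peS F U = ∑_{φ ∈ F} (δ_φ U)²`.
VERTICES of the subcell grid are indexed by the subcell `z` to their SOUTH-WEST; the four subcells around the vertex are `peSub c0 z q`, the links are the four faces at the vertex (`pePatAt`).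
VERTEX VALUES `peVv F U z q` = mean of `U` over the face-connected sector of `q` at the vertex: one value per sector, so two subcells joined by a face of `F` see the SAME values at the two ends of the face.
`peW` = on every subcell the bilinear (Q1) interpolation of its four corner values, sampled at the `N × N` sites (`λ = (i + 1/2)/N`).   NO ghost layers, NO case distinction in the definition.

## Energy: `∑_{bonds} (∇ w)² ≤ ½ ∑_κ ∑_{4 sides} d² ≤ ∑_z A_z ≤ ½ ∑_z D_z = peS F U`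
* `pe_W_energy` (fine lattice): for a horizontal bond `v → v'`: `w v' - w v = ½ G v + ½ G v'`, `G v = N⁻¹ ((1-λ₂) d_south + λ₂ d_north)` of the subcell of `v` (inner bond: `G v = G v'`; crossing bond: common corner values);
  Jensen; every site is the source / target of at most one horizontal bond; `∑_{j<N} λ_j = N/2`.
* `pe_side_sq`: `d_north κ = (V_NE - m) - (V_NW - m)`, `m` = mean of `U` over the one or two subcells along the side; `(x-y)² ≤ 2x²+2y²`; reindex `(κ, corner) ↔ (vertex, square)`.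
* `pe_A_le`: the vertex inequality with constant 1/2 (regular patterns or flat data).
* `pe_sum_D`: every face has two ends.
## Means: `∑_{sites of κ} w = N² · ¼ ∑ corners`; `∑_{q} (V q - u q) = 0` at every vertex, so in the mean over a cell only the `4t` vertices on its boundary survive: error `≤ 128 t⁻³ peS`.
-/

set_option autoImplicit false

namespace Claimed.Agent.R285.C5

open Claimed.Agent.R285.RG Claimed.Agent.R285.F4a
open scoped Classical

noncomputable section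

variable {G : Geom}

/-- cyclic predecessor -/
def pv {n : ℕ} (i : Fin n) : Fin n := ⟨(i.1 + (n - 1)) % n, Nat.mod_lt _ i.pos⟩

theorem pe_nx_pv {n : ℕ} (i : Fin n) : nx (pv i) = i := by
  apply Fin.ext
  have hn := i.pos
  have hi := i.2
  show ((i.1 + (n - 1)) % n + 1) % n = i.1
  rw [Nat.mod_add_mod]
  have : i.1 + (n - 1) + 1 = i.1 + n := by omega
  rw [this, Nat.add_mod_right, Nat.mod_eq_of_lt hi]

theorem pe_pv_nx {n : ℕ} (i : Fin n) : pv (nx i) = i := by
  apply Fin.ext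
  have hn := i.pos
  have hi := i.2
  show ((i.1 + 1) % n + (n - 1)) % n = i.1
  rw [Nat.mod_add_mod]
  have : i.1 + 1 + (n - 1) = i.1 + n := by omega
  rw [this, Nat.add_mod_right, Nat.mod_eq_of_lt hi]

/-- `nx` as a permutation -/
def nxE (n : ℕ) : Equiv.Perm (Fin n) := ⟨nx, pv, pe_pv_nx, pe_nx_pv⟩

section defs

variable (c0 : Grid G) (F : Finset (Face c0)) (U : c0.I → ℝ)

/-- the energy of an array on the subcells -/
def peS : ℝ := ∑ φ ∈ F, (U (fnb c0 φ) - U φ.1) ^ 2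

/-- the four subcells around the vertex `z` -/
def peSub (z : c0.I) (q : Bool × Bool) : c0.I := (if q.1 then nx z.1 else z.1, if q.2 then nx z.2 else z.2)

/-- the links at the vertex `z` -/
def pePatAt (z : c0.I) : PePat where
  hl β := ((z.1, if β then nx z.2 else z.2), true) ∈ F
  vl α := ((if α then nx z.1 else z.1, z.2), false) ∈ F

/-- the values around the vertex -/
def peAt (z : c0.I) (q : Bool × Bool) : ℝ := U (peSub c0 z q)

/-- the vertex values -/
def peVv (z : c0.I) (q : Bool × Bool) : ℝ := (pePatAt c0 F z).V (peAt c0 U z) q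

/-- the vertex at the corner `s` (`s.1` east, `s.2` north) of the subcell `κ` -/
def peVtx (κ : c0.I) (s : Bool × Bool) : c0.I := (if s.1 then κ.1 else pv κ.1, if s.2 then κ.2 else pv κ.2)

/-- the corner values of a subcell -/
def peCv (κ : c0.I) (s : Bool × Bool) : ℝ := peVv c0 F U (peVtx c0 κ s) (!s.1, !s.2)

/-- the increment along the south (`β = false`) / north side -/
def peDh (κ : c0.I) (β : Bool) : ℝ := peCv c0 F U κ (true, β) - peCv c0 F U κ (false, β)

/-- the increment along the west (`α = false`) / east side -/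
def peDv (κ : c0.I) (α : Bool) : ℝ := peCv c0 F U κ (α, true) - peCv c0 F U κ (α, false)

/-- the mean of the four corner values -/
def peSm (κ : c0.I) : ℝ := (∑ s : Bool × Bool, peCv c0 F U κ s) / 4

/-- the fractional coordinate of a site in its subcell -/
def peLam (N x : ℕ) : ℝ := (((x % N : ℕ) : ℝ) + 1 / 2) / N

/-- **the interpolant** -/
def peW (v : G.V) : ℝ :=
  (1 - peLam c0.m v.1) * (1 - peLam c0.m v.2) * peCv c0 F U (c0.blk v) (false, false)
    + peLam c0.m v.1 * (1 - peLam c0.m v.2) * peCv c0 F U (c0.blk v) (true, false)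
    + (1 - peLam c0.m v.1) * peLam c0.m v.2 * peCv c0 F U (c0.blk v) (false, true)
    + peLam c0.m v.1 * peLam c0.m v.2 * peCv c0 F U (c0.blk v) (true, true)

/-- the data are good at every vertex: regular pattern or flat -/
def PeGood : Prop := ∀ z : c0.I, (pePatAt c0 F z).Reg ∨ (pePatAt c0 F z).D (peAt c0 U z) = 0

end defs

variable {c0 : Grid G}

/-! ## 1. The subcell level (any set of faces `F`; only `Fin`, `nx`, `pv`) -/

/-- `κ` is the square `(!s.1, !s.2)` at its corner `s` -/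
theorem pe_sub_vtx (κ : c0.I) (s : Bool × Bool) : peSub c0 (peVtx c0 κ s) (!s.1, !s.2) = κ := by
  obtain ⟨s1, s2⟩ := s
  cases s1 <;> cases s2 <;> simp [peSub, peVtx, pe_nx_pv]

/-- shift of the second index -/
theorem pe_sum_nx2 (f : c0.I → ℝ) : ∑ z : c0.I, f (z.1, nx z.2) = ∑ z : c0.I, f z := by
  rw [Fintype.sum_prod_type, Fintype.sum_prod_type]
  exact Finset.sum_congr rfl fun a _ => Equiv.sum_comp (nxE c0.n) fun b => f (a, b)

/-- shift of the first index -/
theorem pe_sum_nx1 (f : c0.I → ℝ) : ∑ z : c0.I, f (nx z.1, z.2) = ∑ z : c0.I, f z := by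
  rw [Fintype.sum_prod_type_right, Fintype.sum_prod_type_right]
  exact Finset.sum_congr rfl fun b _ => Equiv.sum_comp (nxE c0.n) fun a => f (a, b)

/-- L-PE-I1.  **Every face has two ends.**  `D_z` = the four faces at `z`: `(z, true)`, `((z.1, nx z.2), true)`, `(z, false)`, `((nx z.1, z.2), false)`; reindex the second and the fourth sum by `nxE`;
`∑_{φ ∈ F} g φ = ∑_z ∑_d if (z,d) ∈ F then g (z,d) else 0`. -/
theorem pe_sum_D (F : Finset (Face c0)) (U : c0.I → ℝ) :
    ∑ z : c0.I, (pePatAt c0 F z).D (peAt c0 U z) = 2 * peS c0 F U := by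
  set h : Face c0 → ℝ := fun φ => if φ ∈ F then (U (fnb c0 φ) - U φ.1) ^ 2 else 0 with hh
  have hS : peS c0 F U = ∑ z : c0.I, (h (z, true) + h (z, false)) := by
    have e1 : peS c0 F U = ∑ φ : Face c0, h φ := by
      rw [peS, hh, Finset.sum_ite_mem, Finset.univ_inter]
    rw [e1, Fintype.sum_prod_type]
    exact Finset.sum_congr rfl fun z _ => Fintype.sum_bool _
  have hD : ∀ z : c0.I, (pePatAt c0 F z).D (peAt c0 U z)
      = (h ((z.1, nx z.2), true) + h (z, true)) + (h ((nx z.1, z.2), false) + h (z, false)) := by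
    intro z
    obtain ⟨z1, z2⟩ := z
    simp only [PePat.D, Fintype.sum_bool, pePatAt, peAt, peSub, hh, fnb, if_true, if_false,
      Bool.false_eq_true]
  simp only [hD, Finset.sum_add_distrib]
  rw [pe_sum_nx2 fun w => h (w, true), pe_sum_nx1 fun w => h (w, false), hS,
    Finset.sum_add_distrib]
  ring

/-- `κ ↦` its corner `s`, as a permutation -/
def peVtxE (c0 : Grid G) (s : Bool × Bool) : c0.I ≃ c0.I where
  toFun κ := peVtx c0 κ s
  invFun z := peSub c0 z (!s.1, !s.2)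
  left_inv κ := pe_sub_vtx κ s
  right_inv z := by
    obtain ⟨s1, s2⟩ := s
    cases s1 <;> cases s2 <;> simp [peSub, peVtx, pe_pv_nx]

/-- reindexing `(κ, corner) ↔ (vertex, square)` -/
theorem pe_sum_vtx (a : c0.I → Bool × Bool → ℝ) :
    ∑ κ : c0.I, ∑ s : Bool × Bool, a (peVtx c0 κ s) (!s.1, !s.2) = ∑ z : c0.I, ∑ q : Bool × Bool, a z q := by
  rw [Finset.sum_comm]
  rw [Finset.sum_comm (s := (Finset.univ : Finset c0.I))]
  have e1 : ∀ s : Bool × Bool, ∑ κ : c0.I, a (peVtx c0 κ s) (!s.1, !s.2) = ∑ z : c0.I, a z (!s.1, !s.2) :=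
    fun s => Equiv.sum_comp (peVtxE c0 s) fun z => a z (!s.1, !s.2)
  simp only [e1]
  simp only [Fintype.sum_prod_type, Fintype.sum_bool, Bool.not_true, Bool.not_false]
  ring

/-- the two ends of a horizontal side see the same mean -/
theorem pe_mh_eq (F : Finset (Face c0)) (U : c0.I → ℝ) (κ : c0.I) (β : Bool) :
    (pePatAt c0 F (peVtx c0 κ (true, β))).mh (peAt c0 U (peVtx c0 κ (true, β))) (false, !β)
      = (pePatAt c0 F (peVtx c0 κ (false, β))).mh (peAt c0 U (peVtx c0 κ (false, β))) (true, !β) := by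
  cases β <;> simp [PePat.mh, pePatAt, peAt, peSub, peVtx, pe_nx_pv]

/-- the two ends of a vertical side see the same mean -/
theorem pe_mv_eq (F : Finset (Face c0)) (U : c0.I → ℝ) (κ : c0.I) (α : Bool) :
    (pePatAt c0 F (peVtx c0 κ (α, true))).mv (peAt c0 U (peVtx c0 κ (α, true))) (!α, false)
      = (pePatAt c0 F (peVtx c0 κ (α, false))).mv (peAt c0 U (peVtx c0 κ (α, false))) (!α, true) := by
  cases α <;> simp [PePat.mv, pePatAt, peAt, peSub, peVtx, pe_nx_pv]

/-- L-PE-I2.  **Sides → vertices.**  North side of `κ`: with `z = peVtx κ (true,true)`, `z' = peVtx κ (false,true)`: `mh` at `(z,(false,false))` and at `(z',(true,false))` are the SAME number `m` (the mean of `U` over `κ` and, if `(κ,false) ∈ F`, its northern neighbour),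
so `peDh κ true = (V - mh)(z,(f,f)) - (V - mh)(z',(t,f))`, `(x - y)² ≤ 2x² + 2y²`.  Same for the three other sides (`mv` for `peDv`).  Then reindex each of the 8 sums over `κ` by the bijection `κ ↦ peVtx κ s` (`nxE`). -/
theorem pe_side_sq (F : Finset (Face c0)) (U : c0.I → ℝ) :
    ∑ κ : c0.I, (∑ β : Bool, peDh c0 F U κ β ^ 2 + ∑ α : Bool, peDv c0 F U κ α ^ 2)
      ≤ 2 * ∑ z : c0.I, (pePatAt c0 F z).A (peAt c0 U z) := by
  set a : c0.I → Bool × Bool → ℝ := fun z q =>
    ((pePatAt c0 F z).V (peAt c0 U z) q - (pePatAt c0 F z).mh (peAt c0 U z) q) ^ 2 with ha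
  set b : c0.I → Bool × Bool → ℝ := fun z q =>
    ((pePatAt c0 F z).V (peAt c0 U z) q - (pePatAt c0 F z).mv (peAt c0 U z) q) ^ 2 with hb
  have hsq : ∀ x y m : ℝ, (x - y) ^ 2 ≤ 2 * ((x - m) ^ 2 + (y - m) ^ 2) := by
    intro x y m
    nlinarith [sq_nonneg ((x - m) + (y - m))]
  have h1 : ∀ (κ : c0.I) (β : Bool), peDh c0 F U κ β ^ 2
      ≤ 2 * (a (peVtx c0 κ (true, β)) (false, !β) + a (peVtx c0 κ (false, β)) (true, !β)) := by
    intro κ β
    have := hsq (peCv c0 F U κ (true, β)) (peCv c0 F U κ (false, β))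
      ((pePatAt c0 F (peVtx c0 κ (true, β))).mh (peAt c0 U (peVtx c0 κ (true, β))) (false, !β))
    refine this.trans (le_of_eq ?_)
    simp only [ha]
    rw [← pe_mh_eq F U κ β]
    rfl
  have h2 : ∀ (κ : c0.I) (α : Bool), peDv c0 F U κ α ^ 2
      ≤ 2 * (b (peVtx c0 κ (α, true)) (!α, false) + b (peVtx c0 κ (α, false)) (!α, true)) := by
    intro κ α
    have := hsq (peCv c0 F U κ (α, true)) (peCv c0 F U κ (α, false))
      ((pePatAt c0 F (peVtx c0 κ (α, true))).mv (peAt c0 U (peVtx c0 κ (α, true))) (!α, false))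
    refine this.trans (le_of_eq ?_)
    simp only [hb]
    rw [← pe_mv_eq F U κ α]
    rfl
  have h3 : ∀ κ : c0.I, (∑ β : Bool, peDh c0 F U κ β ^ 2 + ∑ α : Bool, peDv c0 F U κ α ^ 2)
      ≤ 2 * (∑ s : Bool × Bool, a (peVtx c0 κ s) (!s.1, !s.2) + ∑ s : Bool × Bool, b (peVtx c0 κ s) (!s.1, !s.2)) := by
    intro κ
    simp only [Fintype.sum_prod_type, Fintype.sum_bool, Bool.not_true, Bool.not_false]
    have e1 := h1 κ true
    have e2 := h1 κ false
    have e3 := h2 κ true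
    have e4 := h2 κ false
    simp only [Bool.not_true, Bool.not_false] at e1 e2 e3 e4
    linarith
  refine (Finset.sum_le_sum fun κ _ => h3 κ).trans (le_of_eq ?_)
  rw [← Finset.mul_sum, Finset.sum_add_distrib, pe_sum_vtx a, pe_sum_vtx b, ← Finset.sum_add_distrib]
  congr 1
  refine Finset.sum_congr rfl fun z _ => ?_
  rw [PePat.A, Finset.sum_add_distrib]

/-- common corner values across a vertical face (PROVED from `pe_V_hl`: leaf L-PE-I3) -/
theorem pe_cv_east (F : Finset (Face c0)) (U : c0.I → ℝ) (κ : c0.I) (h : (κ, true) ∈ F) (β : Bool) :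
    peCv c0 F U (fnb c0 (κ, true)) (false, β) = peCv c0 F U κ (true, β) := by
  have hz : peVtx c0 (fnb c0 (κ, true)) (false, β) = peVtx c0 κ (true, β) := by
    simp [peVtx, fnb, pe_pv_nx]
  unfold peCv peVv
  rw [hz]
  refine (pe_V_hl _ _ (!β) ?_).symm
  obtain ⟨k1, k2⟩ := κ
  cases β <;> simpa [pePatAt, peVtx, pe_nx_pv] using h

/-- common corner values across a horizontal face (leaf L-PE-I3) -/
theorem pe_cv_north (F : Finset (Face c0)) (U : c0.I → ℝ) (κ : c0.I) (h : (κ, false) ∈ F) (α : Bool) :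
    peCv c0 F U (fnb c0 (κ, false)) (α, false) = peCv c0 F U κ (α, true) := by
  have hz : peVtx c0 (fnb c0 (κ, false)) (α, false) = peVtx c0 κ (α, true) := by
    simp [peVtx, fnb, pe_pv_nx]
  unfold peCv peVv
  rw [hz]
  refine (pe_V_vl _ _ (!α) ?_).symm
  obtain ⟨k1, k2⟩ := κ
  cases α <;> simpa [pePatAt, peVtx, pe_nx_pv] using h

/-- the subcell level of the energy estimate: GLUE -/
theorem pe_side_le (F : Finset (Face c0)) (U : c0.I → ℝ) (h : PeGood c0 F U) :
    ∑ κ : c0.I, (∑ β : Bool, peDh c0 F U κ β ^ 2 + ∑ α : Bool, peDv c0 F U κ α ^ 2) ≤ 2 * peS c0 F U := by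
  refine (pe_side_sq F U).trans ?_
  have h1 : ∑ z : c0.I, (pePatAt c0 F z).A (peAt c0 U z) ≤ ∑ z : c0.I, (pePatAt c0 F z).D (peAt c0 U z) / 2 :=
    Finset.sum_le_sum fun z _ => pe_A_le _ _ (h z)
  rw [← Finset.sum_div, pe_sum_D] at h1
  linarith

/-- the crude version, all data: GLUE -/
theorem pe_side_le_gen (F : Finset (Face c0)) (U : c0.I → ℝ) :
    ∑ κ : c0.I, (∑ β : Bool, peDh c0 F U κ β ^ 2 + ∑ α : Bool, peDv c0 F U κ α ^ 2) ≤ 128 * peS c0 F U := by
  refine (pe_side_sq F U).trans ?_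
  have h1 : ∑ z : c0.I, (pePatAt c0 F z).A (peAt c0 U z) ≤ ∑ z : c0.I, 32 * (pePatAt c0 F z).D (peAt c0 U z) :=
    Finset.sum_le_sum fun z _ => pe_A_le_gen _ _
  rw [← Finset.mul_sum, pe_sum_D] at h1
  linarith

/-! ## 2. The fine lattice -/

variable {c : Grid G}

/-- one step on one axis, in subcell coordinates -/
theorem pe_step1 (hc0 : Whole c0) (x y : Fin G.M) (hy : (y : ℕ) = ((x : ℕ) + 1) % G.M)
    (hw : G.bc = BC.per ∨ (x : ℕ) + 1 < G.M) :
    (c0.blk1 y = c0.blk1 x ∧ (y : ℕ) % c0.m = (x : ℕ) % c0.m + 1) ∨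
    (c0.blk1 y = nx (c0.blk1 x) ∧ (x : ℕ) % c0.m + 1 = c0.m ∧ (y : ℕ) % c0.m = 0 ∧
      (G.bc = BC.per ∨ ((c0.blk1 x : Fin c0.n) : ℕ) + 1 < c0.n)) := by
  have hM := whole_card hc0
  have hm := hc0.pos
  have hx := x.2
  have hdm := Nat.div_add_mod (x : ℕ) c0.m
  have hr := Nat.mod_lt (x : ℕ) hm
  have hq : (x : ℕ) / c0.m < c0.n := by
    rw [Nat.div_lt_iff_lt_mul hm, ← hM]
    exact hx
  have hq' : c0.m * ((x : ℕ) / c0.m + 1) ≤ c0.m * c0.n := Nat.mul_le_mul_left _ hq
  have hMc : G.M = c0.m * c0.n := by rw [hM, Nat.mul_comm]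
  rw [Nat.mul_succ] at hq'
  rcases Nat.lt_or_ge ((x : ℕ) % c0.m + 1) c0.m with h | h
  · left
    have hlt : (x : ℕ) + 1 < G.M := by omega
    rw [Nat.mod_eq_of_lt hlt] at hy
    have e : (y : ℕ) = c0.m * ((x : ℕ) / c0.m) + ((x : ℕ) % c0.m + 1) := by omega
    constructor
    · apply Fin.ext
      rw [whole_blk1 hc0, whole_blk1 hc0, e, Nat.mul_add_div hm, Nat.div_eq_of_lt h, add_zero]
    · rw [e, Nat.mul_add_mod, Nat.mod_eq_of_lt h]
  · right
    have h1 : (x : ℕ) % c0.m + 1 = c0.m := by omega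
    have hb : ((c0.blk1 x : Fin c0.n) : ℕ) = (x : ℕ) / c0.m := whole_blk1 hc0 x
    have e : (x : ℕ) + 1 = ((c0.blk1 x : Fin c0.n).1 + 1) * c0.m := by
      rw [hb, Nat.succ_mul, Nat.mul_comm]
      omega
    refine ⟨res_next hc0 _ x y e hy, h1, ?_, ?_⟩
    · rw [hy, Nat.mod_mod_of_dvd _ ⟨c0.n, hMc⟩, e, Nat.mul_mod_left]
    · rcases hw with hw | hw
      · exact Or.inl hw
      · right
        have hw' : ((c0.blk1 x : Fin c0.n).1 + 1) * c0.m < c0.n * c0.m := by
          rw [← e, ← hM]; exact hw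
        exact Nat.lt_of_mul_lt_mul_right hw'

theorem pe_stp_wall (v : G.V) (d : Bool) (h : stp v d ≠ v) :
    G.bc = BC.per ∨ (if d then (v.1 : ℕ) + 1 < G.M else (v.2 : ℕ) + 1 < G.M) := by
  cases hG : G.bc with
  | per => exact Or.inl rfl
  | free =>
    right
    obtain ⟨-, h2, -, h4⟩ := stp_free hG v
    cases d
    · simp only [Bool.false_eq_true, if_false]
      rcases Nat.lt_or_ge ((v.2 : ℕ) + 1) G.M with hh | hh
      · exact hh
      · exact absurd (h4 (by have := v.2.2; omega)) h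
    · simp only [if_true]
      rcases Nat.lt_or_ge ((v.1 : ℕ) + 1) G.M with hh | hh
      · exact hh
      · exact absurd (h2 (by have := v.1.2; omega)) h

/-- L-PE-I4.  **The bonds of the retained graph in subcell coordinates.**  `N = c0.m`.  Either the bond stays in its subcell and the offset in the direction of the bond grows by one, or it crosses a face of `subFaces T N` from offset `N - 1` to offset `0`.
(`whole_blk1`, `whole_card`, `res_stp_true/false`, `res_blk_up`; `IsEdge` gives `stp ≠`, presence of the two cells and the retained face.) -/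
theorem pe_edge_cases (hc : Whole c) (hc0 : Whole c0) (N : Nest c0 c) (T : F4a.Top c) (hT : T.Ok) (v : G.V) (d : Bool) (he : T.IsEdge (v, d)) :
    (if d then (stp v d).2 = v.2 else (stp v d).1 = v.1) ∧
    ((c0.blk (stp v d) = c0.blk v ∧
        (if d then ((stp v d).1 : ℕ) % c0.m = (v.1 : ℕ) % c0.m + 1 else ((stp v d).2 : ℕ) % c0.m = (v.2 : ℕ) % c0.m + 1)) ∨
      ((c0.blk v, d) ∈ subFaces T N ∧ c0.blk (stp v d) = fnb c0 (c0.blk v, d) ∧
        (if d then (v.1 : ℕ) % c0.m + 1 = c0.m ∧ ((stp v d).1 : ℕ) % c0.m = 0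
          else (v.2 : ℕ) % c0.m + 1 = c0.m ∧ ((stp v d).2 : ℕ) % c0.m = 0))) := by
  obtain ⟨he1, he2, he3, he4⟩ := he
  simp only at he1 he2 he3 he4
  have hw := pe_stp_wall v d he1
  have key : ∀ (hf : IsFace c0 (c0.blk v, d)) (hb : c0.blk (stp v d) = fnb c0 (c0.blk v, d)), (c0.blk v, d) ∈ subFaces T N := by
    intro hf hb
    unfold subFaces
    rw [Finset.mem_filter]
    refine ⟨Finset.mem_univ _, hf, ?_, ?_, ?_⟩
    · rw [← res_blk_up N]; exact he2
    · rw [← hb, ← res_blk_up N]; exact he3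
    · rw [← hb, ← res_blk_up N, ← res_blk_up N]; exact he4
  cases d
  · simp only [Bool.false_eq_true, if_false] at hw ⊢
    obtain ⟨h1, h2⟩ := res_stp_false v hw
    refine ⟨h2, ?_⟩
    rcases pe_step1 hc0 v.2 (stp v false).2 h1 hw with ⟨a1, a2⟩ | ⟨a1, a2, a3, a4⟩
    · left
      exact ⟨Prod.ext (by show c0.blk1 _ = c0.blk1 _; rw [h2]) a1, a2⟩
    · right
      have hb : c0.blk (stp v false) = fnb c0 (c0.blk v, false) :=
        Prod.ext (by show c0.blk1 _ = c0.blk1 _; rw [h2]) a1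
      exact ⟨key a4 hb, hb, a2, a3⟩
  · simp only [if_true] at hw ⊢
    obtain ⟨h1, h2⟩ := res_stp_true v hw
    refine ⟨h2, ?_⟩
    rcases pe_step1 hc0 v.1 (stp v true).1 h1 hw with ⟨a1, a2⟩ | ⟨a1, a2, a3, a4⟩
    · left
      exact ⟨Prod.ext a1 (by show c0.blk1 _ = c0.blk1 _; rw [h2]), a2⟩
    · right
      have hb : c0.blk (stp v true) = fnb c0 (c0.blk v, true) :=
        Prod.ext a1 (by show c0.blk1 _ = c0.blk1 _; rw [h2])
      exact ⟨key a4 hb, hb, a2, a3⟩

/-- the slope of `peW` in the direction `d` at the site `v` -/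
def peG (c0 : Grid G) (F : Finset (Face c0)) (U : c0.I → ℝ) (d : Bool) (v : G.V) : ℝ :=
  if d then ((1 - peLam c0.m v.2) * peDh c0 F U (c0.blk v) false + peLam c0.m v.2 * peDh c0 F U (c0.blk v) true) / c0.m
  else ((1 - peLam c0.m v.1) * peDv c0 F U (c0.blk v) false + peLam c0.m v.1 * peDv c0 F U (c0.blk v) true) / c0.m

theorem pe_lam_succ {m x y : ℕ} (hm : 0 < m) (h : y % m = x % m + 1) : peLam m y = peLam m x + 1 / m := by
  have hm' : (0 : ℝ) < m := by exact_mod_cast hm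
  unfold peLam
  rw [h]
  push_cast
  field_simp
  ring

theorem pe_lam_last {m x : ℕ} (hm : 0 < m) (h : x % m + 1 = m) : peLam m x = 1 - 1 / (2 * m) := by
  have hm' : (0 : ℝ) < m := by exact_mod_cast hm
  have h1 : ((x % m : ℕ) : ℝ) = m - 1 := by
    have := congrArg (Nat.cast (R := ℝ)) h
    push_cast at this
    push_cast
    linarith
  unfold peLam
  rw [h1]
  field_simp
  ring

theorem pe_lam_first {m x : ℕ} (hm : 0 < m) (h : x % m = 0) : peLam m x = 1 / (2 * m) := by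
  have hm' : (0 : ℝ) < m := by exact_mod_cast hm
  unfold peLam
  rw [h]
  push_cast
  field_simp
  ring

/-- L-PE-I5.  **The gradient of the interpolant.**  `pe_edge_cases`; inner bond: `λ' = λ + 1/N`, same subcell, `G v' = G v`, bilinear algebra (`ring`); crossing bond: `λ = 1 - 1/(2N)`, `λ' = 1/(2N)`, `pe_cv_east / pe_cv_north`. -/
theorem pe_W_grad (hc : Whole c) (hc0 : Whole c0) (N : Nest c0 c) (T : F4a.Top c) (hT : T.Ok) (U : c0.I → ℝ) (v : G.V) (d : Bool)
    (he : T.IsEdge (v, d)) :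
    peW c0 (subFaces T N) U (stp v d) - peW c0 (subFaces T N) U v
      = (peG c0 (subFaces T N) U d v + peG c0 (subFaces T N) U d (stp v d)) / 2 := by
  obtain ⟨h0, h⟩ := pe_edge_cases hc hc0 N T hT v d he
  have hm := hc0.pos
  have hm' : (0 : ℝ) < c0.m := by exact_mod_cast hm
  cases d
  · simp only [Bool.false_eq_true, if_false] at h0 h
    rcases h with ⟨hb, hl⟩ | ⟨hF, hb, hl1, hl2⟩
    · simp only [peW, peG, peDv, Bool.false_eq_true, if_false]
      rw [hb, h0, pe_lam_succ hm hl]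
      field_simp
      ring
    · simp only [peW, peG, peDv, Bool.false_eq_true, if_false]
      rw [hb, h0, pe_lam_last hm hl1, pe_lam_first hm hl2, pe_cv_north _ U _ hF false, pe_cv_north _ U _ hF true]
      field_simp
      ring
  · simp only [if_true] at h0 h
    rcases h with ⟨hb, hl⟩ | ⟨hF, hb, hl1, hl2⟩
    · simp only [peW, peG, peDh, if_true]
      rw [hb, h0, pe_lam_succ hm hl]
      field_simp
      ring
    · simp only [peW, peG, peDh, if_true]
      rw [hb, h0, pe_lam_last hm hl1, pe_lam_first hm hl2, pe_cv_east _ U _ hF false, pe_cv_east _ U _ hF true]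
      field_simp
      ring

theorem pe_I6_row (hc0 : Whole c0) (g : Fin c0.n → ℕ → ℝ) :
    ∑ a : Fin G.M, g (c0.blk1 a) ((a : ℕ) % c0.m) = ∑ Q : Fin c0.n, ∑ i ∈ Finset.range c0.m, g Q i := by
  have hm := hc0.pos
  have hM : G.M = c0.n * c0.m := whole_card hc0
  rw [← Finset.sum_product']
  have hlt : ∀ p : Fin c0.n × ℕ, p ∈ (Finset.univ : Finset (Fin c0.n)) ×ˢ Finset.range c0.m → c0.m * (p.1 : ℕ) + p.2 < G.M := by
    intro p hp
    have h2 : p.2 < c0.m := by simpa using hp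
    have h1 : c0.m * ((p.1 : ℕ) + 1) ≤ G.M := by
      rw [hM, mul_comm]
      exact Nat.mul_le_mul_right _ p.1.2
    rw [Nat.mul_succ] at h1
    omega
  refine Finset.sum_bij' (fun a _ => (c0.blk1 a, (a : ℕ) % c0.m)) (fun p hp => ⟨c0.m * (p.1 : ℕ) + p.2, hlt p hp⟩) ?_ ?_ ?_ ?_ ?_
  · intro a _
    simp only [Finset.mem_product, Finset.mem_univ, Finset.mem_range, true_and]
    exact Nat.mod_lt _ hm
  · intro p _
    exact Finset.mem_univ _
  · intro a _
    apply Fin.ext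
    show c0.m * ((c0.blk1 a : Fin c0.n) : ℕ) + (a : ℕ) % c0.m = a
    rw [whole_blk1 hc0 a]
    exact Nat.div_add_mod _ _
  · intro p hp
    have h2 : p.2 < c0.m := by simpa using hp
    refine Prod.ext ?_ ?_
    · apply Fin.ext
      show ((c0.blk1 ⟨c0.m * (p.1 : ℕ) + p.2, hlt p hp⟩ : Fin c0.n) : ℕ) = p.1
      rw [whole_blk1 hc0]
      show (c0.m * (p.1 : ℕ) + p.2) / c0.m = p.1
      rw [Nat.mul_add_div hm, Nat.div_eq_of_lt h2, Nat.add_zero]
    · show (c0.m * (p.1 : ℕ) + p.2) % c0.m = p.2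
      rw [Nat.mul_add_mod, Nat.mod_eq_of_lt h2]
  · intro a _
    rfl

/-- L-PE-I6.  Sums over the sites, subcell by subcell: `G.V ≃ c0.I × [0,N)²` (`whole_blk1`, `whole_card`; `v.1 = N * blk1 v.1 + v.1 % N`). -/
theorem pe_sum_sites (hc0 : Whole c0) (g : c0.I → ℕ → ℕ → ℝ) :
    ∑ v : G.V, g (c0.blk v) ((v.1 : ℕ) % c0.m) ((v.2 : ℕ) % c0.m)
      = ∑ κ : c0.I, ∑ i ∈ Finset.range c0.m, ∑ j ∈ Finset.range c0.m, g κ i j := by
  rw [Fintype.sum_prod_type, Fintype.sum_prod_type]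
  have h1 : ∀ a : Fin G.M, ∑ b : Fin G.M, g (c0.blk (a, b)) ((a : ℕ) % c0.m) ((b : ℕ) % c0.m)
      = ∑ Q2 : Fin c0.n, ∑ j ∈ Finset.range c0.m, g (c0.blk1 a, Q2) ((a : ℕ) % c0.m) j := fun a =>
    pe_I6_row hc0 (fun Q j => g (c0.blk1 a, Q) ((a : ℕ) % c0.m) j)
  rw [Finset.sum_congr rfl fun a _ => h1 a,
    pe_I6_row hc0 (fun Q i => ∑ Q2 : Fin c0.n, ∑ j ∈ Finset.range c0.m, g (Q, Q2) i j)]
  exact Finset.sum_congr rfl fun Q1 _ => Finset.sum_comm

theorem pe_I6_half (n : ℕ) : ∑ j ∈ Finset.range n, ((j : ℝ) + 1 / 2) = (n : ℝ) ^ 2 / 2 := by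
  induction n with
  | zero => simp
  | succ k ih =>
    rw [Finset.sum_range_succ, ih]
    push_cast
    ring

theorem pe_I6_jensen (l x y : ℝ) (h0 : 0 ≤ l) (h1 : l ≤ 1) : ((1 - l) * x + l * y) ^ 2 ≤ (1 - l) * x ^ 2 + l * y ^ 2 := by
  have : 0 ≤ l * (1 - l) * (x - y) ^ 2 := mul_nonneg (mul_nonneg h0 (by linarith)) (sq_nonneg _)
  nlinarith

/-- one direction, one subcell -/
theorem pe_I6_line (m : ℕ) (hm : 0 < m) (x y : ℝ) :
    ∑ j ∈ Finset.range m, (((1 - ((j : ℝ) + 1 / 2) / m) * x + ((j : ℝ) + 1 / 2) / m * y) / m) ^ 2 ≤ (x ^ 2 + y ^ 2) / 2 / m := by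
  have hm0 : (0 : ℝ) < m := by exact_mod_cast hm
  have h1 : ∀ j ∈ Finset.range m, (((1 - ((j : ℝ) + 1 / 2) / m) * x + ((j : ℝ) + 1 / 2) / m * y) / m) ^ 2
      ≤ (x ^ 2 + ((j : ℝ) + 1 / 2) * ((y ^ 2 - x ^ 2) / m)) / (m : ℝ) ^ 2 := by
    intro j hj
    have hj' : (j : ℝ) + 1 ≤ m := by exact_mod_cast Finset.mem_range.1 hj
    have hl0 : 0 ≤ ((j : ℝ) + 1 / 2) / m := by positivity
    have hl1 : ((j : ℝ) + 1 / 2) / m ≤ 1 := by
      rw [div_le_one hm0]
      linarith
    rw [div_pow]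
    refine div_le_div_of_nonneg_right ((pe_I6_jensen _ x y hl0 hl1).trans (le_of_eq ?_)) (by positivity)
    field_simp
    ring
  refine (Finset.sum_le_sum h1).trans (le_of_eq ?_)
  rw [← Finset.sum_div, Finset.sum_add_distrib, ← Finset.sum_mul, pe_I6_half, Finset.sum_const, Finset.card_range, nsmul_eq_mul]
  field_simp
  ring

/-- L-PE-I7.  `∑_{j<N} λ_j = N/2`, Jensen `((1-λ)x + λy)² ≤ (1-λ)x² + λy²` (`0 ≤ λ ≤ 1`). -/
theorem pe_G_sum (hc0 : Whole c0) (F : Finset (Face c0)) (U : c0.I → ℝ) :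
    ∑ v : G.V, (peG c0 F U true v ^ 2 + peG c0 F U false v ^ 2)
      ≤ (∑ κ : c0.I, (∑ β : Bool, peDh c0 F U κ β ^ 2 + ∑ α : Bool, peDv c0 F U κ α ^ 2)) / 2 := by
  have hm := hc0.pos
  have hm0 : (0 : ℝ) < c0.m := by exact_mod_cast hm
  have h1 := pe_sum_sites hc0 (fun κ i j =>
    (((1 - ((j : ℝ) + 1 / 2) / c0.m) * peDh c0 F U κ false + ((j : ℝ) + 1 / 2) / c0.m * peDh c0 F U κ true) / c0.m) ^ 2
      + (((1 - ((i : ℝ) + 1 / 2) / c0.m) * peDv c0 F U κ false + ((i : ℝ) + 1 / 2) / c0.m * peDv c0 F U κ true) / c0.m) ^ 2)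
  have h2 : ∑ v : G.V, (peG c0 F U true v ^ 2 + peG c0 F U false v ^ 2) = _ := h1
  rw [h2, Finset.sum_div]
  refine Finset.sum_le_sum fun κ _ => ?_
  simp only [Finset.sum_add_distrib, Finset.sum_const, Finset.card_range, nsmul_eq_mul, Fintype.sum_bool, ← Finset.mul_sum]
  have h3 := pe_I6_line c0.m hm (peDh c0 F U κ false) (peDh c0 F U κ true)
  have h4 := pe_I6_line c0.m hm (peDv c0 F U κ false) (peDv c0 F U κ true)
  have h5 := mul_le_mul_of_nonneg_left h3 hm0.le
  have h6 := mul_le_mul_of_nonneg_left h4 hm0.le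
  have e : ∀ z : ℝ, (c0.m : ℝ) * (z / 2 / c0.m) = z / 2 := by
    intro z
    field_simp
  rw [e] at h5 h6
  linarith

theorem pe_sum_inj {α β : Type} [Fintype α] [Fintype β] (i : α → β) (hi : Function.Injective i) (f : β → ℝ) (hf : ∀ x, 0 ≤ f x) :
    ∑ a, f (i a) ≤ ∑ b, f b := by
  rw [← Finset.sum_image (s := Finset.univ) (g := i) (f := f) (fun a _ b _ h => hi h)]
  exact Finset.sum_le_univ_sum_of_nonneg hf

theorem pe_succ_inj {M : ℕ} (x y : Fin M) (h : ((x : ℕ) + 1) % M = ((y : ℕ) + 1) % M) : x = y := by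
  have h1 : (x : ℕ) ≡ (y : ℕ) [MOD M] := Nat.ModEq.add_right_cancel' 1 h
  apply Fin.ext
  have h2 : (x : ℕ) % M = (y : ℕ) % M := h1
  rwa [Nat.mod_eq_of_lt x.2, Nat.mod_eq_of_lt y.2] at h2

theorem pe_stp_inj (v v' : G.V) (d : Bool) (h : stp v d ≠ v) (h' : stp v' d ≠ v') (e : stp v d = stp v' d) : v = v' := by
  have hw := pe_stp_wall v d h
  have hw' := pe_stp_wall v' d h'
  cases d
  · simp only [Bool.false_eq_true, if_false] at hw hw'
    obtain ⟨a1, a2⟩ := res_stp_false v hw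
    obtain ⟨b1, b2⟩ := res_stp_false v' hw'
    refine Prod.ext ?_ ?_
    · rw [← a2, ← b2, e]
    · apply pe_succ_inj
      rw [← a1, ← b1, e]
  · simp only [if_true] at hw hw'
    obtain ⟨a1, a2⟩ := res_stp_true v hw
    obtain ⟨b1, b2⟩ := res_stp_true v' hw'
    refine Prod.ext ?_ ?_
    · apply pe_succ_inj
      rw [← a1, ← b1, e]
    · rw [← a2, ← b2, e]

/-- L-PE-I8.  `pe_W_grad`, `((x+y)/2)² ≤ x²/2 + y²/2`; `e ↦ e.1.1` and `e ↦ stp e.1.1 e.1.2` are injective on the bonds of a fixed direction (`stp` is injective on bonds: `res_stp_true/false`, or `pe_edge_cases`). -/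
theorem pe_W_energy (hc : Whole c) (hc0 : Whole c0) (N : Nest c0 c) (T : F4a.Top c) (hT : T.Ok) (U : c0.I → ℝ) :
    ∑ e : T.graph.E, (peW c0 (subFaces T N) U (stp e.1.1 e.1.2) - peW c0 (subFaces T N) U e.1.1) ^ 2
      ≤ ∑ v : G.V, (peG c0 (subFaces T N) U true v ^ 2 + peG c0 (subFaces T N) U false v ^ 2) := by
  set g : G.V × Bool → ℝ := fun p => peG c0 (subFaces T N) U p.2 p.1 ^ 2 with hg
  have hg0 : ∀ p, 0 ≤ g p := fun p => sq_nonneg _
  have h1 : ∑ e : T.graph.E, g e.1 ≤ ∑ p, g p :=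
    pe_sum_inj (fun e : T.graph.E => e.1) Subtype.val_injective g hg0
  have h2 : ∑ e : T.graph.E, g (stp e.1.1 e.1.2, e.1.2) ≤ ∑ p, g p := by
    refine pe_sum_inj (fun e : T.graph.E => ((stp e.1.1 e.1.2, e.1.2) : G.V × Bool)) ?_ g hg0
    rintro ⟨⟨v, d⟩, he⟩ ⟨⟨v', d'⟩, he'⟩ h
    simp only [Prod.mk.injEq] at h
    obtain ⟨h3, h4⟩ := h
    subst h4
    have := pe_stp_inj v v' d he.1 he'.1 h3
    subst this
    rfl
  have h3 : ∑ p, g p = ∑ v : G.V, (peG c0 (subFaces T N) U true v ^ 2 + peG c0 (subFaces T N) U false v ^ 2) := by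
    rw [Fintype.sum_prod_type]
    refine Finset.sum_congr rfl fun v _ => ?_
    rw [Fintype.sum_bool]
  rw [← h3]
  have h4 : ∀ e : T.graph.E, (peW c0 (subFaces T N) U (stp e.1.1 e.1.2) - peW c0 (subFaces T N) U e.1.1) ^ 2
      ≤ g e.1 / 2 + g (stp e.1.1 e.1.2, e.1.2) / 2 := by
    rintro ⟨⟨v, d⟩, he⟩
    simp only [hg]
    rw [pe_W_grad hc hc0 N T hT U v d he]
    nlinarith [sq_nonneg (peG c0 (subFaces T N) U d v - peG c0 (subFaces T N) U d (stp v d))]
  calc _ ≤ ∑ e : T.graph.E, (g e.1 / 2 + g (stp e.1.1 e.1.2, e.1.2) / 2) := Finset.sum_le_sum fun e _ => h4 e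
    _ = (∑ e : T.graph.E, g e.1) / 2 + (∑ e : T.graph.E, g (stp e.1.1 e.1.2, e.1.2)) / 2 := by
        rw [Finset.sum_add_distrib, Finset.sum_div, Finset.sum_div]
    _ ≤ _ := by linarith

theorem pe_avg_half_sum (n : ℕ) : ∑ x ∈ Finset.range n, ((x : ℝ) + 1 / 2) = (n : ℝ) ^ 2 / 2 := by
  induction n with
  | zero => simp
  | succ k ih =>
    rw [Finset.sum_range_succ, ih]
    push_cast
    ring

theorem pe_avg_lam_sum (n : ℕ) (hn : 0 < n) : ∑ x ∈ Finset.range n, (((x : ℝ) + 1 / 2) / n) = (n : ℝ) / 2 := by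
  have hn' : (n : ℝ) ≠ 0 := by exact_mod_cast hn.ne'
  rw [← Finset.sum_div, pe_avg_half_sum]
  field_simp

theorem pe_avg_lam_sum' (n : ℕ) (hn : 0 < n) : ∑ x ∈ Finset.range n, (1 - ((x : ℝ) + 1 / 2) / n) = (n : ℝ) / 2 := by
  rw [Finset.sum_sub_distrib, pe_avg_lam_sum n hn]
  simp
  ring

theorem pe_avg_prod (n : ℕ) (f g : ℕ → ℝ) (a : ℝ) :
    ∑ x ∈ Finset.range n, ∑ y ∈ Finset.range n, f x * g y * a
      = (∑ x ∈ Finset.range n, f x) * (∑ y ∈ Finset.range n, g y) * a := by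
  rw [Finset.sum_mul_sum, Finset.sum_mul]
  exact Finset.sum_congr rfl fun x _ => by rw [Finset.sum_mul]

/-- the sum of the bilinear weights over one subcell -/
theorem pe_avg_bil (n : ℕ) (hn : 0 < n) (a b c' d : ℝ) :
    ∑ x ∈ Finset.range n, ∑ y ∈ Finset.range n,
      ((1 - ((x : ℝ) + 1 / 2) / n) * (1 - ((y : ℝ) + 1 / 2) / n) * a + ((x : ℝ) + 1 / 2) / n * (1 - ((y : ℝ) + 1 / 2) / n) * b
        + (1 - ((x : ℝ) + 1 / 2) / n) * (((y : ℝ) + 1 / 2) / n) * c' + ((x : ℝ) + 1 / 2) / n * (((y : ℝ) + 1 / 2) / n) * d)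
      = (n : ℝ) ^ 2 * ((a + b + c' + d) / 4) := by
  simp only [Finset.sum_add_distrib]
  rw [pe_avg_prod n (fun x => 1 - ((x : ℝ) + 1 / 2) / n) (fun y => 1 - ((y : ℝ) + 1 / 2) / n),
    pe_avg_prod n (fun x => ((x : ℝ) + 1 / 2) / n) (fun y => 1 - ((y : ℝ) + 1 / 2) / n),
    pe_avg_prod n (fun x => 1 - ((x : ℝ) + 1 / 2) / n) (fun y => ((y : ℝ) + 1 / 2) / n),
    pe_avg_prod n (fun x => ((x : ℝ) + 1 / 2) / n) (fun y => ((y : ℝ) + 1 / 2) / n),
    pe_avg_lam_sum n hn, pe_avg_lam_sum' n hn]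
  ring

/-- L-PE-I9.  **The cell means of the interpolant.**  `∑_{i,j<N}` of the bilinear weights `= N²/4` each; `pe_sum_sites`-like over one cell; `whole_sites_card`, `res_sub_count`. -/
theorem pe_W_avg (hc : Whole c) (hc0 : Whole c0) (N : Nest c0 c) (F : Finset (Face c0)) (U : c0.I → ℝ) (i : c.I) :
    avg c (peW c0 F U) i = cmean N (peSm c0 F U) i := by
  have hN0 : 0 < c0.m := hc0.pos
  have hN0r : (c0.m : ℝ) ≠ 0 := by exact_mod_cast hN0.ne'
  have hsum := pe_sum_sites hc0 (fun κ x y => if N.up κ = i then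
      ((1 - ((x : ℝ) + 1 / 2) / c0.m) * (1 - ((y : ℝ) + 1 / 2) / c0.m) * peCv c0 F U κ (false, false)
        + ((x : ℝ) + 1 / 2) / c0.m * (1 - ((y : ℝ) + 1 / 2) / c0.m) * peCv c0 F U κ (true, false)
        + (1 - ((x : ℝ) + 1 / 2) / c0.m) * (((y : ℝ) + 1 / 2) / c0.m) * peCv c0 F U κ (false, true)
        + ((x : ℝ) + 1 / 2) / c0.m * (((y : ℝ) + 1 / 2) / c0.m) * peCv c0 F U κ (true, true)) else 0)
  have hL : ∑ v ∈ c.sites {i}, peW c0 F U v = (c0.m : ℝ) ^ 2 * ∑ κ ∈ Finset.univ.filter (fun κ : c0.I => N.up κ = i), peSm c0 F U κ := by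
    rw [Grid.sites, Finset.sum_filter, Finset.mul_sum, Finset.sum_filter]
    refine Eq.trans ?_ (hsum.trans ?_)
    · refine Finset.sum_congr rfl fun v _ => ?_
      by_cases h : N.up (c0.blk v) = i
      · rw [if_pos h, if_pos (by rw [Finset.mem_singleton, res_blk_up N]; exact h)]
        rfl
      · rw [if_neg h, if_neg (by rw [Finset.mem_singleton, res_blk_up N]; exact h)]
    · refine Finset.sum_congr rfl fun κ _ => ?_
      by_cases h : N.up κ = i
      · simp only [if_pos h]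
        rw [pe_avg_bil c0.m hN0]
        congr 1
        unfold peSm
        rw [Fintype.sum_prod_type]
        simp only [Fintype.sum_bool]
        ring
      · simp only [if_neg h, Finset.sum_const_zero]
  have hcnt := res_sub_count hc hc0 N i
  have hcnt' : ((c.m : ℝ)) ^ 2 = ((Finset.univ.filter fun κ : c0.I => N.up κ = i).card : ℝ) * (c0.m : ℝ) ^ 2 := by exact_mod_cast hcnt
  have hK : ((Finset.univ.filter fun κ : c0.I => N.up κ = i).card : ℝ) ≠ 0 := by
    intro h0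
    rw [h0, zero_mul] at hcnt'
    have : (0 : ℝ) < (c.m : ℝ) := by exact_mod_cast hc.pos
    nlinarith
  show (∑ v ∈ c.sites {i}, peW c0 F U v) / ((c.sites {i}).card : ℝ) = _
  rw [hL, whole_sites_card hc i, cmean]
  push_cast
  rw [hcnt']
  field_simp

/-- the error of the vertex value -/
def peErr (c0 : Grid G) (F : Finset (Face c0)) (U : c0.I → ℝ) (z : c0.I) (q : Bool × Bool) : ℝ :=
  peVv c0 F U z q - peAt c0 U z q

/-- the part of the error at the vertex `z` which is seen by the cell `i` -/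
def peRz (N : Nest c0 c) (F : Finset (Face c0)) (U : c0.I → ℝ) (z : c0.I) (i : c.I) : ℝ :=
  ∑ q : Bool × Bool, if N.up (peSub c0 z q) = i then peErr c0 F U z q else 0

theorem pe_vtx_sub (z : c0.I) (q : Bool × Bool) : peVtx c0 (peSub c0 z q) (!q.1, !q.2) = z := by
  obtain ⟨q1, q2⟩ := q
  cases q1 <;> cases q2 <;> simp [peSub, peVtx, pe_pv_nx]

theorem pe_sub_vtx' (κ : c0.I) (q : Bool × Bool) : peSub c0 (peVtx c0 κ (!q.1, !q.2)) q = κ := by
  have := pe_sub_vtx κ (!q.1, !q.2)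
  simpa only [Bool.not_not, Prod.mk.eta] using this

/-- `z ↦ peSub z q` as a permutation -/
def peSubE (c0 : Grid G) (q : Bool × Bool) : Equiv.Perm c0.I where
  toFun z := peSub c0 z q
  invFun κ := peVtx c0 κ (!q.1, !q.2)
  left_inv z := pe_vtx_sub z q
  right_inv κ := pe_sub_vtx' κ q

theorem pe_cv_err (F : Finset (Face c0)) (U : c0.I → ℝ) (κ : c0.I) (q : Bool × Bool) :
    peCv c0 F U κ (!q.1, !q.2) - U κ = peErr c0 F U (peVtx c0 κ (!q.1, !q.2)) q := by
  have h2 : peCv c0 F U κ (!q.1, !q.2) = peVv c0 F U (peVtx c0 κ (!q.1, !q.2)) q := by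
    unfold peCv
    simp only [Bool.not_not, Prod.mk.eta]
  rw [h2]
  unfold peErr peAt
  rw [pe_sub_vtx']

theorem pe_sm_err (F : Finset (Face c0)) (U : c0.I → ℝ) (κ : c0.I) :
    peSm c0 F U κ - U κ = (∑ q : Bool × Bool, peErr c0 F U (peVtx c0 κ (!q.1, !q.2)) q) / 4 := by
  simp only [← pe_cv_err]
  unfold peSm
  rw [Fintype.sum_prod_type, Fintype.sum_prod_type]
  simp only [Fintype.sum_bool, Bool.not_true, Bool.not_false]
  ring

theorem pe_me_reindex (N : Nest c0 c) (F : Finset (Face c0)) (U : c0.I → ℝ) (i : c.I) :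
    ∑ κ ∈ Finset.univ.filter (fun κ : c0.I => N.up κ = i), (peSm c0 F U κ - U κ) = (∑ z : c0.I, peRz N F U z i) / 4 := by
  rw [Finset.sum_filter]
  have h1 : ∀ κ : c0.I, (if N.up κ = i then peSm c0 F U κ - U κ else 0)
      = (∑ q : Bool × Bool, if N.up κ = i then peErr c0 F U (peVtx c0 κ (!q.1, !q.2)) q else 0) / 4 := by
    intro κ
    by_cases h : N.up κ = i
    · simp only [h, if_true]
      exact pe_sm_err F U κ
    · simp only [h, if_false, Finset.sum_const_zero, zero_div]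
  simp only [h1]
  rw [← Finset.sum_div, Finset.sum_comm]
  congr 1
  unfold peRz
  conv_rhs => rw [Finset.sum_comm]
  refine Finset.sum_congr rfl fun q _ => ?_
  rw [← Equiv.sum_comp (peSubE c0 q)]
  refine Finset.sum_congr rfl fun z _ => ?_
  show (if N.up (peSub c0 z q) = i then peErr c0 F U (peVtx c0 (peSub c0 z q) (!q.1, !q.2)) q else 0) = _
  rw [pe_vtx_sub]

theorem pe_me_zero (N : Nest c0 c) (F : Finset (Face c0)) (U : c0.I → ℝ) (z : c0.I) (i : c.I)
    (h : (∀ q, N.up (peSub c0 z q) = i) ∨ ∀ q, N.up (peSub c0 z q) ≠ i) : peRz N F U z i = 0 := by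
  unfold peRz
  rcases h with h | h
  · simp only [h, if_true]
    exact pe_V_sum _ _
  · simp only [h, if_false, Finset.sum_const_zero]

theorem pe_me_sq (N : Nest c0 c) (F : Finset (Face c0)) (U : c0.I → ℝ) (z : c0.I) :
    ∑ i : c.I, peRz N F U z i ^ 2 ≤ 64 * (pePatAt c0 F z).D (peAt c0 U z) := by
  have h1 : ∀ i : c.I, peRz N F U z i ^ 2
      ≤ 4 * ∑ q : Bool × Bool, if N.up (peSub c0 z q) = i then peErr c0 F U z q ^ 2 else 0 := by
    intro i
    have := sq_sum_le_card_mul_sum_sq (s := (Finset.univ : Finset (Bool × Bool)))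
      (f := fun q => if N.up (peSub c0 z q) = i then peErr c0 F U z q else 0)
    have e : ∀ q : Bool × Bool, (if N.up (peSub c0 z q) = i then peErr c0 F U z q else 0) ^ 2
        = if N.up (peSub c0 z q) = i then peErr c0 F U z q ^ 2 else 0 := by
      intro q
      split_ifs <;> simp
    simp only [Finset.card_univ, Fintype.card_prod, Fintype.card_bool, e] at this
    push_cast at this
    unfold peRz
    linarith
  calc ∑ i : c.I, peRz N F U z i ^ 2
      ≤ ∑ i : c.I, 4 * ∑ q : Bool × Bool, (if N.up (peSub c0 z q) = i then peErr c0 F U z q ^ 2 else 0) :=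
        Finset.sum_le_sum fun i _ => h1 i
    _ = 4 * ∑ q : Bool × Bool, peErr c0 F U z q ^ 2 := by
        rw [← Finset.mul_sum, Finset.sum_comm]
        congr 1
        refine Finset.sum_congr rfl fun q _ => ?_
        rw [Finset.sum_ite_eq]
        simp
    _ ≤ 4 * ∑ _q : Bool × Bool, 4 * (pePatAt c0 F z).D (peAt c0 U z) := by
        refine mul_le_mul_of_nonneg_left (Finset.sum_le_sum fun q _ => ?_) (by norm_num)
        exact pe_V_sub_sq _ _ _
    _ = 64 * (pePatAt c0 F z).D (peAt c0 U z) := by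
        simp only [Finset.sum_const, Finset.card_univ, Fintype.card_prod, Fintype.card_bool, nsmul_eq_mul]
        push_cast
        ring

theorem pe_me_div {t a j : ℕ} (ht : 0 < t) : a / t = j ↔ t * j ≤ a ∧ a < t * j + t := by
  constructor
  · rintro rfl
    have h1 := Nat.div_add_mod a t
    have h2 := Nat.mod_lt a ht
    constructor <;> omega
  · rintro ⟨h1, h2⟩
    refine Nat.div_eq_of_lt_le (by rw [Nat.mul_comm]; exact h1) ?_
    rw [Nat.add_mul, Nat.one_mul, Nat.mul_comm]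
    exact h2

theorem pe_me_nx {n : ℕ} (a : Fin n) : ((nx a : Fin n) : ℕ) = if (a : ℕ) + 1 = n then 0 else (a : ℕ) + 1 := by
  show ((a : ℕ) + 1) % n = _
  have ha := a.2
  split_ifs with h
  · rw [h, Nat.mod_self]
  · exact Nat.mod_eq_of_lt (by omega)

theorem pe_me_up (hc : Whole c) (hc0 : Whole c0) (N : Nest c0 c) {t : ℕ} (ht : c.m = t * c0.m) (j : Fin c.n) (a : Fin c0.n) :
    N.up1 a = j ↔ t * (j : ℕ) ≤ (a : ℕ) ∧ (a : ℕ) < t * (j : ℕ) + t := by
  rw [Fin.ext_iff, res_up1 hc hc0 N ht, pe_me_div (res_t_pos hc ht)]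

/-- the indices at which the block `j` begins or ends -/
theorem pe_me_edge (hc : Whole c) (hc0 : Whole c0) (N : Nest c0 c) {t : ℕ} (ht : c.m = t * c0.m) (j : Fin c.n) :
    (Finset.univ.filter fun a : Fin c0.n => (N.up1 a = j ∨ N.up1 (nx a) = j) ∧ ¬ (N.up1 a = j ∧ N.up1 (nx a) = j)).card ≤ 2 := by
  have hn0 := res_n0 hc hc0 ht
  have hj : t * (j : ℕ) + t ≤ c0.n := by
    rw [hn0]
    have h1 : t * ((j : ℕ) + 1) ≤ t * c.n := Nat.mul_le_mul_left t j.2
    rw [Nat.mul_succ] at h1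
    exact h1
  have hsub : (Finset.univ.filter fun a : Fin c0.n => (N.up1 a = j ∨ N.up1 (nx a) = j) ∧ ¬ (N.up1 a = j ∧ N.up1 (nx a) = j))
      ⊆ (Finset.univ.filter fun a : Fin c0.n => (a : ℕ) + 1 = t * (j : ℕ) + t)
        ∪ (Finset.univ.filter fun a : Fin c0.n => ((nx a : Fin c0.n) : ℕ) = t * (j : ℕ)) := by
    intro a ha
    rw [Finset.mem_filter] at ha
    obtain ⟨-, h1, h2⟩ := ha
    rw [pe_me_up hc hc0 N ht j a, pe_me_up hc hc0 N ht j (nx a)] at h1 h2
    rw [Finset.mem_union, Finset.mem_filter, Finset.mem_filter]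
    have h3 := pe_me_nx a
    have ha2 := a.2
    split_ifs at h3 with h4
    · rw [h3] at h1 h2 ⊢
      by_cases h5 : (a : ℕ) + 1 = t * (j : ℕ) + t
      · exact Or.inl ⟨Finset.mem_univ _, h5⟩
      · refine Or.inr ⟨Finset.mem_univ _, ?_⟩
        omega
    · rw [h3] at h1 h2 ⊢
      by_cases h5 : (a : ℕ) + 1 = t * (j : ℕ) + t
      · exact Or.inl ⟨Finset.mem_univ _, h5⟩
      · refine Or.inr ⟨Finset.mem_univ _, ?_⟩
        omega
  refine (Finset.card_le_card hsub).trans ((Finset.card_union_le _ _).trans ?_)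
  have c1 : (Finset.univ.filter fun a : Fin c0.n => (a : ℕ) + 1 = t * (j : ℕ) + t).card ≤ 1 := by
    refine Finset.card_le_one.2 fun a ha b hb => ?_
    rw [Finset.mem_filter] at ha hb
    exact Fin.ext (by omega)
  have c2 : (Finset.univ.filter fun a : Fin c0.n => ((nx a : Fin c0.n) : ℕ) = t * (j : ℕ)).card ≤ 1 := by
    refine Finset.card_le_one.2 fun a ha b hb => ?_
    rw [Finset.mem_filter] at ha hb
    exact res_nx_inj (Fin.ext (by omega))
  omega

theorem pe_me_blk (hc : Whole c) (hc0 : Whole c0) (N : Nest c0 c) {t : ℕ} (ht : c.m = t * c0.m) (j : Fin c.n) :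
    (Finset.univ.filter fun a : Fin c0.n => N.up1 a = j).card = t := by
  have h := res_card_K hc hc0 N ht (j, j)
  have e : (Finset.univ.filter fun κ : c0.I => N.up κ = (j, j))
      = (Finset.univ.filter fun a : Fin c0.n => N.up1 a = j) ×ˢ (Finset.univ.filter fun a : Fin c0.n => N.up1 a = j) := by
    ext κ
    simp only [Finset.mem_filter, Finset.mem_univ, true_and, Finset.mem_product, Nest.up, Prod.mk.injEq]
  rw [e, Finset.card_product, sq] at h
  exact Nat.mul_self_inj.1 h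

/-- the indices which touch the block `j` -/
theorem pe_me_touch (hc : Whole c) (hc0 : Whole c0) (N : Nest c0 c) {t : ℕ} (ht : c.m = t * c0.m) (j : Fin c.n) :
    (Finset.univ.filter fun a : Fin c0.n => N.up1 a = j ∨ N.up1 (nx a) = j).card ≤ 2 * t := by
  rw [Finset.filter_or]
  refine (Finset.card_union_le _ _).trans ?_
  have h1 := pe_me_blk hc hc0 N ht j
  have h2 : (Finset.univ.filter fun a : Fin c0.n => N.up1 (nx a) = j).card
      ≤ (Finset.univ.filter fun a : Fin c0.n => N.up1 a = j).card := by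
    refine Finset.card_le_card_of_injOn nx (fun a ha => ?_) fun a _ b _ hab => res_nx_inj hab
    simp only [Finset.coe_filter, Finset.mem_univ, true_and, Set.mem_ofPred_eq] at ha ⊢
    exact ha
  omega

/-- the vertices which touch the cell `i` without being inside -/
theorem pe_me_card (hc : Whole c) (hc0 : Whole c0) (N : Nest c0 c) {t : ℕ} (ht : c.m = t * c0.m) (i : c.I) :
    (Finset.univ.filter fun z : c0.I =>
      ¬ ((∀ q, N.up (peSub c0 z q) = i) ∨ ∀ q, N.up (peSub c0 z q) ≠ i)).card ≤ 8 * t := by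
  set Ed : Fin c.n → Finset (Fin c0.n) := fun j =>
    Finset.univ.filter fun a : Fin c0.n => (N.up1 a = j ∨ N.up1 (nx a) = j) ∧ ¬ (N.up1 a = j ∧ N.up1 (nx a) = j) with hEd
  set Tc : Fin c.n → Finset (Fin c0.n) := fun j =>
    Finset.univ.filter fun a : Fin c0.n => N.up1 a = j ∨ N.up1 (nx a) = j with hTc
  have hsub : (Finset.univ.filter fun z : c0.I =>
      ¬ ((∀ q, N.up (peSub c0 z q) = i) ∨ ∀ q, N.up (peSub c0 z q) ≠ i)) ⊆ Ed i.1 ×ˢ Tc i.2 ∪ Tc i.1 ×ˢ Ed i.2 := by
    intro z hz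
    rw [Finset.mem_filter] at hz
    obtain ⟨-, hz⟩ := hz
    push Not at hz
    obtain ⟨⟨⟨a1, b1⟩, h1⟩, ⟨⟨a0, b0⟩, h0⟩⟩ := hz
    obtain ⟨i1, i2⟩ := i
    simp only [peSub, Nest.up, ne_eq, Prod.mk.injEq] at h0 h1
    simp only [hEd, hTc, Finset.mem_union, Finset.mem_product, Finset.mem_filter, Finset.mem_univ, true_and]
    cases a0 <;> cases b0 <;> cases a1 <;> cases b1 <;> simp_all <;> tauto
  refine (Finset.card_le_card hsub).trans ((Finset.card_union_le _ _).trans ?_)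
  rw [Finset.card_product, Finset.card_product]
  have e1 := pe_me_edge hc hc0 N ht i.1
  have e2 := pe_me_edge hc hc0 N ht i.2
  have t1 := pe_me_touch hc hc0 N ht i.1
  have t2 := pe_me_touch hc hc0 N ht i.2
  have a1 : (Ed i.1).card * (Tc i.2).card ≤ 2 * (2 * t) := Nat.mul_le_mul e1 t2
  have a2 : (Tc i.1).card * (Ed i.2).card ≤ (2 * t) * 2 := Nat.mul_le_mul t1 e2
  omega


/-- L-PE-I10.  **Only the boundary vertices of a cell survive.**
`cmean (peSm) i - cmean U i = (4t²)⁻¹ ∑_z ∑_q [N.up (peSub z q) = i] (V_z q - u_z q)` (reindex `(κ, s) ↔ (z, q)`); if all four `peSub z q` lie in the cell `i` the inner sum is `0` (`pe_V_sum`); otherwise `|V q - u q| ≤ 2 √D_z`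
(`pe_V_sub_sq`).  The vertices which touch the cell `i` without being inside are `4t` (`z.1 ∈ [t i.1 - 1, t i.1 + t)`, ...; `res_up1`); Cauchy-Schwarz; every vertex touches at most four cells; `pe_sum_D`. -/
theorem pe_mean_err (hc : Whole c) (hc0 : Whole c0) (N : Nest c0 c) (t : ℕ) (ht : c.m = t * c0.m) (F : Finset (Face c0)) (U : c0.I → ℝ) :
    (t : ℝ) ^ 3 * ∑ i : c.I, (cmean N (peSm c0 F U) i - cmean N U i) ^ 2 ≤ 128 * peS c0 F U := by
  have htp := res_t_pos hc ht
  have htR : (0 : ℝ) < t := by exact_mod_cast htp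
  have hdiff : ∀ i : c.I, cmean N (peSm c0 F U) i - cmean N U i
      = ((t : ℝ) ^ 2)⁻¹ * ((∑ z : c0.I, peRz N F U z i) / 4) := by
    intro i
    unfold cmean
    rw [res_card_K hc hc0 N ht i, ← mul_sub, ← Finset.sum_sub_distrib, pe_me_reindex]
    push_cast
    rfl
  have hcs : ∀ i : c.I, (∑ z : c0.I, peRz N F U z i) ^ 2 ≤ 8 * (t : ℝ) * ∑ z : c0.I, peRz N F U z i ^ 2 := by
    intro i
    have h1 : ∑ z : c0.I, peRz N F U z i = ∑ z ∈ Finset.univ.filter (fun z : c0.I =>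
        ¬ ((∀ q, N.up (peSub c0 z q) = i) ∨ ∀ q, N.up (peSub c0 z q) ≠ i)), peRz N F U z i := by
      rw [Finset.sum_filter]
      refine Finset.sum_congr rfl fun z _ => ?_
      split_ifs with h
      · exact pe_me_zero N F U z i h
      · rfl
    rw [h1]
    refine sq_sum_le_card_mul_sum_sq.trans ?_
    have h2 : ((Finset.univ.filter (fun z : c0.I =>
        ¬ ((∀ q, N.up (peSub c0 z q) = i) ∨ ∀ q, N.up (peSub c0 z q) ≠ i))).card : ℝ) ≤ 8 * (t : ℝ) := by
      exact_mod_cast pe_me_card hc hc0 N ht i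
    have h3 : ∑ z ∈ Finset.univ.filter (fun z : c0.I =>
        ¬ ((∀ q, N.up (peSub c0 z q) = i) ∨ ∀ q, N.up (peSub c0 z q) ≠ i)), peRz N F U z i ^ 2
        ≤ ∑ z : c0.I, peRz N F U z i ^ 2 :=
      Finset.sum_le_sum_of_subset_of_nonneg (Finset.filter_subset _ _) fun _ _ _ => sq_nonneg _
    exact mul_le_mul h2 h3 (Finset.sum_nonneg fun _ _ => sq_nonneg _) (by positivity)
  have hsum : ∑ i : c.I, ∑ z : c0.I, peRz N F U z i ^ 2 ≤ 128 * peS c0 F U := by
    rw [Finset.sum_comm]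
    calc ∑ z : c0.I, ∑ i : c.I, peRz N F U z i ^ 2
        ≤ ∑ z : c0.I, 64 * (pePatAt c0 F z).D (peAt c0 U z) := Finset.sum_le_sum fun z _ => pe_me_sq N F U z
      _ = 128 * peS c0 F U := by
          rw [← Finset.mul_sum, pe_sum_D]
          ring
  have hterm : ∀ i : c.I, (t : ℝ) ^ 3 * (cmean N (peSm c0 F U) i - cmean N U i) ^ 2
      ≤ 1 / 2 * ∑ z : c0.I, peRz N F U z i ^ 2 := by
    intro i
    rw [hdiff i]
    have e : (t : ℝ) ^ 3 * (((t : ℝ) ^ 2)⁻¹ * ((∑ z : c0.I, peRz N F U z i) / 4)) ^ 2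
        = (∑ z : c0.I, peRz N F U z i) ^ 2 / (16 * t) := by
      field_simp
      ring
    rw [e, div_le_iff₀ (by positivity)]
    have := hcs i
    nlinarith
  have hS : 0 ≤ peS c0 F U := Finset.sum_nonneg fun _ _ => sq_nonneg _
  rw [Finset.mul_sum]
  calc ∑ i : c.I, (t : ℝ) ^ 3 * (cmean N (peSm c0 F U) i - cmean N U i) ^ 2
      ≤ ∑ i : c.I, 1 / 2 * ∑ z : c0.I, peRz N F U z i ^ 2 := Finset.sum_le_sum fun i _ => hterm i
    _ = 1 / 2 * ∑ i : c.I, ∑ z : c0.I, peRz N F U z i ^ 2 := by rw [← Finset.mul_sum]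
    _ ≤ 128 * peS c0 F U := by linarith

/-! ## 3. INT-b: GLUE -/

/-- **INT-b**: energy constant ONE for good data -/
theorem pe_int_energy (hc : Whole c) (hc0 : Whole c0) (N : Nest c0 c) (T : F4a.Top c) (hT : T.Ok) (U : c0.I → ℝ)
    (h : PeGood c0 (subFaces T N) U) :
    ∑ e : T.graph.E, (peW c0 (subFaces T N) U (stp e.1.1 e.1.2) - peW c0 (subFaces T N) U e.1.1) ^ 2 ≤ peS c0 (subFaces T N) U := by
  have h1 := pe_W_energy hc hc0 N T hT U
  have h2 := pe_G_sum hc0 (subFaces T N) U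
  have h3 := pe_side_le (subFaces T N) U h
  linarith

/-- INT-b, crude, all data -/
theorem pe_int_energy_gen (hc : Whole c) (hc0 : Whole c0) (N : Nest c0 c) (T : F4a.Top c) (hT : T.Ok) (U : c0.I → ℝ) :
    ∑ e : T.graph.E, (peW c0 (subFaces T N) U (stp e.1.1 e.1.2) - peW c0 (subFaces T N) U e.1.1) ^ 2 ≤ 64 * peS c0 (subFaces T N) U := by
  have h1 := pe_W_energy hc hc0 N T hT U
  have h2 := pe_G_sum hc0 (subFaces T N) U
  have h3 := pe_side_le_gen (subFaces T N) U
  linarith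

/-- INT-b: the cell means -/
theorem pe_int_mean (hc : Whole c) (hc0 : Whole c0) (N : Nest c0 c) (t : ℕ) (ht : c.m = t * c0.m) (F : Finset (Face c0)) (U : c0.I → ℝ) :
    (t : ℝ) ^ 3 * ∑ i : c.I, (avg c (peW c0 F U) i - cmean N U i) ^ 2 ≤ 128 * peS c0 F U := by
  have h := pe_mean_err hc hc0 N t ht F U
  simpa only [pe_W_avg hc hc0 N F U] using h

end

end Claimed.Agent.R285.C5
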