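import Claimed.Agent.R285.C5.PotEL
import Claimed.Agent.R285.C5.PotEI

/-!
# ROW 285, [C] s5, package PK-C5-POT1 (architect helper83), file 4: JUNCTIONS OF A CUT TOPOLOGY, TRANSFER OF THE LOCAL MODEL, GLOBAL FLATTENING (INT-a)

`t` subcells per cell and direction (`c.m = t * c0.m`, `c0.n = t * c.n`, `N.up1 a = a / t`: `res_n0`, `res_up1`).   JUNCTIONS are indexed by the cell `I` to their SOUTH-WEST.
The ball of radius `r` (`2r ≤ t`) around the junction `I` in BALL COORDINATES: `peBall I x y = (t (I.1+1) - r + x, t (I.2+1) - r + y) mod c0.n`, `x, y < 2r` (orientation preserving; the east / north quadrants wrap around at the last cell,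
where a free wall has no link).   `peLocAt T I` = presence of the four cells and the four cell faces at the junction.
-/

set_option autoImplicit false

namespace Claimed.Agent.R285.C5

open Claimed.Agent.R285.RG Claimed.Agent.R285.F4a
open scoped Classical

noncomputable section

variable {G : Geom} {c c0 : Grid G}

/-- the local pattern of the junction at the north-east corner of the cell `I` -/
def peLocAt (T : F4a.Top c) (hT : T.Ok) (I : c.I) : PeLoc where
  hl β := ((I.1, if β then nx I.2 else I.2), true) ∈ T.faces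
  vl α := ((if α then nx I.1 else I.1, I.2), false) ∈ T.faces
  pr q := ((if q.1 then nx I.1 else I.1, if q.2 then nx I.2 else I.2) : c.I) ∈ T.cells
  hl_pr β h := by
    have h1 := hT _ h
    refine ⟨by simpa using h1.2.1, ?_⟩
    have h2 := h1.2.2
    simpa [fnb] using h2
  vl_pr α h := by
    have h1 := hT _ h
    refine ⟨by simpa using h1.2.1, ?_⟩
    have h2 := h1.2.2
    simpa [fnb] using h2

/-- ball coordinates around the junction `I` -/
def peBall (c0 : Grid G) (h0 : 0 < c0.n) (t r : ℕ) (I : c.I) (x y : ℕ) : c0.I :=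
  (resFm c0 h0 (t * ((I.1 : ℕ) + 1) - r + x), resFm c0 h0 (t * ((I.2 : ℕ) + 1) - r + y))

/-- the subcell at the south-west of the junction `I` -/
def peJun (c0 : Grid G) (h0 : 0 < c0.n) (t : ℕ) (I : c.I) : c0.I :=
  (resFm c0 h0 (t * ((I.1 : ℕ) + 1) - 1), resFm c0 h0 (t * ((I.2 : ℕ) + 1) - 1))

/-! ## 1. Patterns of the vertices -/

theorem pe_reg_mem (T : F4a.Top c) (N : Nest c0 c) (φ : Face c0) :
    φ ∈ subFaces T N ↔ IsFace c0 φ ∧ N.up φ.1 ∈ T.cells ∧ N.up (fnb c0 φ) ∈ T.cells ∧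
      (N.up (fnb c0 φ) = N.up φ.1 ∨ (N.up φ.1, φ.2) ∈ T.faces) := by
  simp only [subFaces, Finset.mem_filter, Finset.mem_univ, true_and]

theorem pe_reg_up1 (hc : Whole c) (hc0 : Whole c0) (N : Nest c0 c) (t : ℕ) (ht : c.m = t * c0.m) (a : Fin c0.n)
    (ha : ((a : ℕ) + 1) % t ≠ 0) : (a : ℕ) + 1 < c0.n ∧ N.up1 (nx a) = N.up1 a := by
  have hn0 := res_n0 hc hc0 ht
  have h1 : (a : ℕ) + 1 < c0.n := by
    rcases Nat.lt_or_ge ((a : ℕ) + 1) c0.n with h | h
    · exact h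
    · exfalso
      have h2 : (a : ℕ) + 1 = c0.n := le_antisymm a.2 h
      apply ha
      rw [h2, hn0]
      exact Nat.mul_mod_right t c.n
  refine ⟨h1, Fin.ext ?_⟩
  rw [res_up1 hc hc0 N ht, res_up1 hc hc0 N ht]
  show ((a : ℕ) + 1) % c0.n / t = (a : ℕ) / t
  rw [Nat.mod_eq_of_lt h1, Nat.succ_div, if_neg (fun hd => ha (Nat.mod_eq_zero_of_dvd hd)), add_zero]

/-- L-PE-G1.  **Off the junctions all patterns are regular.**  If `(z.1 + 1) % t ≠ 0` the two columns at `z` lie in the same column of cells: `hl β ↔` the cell of the row `β` is present, and `vl false ↔ vl true`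
(same pair of cells, same cell face): if some `vl` holds, both cells are present, so all four links hold; otherwise no `vl`.  Symmetric if `(z.2 + 1) % t ≠ 0`.  (`res_up1`, `res_n0`, definition of `subFaces`, `T.Ok`.) -/
theorem pe_reg_off (hc : Whole c) (hc0 : Whole c0) (N : Nest c0 c) (t : ℕ) (ht : c.m = t * c0.m) (T : F4a.Top c) (hT : T.Ok) (z : c0.I)
    (hz : ¬ (((z.1 : ℕ) + 1) % t = 0 ∧ ((z.2 : ℕ) + 1) % t = 0)) : (pePatAt c0 (subFaces T N) z).Reg := by
  by_cases h1 : ((z.1 : ℕ) + 1) % t = 0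
  · have h2 : ((z.2 : ℕ) + 1) % t ≠ 0 := fun h => hz ⟨h1, h⟩
    obtain ⟨hlt, hup⟩ := pe_reg_up1 hc hc0 N t ht z.2 h2
    -- `vl α ↔` the cell of the column `α` is present
    have hvl : ∀ α : Bool, (pePatAt c0 (subFaces T N) z).vl α ↔
        ((N.up1 (if α then nx z.1 else z.1), N.up1 z.2) : c.I) ∈ T.cells := by
      intro α
      show ((if α then nx z.1 else z.1, z.2), false) ∈ subFaces T N ↔ _
      rw [pe_reg_mem]
      have e1 : N.up (fnb c0 ((if α then nx z.1 else z.1, z.2), false)) = (N.up1 (if α then nx z.1 else z.1), N.up1 z.2) := by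
        simp only [fnb, Nest.up, hup, Bool.false_eq_true, if_false]
      have e2 : N.up (((if α then nx z.1 else z.1, z.2), false) : Face c0).1 = (N.up1 (if α then nx z.1 else z.1), N.up1 z.2) := rfl
      rw [e1, e2]
      constructor
      · intro h; exact h.2.1
      · intro h
        exact ⟨Or.inr (by simpa using hlt), h, h, Or.inl rfl⟩
    have hhl : (pePatAt c0 (subFaces T N) z).hl true ↔ (pePatAt c0 (subFaces T N) z).hl false := by
      show ((z.1, if true = true then nx z.2 else z.2), true) ∈ subFaces T N ↔ ((z.1, if false = true then nx z.2 else z.2), true) ∈ subFaces T N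
      rw [pe_reg_mem, pe_reg_mem]
      simp only [fnb, Nest.up, IsFace, hup, if_true, Bool.false_eq_true, if_false]
    have hcell : (pePatAt c0 (subFaces T N) z).hl false → ∀ α : Bool, (pePatAt c0 (subFaces T N) z).vl α := by
      intro h α
      rw [hvl]
      have h' : ((z.1, if false = true then nx z.2 else z.2), true) ∈ subFaces T N := h
      rw [pe_reg_mem] at h'
      simp only [fnb, Nest.up, Bool.false_eq_true, if_false, if_true] at h'
      cases α
      · simpa using h'.2.1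
      · simpa using h'.2.2.1
    by_cases h : (pePatAt c0 (subFaces T N) z).hl false
    · exact Or.inr (Or.inr ⟨h, hhl.2 h, hcell h false, hcell h true⟩)
    · exact Or.inl ⟨h, fun h' => h (hhl.1 h')⟩
  · obtain ⟨hlt, hup⟩ := pe_reg_up1 hc hc0 N t ht z.1 h1
    have hhl : ∀ β : Bool, (pePatAt c0 (subFaces T N) z).hl β ↔
        ((N.up1 z.1, N.up1 (if β then nx z.2 else z.2)) : c.I) ∈ T.cells := by
      intro β
      show ((z.1, if β then nx z.2 else z.2), true) ∈ subFaces T N ↔ _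
      rw [pe_reg_mem]
      have e1 : N.up (fnb c0 ((z.1, if β then nx z.2 else z.2), true)) = (N.up1 z.1, N.up1 (if β then nx z.2 else z.2)) := by
        simp only [fnb, Nest.up, hup, if_true]
      have e2 : N.up (((z.1, if β then nx z.2 else z.2), true) : Face c0).1 = (N.up1 z.1, N.up1 (if β then nx z.2 else z.2)) := rfl
      rw [e1, e2]
      constructor
      · intro h; exact h.2.1
      · intro h
        exact ⟨Or.inr (by simpa using hlt), h, h, Or.inl rfl⟩
    have hvl : (pePatAt c0 (subFaces T N) z).vl true ↔ (pePatAt c0 (subFaces T N) z).vl false := by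
      show ((if true = true then nx z.1 else z.1, z.2), false) ∈ subFaces T N ↔ ((if false = true then nx z.1 else z.1, z.2), false) ∈ subFaces T N
      rw [pe_reg_mem, pe_reg_mem]
      simp only [fnb, Nest.up, IsFace, hup, if_true, Bool.false_eq_true, if_false]
    have hcell : (pePatAt c0 (subFaces T N) z).vl false → ∀ β : Bool, (pePatAt c0 (subFaces T N) z).hl β := by
      intro h β
      rw [hhl]
      have h' : ((if false = true then nx z.1 else z.1, z.2), false) ∈ subFaces T N := h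
      rw [pe_reg_mem] at h'
      simp only [fnb, Nest.up, Bool.false_eq_true, if_false, if_true] at h'
      cases β
      · simpa using h'.2.1
      · simpa using h'.2.2.1
    by_cases h : (pePatAt c0 (subFaces T N) z).vl false
    · exact Or.inr (Or.inr ⟨hcell h false, hcell h true, h, hvl.2 h⟩)
    · exact Or.inr (Or.inl ⟨h, fun h' => h (hvl.1 h')⟩)

theorem pe_jun_nat {t : ℕ} (ht : 0 < t) (P : ℕ) : t * (P + 1) - 1 = t * P + (t - 1) := by
  rw [Nat.mul_succ]
  omega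

theorem pe_jun_val (hc : Whole c) (hc0 : Whole c0) {t : ℕ} (ht : c.m = t * c0.m) (h0 : 0 < c0.n) (P : Fin c.n) :
    ((resFm c0 h0 (t * ((P : ℕ) + 1) - 1) : Fin c0.n) : ℕ) = t * (P : ℕ) + (t - 1) := by
  have htp := res_t_pos hc ht
  rw [pe_jun_nat htp]
  exact res_fm_val h0 (res_n0 hc hc0 ht) P (by omega)

theorem pe_jun_up1 (hc : Whole c) (hc0 : Whole c0) (N : Nest c0 c) {t : ℕ} (ht : c.m = t * c0.m) (h0 : 0 < c0.n) (P : Fin c.n) :
    N.up1 (resFm c0 h0 (t * ((P : ℕ) + 1) - 1)) = P := by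
  have htp := res_t_pos hc ht
  rw [pe_jun_nat htp]
  exact res_up1_fm hc hc0 N ht h0 P (by omega)

theorem pe_jun_up1_nx (hc : Whole c) (hc0 : Whole c0) (N : Nest c0 c) {t : ℕ} (ht : c.m = t * c0.m) (h0 : 0 < c0.n) (P : Fin c.n) :
    N.up1 (nx (resFm c0 h0 (t * ((P : ℕ) + 1) - 1))) = nx P := by
  have htp := res_t_pos hc ht
  have e : t * ((P : ℕ) + 1) - 1 + 1 = t * (P : ℕ) + (t + 0) := by
    rw [pe_jun_nat htp]
    omega
  rw [res_nx_fm, e, res_fm_shift h0 (res_n0 hc hc0 ht) P 0]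
  exact res_up1_fm hc hc0 N ht h0 (nx P) htp

theorem pe_nx_ne (hc : Whole c) (P : Fin c.n) : nx P ≠ P := by
  intro h
  have h1 : ((P : ℕ) + 1) % c.n = (P : ℕ) := congrArg Fin.val h
  have h2 := hc.two
  have h3 := P.2
  rcases Nat.lt_or_ge ((P : ℕ) + 1) c.n with h4 | h4
  · rw [Nat.mod_eq_of_lt h4] at h1
    omega
  · have h5 : (P : ℕ) + 1 = c.n := by omega
    rw [h5, Nat.mod_self] at h1
    omega

theorem pe_jun_lt (hc : Whole c) (hc0 : Whole c0) {t : ℕ} (ht : c.m = t * c0.m) (h0 : 0 < c0.n) (P : Fin c.n) :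
    ((resFm c0 h0 (t * ((P : ℕ) + 1) - 1) : Fin c0.n) : ℕ) + 1 < c0.n ↔ (P : ℕ) + 1 < c.n := by
  have htp := res_t_pos hc ht
  rw [pe_jun_val hc hc0 ht h0 P, res_n0 hc hc0 ht]
  have e : t * (P : ℕ) + (t - 1) + 1 = t * ((P : ℕ) + 1) := by
    rw [Nat.mul_succ]
    omega
  rw [e]
  exact Nat.mul_lt_mul_left htp

/-- a horizontal link at the east side of a column of cells -/
theorem pe_jun_face_h (hc : Whole c) (hc0 : Whole c0) (N : Nest c0 c) {t : ℕ} (ht : c.m = t * c0.m) (h0 : 0 < c0.n) (T : F4a.Top c) (hT : T.Ok)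
    (P : Fin c.n) (w : Fin c0.n) :
    (((resFm c0 h0 (t * ((P : ℕ) + 1) - 1), w), true) : Face c0) ∈ subFaces T N ↔ (((P, N.up1 w), true) : Face c) ∈ T.faces := by
  have u1 : N.up (resFm c0 h0 (t * ((P : ℕ) + 1) - 1), w) = (P, N.up1 w) := by
    show (N.up1 _, N.up1 w) = _
    rw [pe_jun_up1 hc hc0 N ht h0 P]
  have u2 : N.up (fnb c0 ((resFm c0 h0 (t * ((P : ℕ) + 1) - 1), w), true)) = (nx P, N.up1 w) := by
    show (N.up1 (nx _), N.up1 w) = _
    rw [pe_jun_up1_nx hc hc0 N ht h0 P]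
  unfold subFaces
  rw [Finset.mem_filter]
  simp only [u1, u2]
  constructor
  · rintro ⟨-, -, -, -, h | h⟩
    · exact absurd (congrArg Prod.fst h) (pe_nx_ne hc P)
    · exact h
  · intro h
    obtain ⟨hF, hc1, hc2⟩ := hT _ h
    refine ⟨Finset.mem_univ _, ?_, hc1, hc2, Or.inr h⟩
    rcases hF with hF | hF
    · exact Or.inl hF
    · exact Or.inr ((pe_jun_lt hc hc0 ht h0 P).2 hF)

/-- a vertical link at the north side of a row of cells -/
theorem pe_jun_face_v (hc : Whole c) (hc0 : Whole c0) (N : Nest c0 c) {t : ℕ} (ht : c.m = t * c0.m) (h0 : 0 < c0.n) (T : F4a.Top c) (hT : T.Ok)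
    (Q : Fin c.n) (w : Fin c0.n) :
    (((w, resFm c0 h0 (t * ((Q : ℕ) + 1) - 1)), false) : Face c0) ∈ subFaces T N ↔ (((N.up1 w, Q), false) : Face c) ∈ T.faces := by
  have u1 : N.up (w, resFm c0 h0 (t * ((Q : ℕ) + 1) - 1)) = (N.up1 w, Q) := by
    show (N.up1 w, N.up1 _) = _
    rw [pe_jun_up1 hc hc0 N ht h0 Q]
  have u2 : N.up (fnb c0 ((w, resFm c0 h0 (t * ((Q : ℕ) + 1) - 1)), false)) = (N.up1 w, nx Q) := by
    show (N.up1 w, N.up1 (nx _)) = _
    rw [pe_jun_up1_nx hc hc0 N ht h0 Q]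
  unfold subFaces
  rw [Finset.mem_filter]
  simp only [u1, u2]
  constructor
  · rintro ⟨-, -, -, -, h | h⟩
    · exact absurd (congrArg Prod.snd h) (pe_nx_ne hc Q)
    · exact h
  · intro h
    obtain ⟨hF, hc1, hc2⟩ := hT _ h
    refine ⟨Finset.mem_univ _, ?_, hc1, hc2, Or.inr h⟩
    rcases hF with hF | hF
    · exact Or.inl hF
    · exact Or.inr ((pe_jun_lt hc hc0 ht h0 Q).2 hF)

theorem pe_jun_surj1 (hc : Whole c) (hc0 : Whole c0) {t : ℕ} (ht : c.m = t * c0.m) (h0 : 0 < c0.n) (a : Fin c0.n)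
    (h1 : ((a : ℕ) + 1) % t = 0) : ∃ P : Fin c.n, a = resFm c0 h0 (t * ((P : ℕ) + 1) - 1) := by
  have htp := res_t_pos hc ht
  have hn0 := res_n0 hc hc0 ht
  obtain ⟨k, hk⟩ := Nat.dvd_of_mod_eq_zero h1
  have hk0 : 0 < k := by
    rcases Nat.eq_zero_or_pos k with h | h
    · rw [h, Nat.mul_zero] at hk
      omega
    · exact h
  have ha := a.2
  have hkn : k ≤ c.n := by
    by_contra hcon
    have h2 : t * (c.n + 1) ≤ t * k := Nat.mul_le_mul_left t (by omega)
    rw [Nat.mul_succ] at h2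
    omega
  refine ⟨⟨k - 1, by omega⟩, Fin.ext ?_⟩
  show (a : ℕ) = (t * (k - 1 + 1) - 1) % c0.n
  have e : k - 1 + 1 = k := by omega
  rw [e, ← hk, Nat.add_sub_cancel, Nat.mod_eq_of_lt ha]

/-- L-PE-G2.  The vertices with `(z.1+1) % t = 0 = (z.2+1) % t` are the junctions. -/
theorem pe_jun_surj (hc : Whole c) (hc0 : Whole c0) (t : ℕ) (ht : c.m = t * c0.m) (h0 : 0 < c0.n) (z : c0.I)
    (h1 : ((z.1 : ℕ) + 1) % t = 0) (h2 : ((z.2 : ℕ) + 1) % t = 0) : ∃ I : c.I, z = peJun c0 h0 t I := by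
  obtain ⟨P, hP⟩ := pe_jun_surj1 hc hc0 ht h0 z.1 h1
  obtain ⟨Q, hQ⟩ := pe_jun_surj1 hc hc0 ht h0 z.2 h2
  exact ⟨(P, Q), Prod.ext hP hQ⟩

theorem pe_jun_sub1 (h0 : 0 < c0.n) {t r : ℕ} (hr0 : 0 < r) (hr : 2 * r ≤ t) (P : ℕ) (s : Bool) :
    (if s then nx (resFm c0 h0 (t * (P + 1) - 1)) else resFm c0 h0 (t * (P + 1) - 1)) = resFm c0 h0 (t * (P + 1) - r + pePos r s 0) := by
  have h1 : t ≤ t * (P + 1) := Nat.le_mul_of_pos_right t (Nat.succ_pos P)
  cases s
  · have e : t * (P + 1) - r + pePos r false 0 = t * (P + 1) - 1 := by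
      unfold pePos
      simp only [Bool.false_eq_true, if_false]
      omega
    rw [e]
    rfl
  · have e : t * (P + 1) - r + pePos r true 0 = t * (P + 1) - 1 + 1 := by
      unfold pePos
      simp only [if_true]
      omega
    rw [e, ← res_nx_fm]
    rfl

/-- L-PE-G2.  The four subcells at a junction in ball coordinates (`pePos r s 0 = r` or `r - 1`). -/
theorem pe_jun_sub (hc : Whole c) (hc0 : Whole c0) (t r : ℕ) (ht : c.m = t * c0.m) (h0 : 0 < c0.n) (hr0 : 0 < r) (hr : 2 * r ≤ t) (I : c.I)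
    (q : Bool × Bool) : peSub c0 (peJun c0 h0 t I) q = peBall c0 h0 t r I (pePos r q.1 0) (pePos r q.2 0) :=
  Prod.ext (pe_jun_sub1 h0 hr0 hr (I.1 : ℕ) q.1) (pe_jun_sub1 h0 hr0 hr (I.2 : ℕ) q.2)

/-- L-PE-G2.  The links at a junction vertex are the cell faces at the junction. -/
theorem pe_jun_pat (hc : Whole c) (hc0 : Whole c0) (N : Nest c0 c) (t : ℕ) (ht : c.m = t * c0.m) (h0 : 0 < c0.n) (T : F4a.Top c) (hT : T.Ok) (I : c.I) :
    (∀ β, (pePatAt c0 (subFaces T N) (peJun c0 h0 t I)).hl β ↔ (peLocAt T hT I).hl β) ∧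
    (∀ α, (pePatAt c0 (subFaces T N) (peJun c0 h0 t I)).vl α ↔ (peLocAt T hT I).vl α) := by
  constructor
  · intro β
    refine (pe_jun_face_h hc hc0 N ht h0 T hT I.1 _).trans ?_
    cases β
    · show ((I.1, N.up1 (resFm c0 h0 (t * ((I.2 : ℕ) + 1) - 1))), true) ∈ T.faces ↔ ((I.1, I.2), true) ∈ T.faces
      rw [pe_jun_up1 hc hc0 N ht h0 I.2]
    · show ((I.1, N.up1 (nx (resFm c0 h0 (t * ((I.2 : ℕ) + 1) - 1)))), true) ∈ T.faces ↔ ((I.1, nx I.2), true) ∈ T.faces
      rw [pe_jun_up1_nx hc hc0 N ht h0 I.2]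
  · intro α
    refine (pe_jun_face_v hc hc0 N ht h0 T hT I.2 _).trans ?_
    cases α
    · show ((N.up1 (resFm c0 h0 (t * ((I.1 : ℕ) + 1) - 1)), I.2), false) ∈ T.faces ↔ ((I.1, I.2), false) ∈ T.faces
      rw [pe_jun_up1 hc hc0 N ht h0 I.1]
    · show ((N.up1 (nx (resFm c0 h0 (t * ((I.1 : ℕ) + 1) - 1))), I.2), false) ∈ T.faces ↔ ((nx I.1, I.2), false) ∈ T.faces
      rw [pe_jun_up1_nx hc hc0 N ht h0 I.1]

/-! ## 2. The charts -/

/-- the west / south half of a ball lies in the cell `P` -/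
theorem pe_G3_lo (h0 : 0 < c0.n) {t r : ℕ} (hr : r ≤ t) (P : Fin c.n) (x : ℕ) :
    resFm c0 h0 (t * ((P : ℕ) + 1) - r + x) = resFm c0 h0 (t * (P : ℕ) + (t - r + x)) := by
  congr 1
  rw [Nat.mul_succ]
  omega

/-- the east / north half of a ball lies in the cell `nx P` -/
theorem pe_G3_hi (h0 : 0 < c0.n) {t r : ℕ} (hn0 : c0.n = t * c.n) (hr : r ≤ t) (P : Fin c.n) {x : ℕ} (hx : r ≤ x) :
    resFm c0 h0 (t * ((P : ℕ) + 1) - r + x) = resFm c0 h0 (t * ((nx P : Fin c.n) : ℕ) + (x - r)) := by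
  rw [← res_fm_shift h0 hn0 P (x - r)]
  congr 1
  rw [Nat.mul_succ]
  omega

/-- one coordinate of the chart is injective -/
theorem pe_G3_inj1 (h0 : 0 < c0.n) {t r : ℕ} (hn0 : c0.n = t * c.n) (htp : 0 < t) (hr : 2 * r ≤ t) {P P' : Fin c.n} {x x' : ℕ}
    (hx : x < 2 * r) (hx' : x' < 2 * r)
    (h : resFm c0 h0 (t * ((P : ℕ) + 1) - r + x) = resFm c0 h0 (t * ((P' : ℕ) + 1) - r + x')) : P = P' ∧ x = x' := by
  have hrt : r ≤ t := by omega
  rcases Nat.lt_or_ge x r with a | a <;> rcases Nat.lt_or_ge x' r with a' | a'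
  · rw [pe_G3_lo h0 hrt P x, pe_G3_lo h0 hrt P' x'] at h
    have h1 := congrArg Fin.val h
    have b : t - r + x < t := by omega
    have b' : t - r + x' < t := by omega
    rw [res_fm_val h0 hn0 P b, res_fm_val h0 hn0 P' b'] at h1
    obtain ⟨e1, e2⟩ := res_div_mod htp b b' h1
    exact ⟨Fin.ext e1, by omega⟩
  · rw [pe_G3_lo h0 hrt P x, pe_G3_hi h0 hn0 hrt P' a'] at h
    have h1 := congrArg Fin.val h
    have b : t - r + x < t := by omega
    have b' : x' - r < t := by omega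
    rw [res_fm_val h0 hn0 P b, res_fm_val h0 hn0 (nx P') b'] at h1
    obtain ⟨e1, e2⟩ := res_div_mod htp b b' h1
    omega
  · rw [pe_G3_hi h0 hn0 hrt P a, pe_G3_lo h0 hrt P' x'] at h
    have h1 := congrArg Fin.val h
    have b : x - r < t := by omega
    have b' : t - r + x' < t := by omega
    rw [res_fm_val h0 hn0 (nx P) b, res_fm_val h0 hn0 P' b'] at h1
    obtain ⟨e1, e2⟩ := res_div_mod htp b b' h1
    omega
  · rw [pe_G3_hi h0 hn0 hrt P a, pe_G3_hi h0 hn0 hrt P' a'] at h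
    have h1 := congrArg Fin.val h
    have b : x - r < t := by omega
    have b' : x' - r < t := by omega
    rw [res_fm_val h0 hn0 (nx P) b, res_fm_val h0 hn0 (nx P') b'] at h1
    obtain ⟨e1, e2⟩ := res_div_mod htp b b' h1
    exact ⟨res_nx_inj (Fin.ext e1), by omega⟩

/-- the cell of one coordinate of the chart -/
theorem pe_G3_up1 (hc : Whole c) (hc0 : Whole c0) (N : Nest c0 c) {t r : ℕ} (ht : c.m = t * c0.m) (h0 : 0 < c0.n) (hr : 2 * r ≤ t)
    (P : Fin c.n) {x : ℕ} (hx : x < 2 * r) :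
    N.up1 (resFm c0 h0 (t * ((P : ℕ) + 1) - r + x)) = if peSide r x then nx P else P := by
  have hrt : r ≤ t := by omega
  have hn0 := res_n0 hc hc0 ht
  rcases Nat.lt_or_ge x r with a | a
  · have hs : peSide r x = false := by
      unfold peSide
      exact decide_eq_false (by omega)
    rw [hs, pe_G3_lo h0 hrt P x, res_up1_fm hc hc0 N ht h0 P (by omega)]
    rfl
  · have hs : peSide r x = true := by
      unfold peSide
      exact decide_eq_true a
    rw [hs, pe_G3_hi h0 hn0 hrt P a, res_up1_fm hc hc0 N ht h0 (nx P) (by omega)]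
    rfl

/-- L-PE-G3.  **The balls are disjoint and the charts injective** (`2r ≤ t`; `res_div_mod`, `res_fm_val`, `res_fm_shift`). -/
theorem pe_ball_inj (hc : Whole c) (hc0 : Whole c0) (t r : ℕ) (ht : c.m = t * c0.m) (h0 : 0 < c0.n) (hr : 2 * r ≤ t) {I I' : c.I} {x y x' y' : ℕ}
    (hx : x < 2 * r) (hy : y < 2 * r) (hx' : x' < 2 * r) (hy' : y' < 2 * r)
    (h : peBall c0 h0 t r I x y = peBall c0 h0 t r I' x' y') : I = I' ∧ x = x' ∧ y = y' := by
  have hn0 := res_n0 hc hc0 ht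
  have htp := res_t_pos hc ht
  obtain ⟨a1, a2⟩ := pe_G3_inj1 h0 hn0 htp hr hx hx' (congrArg Prod.fst h)
  obtain ⟨b1, b2⟩ := pe_G3_inj1 h0 hn0 htp hr hy hy' (congrArg Prod.snd h)
  exact ⟨Prod.ext a1 b1, a2, b2⟩

/-- steps in the chart (`res_nx_fm`) -/
theorem pe_ball_fnb (h0 : 0 < c0.n) (t r : ℕ) (hr : r ≤ t) (I : c.I) (x y : ℕ) :
    fnb c0 (peBall c0 h0 t r I x y, true) = peBall c0 h0 t r I (x + 1) y ∧
    fnb c0 (peBall c0 h0 t r I x y, false) = peBall c0 h0 t r I x (y + 1) := by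
  constructor
  · show (nx (resFm c0 h0 _), resFm c0 h0 _) = _
    rw [res_nx_fm, Nat.add_assoc]
    rfl
  · show (resFm c0 h0 _, nx (resFm c0 h0 _)) = _
    rw [res_nx_fm, Nat.add_assoc]
    rfl

/-- L-PE-G4.  The cell of a point of the ball. -/
theorem pe_ball_up (hc : Whole c) (hc0 : Whole c0) (N : Nest c0 c) (t r : ℕ) (ht : c.m = t * c0.m) (h0 : 0 < c0.n) (hr : 2 * r ≤ t) (I : c.I)
    {x y : ℕ} (hx : x < 2 * r) (hy : y < 2 * r) :
    N.up (peBall c0 h0 t r I x y) = (if peSide r x then nx I.1 else I.1, if peSide r y then nx I.2 else I.2) := by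
  show (N.up1 (resFm c0 h0 _), N.up1 (resFm c0 h0 _)) = _
  rw [pe_G3_up1 hc hc0 N ht h0 hr I.1 hx, pe_G3_up1 hc hc0 N ht h0 hr I.2 hy]

/-- the faces of a ball in the direction `d` -/
theorem pe_G5_gen (hc : Whole c) (hc0 : Whole c0) (N : Nest c0 c) {t r : ℕ} (ht : c.m = t * c0.m) (h0 : 0 < c0.n) (hr : 2 * r ≤ t)
    (T : F4a.Top c) (hT : T.Ok) (d : Bool) (P Q : Fin c.n) {x y : ℕ} (hx : x + 1 < 2 * r) (hy : y < 2 * r) :
    resPhi h0 d (t * ((P : ℕ) + 1) - r + x) (t * ((Q : ℕ) + 1) - r + y) ∈ subFaces T N ↔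
      if x + 1 = r then (resSw d P (if peSide r y then nx Q else Q), d) ∈ T.faces
      else resSw d (if peSide r x then nx P else P) (if peSide r y then nx Q else Q) ∈ T.cells := by
  have hrt : r ≤ t := by omega
  have hn0 := res_n0 hc hc0 ht
  have hx' : x < 2 * r := by omega
  obtain ⟨Q', hQ'⟩ : ∃ Q' : Fin c.n, Q' = (if peSide r y then nx Q else Q) := ⟨_, rfl⟩
  obtain ⟨y', hy', ey⟩ : ∃ y', y' < t ∧
      resFm c0 h0 (t * ((Q : ℕ) + 1) - r + y) = resFm c0 h0 (t * (Q' : ℕ) + y') := by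
    rcases Nat.lt_or_ge y r with a | a
    · refine ⟨t - r + y, by omega, ?_⟩
      have hs : peSide r y = false := decide_eq_false (by omega)
      rw [hQ', hs]
      exact pe_G3_lo h0 hrt Q y
    · refine ⟨y - r, by omega, ?_⟩
      have hs : peSide r y = true := decide_eq_true a
      rw [hQ', hs]
      exact pe_G3_hi h0 hn0 hrt Q a
  rw [← hQ']
  have u1 : N.up (resSw d (resFm c0 h0 (t * ((P : ℕ) + 1) - r + x)) (resFm c0 h0 (t * ((Q : ℕ) + 1) - r + y))) =
      resSw d (if peSide r x then nx P else P) Q' := by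
    rw [res_up_sw, pe_G3_up1 hc hc0 N ht h0 hr P hx', pe_G3_up1 hc hc0 N ht h0 hr Q hy, hQ']
  have u2 : N.up (fnb c0 (resSw d (resFm c0 h0 (t * ((P : ℕ) + 1) - r + x))
      (resFm c0 h0 (t * ((Q : ℕ) + 1) - r + y)), d)) = resSw d (if peSide r (x + 1) then nx P else P) Q' := by
    rw [res_fnb_sw, res_nx_fm, Nat.add_assoc, res_up_sw, pe_G3_up1 hc hc0 N ht h0 hr P hx,
      pe_G3_up1 hc hc0 N ht h0 hr Q hy, hQ']
  by_cases hxr : x + 1 = r
  · rw [if_pos hxr]
    have s1 : peSide r x = false := decide_eq_false (by omega)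
    have s2 : peSide r (x + 1) = true := decide_eq_true (by omega)
    rw [s1] at u1
    rw [s2] at u2
    constructor
    · intro hm
      unfold subFaces resPhi at hm
      rw [Finset.mem_filter] at hm
      obtain ⟨-, -, -, -, h4⟩ := hm
      rcases h4 with h4 | h4
      · rw [u2] at h4
        have h5 : resSw d (nx P) Q' = resSw d P Q' := h4.trans u1
        exact absurd (resSw_inj h5).1 (res_nx_ne hc.two P)
      · have h5 : (N.up (resSw d (resFm c0 h0 (t * ((P : ℕ) + 1) - r + x))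
            (resFm c0 h0 (t * ((Q : ℕ) + 1) - r + y))), d) ∈ T.faces := h4
        rw [u1] at h5
        exact h5
    · intro hf
      have h1 := res_mem_cross hc hc0 N ht h0 T hT d P Q' hf (x := t - r + x) (y := y') (by omega) hy'
      unfold resPhi at h1 ⊢
      rw [ey, pe_G3_lo h0 hrt P x]
      exact h1
  · rw [if_neg hxr]
    constructor
    · intro hm
      unfold subFaces resPhi at hm
      rw [Finset.mem_filter] at hm
      obtain ⟨-, -, h3, -, -⟩ := hm
      have h5 : N.up (resSw d (resFm c0 h0 (t * ((P : ℕ) + 1) - r + x))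
            (resFm c0 h0 (t * ((Q : ℕ) + 1) - r + y))) ∈ T.cells := h3
      rw [u1] at h5
      exact h5
    · intro hcell
      rcases Nat.lt_or_ge x r with a | a
      · have s1 : peSide r x = false := decide_eq_false (by omega)
        rw [s1] at hcell
        have h1 := res_mem_inside hc hc0 N ht h0 T d P Q' hcell (x := t - r + x) (y := y') (by omega) hy'
        unfold resPhi at h1 ⊢
        rw [ey, pe_G3_lo h0 hrt P x]
        exact h1
      · have s1 : peSide r x = true := decide_eq_true a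
        rw [s1] at hcell
        have h1 := res_mem_inside hc hc0 N ht h0 T d (nx P) Q' hcell (x := x - r) (y := y') (by omega) hy'
        unfold resPhi at h1 ⊢
        rw [ey, pe_G3_hi h0 hn0 hrt P a]
        exact h1

/-- L-PE-G5.  **The faces of the ball** (`pe_ball_up`, `pe_ball_fnb`, definition of `subFaces`, `T.Ok`, `res_mem_inside`, `res_mem_cross`). -/
theorem pe_ball_face (hc : Whole c) (hc0 : Whole c0) (N : Nest c0 c) (t r : ℕ) (ht : c.m = t * c0.m) (h0 : 0 < c0.n) (hr : 2 * r ≤ t)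
    (T : F4a.Top c) (hT : T.Ok) (I : c.I) {x y : ℕ} :
    (x + 1 < 2 * r → y < 2 * r → ((peBall c0 h0 t r I x y, true) ∈ subFaces T N ↔ (peLocAt T hT I).Hok r x y)) ∧
    (x < 2 * r → y + 1 < 2 * r → ((peBall c0 h0 t r I x y, false) ∈ subFaces T N ↔ (peLocAt T hT I).Vok r x y)) := by
  constructor
  · intro hx hy
    exact pe_G5_gen hc hc0 N ht h0 hr T hT true I.1 I.2 hx hy
  · intro hx hy
    exact pe_G5_gen hc hc0 N ht h0 hr T hT false I.2 I.1 hy hx

/-- the faces of the subcell grid with both ends in one ball -/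
def peFB (c : Grid G) (c0 : Grid G) (h0 : 0 < c0.n) (t r : ℕ) : Finset (Face c0) :=
  Finset.univ.filter fun φ => ∃ (I : c.I) (x y : ℕ), φ.1 = peBall c0 h0 t r I x y ∧
    (if φ.2 then x + 1 < 2 * r ∧ y < 2 * r else x < 2 * r ∧ y + 1 < 2 * r)

/-- one direction of `pe_FB_sum` -/
theorem pe_FB_dir (hc : Whole c) (hc0 : Whole c0) (t r : ℕ) (ht : c.m = t * c0.m) (h0 : 0 < c0.n) (hr : 2 * r ≤ t)
    (F : Finset (Face c0)) (d : Bool) (a b : ℕ) (ha : a ≤ 2 * r) (hb : b ≤ 2 * r) (Ok : c.I → ℕ → ℕ → Prop)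
    (hFB : ∀ (I : c.I) (x y : ℕ), (if d then x + 1 < 2 * r ∧ y < 2 * r else x < 2 * r ∧ y + 1 < 2 * r) ↔ x < a ∧ y < b)
    (hOk : ∀ (I : c.I) (x y : ℕ), x < a → y < b → ((peBall c0 h0 t r I x y, d) ∈ F ↔ Ok I x y))
    (f : Face c0 → ℝ) :
    ∑ φ ∈ (F.filter (fun φ => φ ∈ peFB c c0 h0 t r)).filter (fun φ => φ.2 = d), f φ
      = ∑ I : c.I, ∑ x ∈ Finset.range a, ∑ y ∈ Finset.range b, (if Ok I x y then f (peBall c0 h0 t r I x y, d) else 0) := by
  have e1 : ∑ I : c.I, ∑ x ∈ Finset.range a, ∑ y ∈ Finset.range b, (if Ok I x y then f (peBall c0 h0 t r I x y, d) else 0)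
      = ∑ p ∈ ((Finset.univ : Finset c.I) ×ˢ (Finset.range a ×ˢ Finset.range b)).filter (fun p => Ok p.1 p.2.1 p.2.2),
          f (peBall c0 h0 t r p.1 p.2.1 p.2.2, d) := by
    rw [Finset.sum_filter, Finset.sum_product]
    refine Finset.sum_congr rfl fun I _ => ?_
    rw [Finset.sum_product]
  rw [e1]
  symm
  refine Finset.sum_bij (fun p _ => ((peBall c0 h0 t r p.1 p.2.1 p.2.2, d) : Face c0)) ?_ ?_ ?_ ?_
  · intro p hp
    simp only [Finset.mem_filter, Finset.mem_product, Finset.mem_univ, true_and, Finset.mem_range] at hp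
    obtain ⟨⟨hx, hy⟩, hok⟩ := hp
    simp only [Finset.mem_filter, and_true]
    refine ⟨(hOk _ _ _ hx hy).2 hok, ?_⟩
    unfold peFB
    rw [Finset.mem_filter]
    exact ⟨Finset.mem_univ _, p.1, p.2.1, p.2.2, rfl, (hFB p.1 _ _).2 ⟨hx, hy⟩⟩
  · intro p hp p' hp' h
    simp only [Finset.mem_filter, Finset.mem_product, Finset.mem_univ, true_and, Finset.mem_range] at hp hp'
    have h1 : peBall c0 h0 t r p.1 p.2.1 p.2.2 = peBall c0 h0 t r p'.1 p'.2.1 p'.2.2 := congrArg Prod.fst h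
    obtain ⟨q1, q2, q3⟩ := pe_ball_inj hc hc0 t r ht h0 hr (by omega) (by omega) (by omega) (by omega) h1
    exact Prod.ext q1 (Prod.ext q2 q3)
  · intro φ hφ
    simp only [Finset.mem_filter] at hφ
    obtain ⟨⟨hF, hB⟩, hd⟩ := hφ
    unfold peFB at hB
    rw [Finset.mem_filter] at hB
    obtain ⟨-, I, x, y, e, hxy⟩ := hB
    rw [hd] at hxy
    obtain ⟨hx, hy⟩ := (hFB I x y).1 hxy
    have eφ : φ = (peBall c0 h0 t r I x y, d) := Prod.ext e hd
    refine ⟨(I, x, y), ?_, eφ.symm⟩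
    simp only [Finset.mem_filter, Finset.mem_product, Finset.mem_univ, true_and, Finset.mem_range]
    exact ⟨⟨hx, hy⟩, (hOk I x y hx hy).1 (eφ ▸ hF)⟩
  · intro p _
    rfl

/-- L-PE-G6.  **The energy of the ball faces = the sum of the local energies** (for EVERY array `X`).  Bijection `(I, d, x, y) ↔ φ` (`pe_ball_inj`), `pe_ball_face`, `pe_ball_fnb`. -/
theorem pe_FB_sum (hc : Whole c) (hc0 : Whole c0) (N : Nest c0 c) (t r : ℕ) (ht : c.m = t * c0.m) (h0 : 0 < c0.n) (hr : 2 * r ≤ t)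
    (T : F4a.Top c) (hT : T.Ok) (X : c0.I → ℝ) :
    ∑ φ ∈ (subFaces T N).filter (fun φ => φ ∈ peFB c c0 h0 t r), (X (fnb c0 φ) - X φ.1) ^ 2
      = ∑ I : c.I, (peLocAt T hT I).E r fun x y => X (peBall c0 h0 t r I x y) := by
  have hH := pe_FB_dir hc hc0 t r ht h0 hr (subFaces T N) true (2 * r - 1) (2 * r) (by omega) le_rfl
    (fun I x y => (peLocAt T hT I).Hok r x y)
    (fun I x y => by simp only [if_true]; constructor <;> intro h <;> constructor <;> omega)
    (fun I x y hx hy => (pe_ball_face hc hc0 N t r ht h0 hr T hT I).1 (by omega) hy)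
    (fun φ => (X (fnb c0 φ) - X φ.1) ^ 2)
  have hV := pe_FB_dir hc hc0 t r ht h0 hr (subFaces T N) false (2 * r) (2 * r - 1) le_rfl (by omega)
    (fun I x y => (peLocAt T hT I).Vok r x y)
    (fun I x y => by simp only [Bool.false_eq_true, if_false]; constructor <;> intro h <;> constructor <;> omega)
    (fun I x y hx hy => (pe_ball_face hc hc0 N t r ht h0 hr T hT I).2 hx (by omega))
    (fun φ => (X (fnb c0 φ) - X φ.1) ^ 2)
  have hsplit := Finset.sum_filter_add_sum_filter_not ((subFaces T N).filter (fun φ => φ ∈ peFB c c0 h0 t r)) (fun φ => φ.2 = true)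
    (fun φ => (X (fnb c0 φ) - X φ.1) ^ 2)
  have e2 : ((subFaces T N).filter (fun φ => φ ∈ peFB c c0 h0 t r)).filter (fun φ => ¬ φ.2 = true)
      = ((subFaces T N).filter (fun φ => φ ∈ peFB c c0 h0 t r)).filter (fun φ => φ.2 = false) := by
    refine Finset.filter_congr fun φ _ => ?_
    simp
  rw [e2, hH, hV] at hsplit
  rw [← hsplit, ← Finset.sum_add_distrib]
  refine Finset.sum_congr rfl fun I _ => ?_
  unfold PeLoc.E
  congr 1
  · refine Finset.sum_congr rfl fun x _ => Finset.sum_congr rfl fun y _ => ?_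
    rw [(pe_ball_fnb h0 t r (by omega) I x y).1]
  · refine Finset.sum_congr rfl fun x _ => Finset.sum_congr rfl fun y _ => ?_
    rw [(pe_ball_fnb h0 t r (by omega) I x y).2]

/-- the interior points of the balls (the only points which the flattening moves) -/
def peInner (c : Grid G) (c0 : Grid G) (h0 : 0 < c0.n) (t r : ℕ) (κ : c0.I) : Prop :=
  ∃ (I : c.I) (x y : ℕ), κ = peBall c0 h0 t r I x y ∧ 0 < x ∧ x + 1 < 2 * r ∧ 0 < y ∧ y + 1 < 2 * r

/-- `fnb` is injective in the source, for a fixed direction -/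
theorem pe_fnb_inj {κ κ' : c0.I} {d : Bool} (h : fnb c0 (κ, d) = fnb c0 (κ', d)) : κ = κ' := by
  cases d
  · simp only [fnb, Bool.false_eq_true, if_false, Prod.mk.injEq] at h
    exact Prod.ext h.1 (res_nx_inj h.2)
  · simp only [fnb, if_true, Prod.mk.injEq] at h
    exact Prod.ext (res_nx_inj h.1) h.2

/-- L-PE-G7.  A face with an end in the interior of a ball is a ball face (`φ.1` inner: `φ = (peBall I x y, d)`; `fnb φ` inner: `φ.1 = peBall I (x-1) y` resp. `(x, y-1)` because `nx` is injective). -/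
theorem pe_inner_face (h0 : 0 < c0.n) (t r : ℕ) (hr : r ≤ t) (φ : Face c0)
    (h : peInner c c0 h0 t r φ.1 ∨ peInner c c0 h0 t r (fnb c0 φ)) : φ ∈ peFB c c0 h0 t r := by
  unfold peFB
  rw [Finset.mem_filter]
  refine ⟨Finset.mem_univ _, ?_⟩
  rcases h with ⟨I, x, y, e, hx0, hx, hy0, hy⟩ | ⟨I, x, y, e, hx0, hx, hy0, hy⟩
  · refine ⟨I, x, y, e, ?_⟩
    split_ifs
    · exact ⟨hx, by omega⟩
    · exact ⟨by omega, hy⟩
  · obtain ⟨κ, d⟩ := φ
    cases d
    · refine ⟨I, x, y - 1, ?_, ?_⟩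
      · have h1 := (pe_ball_fnb (c := c) h0 t r hr I x (y - 1)).2
        rw [show y - 1 + 1 = y by omega, ← e] at h1
        exact (pe_fnb_inj h1).symm
      · simp only [Bool.false_eq_true, if_false]
        exact ⟨by omega, by omega⟩
    · refine ⟨I, x - 1, y, ?_, ?_⟩
      · have h1 := (pe_ball_fnb (c := c) h0 t r hr I (x - 1) y).1
        rw [show x - 1 + 1 = x by omega, ← e] at h1
        exact (pe_fnb_inj h1).symm
      · simp only [if_true]
        exact ⟨by omega, by omega⟩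

/-! ## 3. Patching -/

/-- replace `U` in the balls by the arrays `W I` -/
def pePatch (h0 : 0 < c0.n) (t r : ℕ) (U : c0.I → ℝ) (W : c.I → ℕ → ℕ → ℝ) (κ : c0.I) : ℝ :=
  if h : ∃ p : c.I × ℕ × ℕ, p.2.1 < 2 * r ∧ p.2.2 < 2 * r ∧ κ = peBall c0 h0 t r p.1 p.2.1 p.2.2 then W h.choose.1 h.choose.2.1 h.choose.2.2 else U κ

/-- L-PE-G8 (`pe_ball_inj`, `Exists.choose_spec`) -/
theorem pe_patch_ball (hc : Whole c) (hc0 : Whole c0) (t r : ℕ) (ht : c.m = t * c0.m) (h0 : 0 < c0.n) (hr : 2 * r ≤ t) (U : c0.I → ℝ)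
    (W : c.I → ℕ → ℕ → ℝ) (I : c.I) {x y : ℕ} (hx : x < 2 * r) (hy : y < 2 * r) :
    pePatch h0 t r U W (peBall c0 h0 t r I x y) = W I x y := by
  have h : ∃ p : c.I × ℕ × ℕ, p.2.1 < 2 * r ∧ p.2.2 < 2 * r ∧ peBall c0 h0 t r I x y = peBall c0 h0 t r p.1 p.2.1 p.2.2 :=
    ⟨(I, x, y), hx, hy, rfl⟩
  unfold pePatch
  rw [dif_pos h]
  obtain ⟨h1, h2, h3⟩ := h.choose_spec
  obtain ⟨e1, e2, e3⟩ := pe_ball_inj hc hc0 t r ht h0 hr hx hy h1 h2 h3
  rw [← e1, ← e2, ← e3]

/-- L-PE-G8.  If `W I` agrees with `U` on the outermost layer of the ball, the patch moves only interior points. -/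
theorem pe_patch_off (hc : Whole c) (hc0 : Whole c0) (t r : ℕ) (ht : c.m = t * c0.m) (h0 : 0 < c0.n) (hr : 2 * r ≤ t) (U : c0.I → ℝ)
    (W : c.I → ℕ → ℕ → ℝ) (hW : ∀ I x y, r ≤ max (peLay r x) (peLay r y) + 1 → W I x y = U (peBall c0 h0 t r I x y)) (κ : c0.I)
    (hκ : ¬ peInner c c0 h0 t r κ) : pePatch h0 t r U W κ = U κ := by
  by_cases h : ∃ p : c.I × ℕ × ℕ, p.2.1 < 2 * r ∧ p.2.2 < 2 * r ∧ κ = peBall c0 h0 t r p.1 p.2.1 p.2.2
  · obtain ⟨⟨I, x, y⟩, hx, hy, rfl⟩ := h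
    simp only at hx hy
    show pePatch h0 t r U W (peBall c0 h0 t r I x y) = _
    rw [pe_patch_ball hc hc0 t r ht h0 hr U W I hx hy]
    apply hW
    have hn : ¬ (0 < x ∧ x + 1 < 2 * r ∧ 0 < y ∧ y + 1 < 2 * r) := fun hh => hκ ⟨I, x, y, rfl, hh⟩
    unfold peLay
    split_ifs <;> omega
  · unfold pePatch
    rw [dif_neg h]

/-- the local energy only sees the values in the ball -/
theorem pe_E_congr (P : PeLoc) (r : ℕ) {v v' : ℕ → ℕ → ℝ} (h : ∀ x y, x < 2 * r → y < 2 * r → v x y = v' x y) : P.E r v = P.E r v' := by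
  unfold PeLoc.E
  congr 1
  · refine Finset.sum_congr rfl fun x hx => Finset.sum_congr rfl fun y hy => ?_
    have hx' := Finset.mem_range.1 hx
    have hy' := Finset.mem_range.1 hy
    rw [h (x + 1) y (by omega) hy', h x y (by omega) hy']
  · refine Finset.sum_congr rfl fun x hx => Finset.sum_congr rfl fun y hy => ?_
    have hx' := Finset.mem_range.1 hx
    have hy' := Finset.mem_range.1 hy
    rw [h x (y + 1) hx' (by omega), h x y hx' (by omega)]

/-- **the energy of a patch**: GLUE (leaf L-PE-G9): split `subFaces` into ball faces and the rest (`Finset.sum_filter_add_sum_filter_not`); on the rest both ends are not inner (`pe_inner_face`), so nothing moves (`pe_patch_off`); ball faces: `pe_FB_sum` for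
`pePatch` and for `U`, `pe_patch_ball`. -/
theorem pe_patch_energy (hc : Whole c) (hc0 : Whole c0) (N : Nest c0 c) (t r : ℕ) (ht : c.m = t * c0.m) (h0 : 0 < c0.n) (hr : 2 * r ≤ t)
    (T : F4a.Top c) (hT : T.Ok) (U : c0.I → ℝ) (W : c.I → ℕ → ℕ → ℝ)
    (hW : ∀ I x y, r ≤ max (peLay r x) (peLay r y) + 1 → W I x y = U (peBall c0 h0 t r I x y)) :
    peS c0 (subFaces T N) (pePatch h0 t r U W) - peS c0 (subFaces T N) U
      = ∑ I : c.I, ((peLocAt T hT I).E r (W I) - (peLocAt T hT I).E r fun x y => U (peBall c0 h0 t r I x y)) := by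
  unfold peS
  rw [← Finset.sum_filter_add_sum_filter_not (subFaces T N) (fun φ => φ ∈ peFB c c0 h0 t r)
      (fun φ => (pePatch h0 t r U W (fnb c0 φ) - pePatch h0 t r U W φ.1) ^ 2),
    ← Finset.sum_filter_add_sum_filter_not (subFaces T N) (fun φ => φ ∈ peFB c c0 h0 t r)
      (fun φ => (U (fnb c0 φ) - U φ.1) ^ 2),
    pe_FB_sum hc hc0 N t r ht h0 hr T hT (pePatch h0 t r U W), pe_FB_sum hc hc0 N t r ht h0 hr T hT U]
  have hrest : ∑ φ ∈ (subFaces T N).filter (fun φ => ¬ φ ∈ peFB c c0 h0 t r), (pePatch h0 t r U W (fnb c0 φ) - pePatch h0 t r U W φ.1) ^ 2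
      = ∑ φ ∈ (subFaces T N).filter (fun φ => ¬ φ ∈ peFB c c0 h0 t r), (U (fnb c0 φ) - U φ.1) ^ 2 := by
    refine Finset.sum_congr rfl fun φ hφ => ?_
    have hn := (Finset.mem_filter.1 hφ).2
    have h1 : ¬ peInner c c0 h0 t r φ.1 := fun hh => hn (pe_inner_face h0 t r (by omega) φ (Or.inl hh))
    have h2 : ¬ peInner c c0 h0 t r (fnb c0 φ) := fun hh => hn (pe_inner_face h0 t r (by omega) φ (Or.inr hh))
    rw [pe_patch_off hc hc0 t r ht h0 hr U W hW _ h1, pe_patch_off hc hc0 t r ht h0 hr U W hW _ h2]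
  rw [hrest, add_sub_add_right_eq_sub, ← Finset.sum_sub_distrib]
  refine Finset.sum_congr rfl fun I _ => ?_
  congr 1
  exact pe_E_congr _ r fun x y hx hy => pe_patch_ball hc hc0 t r ht h0 hr U W I hx hy

/-- the local energies are parts of the energy: GLUE (`pe_FB_sum`, `Finset.sum_le_sum_of_subset_of_nonneg`) -/
theorem pe_loc_sum_le (hc : Whole c) (hc0 : Whole c0) (N : Nest c0 c) (t r : ℕ) (ht : c.m = t * c0.m) (h0 : 0 < c0.n) (hr : 2 * r ≤ t)
    (T : F4a.Top c) (hT : T.Ok) (U : c0.I → ℝ) :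
    ∑ I : c.I, (peLocAt T hT I).E r (fun x y => U (peBall c0 h0 t r I x y)) ≤ peS c0 (subFaces T N) U := by
  rw [← pe_FB_sum hc hc0 N t r ht h0 hr T hT U]
  exact Finset.sum_le_sum_of_subset_of_nonneg (Finset.filter_subset _ _) fun _ _ _ => sq_nonneg _

/-- the `ℓ¹` change in the ball `I`, present quadrants only -/
def peL1 (T : F4a.Top c) (hT : T.Ok) (h0 : 0 < c0.n) (t r : ℕ) (U : c0.I → ℝ) (W : c.I → ℕ → ℕ → ℝ) (I : c.I) : ℝ :=
  ∑ x ∈ Finset.range (2 * r), ∑ y ∈ Finset.range (2 * r),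
    (if (peLocAt T hT I).pr (peSide r x, peSide r y) then |W I x y - U (peBall c0 h0 t r I x y)| else 0)

/-- sums of squares of non-negative numbers -/
theorem pe_pm_sq {B : Type} (s : Finset B) (a : B → ℝ) (ha : ∀ i ∈ s, 0 ≤ a i) : ∑ i ∈ s, a i ^ 2 ≤ (∑ i ∈ s, a i) ^ 2 := by
  rw [sq (∑ i ∈ s, a i), Finset.sum_mul]
  refine Finset.sum_le_sum fun i hi => ?_
  rw [sq]
  exact mul_le_mul_of_nonneg_left (Finset.single_le_sum ha hi) (ha i hi)

/-- the abstract counting argument: every `i` is reached from at most four `I` -/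
theorem pe_pm_abs {A B : Type} [Fintype A] (cells : Finset B) (a : A → B → ℝ) (ha : ∀ I i, 0 ≤ a I i) (L : A → ℝ)
    (hL : ∀ I, ∑ i ∈ cells, a I i ≤ L I) (s : B → Finset A) (hs : ∀ i I, I ∉ s i → a I i = 0) (hcard : ∀ i, (s i).card ≤ 4)
    (S : B → ℝ) (hS : ∀ i ∈ cells, |S i| ≤ ∑ I, a I i) : ∑ i ∈ cells, S i ^ 2 ≤ 4 * ∑ I, L I ^ 2 := by
  have h1 : ∀ i ∈ cells, S i ^ 2 ≤ 4 * ∑ I, a I i ^ 2 := by
    intro i hi
    have e : ∑ I, a I i = ∑ I ∈ s i, a I i :=
      (Finset.sum_subset (Finset.subset_univ _) fun I _ hI => hs i I hI).symm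
    have h2 : S i ^ 2 ≤ (∑ I ∈ s i, a I i) ^ 2 := by
      rw [← e, ← sq_abs (S i)]
      exact pow_le_pow_left₀ (abs_nonneg _) (hS i hi) 2
    have h3 : (∑ I ∈ s i, a I i) ^ 2 ≤ ((s i).card : ℝ) * ∑ I ∈ s i, a I i ^ 2 := sq_sum_le_card_mul_sum_sq
    have h4 : ∑ I ∈ s i, a I i ^ 2 ≤ ∑ I, a I i ^ 2 :=
      Finset.sum_le_sum_of_subset_of_nonneg (Finset.subset_univ _) fun _ _ _ => sq_nonneg _
    have h5 : ((s i).card : ℝ) ≤ 4 := by exact_mod_cast hcard i
    have h6 : 0 ≤ ∑ I ∈ s i, a I i ^ 2 := Finset.sum_nonneg fun _ _ => sq_nonneg _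
    calc S i ^ 2 ≤ ((s i).card : ℝ) * ∑ I ∈ s i, a I i ^ 2 := h2.trans h3
      _ ≤ 4 * ∑ I ∈ s i, a I i ^ 2 := mul_le_mul_of_nonneg_right h5 h6
      _ ≤ 4 * ∑ I, a I i ^ 2 := mul_le_mul_of_nonneg_left h4 (by norm_num)
  calc ∑ i ∈ cells, S i ^ 2 ≤ ∑ i ∈ cells, 4 * ∑ I, a I i ^ 2 := Finset.sum_le_sum h1
    _ = 4 * ∑ I, ∑ i ∈ cells, a I i ^ 2 := by rw [← Finset.mul_sum, Finset.sum_comm]
    _ ≤ 4 * ∑ I, L I ^ 2 := by
        refine mul_le_mul_of_nonneg_left (Finset.sum_le_sum fun I _ => ?_) (by norm_num)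
        refine (pe_pm_sq cells (a I) fun i _ => ha I i).trans ?_
        exact pow_le_pow_left₀ (Finset.sum_nonneg fun i _ => ha I i) (hL I) 2

/-- the cell of the quadrant `q` at the junction `I` -/
def peQc (q : Bool × Bool) (I : c.I) : c.I := (if q.1 then nx I.1 else I.1, if q.2 then nx I.2 else I.2)

theorem pe_pm_Qc_inj (q : Bool × Bool) {I I' : c.I} (h : peQc q I = peQc q I') : I = I' := by
  obtain ⟨q1, q2⟩ := q
  have h1 := congrArg Prod.fst h
  have h2 := congrArg Prod.snd h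
  simp only [peQc] at h1 h2
  refine Prod.ext ?_ ?_
  · cases q1
    · simpa using h1
    · exact res_nx_inj (by simpa using h1)
  · cases q2
    · simpa using h2
    · exact res_nx_inj (by simpa using h2)

theorem pe_pm_card (i : c.I) : (Finset.univ.filter fun I : c.I => ∃ q : Bool × Bool, peQc q I = i).card ≤ 4 := by
  have h1 : (Finset.univ.filter fun I : c.I => ∃ q : Bool × Bool, peQc q I = i)
      ⊆ (Finset.univ : Finset (Bool × Bool)).biUnion fun q => Finset.univ.filter fun I : c.I => peQc q I = i := by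
    intro I hI
    obtain ⟨q, hq⟩ := (Finset.mem_filter.1 hI).2
    exact Finset.mem_biUnion.2 ⟨q, Finset.mem_univ _, Finset.mem_filter.2 ⟨Finset.mem_univ _, hq⟩⟩
  refine (Finset.card_le_card h1).trans (Finset.card_biUnion_le.trans ?_)
  calc ∑ q : Bool × Bool, (Finset.univ.filter fun I : c.I => peQc q I = i).card ≤ ∑ _q : Bool × Bool, 1 := by
        refine Finset.sum_le_sum fun q _ => Finset.card_le_one.2 fun I hI I' hI' => ?_
        exact pe_pm_Qc_inj q ((Finset.mem_filter.1 hI).2.trans (Finset.mem_filter.1 hI').2.symm)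
    _ = 4 := by simp

/-- L-PE-G10.  **The cell means of a patch.**  For a present cell `i`: `t² |cmean (patch) i - cmean U i| ≤ ∑_{κ in i} |patch κ - U κ|`; the moved `κ` in the cell `i` lie in the four balls `I = (i.1 or pv i.1, i.2 or pv i.2)`, in the quadrant whose cell is `i`
(`pe_ball_up`), which is present; so `≤ ∑_{4 balls} peL1`; `(a+b+c+d)² ≤ 4(..)`; every ball is used by at most four cells. -/
theorem pe_patch_mean (hc : Whole c) (hc0 : Whole c0) (N : Nest c0 c) (t r : ℕ) (ht : c.m = t * c0.m) (h0 : 0 < c0.n) (hr : 2 * r ≤ t)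
    (T : F4a.Top c) (hT : T.Ok) (U : c0.I → ℝ) (W : c.I → ℕ → ℕ → ℝ) :
    (t : ℝ) ^ 4 * ∑ i ∈ T.cells, (cmean N (pePatch h0 t r U W) i - cmean N U i) ^ 2 ≤ 16 * ∑ I : c.I, peL1 T hT h0 t r U W I ^ 2 := by
  have htp : (0 : ℝ) < t := by exact_mod_cast res_t_pos hc ht
  obtain ⟨β, hβ⟩ : ∃ β : c.I × ℕ × ℕ → c0.I, β = fun p => peBall c0 h0 t r p.1 p.2.1 p.2.2 := ⟨_, rfl⟩
  obtain ⟨dom, hdom⟩ : ∃ dom : Finset (c.I × ℕ × ℕ), dom = Finset.univ ×ˢ (Finset.range (2 * r) ×ˢ Finset.range (2 * r)) := ⟨_, rfl⟩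
  have hmem : ∀ p : c.I × ℕ × ℕ, p ∈ dom ↔ p.2.1 < 2 * r ∧ p.2.2 < 2 * r := by
    intro p
    rw [hdom]
    simp
  have hinj : Set.InjOn β dom := by
    intro p hp p' hp' h
    have hp1 := (hmem p).1 hp
    have hp2 := (hmem p').1 hp'
    rw [hβ] at h
    obtain ⟨e1, e2, e3⟩ := pe_ball_inj hc hc0 t r ht h0 hr hp1.1 hp1.2 hp2.1 hp2.2 h
    exact Prod.ext e1 (Prod.ext e2 e3)
  obtain ⟨D, hD⟩ : ∃ D : c0.I → ℝ, D = fun κ => pePatch h0 t r U W κ - U κ := ⟨_, rfl⟩
  have hD0 : ∀ κ, κ ∉ dom.image β → D κ = 0 := by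
    intro κ hκ
    rw [hD]
    show pePatch h0 t r U W κ - U κ = 0
    unfold pePatch
    rw [dif_neg, sub_self]
    rintro ⟨p, h1, h2, h3⟩
    refine hκ (Finset.mem_image.2 ⟨p, (hmem p).2 ⟨h1, h2⟩, ?_⟩)
    rw [hβ]
    exact h3.symm
  have hDβ : ∀ p ∈ dom, D (β p) = W p.1 p.2.1 p.2.2 - U (peBall c0 h0 t r p.1 p.2.1 p.2.2) := by
    intro p hp
    have hp1 := (hmem p).1 hp
    rw [hD, hβ]
    show pePatch h0 t r U W (peBall c0 h0 t r p.1 p.2.1 p.2.2) - _ = _
    rw [pe_patch_ball hc hc0 t r ht h0 hr U W p.1 hp1.1 hp1.2]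
  -- the matrix of contributions
  obtain ⟨a, ha⟩ : ∃ a : c.I → c.I → ℝ, a = fun I i => ∑ x ∈ Finset.range (2 * r), ∑ y ∈ Finset.range (2 * r),
      if N.up (peBall c0 h0 t r I x y) = i then |W I x y - U (peBall c0 h0 t r I x y)| else 0 := ⟨_, rfl⟩
  have ha0 : ∀ I i, 0 ≤ a I i := by
    intro I i
    rw [ha]
    exact Finset.sum_nonneg fun x _ => Finset.sum_nonneg fun y _ => by split_ifs <;> positivity
  have hup : ∀ I x y, x ∈ Finset.range (2 * r) → y ∈ Finset.range (2 * r) →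
      N.up (peBall c0 h0 t r I x y) = peQc (peSide r x, peSide r y) I := fun I x y hx hy =>
    pe_ball_up hc hc0 N t r ht h0 hr I (Finset.mem_range.1 hx) (Finset.mem_range.1 hy)
  have hL : ∀ I, ∑ i ∈ T.cells, a I i ≤ peL1 T hT h0 t r U W I := by
    intro I
    rw [ha]
    simp only
    rw [Finset.sum_comm]
    unfold peL1
    refine Finset.sum_le_sum fun x hx => ?_
    rw [Finset.sum_comm]
    refine Finset.sum_le_sum fun y hy => le_of_eq ?_
    rw [Finset.sum_ite_eq, hup I x y hx hy]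
    have e : (peLocAt T hT I).pr (peSide r x, peSide r y) ↔ peQc (peSide r x, peSide r y) I ∈ T.cells := Iff.rfl
    by_cases h : peQc (peSide r x, peSide r y) I ∈ T.cells
    · rw [if_pos h, if_pos (e.2 h)]
    · rw [if_neg h, if_neg fun h' => h (e.1 h')]
  have hs : ∀ i I, I ∉ (Finset.univ.filter fun I : c.I => ∃ q : Bool × Bool, peQc q I = i) → a I i = 0 := by
    intro i I hI
    rw [ha]
    refine Finset.sum_eq_zero fun x hx => Finset.sum_eq_zero fun y hy => if_neg fun h => hI ?_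
    exact Finset.mem_filter.2 ⟨Finset.mem_univ _, _, (hup I x y hx hy).symm.trans h⟩
  -- the means
  have hS : ∀ i ∈ T.cells, |(t : ℝ) ^ 2 * (cmean N (pePatch h0 t r U W) i - cmean N U i)| ≤ ∑ I, a I i := by
    intro i _
    have e1 : (t : ℝ) ^ 2 * (cmean N (pePatch h0 t r U W) i - cmean N U i)
        = ∑ κ ∈ Finset.univ.filter (fun κ : c0.I => N.up κ = i), D κ := by
      unfold cmean
      rw [res_card_K hc hc0 N ht, hD, Finset.sum_sub_distrib]
      push_cast
      field_simp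
    rw [e1]
    refine (Finset.abs_sum_le_sum_abs _ _).trans (le_of_eq ?_)
    rw [Finset.sum_filter]
    have e2 : ∑ κ : c0.I, (if N.up κ = i then |D κ| else 0) = ∑ κ ∈ dom.image β, (if N.up κ = i then |D κ| else 0) := by
      refine (Finset.sum_subset (Finset.subset_univ _) fun κ _ hκ => ?_).symm
      rw [hD0 κ hκ, abs_zero, ite_self]
    rw [e2, Finset.sum_image hinj, hdom, Finset.sum_product, ha]
    refine Finset.sum_congr rfl fun I _ => ?_
    rw [Finset.sum_product]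
    refine Finset.sum_congr rfl fun x hx => Finset.sum_congr rfl fun y hy => ?_
    have hp : ((I, x, y) : c.I × ℕ × ℕ) ∈ dom := (hmem _).2 ⟨Finset.mem_range.1 hx, Finset.mem_range.1 hy⟩
    rw [hDβ _ hp, hβ]
  have key := pe_pm_abs T.cells a ha0 (peL1 T hT h0 t r U W) hL _ hs pe_pm_card _ hS
  have e3 : (t : ℝ) ^ 4 * ∑ i ∈ T.cells, (cmean N (pePatch h0 t r U W) i - cmean N U i) ^ 2
      = ∑ i ∈ T.cells, ((t : ℝ) ^ 2 * (cmean N (pePatch h0 t r U W) i - cmean N U i)) ^ 2 := by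
    rw [Finset.mul_sum]
    refine Finset.sum_congr rfl fun i _ => ?_
    ring
  rw [e3]
  refine key.trans ?_
  have : 0 ≤ ∑ I : c.I, peL1 T hT h0 t r U W I ^ 2 := Finset.sum_nonneg fun _ _ => sq_nonneg _
  linarith

/-! ## 4. INT-a -/

/-- **GLOBAL FLATTENING (INT-a)** -/
theorem pe_flatten : ∃ C : ℝ, 0 ≤ C ∧ ∀ (L : ℕ), 0 < L → ∀ (G : Geom) (c c0 : Grid G) (_ : Whole c) (_ : Whole c0) (N : Nest c0 c) (t : ℕ) (_ : c.m = t * c0.m)
    (T : F4a.Top c) (_ : T.Ok), 2 * (2 ^ L + 1) ≤ t → ∀ U : c0.I → ℝ, ∃ U' : c0.I → ℝ,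
      PeGood c0 (subFaces T N) U' ∧
      peS c0 (subFaces T N) U' ≤ (1 + C / L) * peS c0 (subFaces T N) U ∧
      (t : ℝ) ^ 4 * ∑ i ∈ T.cells, (cmean N U' i - cmean N U i) ^ 2 ≤ C * (16 : ℝ) ^ L * peS c0 (subFaces T N) U := by
  obtain ⟨C₀, hC₀, H⟩ := pe_flatten_ball
  refine ⟨16 * C₀, by positivity, fun L hL G c c0 hc hc0 N t ht T hT hrt U => ?_⟩
  have hLR : (0 : ℝ) < L := by exact_mod_cast hL
  obtain ⟨r, hrdef⟩ : ∃ r, r = 2 ^ L + 1 := ⟨_, rfl⟩
  have hr : 2 * r ≤ t := by rw [hrdef]; exact hrt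
  have hr0 : 0 < r := by rw [hrdef]; exact Nat.succ_pos _
  have h0 : 0 < c0.n := lt_of_lt_of_le (by norm_num) hc0.two
  choose W hW1 hW2 hW3 hW4 hW5 using fun I : c.I => H L r hL hrdef.ge (peLocAt T hT I) (fun x y => U (peBall c0 h0 t r I x y))
  have hW : ∀ I x y, r ≤ max (peLay r x) (peLay r y) + 1 → W I x y = U (peBall c0 h0 t r I x y) := by
    intro I x y h
    exact hW1 I x y (by omega)
  set S := peS c0 (subFaces T N) U with hS
  have hS0 : 0 ≤ S := Finset.sum_nonneg fun _ _ => sq_nonneg _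
  have hloc := pe_loc_sum_le hc hc0 N t r ht h0 hr T hT U
  refine ⟨pePatch h0 t r U W, ?_, ?_, ?_⟩
  · intro z
    by_cases hz : ((z.1 : ℕ) + 1) % t = 0 ∧ ((z.2 : ℕ) + 1) % t = 0
    · right
      obtain ⟨I, rfl⟩ := pe_jun_surj hc hc0 t ht h0 z hz.1 hz.2
      obtain ⟨hp1, hp2⟩ := pe_jun_pat hc hc0 N t ht h0 T hT I
      have hpos : ∀ s : Bool, pePos r s 0 < 2 * r := by
        intro s; cases s <;> simp [pePos] <;> omega
      have hval : ∀ q : Bool × Bool, peAt c0 (pePatch h0 t r U W) (peJun c0 h0 t I) q = W I (pePos r q.1 0) (pePos r q.2 0) := by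
        intro q
        unfold peAt
        rw [pe_jun_sub hc hc0 t r ht h0 hr0 hr I q, pe_patch_ball hc hc0 t r ht h0 hr U W I (hpos _) (hpos _)]
      have hp1' : pePos r true 0 = r := by simp [pePos]
      have hp0' : pePos r false 0 = r - 1 := by simp [pePos]
      unfold PePat.D
      have hA : ∀ β : Bool, (if (pePatAt c0 (subFaces T N) (peJun c0 h0 t I)).hl β then
          (peAt c0 (pePatch h0 t r U W) (peJun c0 h0 t I) (true, β) - peAt c0 (pePatch h0 t r U W) (peJun c0 h0 t I) (false, β)) ^ 2 else 0) = 0 := by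
        intro β
        split_ifs with h
        · rw [hval, hval]
          simp only [hp1', hp0']
          rw [hW2 I β ((hp1 β).1 h), sub_self]
          norm_num
        · rfl
      have hB : ∀ α : Bool, (if (pePatAt c0 (subFaces T N) (peJun c0 h0 t I)).vl α then
          (peAt c0 (pePatch h0 t r U W) (peJun c0 h0 t I) (α, true) - peAt c0 (pePatch h0 t r U W) (peJun c0 h0 t I) (α, false)) ^ 2 else 0) = 0 := by
        intro α
        split_ifs with h
        · rw [hval, hval]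
          simp only [hp1', hp0']
          rw [hW3 I α ((hp2 α).1 h), sub_self]
          norm_num
        · rfl
      rw [Finset.sum_eq_zero fun β _ => hA β, Finset.sum_eq_zero fun α _ => hB α, add_zero]
    · left
      exact pe_reg_off hc hc0 N t ht T hT z hz
  · have h1 := pe_patch_energy hc hc0 N t r ht h0 hr T hT U W hW
    have h2 : ∑ I : c.I, ((peLocAt T hT I).E r (W I) - (peLocAt T hT I).E r fun x y => U (peBall c0 h0 t r I x y))
        ≤ ∑ I : c.I, C₀ / L * (peLocAt T hT I).E r fun x y => U (peBall c0 h0 t r I x y) := by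
      refine Finset.sum_le_sum fun I _ => ?_
      have := hW4 I
      linarith
    rw [← Finset.mul_sum] at h2
    have h3 : C₀ / L * ∑ I : c.I, (peLocAt T hT I).E r (fun x y => U (peBall c0 h0 t r I x y)) ≤ C₀ / L * S :=
      mul_le_mul_of_nonneg_left hloc (by positivity)
    have h4 : C₀ / L * S ≤ 16 * C₀ / L * S := by
      refine mul_le_mul_of_nonneg_right ?_ hS0
      apply div_le_div_of_nonneg_right _ hLR.le
      linarith
    linarith
  · refine (pe_patch_mean hc hc0 N t r ht h0 hr T hT U W).trans ?_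
    have h2 : ∑ I : c.I, peL1 T hT h0 t r U W I ^ 2
        ≤ ∑ I : c.I, C₀ * (16 : ℝ) ^ L * (peLocAt T hT I).E r fun x y => U (peBall c0 h0 t r I x y) :=
      Finset.sum_le_sum fun I _ => hW5 I
    rw [← Finset.mul_sum] at h2
    have h3 : C₀ * (16 : ℝ) ^ L * ∑ I : c.I, (peLocAt T hT I).E r (fun x y => U (peBall c0 h0 t r I x y)) ≤ C₀ * (16 : ℝ) ^ L * S :=
      mul_le_mul_of_nonneg_left hloc (by positivity)
    calc 16 * ∑ I : c.I, peL1 T hT h0 t r U W I ^ 2 ≤ 16 * (C₀ * (16 : ℝ) ^ L * S) := by linarith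
      _ = _ := by ring

end

end Claimed.Agent.R285.C5
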