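import Claimed.Agent.R285.C5.PotEP
import Claimed.Agent.R285.Pot.RoBasic
import Claimed.Agent.R285.C5.ResL

/-!
# ROW 285, [C] s5, package PK-C5-POT1 (architect helper83), file 2: THE LOCAL MODEL OF A JUNCTION, FLATTENING   (paper-free, arrays indexed by `ℕ × ℕ`)

A junction = the common corner of four cells.  BALL COORDINATES: `(x, y) ∈ [0, 2r)²`, the junction sits between the columns `r - 1, r` and the rows `r - 1, r`.
QUADRANT COORDINATES: `q : Bool × Bool` (`q.1` east, `q.2` north), `(a, b) ∈ [0, r)²` = distances from the vertical / horizontal axis; `x = r + a` or `r - 1 - a`.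
`pr q`: the quadrant is present; `hl β`: the two quadrants of the row `β` are glued along the vertical axis (`a = 0`); `vl α`: the two quadrants of the column `α` are glued along the horizontal axis (`b = 0`).

## `pe_flatten_ball` (the export).  Every array can be made CONSTANT ON EVERY SECTOR at the junction, changing it only at distance `< 2^L`, at the price `(1 + C/L)` in energy and `C 4^L √E` in `ℓ¹`.
PROOF.  Scale `ρ = 2^k`, `k < L`.  `m q` = mean over the diagonal square `[ρ,2ρ)²` of the quadrant `q`, `c q = V m q` = mean of the `m`'s over the sector of `q` (pattern calculus: equal for glued quadrants), `ũ = c + χ_ρ(max a b)(u - c)`.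
* face by face (`pe_ein_flat`): `E(ũ) ≤ E(u) + E_A + 4ρ⁻² ∑_{A_ρ} (u - c)²`, `A_ρ = {ρ ≤ max a b < 2ρ}`, `E_A` = energy of the faces whose inner end lies in `A_ρ`; glued faces: `δũ = χ δu`.
* Poincare on the L-shaped annulus relative to the diagonal square (`pe_poinc_L`); `(m q - m q')² ≤ 6 E_A` for glued quadrants: three dominoes, `two_cell` (`pe_mean_link`); `pe_V_sub_sq`.
* the `E_A` of different dyadic scales are disjoint (`pe_EA_sum`): PIGEONHOLE.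
* `ℓ¹`: Cauchy-Schwarz + Poincare on `[0,2ρ)²` relative to the diagonal square (`pe_box_dev`).
-/

set_option autoImplicit false

namespace Claimed.Agent.R285.C5

open Finset
open scoped Classical

noncomputable section

/-- a pattern with presence bits -/
structure PeLoc extends PePat where
  pr : Bool × Bool → Prop
  hl_pr : ∀ β, hl β → pr (false, β) ∧ pr (true, β)
  vl_pr : ∀ α, vl α → pr (α, false) ∧ pr (α, true)

/-! ## 1. Quadrant coordinates -/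

/-- the energy of an array on `[0,r)²` -/
def peEin (r : ℕ) (f : ℕ → ℕ → ℝ) : ℝ :=
  ∑ a ∈ range (r - 1), ∑ b ∈ range r, (f (a + 1) b - f a b) ^ 2 + ∑ a ∈ range r, ∑ b ∈ range (r - 1), (f a (b + 1) - f a b) ^ 2

/-- the energy of the local model, quadrant coordinates -/
def PeLoc.Eq (P : PeLoc) (r : ℕ) (u : Bool × Bool → ℕ → ℕ → ℝ) : ℝ :=
  ∑ q : Bool × Bool, (if P.pr q then peEin r (u q) else 0)
    + ∑ β : Bool, (if P.hl β then ∑ b ∈ range r, (u (true, β) 0 b - u (false, β) 0 b) ^ 2 else 0)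
    + ∑ α : Bool, (if P.vl α then ∑ a ∈ range r, (u (α, true) a 0 - u (α, false) a 0) ^ 2 else 0)

/-- the L-shaped annulus `ρ ≤ max a b < 2ρ` -/
def peAnn (ρ : ℕ) : Finset (ℕ × ℕ) := (range (2 * ρ) ×ˢ range (2 * ρ)).filter fun p => ρ ≤ max p.1 p.2

/-- the energy of the faces whose inner end lies in the annulus -/
def peEinA (ρ : ℕ) (f : ℕ → ℕ → ℝ) : ℝ :=
  ∑ p ∈ peAnn ρ, ((f (p.1 + 1) p.2 - f p.1 p.2) ^ 2 + (f p.1 (p.2 + 1) - f p.1 p.2) ^ 2)

/-- the annulus energy of the local model -/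
def PeLoc.EA (P : PeLoc) (ρ : ℕ) (u : Bool × Bool → ℕ → ℕ → ℝ) : ℝ :=
  ∑ q : Bool × Bool, (if P.pr q then peEinA ρ (u q) else 0)
    + ∑ β : Bool, (if P.hl β then ∑ b ∈ Ico ρ (2 * ρ), (u (true, β) 0 b - u (false, β) 0 b) ^ 2 else 0)
    + ∑ α : Bool, (if P.vl α then ∑ a ∈ Ico ρ (2 * ρ), (u (α, true) a 0 - u (α, false) a 0) ^ 2 else 0)

/-- the radial cut-off: `0` up to `ρ`, `1` from `2ρ` on, slope `1/ρ` -/
def peChi (ρ s : ℕ) : ℝ := if s ≤ ρ then 0 else if 2 * ρ ≤ s then 1 else ((s : ℝ) - ρ) / ρ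

/-- the mean over the diagonal square `[ρ,2ρ)²` -/
def peMean (ρ : ℕ) (f : ℕ → ℕ → ℝ) : ℝ := (∑ a ∈ Ico ρ (2 * ρ), ∑ b ∈ Ico ρ (2 * ρ), f a b) / (ρ : ℝ) ^ 2

/-- the flattening of one array towards the constant `c` -/
def peFl (ρ : ℕ) (c : ℝ) (f : ℕ → ℕ → ℝ) (a b : ℕ) : ℝ := c + peChi ρ (max a b) * (f a b - c)

/-- the constant of the sector of `q` -/
def PeLoc.cst (P : PeLoc) (ρ : ℕ) (u : Bool × Bool → ℕ → ℕ → ℝ) (q : Bool × Bool) : ℝ :=
  P.toPePat.V (fun q' => peMean ρ (u q')) q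

/-- the flattened local model -/
def PeLoc.flat (P : PeLoc) (ρ : ℕ) (u : Bool × Bool → ℕ → ℕ → ℝ) (q : Bool × Bool) : ℕ → ℕ → ℝ := peFl ρ (P.cst ρ u q) (u q)

/-- L-PE-L0.  Elementary facts on the cut-off. -/
theorem pe_chi_mem (ρ s : ℕ) : 0 ≤ peChi ρ s ∧ peChi ρ s ≤ 1 := by
  unfold peChi
  split_ifs with h1 h2
  · exact ⟨le_rfl, zero_le_one⟩
  · exact ⟨zero_le_one, le_rfl⟩
  · have h3 : (ρ : ℝ) < s := by exact_mod_cast not_le.1 h1
    have h4 : (s : ℝ) < 2 * ρ := by exact_mod_cast not_le.1 h2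
    have h5 : (0 : ℝ) < ρ := by linarith
    exact ⟨div_nonneg (by linarith) h5.le, by rw [div_le_one h5]; linarith⟩

theorem pe_chi_step (ρ s : ℕ) (hρ : 0 < ρ) : |peChi ρ (s + 1) - peChi ρ s| ≤ 1 / (ρ : ℝ) := by
  have h5 : (0 : ℝ) < ρ := by exact_mod_cast hρ
  have h6 : (0 : ℝ) ≤ 1 / ρ := by positivity
  unfold peChi
  split_ifs with h1 h2 h3 h4 h7 h8 h9
  · simpa using h6
  · omega
  · omega
  · have : ρ = 1 := by omega
    subst this
    simp
  · simpa using h6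
  · have : s + 1 = 2 * ρ := by omega
    have h10 : (s : ℝ) + 1 = 2 * ρ := by exact_mod_cast this
    have : (1 : ℝ) - ((s : ℝ) - ρ) / ρ = 1 / ρ := by
      field_simp
      linarith
    rw [this, abs_of_nonneg h6]
  · have : s = ρ := by omega
    subst this
    push_cast
    rw [sub_zero, add_sub_cancel_left, abs_of_nonneg h6]
  · omega
  · push_cast
    have : ((s : ℝ) + 1 - ρ) / ρ - ((s : ℝ) - ρ) / ρ = 1 / ρ := by
      field_simp
      ring
    rw [this, abs_of_nonneg h6]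

theorem pe_chi_step_eq (ρ s : ℕ) (hρ : 0 < ρ) (h : s < ρ ∨ 2 * ρ ≤ s) : peChi ρ (s + 1) = peChi ρ s := by
  unfold peChi
  split_ifs <;> first | rfl | omega

theorem pe_L1_mem_ann (ρ a b : ℕ) : (a, b) ∈ peAnn ρ ↔ ρ ≤ max a b ∧ max a b < 2 * ρ := by
  simp only [peAnn, mem_filter, mem_product, mem_range]
  omega

/-- one face: `s` the layer of the inner end, `s'` the layer of the outer end -/
theorem pe_L1_face (ρ : ℕ) (hρ : 0 < ρ) (c : ℝ) (s s' : ℕ) (hs : s' = s ∨ s' = s + 1) (u v : ℝ) :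
    ((c + peChi ρ s' * (v - c)) - (c + peChi ρ s * (u - c))) ^ 2
      ≤ (v - u) ^ 2 + (if ρ ≤ s ∧ s < 2 * ρ then (v - u) ^ 2 + 2 / (ρ : ℝ) ^ 2 * (u - c) ^ 2 else 0) := by
  have h1 := pe_chi_mem ρ s'
  have e : (c + peChi ρ s' * (v - c)) - (c + peChi ρ s * (u - c))
      = peChi ρ s' * (v - u) + (peChi ρ s' - peChi ρ s) * (u - c) := by ring
  have hsq : (peChi ρ s' * (v - u)) ^ 2 ≤ (v - u) ^ 2 := by
    rw [mul_pow]
    have : peChi ρ s' ^ 2 ≤ 1 := by nlinarith [h1.1, h1.2]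
    nlinarith [sq_nonneg (v - u)]
  rw [e]
  by_cases hA : ρ ≤ s ∧ s < 2 * ρ
  · rw [if_pos hA]
    have h2 : |peChi ρ s' - peChi ρ s| ≤ 1 / (ρ : ℝ) := by
      rcases hs with rfl | rfl
      · rw [sub_self, abs_zero]; positivity
      · exact pe_chi_step ρ s hρ
    have h3 : (peChi ρ s' - peChi ρ s) ^ 2 ≤ 1 / (ρ : ℝ) ^ 2 := by
      have := pow_le_pow_left₀ (abs_nonneg _) h2 2
      rwa [sq_abs, div_pow, one_pow] at this
    have h4 : ((peChi ρ s' - peChi ρ s) * (u - c)) ^ 2 ≤ 1 / (ρ : ℝ) ^ 2 * (u - c) ^ 2 := by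
      rw [mul_pow]
      exact mul_le_mul_of_nonneg_right h3 (sq_nonneg _)
    have h5 : 2 / (ρ : ℝ) ^ 2 * (u - c) ^ 2 = 2 * (1 / (ρ : ℝ) ^ 2 * (u - c) ^ 2) := by ring
    rw [h5]
    generalize peChi ρ s' * (v - u) = p at *
    generalize (peChi ρ s' - peChi ρ s) * (u - c) = q at *
    nlinarith [sq_nonneg (p - q)]
  · rw [if_neg hA, add_zero]
    have h2 : peChi ρ s' = peChi ρ s := by
      rcases hs with rfl | rfl
      · rfl
      · exact pe_chi_step_eq ρ s hρ (by omega)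
    rw [h2, sub_self, zero_mul, add_zero, ← h2]
    exact hsq

/-- sums of indicator functions of the annulus over a box which contains it -/
theorem pe_L1_sum_ann (ρ m n : ℕ) (hm : 2 * ρ ≤ m) (hn : 2 * ρ ≤ n) (F : ℕ → ℕ → ℝ) :
    ∑ a ∈ range m, ∑ b ∈ range n, (if ρ ≤ max a b ∧ max a b < 2 * ρ then F a b else 0) = ∑ p ∈ peAnn ρ, F p.1 p.2 := by
  rw [← Finset.sum_product' (range m) (range n) fun a b => if ρ ≤ max a b ∧ max a b < 2 * ρ then F a b else 0]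
  have h1 : ∀ p ∈ range m ×ˢ range n, (if ρ ≤ max p.1 p.2 ∧ max p.1 p.2 < 2 * ρ then F p.1 p.2 else 0)
      = if p ∈ peAnn ρ then F p.1 p.2 else 0 := fun p _ => by
    have := pe_L1_mem_ann ρ p.1 p.2
    simp only [Prod.mk.eta] at this
    simp only [this]
  rw [Finset.sum_congr rfl h1, Finset.sum_ite_mem, Finset.inter_eq_right.2]
  intro p hp
  have := (pe_L1_mem_ann ρ p.1 p.2).1 hp
  simp only [mem_product, mem_range]
  omega

/-- L-PE-L1.  **Face by face.**  For the face `x → y` (`y = x + e`), layers `s = max x ≤ s' = max y ≤ s + 1`: `δũ = χ(s') δf + (χ(s') - χ(s)) (f x - c)`; `δχ = 0` unless `ρ ≤ s < 2ρ` (`pe_chi_step_eq`), then `(δũ)² ≤ 2 δf² + 2ρ⁻² (f x - c)²`;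
otherwise `(δũ)² = χ² δf² ≤ δf²`.  Every `x` is the inner end of two faces.  All faces with inner end in the annulus lie in `[0,r)²` because `2ρ + 1 ≤ r`. -/
theorem pe_ein_flat (r ρ : ℕ) (hρ : 0 < ρ) (hr : 2 * ρ + 1 ≤ r) (c : ℝ) (f : ℕ → ℕ → ℝ) :
    peEin r (peFl ρ c f) ≤ peEin r f + peEinA ρ f + 4 / (ρ : ℝ) ^ 2 * ∑ p ∈ peAnn ρ, (f p.1 p.2 - c) ^ 2 := by
  have hH : ∑ a ∈ range (r - 1), ∑ b ∈ range r, (peFl ρ c f (a + 1) b - peFl ρ c f a b) ^ 2
      ≤ ∑ a ∈ range (r - 1), ∑ b ∈ range r, (f (a + 1) b - f a b) ^ 2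
        + ∑ p ∈ peAnn ρ, ((f (p.1 + 1) p.2 - f p.1 p.2) ^ 2 + 2 / (ρ : ℝ) ^ 2 * (f p.1 p.2 - c) ^ 2) := by
    rw [← pe_L1_sum_ann ρ (r - 1) r (by omega) (by omega)
      fun a b => (f (a + 1) b - f a b) ^ 2 + 2 / (ρ : ℝ) ^ 2 * (f a b - c) ^ 2, ← Finset.sum_add_distrib]
    refine Finset.sum_le_sum fun a _ => ?_
    rw [← Finset.sum_add_distrib]
    refine Finset.sum_le_sum fun b _ => ?_
    exact pe_L1_face ρ hρ c (max a b) (max (a + 1) b) (by omega) (f a b) (f (a + 1) b)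
  have hV : ∑ a ∈ range r, ∑ b ∈ range (r - 1), (peFl ρ c f a (b + 1) - peFl ρ c f a b) ^ 2
      ≤ ∑ a ∈ range r, ∑ b ∈ range (r - 1), (f a (b + 1) - f a b) ^ 2
        + ∑ p ∈ peAnn ρ, ((f p.1 (p.2 + 1) - f p.1 p.2) ^ 2 + 2 / (ρ : ℝ) ^ 2 * (f p.1 p.2 - c) ^ 2) := by
    rw [← pe_L1_sum_ann ρ r (r - 1) (by omega) (by omega)
      fun a b => (f a (b + 1) - f a b) ^ 2 + 2 / (ρ : ℝ) ^ 2 * (f a b - c) ^ 2, ← Finset.sum_add_distrib]
    refine Finset.sum_le_sum fun a _ => ?_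
    rw [← Finset.sum_add_distrib]
    refine Finset.sum_le_sum fun b _ => ?_
    exact pe_L1_face ρ hρ c (max a b) (max a (b + 1)) (by omega) (f a b) (f a (b + 1))
  have e : peEinA ρ f + 4 / (ρ : ℝ) ^ 2 * ∑ p ∈ peAnn ρ, (f p.1 p.2 - c) ^ 2
      = ∑ p ∈ peAnn ρ, ((f (p.1 + 1) p.2 - f p.1 p.2) ^ 2 + 2 / (ρ : ℝ) ^ 2 * (f p.1 p.2 - c) ^ 2)
        + ∑ p ∈ peAnn ρ, ((f p.1 (p.2 + 1) - f p.1 p.2) ^ 2 + 2 / (ρ : ℝ) ^ 2 * (f p.1 p.2 - c) ^ 2) := by
    unfold peEinA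
    rw [Finset.mul_sum, ← Finset.sum_add_distrib, ← Finset.sum_add_distrib]
    refine Finset.sum_congr rfl fun p _ => ?_
    ring
  have e2 : peEin r f + peEinA ρ f + 4 / (ρ : ℝ) ^ 2 * ∑ p ∈ peAnn ρ, (f p.1 p.2 - c) ^ 2
      = peEin r f + (peEinA ρ f + 4 / (ρ : ℝ) ^ 2 * ∑ p ∈ peAnn ρ, (f p.1 p.2 - c) ^ 2) := by ring
  rw [e2, e]
  unfold peEin
  linarith

/-! ### helpers of `pe_poinc_L`, `pe_box_dev` (L-PE-L2, L-PE-L6; helper25; prefix `pel2_`) -/

theorem pel2_sum_cast (x x' : ℕ) (g : ℤ → ℝ) : ∑ i ∈ Ico (x : ℤ) (x' : ℤ), g i = ∑ a ∈ Ico x x', g (a : ℤ) := by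
  refine (Finset.sum_nbij (fun a : ℕ => (a : ℤ)) ?_ ?_ ?_ ?_).symm
  · intro a ha
    rw [Finset.mem_Ico] at ha ⊢
    omega
  · intro a _ b _ h
    exact Int.ofNat.inj h
  · intro i hi
    rw [Finset.mem_coe, Finset.mem_Ico] at hi
    refine ⟨i.toNat, ?_, ?_⟩
    · rw [Finset.mem_coe, Finset.mem_Ico]
      omega
    · show ((i.toNat : ℕ) : ℤ) = i
      omega
  · intro a _
    rfl

/-- `Pot.ro_poincare_box` for arrays on `ℕ × ℕ` -/
theorem pel2_poinc_nat (x y w h : ℕ) (hw : 0 < w) (hh : 0 < h) (f : ℕ → ℕ → ℝ) :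
    ∑ a ∈ Ico x (x + w), ∑ b ∈ Ico y (y + h), (f a b - (∑ a ∈ Ico x (x + w), ∑ b ∈ Ico y (y + h), f a b) / ((w : ℝ) * h)) ^ 2
      ≤ (w : ℝ) ^ 2 * ∑ a ∈ Ico x (x + w - 1), ∑ b ∈ Ico y (y + h), (f (a + 1) b - f a b) ^ 2
        + (h : ℝ) ^ 2 * ∑ a ∈ Ico x (x + w), ∑ b ∈ Ico y (y + h - 1), (f a (b + 1) - f a b) ^ 2 := by
  have key := Pot.ro_poincare_box (x : ℤ) (y : ℤ) w h (fun p => f p.1.toNat p.2.toNat)
  have c1 : (x : ℤ) + w = ((x + w : ℕ) : ℤ) := by push_cast; ring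
  have c2 : (x : ℤ) + w - 1 = ((x + w - 1 : ℕ) : ℤ) := by omega
  have c3 : (y : ℤ) + h = ((y + h : ℕ) : ℤ) := by push_cast; ring
  have c4 : (y : ℤ) + h - 1 = ((y + h - 1 : ℕ) : ℤ) := by omega
  have c5 : ∀ a : ℕ, ((a : ℤ) + 1).toNat = a + 1 := by intro a; omega
  rw [c2, c4, c1, c3] at key
  simp only [Finset.sum_product, pel2_sum_cast, Int.toNat_natCast, c5] at key
  exact key

/-- deviation from the mean over a subset -/
theorem pel2_dev {ι : Type} (S D : Finset ι) (hD : D ⊆ S) (hD0 : 0 < D.card) (F : ι → ℝ) (m : ℝ) :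
    ∑ i ∈ S, (F i - (∑ i ∈ D, F i) / D.card) ^ 2 ≤ (2 + 2 * S.card / D.card) * ∑ i ∈ S, (F i - m) ^ 2 := by
  have hc : (0 : ℝ) < D.card := by exact_mod_cast hD0
  obtain ⟨mD, hmD⟩ : ∃ mD : ℝ, mD = (∑ i ∈ D, F i) / D.card := ⟨_, rfl⟩
  rw [← hmD]
  have h1 : (m - mD) ^ 2 ≤ (∑ i ∈ D, (F i - m) ^ 2) / D.card := by
    have e : m - mD = (∑ i ∈ D, (m - F i)) / D.card := by
      rw [hmD, Finset.sum_sub_distrib, Finset.sum_const, nsmul_eq_mul]
      field_simp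
    have h2 := sq_sum_le_card_mul_sum_sq (s := D) (f := fun i => m - F i)
    rw [e, div_pow, div_le_div_iff₀ (by positivity) hc]
    calc (∑ i ∈ D, (m - F i)) ^ 2 * D.card ≤ (D.card * ∑ i ∈ D, (m - F i) ^ 2) * D.card := by
          exact mul_le_mul_of_nonneg_right h2 hc.le
      _ = (∑ i ∈ D, (F i - m) ^ 2) * (D.card : ℝ) ^ 2 := by
          rw [Finset.sum_congr rfl fun i _ => (show (m - F i) ^ 2 = (F i - m) ^ 2 by ring)]
          ring
  have h3 : ∑ i ∈ D, (F i - m) ^ 2 ≤ ∑ i ∈ S, (F i - m) ^ 2 :=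
    Finset.sum_le_sum_of_subset_of_nonneg hD fun _ _ _ => sq_nonneg _
  have h4 : ∑ i ∈ S, (F i - mD) ^ 2 ≤ ∑ i ∈ S, (2 * (F i - m) ^ 2 + 2 * (m - mD) ^ 2) := by
    refine Finset.sum_le_sum fun i _ => ?_
    nlinarith [sq_nonneg ((F i - m) - (m - mD))]
  rw [Finset.sum_add_distrib, ← Finset.mul_sum, Finset.sum_const, nsmul_eq_mul] at h4
  have h5 : (m - mD) ^ 2 ≤ (∑ i ∈ S, (F i - m) ^ 2) / D.card := h1.trans (div_le_div_of_nonneg_right h3 hc.le)
  have h6 : (S.card : ℝ) * (2 * (m - mD) ^ 2) ≤ (S.card : ℝ) * (2 * ((∑ i ∈ S, (F i - m) ^ 2) / D.card)) := by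
    gcongr
  calc ∑ i ∈ S, (F i - mD) ^ 2 ≤ 2 * ∑ i ∈ S, (F i - m) ^ 2 + (S.card : ℝ) * (2 * ((∑ i ∈ S, (F i - m) ^ 2) / D.card)) := by linarith
    _ = (2 + 2 * S.card / D.card) * ∑ i ∈ S, (F i - m) ^ 2 := by ring

/-- Poincare on a box which contains the diagonal square, relative to the mean over the diagonal square -/
theorem pel2_box (ρ x y w h : ℕ) (hρ : 0 < ρ) (hx : x ≤ ρ) (hxw : 2 * ρ ≤ x + w) (hy : y ≤ ρ) (hyh : 2 * ρ ≤ y + h) (f : ℕ → ℕ → ℝ) :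
    ∑ a ∈ Ico x (x + w), ∑ b ∈ Ico y (y + h), (f a b - peMean ρ f) ^ 2
      ≤ (2 + 2 * ((w : ℝ) * h) / (ρ : ℝ) ^ 2) * ((w : ℝ) ^ 2 * ∑ a ∈ Ico x (x + w - 1), ∑ b ∈ Ico y (y + h), (f (a + 1) b - f a b) ^ 2
        + (h : ℝ) ^ 2 * ∑ a ∈ Ico x (x + w), ∑ b ∈ Ico y (y + h - 1), (f a (b + 1) - f a b) ^ 2) := by
  have hw : 0 < w := by omega
  have hh : 0 < h := by omega
  have hsub : Ico ρ (2 * ρ) ×ˢ Ico ρ (2 * ρ) ⊆ Ico x (x + w) ×ˢ Ico y (y + h) := by
    intro p hp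
    rw [Finset.mem_product, Finset.mem_Ico, Finset.mem_Ico] at hp ⊢
    omega
  have hcD : (Ico ρ (2 * ρ) ×ˢ Ico ρ (2 * ρ)).card = ρ * ρ := by
    rw [Finset.card_product, Nat.card_Ico]
    congr 1 <;> omega
  have hcS : (Ico x (x + w) ×ˢ Ico y (y + h)).card = w * h := by
    rw [Finset.card_product, Nat.card_Ico, Nat.card_Ico]
    congr 1 <;> omega
  have h1 := pel2_dev (Ico x (x + w) ×ˢ Ico y (y + h)) (Ico ρ (2 * ρ) ×ˢ Ico ρ (2 * ρ)) hsub (by rw [hcD]; positivity)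
    (fun p => f p.1 p.2) ((∑ a ∈ Ico x (x + w), ∑ b ∈ Ico y (y + h), f a b) / ((w : ℝ) * h))
  rw [hcD, hcS] at h1
  simp only [Finset.sum_product] at h1
  have h2 := pel2_poinc_nat x y w h hw hh f
  have e1 : peMean ρ f = (∑ a ∈ Ico ρ (2 * ρ), ∑ b ∈ Ico ρ (2 * ρ), f a b) / ((ρ * ρ : ℕ) : ℝ) := by
    unfold peMean
    push_cast
    rw [sq]
  have e2 : (2 + 2 * ((w : ℝ) * h) / (ρ : ℝ) ^ 2) = 2 + 2 * ((w * h : ℕ) : ℝ) / ((ρ * ρ : ℕ) : ℝ) := by
    push_cast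
    rw [sq]
  rw [e1, e2]
  refine h1.trans (mul_le_mul_of_nonneg_left h2 (by positivity))

/-- L-PE-L2.  **Poincare on the L-shaped annulus relative to the diagonal square.**  `A_ρ = V ∪ H`, `V = [ρ,2ρ) × [0,2ρ)`, `H = [0,2ρ) × [ρ,2ρ)`.  `Pot.ro_poincare_box` on `V`: `∑_V (f - m_V)² ≤ 4ρ² E(V)`;
`(m_V - m_D)² ≤ ρ⁻² ∑_D (f - m_V)²` (Cauchy-Schwarz, `D ⊆ V`), so `∑_V (f - m_D)² ≤ 2 ∑_V (f - m_V)² + 2 · 2ρ² (m_V - m_D)² ≤ 24 ρ² E(V)`.  Same for `H`.  `E(V), E(H) ≤ peEinA`. -/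
theorem pe_poinc_L (ρ : ℕ) (hρ : 0 < ρ) (f : ℕ → ℕ → ℝ) :
    ∑ p ∈ peAnn ρ, (f p.1 p.2 - peMean ρ f) ^ 2 ≤ 48 * (ρ : ℝ) ^ 2 * peEinA ρ f := by
  have hr : (ρ : ℝ) ≠ 0 := by positivity
  obtain ⟨AH, hAH⟩ : ∃ AH : ℝ, AH = ∑ p ∈ peAnn ρ, (f (p.1 + 1) p.2 - f p.1 p.2) ^ 2 := ⟨_, rfl⟩
  obtain ⟨AV, hAV⟩ : ∃ AV : ℝ, AV = ∑ p ∈ peAnn ρ, (f p.1 (p.2 + 1) - f p.1 p.2) ^ 2 := ⟨_, rfl⟩
  have hAH0 : 0 ≤ AH := by rw [hAH]; exact Finset.sum_nonneg fun _ _ => sq_nonneg _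
  have hAV0 : 0 ≤ AV := by rw [hAV]; exact Finset.sum_nonneg fun _ _ => sq_nonneg _
  have hA : peEinA ρ f = AH + AV := by
    unfold peEinA
    rw [Finset.sum_add_distrib, hAH, hAV]
  -- sub-boxes of the annulus
  have hsubA : ∀ (x x' y y' : ℕ), x' ≤ 2 * ρ → y' ≤ 2 * ρ → (ρ ≤ x ∨ ρ ≤ y) → Ico x x' ×ˢ Ico y y' ⊆ peAnn ρ := by
    intro x x' y y' hx' hy' hxy p hp
    unfold peAnn
    rw [Finset.mem_product, Finset.mem_Ico, Finset.mem_Ico] at hp
    rw [Finset.mem_filter, Finset.mem_product, Finset.mem_range, Finset.mem_range, le_max_iff]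
    omega
  have hle : ∀ (G : ℕ × ℕ → ℝ), (∀ p, 0 ≤ G p) → ∀ (x x' y y' : ℕ), x' ≤ 2 * ρ → y' ≤ 2 * ρ → (ρ ≤ x ∨ ρ ≤ y) →
      ∑ a ∈ Ico x x', ∑ b ∈ Ico y y', G (a, b) ≤ ∑ p ∈ peAnn ρ, G p := by
    intro G hG x x' y y' hx' hy' hxy
    rw [← Finset.sum_product (Ico x x') (Ico y y') G]
    exact Finset.sum_le_sum_of_subset_of_nonneg (hsubA x x' y y' hx' hy' hxy) fun _ _ _ => hG _
  -- the vertical and the horizontal bar
  have hV := pel2_box ρ ρ 0 ρ (2 * ρ) hρ le_rfl (by omega) (Nat.zero_le _) (by omega) f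
  have hH := pel2_box ρ 0 ρ (2 * ρ) ρ hρ (Nat.zero_le _) (by omega) le_rfl (by omega) f
  have v1 := hle (fun p => (f (p.1 + 1) p.2 - f p.1 p.2) ^ 2) (fun _ => sq_nonneg _) ρ (ρ + ρ - 1) 0 (0 + 2 * ρ) (by omega) (by omega) (Or.inl le_rfl)
  have v2 := hle (fun p => (f p.1 (p.2 + 1) - f p.1 p.2) ^ 2) (fun _ => sq_nonneg _) ρ (ρ + ρ) 0 (0 + 2 * ρ - 1) (by omega) (by omega) (Or.inl le_rfl)
  have w1 := hle (fun p => (f (p.1 + 1) p.2 - f p.1 p.2) ^ 2) (fun _ => sq_nonneg _) 0 (0 + 2 * ρ - 1) ρ (ρ + ρ) (by omega) (by omega) (Or.inr le_rfl)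
  have w2 := hle (fun p => (f p.1 (p.2 + 1) - f p.1 p.2) ^ 2) (fun _ => sq_nonneg _) 0 (0 + 2 * ρ) ρ (ρ + ρ - 1) (by omega) (by omega) (Or.inr le_rfl)
  rw [← hAH] at v1 w1
  rw [← hAV] at v2 w2
  have c6 : (2 + 2 * (((ρ : ℕ) : ℝ) * ((2 * ρ : ℕ) : ℝ)) / (ρ : ℝ) ^ 2) = 6 := by
    push_cast
    field_simp
    ring
  have c6' : (2 + 2 * (((2 * ρ : ℕ) : ℝ) * ((ρ : ℕ) : ℝ)) / (ρ : ℝ) ^ 2) = 6 := by
    push_cast
    field_simp
    ring
  rw [c6] at hV
  rw [c6'] at hH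
  have hρ2 : (0 : ℝ) ≤ (ρ : ℝ) ^ 2 := by positivity
  have hV' : ∑ a ∈ Ico ρ (ρ + ρ), ∑ b ∈ Ico 0 (0 + 2 * ρ), (f a b - peMean ρ f) ^ 2 ≤ 24 * (ρ : ℝ) ^ 2 * (AH + AV) := by
    refine hV.trans ?_
    push_cast
    nlinarith [mul_le_mul_of_nonneg_left v1 hρ2, mul_le_mul_of_nonneg_left v2 hρ2, mul_nonneg hρ2 hAH0, mul_nonneg hρ2 hAV0]
  have hH' : ∑ a ∈ Ico 0 (0 + 2 * ρ), ∑ b ∈ Ico ρ (ρ + ρ), (f a b - peMean ρ f) ^ 2 ≤ 24 * (ρ : ℝ) ^ 2 * (AH + AV) := by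
    refine hH.trans ?_
    push_cast
    nlinarith [mul_le_mul_of_nonneg_left w1 hρ2, mul_le_mul_of_nonneg_left w2 hρ2, mul_nonneg hρ2 hAH0, mul_nonneg hρ2 hAV0]
  -- the annulus is covered by the two bars
  have hcov : peAnn ρ ⊆ (Ico ρ (ρ + ρ) ×ˢ Ico 0 (0 + 2 * ρ)) ∪ (Ico 0 (0 + 2 * ρ) ×ˢ Ico ρ (ρ + ρ)) := by
    intro p hp
    unfold peAnn at hp
    rw [Finset.mem_filter, Finset.mem_product, Finset.mem_range, Finset.mem_range, le_max_iff] at hp
    rw [Finset.mem_union, Finset.mem_product, Finset.mem_product, Finset.mem_Ico, Finset.mem_Ico, Finset.mem_Ico, Finset.mem_Ico]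
    omega
  have h1 : ∑ p ∈ peAnn ρ, (f p.1 p.2 - peMean ρ f) ^ 2
      ≤ ∑ p ∈ (Ico ρ (ρ + ρ) ×ˢ Ico 0 (0 + 2 * ρ)) ∪ (Ico 0 (0 + 2 * ρ) ×ˢ Ico ρ (ρ + ρ)), (f p.1 p.2 - peMean ρ f) ^ 2 :=
    Finset.sum_le_sum_of_subset_of_nonneg hcov fun _ _ _ => sq_nonneg _
  have h2 := Finset.sum_union_inter (s₁ := Ico ρ (ρ + ρ) ×ˢ Ico 0 (0 + 2 * ρ)) (s₂ := Ico 0 (0 + 2 * ρ) ×ˢ Ico ρ (ρ + ρ))
    (f := fun p => (f p.1 p.2 - peMean ρ f) ^ 2)
  have h3 : 0 ≤ ∑ p ∈ (Ico ρ (ρ + ρ) ×ˢ Ico 0 (0 + 2 * ρ)) ∩ (Ico 0 (0 + 2 * ρ) ×ˢ Ico ρ (ρ + ρ)), (f p.1 p.2 - peMean ρ f) ^ 2 :=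
    Finset.sum_nonneg fun _ _ => sq_nonneg _
  rw [Finset.sum_product, Finset.sum_product] at h2
  rw [hA]
  linarith

/-- the vertical strip `[ρ,2ρ) × [0,2ρ)` lies in the annulus -/
theorem pe_L3_strip (ρ : ℕ) (G : ℕ → ℕ → ℝ) (hG : ∀ a b, 0 ≤ G a b) :
    ∑ a ∈ Ico ρ (2 * ρ), ∑ b ∈ range (2 * ρ), G a b ≤ ∑ p ∈ peAnn ρ, G p.1 p.2 := by
  rw [← Finset.sum_product' (Ico ρ (2 * ρ)) (range (2 * ρ)) G]
  refine Finset.sum_le_sum_of_subset_of_nonneg ?_ fun p _ _ => hG _ _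
  intro p hp
  simp only [mem_product, mem_Ico, mem_range] at hp
  simp only [peAnn, mem_filter, mem_product, mem_range]
  omega

theorem pe_L3_Ico (ρ : ℕ) (F : ℕ → ℝ) : ∑ a ∈ Ico ρ (2 * ρ), F a = ∑ y ∈ range ρ, F (ρ + y) := by
  rw [Finset.sum_Ico_eq_sum_range]
  have : 2 * ρ - ρ = ρ := by omega
  rw [this]

/-- the vertical faces of the strip, rows `b < n ≤ 2ρ` -/
theorem pe_L3_R (ρ n : ℕ) (hn : n ≤ 2 * ρ) (f : ℕ → ℕ → ℝ) :
    ∑ b ∈ range n, ∑ y ∈ range ρ, (f (ρ + y) (b + 1) - f (ρ + y) b) ^ 2 ≤ peEinA ρ f := by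
  have h1 : ∑ b ∈ range n, ∑ y ∈ range ρ, (f (ρ + y) (b + 1) - f (ρ + y) b) ^ 2
      ≤ ∑ b ∈ range (2 * ρ), ∑ y ∈ range ρ, (f (ρ + y) (b + 1) - f (ρ + y) b) ^ 2 :=
    Finset.sum_le_sum_of_subset_of_nonneg (Finset.range_subset_range.2 hn)
      fun b _ _ => Finset.sum_nonneg fun y _ => sq_nonneg _
  refine h1.trans ?_
  rw [Finset.sum_comm, ← pe_L3_Ico ρ fun a => ∑ b ∈ range (2 * ρ), (f a (b + 1) - f a b) ^ 2]
  refine (pe_L3_strip ρ (fun a b => (f a (b + 1) - f a b) ^ 2) fun _ _ => sq_nonneg _).trans ?_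
  unfold peEinA
  refine Finset.sum_le_sum fun p _ => ?_
  nlinarith [sq_nonneg (f (p.1 + 1) p.2 - f p.1 p.2)]

theorem pe_L3_mean (ρ : ℕ) (f : ℕ → ℕ → ℝ) :
    peMean ρ f = ((ρ : ℝ) ^ 2)⁻¹ * ∑ x ∈ range ρ, ∑ y ∈ range ρ, f (ρ + y) (x + ρ) := by
  unfold peMean
  rw [div_eq_inv_mul, Finset.sum_comm, pe_L3_Ico]
  congr 1
  refine Finset.sum_congr rfl fun x _ => ?_
  rw [pe_L3_Ico, add_comm ρ x]

/-- first domino: the diagonal square and the square below it -/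
theorem pe_L3_dom1 (ρ : ℕ) (hρ : 0 < ρ) (f : ℕ → ℕ → ℝ) :
    (peMean ρ f - ((ρ : ℝ) ^ 2)⁻¹ * ∑ x ∈ range ρ, ∑ y ∈ range ρ, f (ρ + y) x) ^ 2 ≤ peEinA ρ f := by
  rw [pe_L3_mean]
  exact (two_cell ρ hρ fun x y => f (ρ + y) x).trans (pe_L3_R ρ (2 * ρ - 1) (by omega) f)

/-- middle domino: the two squares at the glued axis -/
theorem pe_L3_dom2 (ρ : ℕ) (hρ : 0 < ρ) (f g : ℕ → ℕ → ℝ) :
    (((ρ : ℝ) ^ 2)⁻¹ * ∑ x ∈ range ρ, ∑ y ∈ range ρ, g (ρ + y) x
        - ((ρ : ℝ) ^ 2)⁻¹ * ∑ x ∈ range ρ, ∑ y ∈ range ρ, f (ρ + y) x) ^ 2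
      ≤ peEinA ρ f + ∑ a ∈ Ico ρ (2 * ρ), (g a 0 - f a 0) ^ 2 + peEinA ρ g := by
  have key := two_cell ρ hρ fun x y => if x < ρ then f (ρ + y) (ρ - 1 - x) else g (ρ + y) (x - ρ)
  have e1 : ∑ x ∈ range ρ, ∑ y ∈ range ρ, (if x + ρ < ρ then f (ρ + y) (ρ - 1 - (x + ρ)) else g (ρ + y) (x + ρ - ρ))
      = ∑ x ∈ range ρ, ∑ y ∈ range ρ, g (ρ + y) x := by
    refine Finset.sum_congr rfl fun x _ => Finset.sum_congr rfl fun y _ => ?_
    rw [if_neg (by omega), Nat.add_sub_cancel]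
  have e2 : ∑ x ∈ range ρ, ∑ y ∈ range ρ, (if x < ρ then f (ρ + y) (ρ - 1 - x) else g (ρ + y) (x - ρ))
      = ∑ x ∈ range ρ, ∑ y ∈ range ρ, f (ρ + y) x := by
    rw [← Finset.sum_range_reflect (fun x => ∑ y ∈ range ρ, f (ρ + y) x) ρ]
    refine Finset.sum_congr rfl fun x hx => Finset.sum_congr rfl fun y _ => ?_
    rw [if_pos (Finset.mem_range.1 hx)]
  beta_reduce at key
  rw [e1, e2] at key
  refine key.trans ?_
  have h2 : 2 * ρ - 1 = (ρ - 1) + 1 + (ρ - 1) := by omega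
  rw [h2, Finset.sum_range_add, Finset.sum_range_succ]
  have hA : ∑ x ∈ range (ρ - 1), ∑ y ∈ range ρ,
      ((if x + 1 < ρ then f (ρ + y) (ρ - 1 - (x + 1)) else g (ρ + y) (x + 1 - ρ))
        - (if x < ρ then f (ρ + y) (ρ - 1 - x) else g (ρ + y) (x - ρ))) ^ 2 ≤ peEinA ρ f := by
    refine le_trans (le_of_eq ?_) (pe_L3_R ρ (ρ - 1) (by omega) f)
    rw [← Finset.sum_range_reflect (fun b => ∑ y ∈ range ρ, (f (ρ + y) (b + 1) - f (ρ + y) b) ^ 2) (ρ - 1)]
    refine Finset.sum_congr rfl fun x hx => Finset.sum_congr rfl fun y _ => ?_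
    have hx' := Finset.mem_range.1 hx
    rw [if_pos (by omega), if_pos (by omega)]
    have i1 : ρ - 1 - (x + 1) = ρ - 1 - 1 - x := by omega
    have i2 : ρ - 1 - x = ρ - 1 - 1 - x + 1 := by omega
    rw [i1, i2]
    ring
  have hB : ∑ y ∈ range ρ,
      ((if ρ - 1 + 1 < ρ then f (ρ + y) (ρ - 1 - (ρ - 1 + 1)) else g (ρ + y) (ρ - 1 + 1 - ρ))
        - (if ρ - 1 < ρ then f (ρ + y) (ρ - 1 - (ρ - 1)) else g (ρ + y) (ρ - 1 - ρ))) ^ 2
      = ∑ a ∈ Ico ρ (2 * ρ), (g a 0 - f a 0) ^ 2 := by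
    rw [pe_L3_Ico]
    refine Finset.sum_congr rfl fun y _ => ?_
    rw [if_neg (by omega), if_pos (by omega)]
    have i1 : ρ - 1 + 1 - ρ = 0 := by omega
    have i2 : ρ - 1 - (ρ - 1) = 0 := by omega
    rw [i1, i2]
  have hC : ∑ x ∈ range (ρ - 1), ∑ y ∈ range ρ,
      ((if ρ - 1 + 1 + x + 1 < ρ then f (ρ + y) (ρ - 1 - (ρ - 1 + 1 + x + 1)) else g (ρ + y) (ρ - 1 + 1 + x + 1 - ρ))
        - (if ρ - 1 + 1 + x < ρ then f (ρ + y) (ρ - 1 - (ρ - 1 + 1 + x)) else g (ρ + y) (ρ - 1 + 1 + x - ρ))) ^ 2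
      ≤ peEinA ρ g := by
    refine le_trans (le_of_eq ?_) (pe_L3_R ρ (ρ - 1) (by omega) g)
    refine Finset.sum_congr rfl fun x _ => Finset.sum_congr rfl fun y _ => ?_
    rw [if_neg (by omega), if_neg (by omega)]
    have i1 : ρ - 1 + 1 + x + 1 - ρ = x + 1 := by omega
    have i2 : ρ - 1 + 1 + x - ρ = x := by omega
    rw [i1, i2]
  rw [hB]
  exact add_le_add (add_le_add hA le_rfl) hC

theorem pe_L3_EinA_swap (ρ : ℕ) (f : ℕ → ℕ → ℝ) : peEinA ρ (fun a b => f b a) = peEinA ρ f := by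
  unfold peEinA
  refine Finset.sum_equiv (Equiv.prodComm ℕ ℕ) ?_ ?_
  · intro p
    simp only [peAnn, mem_filter, mem_product, mem_range, Equiv.prodComm_apply, Prod.fst_swap, Prod.snd_swap]
    omega
  · intro p _
    simp only [Equiv.prodComm_apply, Prod.fst_swap, Prod.snd_swap]
    ring

theorem pe_L3_mean_swap (ρ : ℕ) (f : ℕ → ℕ → ℝ) : peMean ρ (fun a b => f b a) = peMean ρ f := by
  unfold peMean
  rw [Finset.sum_comm]

/-- L-PE-L3.  **Means of glued quadrants** (glued along `b = 0`).  Squares `D_f = [ρ,2ρ)²`, `Q_f = [ρ,2ρ) × [0,ρ)`, `Q_g`, `D_g`: three dominoes, `C5.two_cell` (constant ONE) for each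
(the middle one for the array `b' ↦ f a (ρ - 1 - b')` (`b' < ρ`), `g a (b' - ρ)` (`b' ≥ ρ`)), `(x+y+z)² ≤ 3(x²+y²+z²)`; the vertical faces of `Q_f`, `Q_g` are used twice, hence `6`. -/
theorem pe_mean_link (ρ : ℕ) (hρ : 0 < ρ) (f g : ℕ → ℕ → ℝ) :
    (peMean ρ g - peMean ρ f) ^ 2 ≤ 6 * (peEinA ρ f + peEinA ρ g + ∑ a ∈ Ico ρ (2 * ρ), (g a 0 - f a 0) ^ 2) := by
  have h1 := pe_L3_dom1 ρ hρ f
  have h2 := pe_L3_dom1 ρ hρ g
  have h3 := pe_L3_dom2 ρ hρ f g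
  have h4 : 0 ≤ ∑ a ∈ Ico ρ (2 * ρ), (g a 0 - f a 0) ^ 2 := Finset.sum_nonneg fun _ _ => sq_nonneg _
  generalize ((ρ : ℝ) ^ 2)⁻¹ * ∑ x ∈ range ρ, ∑ y ∈ range ρ, f (ρ + y) x = qf at *
  generalize ((ρ : ℝ) ^ 2)⁻¹ * ∑ x ∈ range ρ, ∑ y ∈ range ρ, g (ρ + y) x = qg at *
  generalize ∑ a ∈ Ico ρ (2 * ρ), (g a 0 - f a 0) ^ 2 = G at *
  generalize peMean ρ f = mf at *
  generalize peMean ρ g = mg at *
  generalize peEinA ρ f = Ef at *
  generalize peEinA ρ g = Eg at *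
  have h5 : (mg - mf) ^ 2 ≤ 3 * ((mg - qg) ^ 2 + (qg - qf) ^ 2 + (mf - qf) ^ 2) := by
    nlinarith [sq_nonneg ((mg - qg) - (qg - qf)), sq_nonneg ((mg - qg) + (mf - qf)), sq_nonneg ((qg - qf) + (mf - qf))]
  linarith

/-- L-PE-L3'.  The same for quadrants glued along `a = 0` (apply `pe_mean_link` to the transposed arrays; `peEinA`, `peMean` are symmetric). -/
theorem pe_mean_link' (ρ : ℕ) (hρ : 0 < ρ) (f g : ℕ → ℕ → ℝ) :
    (peMean ρ g - peMean ρ f) ^ 2 ≤ 6 * (peEinA ρ f + peEinA ρ g + ∑ b ∈ Ico ρ (2 * ρ), (g 0 b - f 0 b) ^ 2) := by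
  have h := pe_mean_link ρ hρ (fun a b => f b a) (fun a b => g b a)
  rwa [pe_L3_mean_swap ρ f, pe_L3_mean_swap ρ g, pe_L3_EinA_swap ρ f, pe_L3_EinA_swap ρ g] at h

theorem pe_einA_nonneg (ρ : ℕ) (f : ℕ → ℕ → ℝ) : 0 ≤ peEinA ρ f :=
  sum_nonneg fun _ _ => add_nonneg (sq_nonneg _) (sq_nonneg _)

theorem pe_ein_nonneg (r : ℕ) (f : ℕ → ℕ → ℝ) : 0 ≤ peEin r f :=
  add_nonneg (sum_nonneg fun _ _ => sum_nonneg fun _ _ => sq_nonneg _)
    (sum_nonneg fun _ _ => sum_nonneg fun _ _ => sq_nonneg _)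

/-- L-PE-L4.  `pe_V_sub_sq` for the four means, `PePat.D ≤ ∑ links (Δ mean)²`, `pe_mean_link('')`, presence of the glued quadrants (`hl_pr`, `vl_pr`): every `peEinA` occurs in at most 2 links. -/
theorem pe_cst_sub (P : PeLoc) (ρ : ℕ) (hρ : 0 < ρ) (u : Bool × Bool → ℕ → ℕ → ℝ) (q : Bool × Bool) :
    (P.cst ρ u q - peMean ρ (u q)) ^ 2 ≤ 48 * P.EA ρ u := by
  have h1 := pe_V_sub_sq P.toPePat (fun q' => peMean ρ (u q')) q
  have hA : ∀ q', 0 ≤ peEinA ρ (u q') := fun q' => pe_einA_nonneg _ _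
  have hD : P.toPePat.D (fun q' => peMean ρ (u q')) ≤ 12 * P.EA ρ u := by
    have hh : ∀ β : Bool, (if P.hl β then (peMean ρ (u (true, β)) - peMean ρ (u (false, β))) ^ 2 else 0) ≤
        6 * ((if P.pr (false, β) then peEinA ρ (u (false, β)) else 0) + (if P.pr (true, β) then peEinA ρ (u (true, β)) else 0)
          + (if P.hl β then ∑ b ∈ Ico ρ (2 * ρ), (u (true, β) 0 b - u (false, β) 0 b) ^ 2 else 0)) := by
      intro β
      by_cases h : P.hl β
      · rw [if_pos h, if_pos h, if_pos (P.hl_pr β h).1, if_pos (P.hl_pr β h).2]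
        exact pe_mean_link' ρ hρ _ _
      · rw [if_neg h, if_neg h]
        have := hA (false, β)
        have := hA (true, β)
        split_ifs <;> linarith
    have hv : ∀ α : Bool, (if P.vl α then (peMean ρ (u (α, true)) - peMean ρ (u (α, false))) ^ 2 else 0) ≤
        6 * ((if P.pr (α, false) then peEinA ρ (u (α, false)) else 0) + (if P.pr (α, true) then peEinA ρ (u (α, true)) else 0)
          + (if P.vl α then ∑ a ∈ Ico ρ (2 * ρ), (u (α, true) a 0 - u (α, false) a 0) ^ 2 else 0)) := by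
      intro α
      by_cases h : P.vl α
      · rw [if_pos h, if_pos h, if_pos (P.vl_pr α h).1, if_pos (P.vl_pr α h).2]
        exact pe_mean_link ρ hρ _ _
      · rw [if_neg h, if_neg h]
        have := hA (α, false)
        have := hA (α, true)
        split_ifs <;> linarith
    have e1 := hh false
    have e2 := hh true
    have e3 := hv false
    have e4 := hv true
    have n1 : ∀ β : Bool, 0 ≤ (if P.hl β then ∑ b ∈ Ico ρ (2 * ρ), (u (true, β) 0 b - u (false, β) 0 b) ^ 2 else 0) := by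
      intro β
      split_ifs
      · exact sum_nonneg fun _ _ => sq_nonneg _
      · exact le_rfl
    have n2 : ∀ α : Bool, 0 ≤ (if P.vl α then ∑ a ∈ Ico ρ (2 * ρ), (u (α, true) a 0 - u (α, false) a 0) ^ 2 else 0) := by
      intro α
      split_ifs
      · exact sum_nonneg fun _ _ => sq_nonneg _
      · exact le_rfl
    have := n1 false
    have := n1 true
    have := n2 false
    have := n2 true
    unfold PePat.D PeLoc.EA
    rw [Fintype.sum_prod_type]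
    simp only [Fintype.sum_bool]
    linarith
  unfold PeLoc.cst
  linarith

theorem pe_sum_if (c : Prop) (s : Finset ℕ) (F : ℕ → ℝ) : ∑ a ∈ s, (if c then F a else 0) = if c then ∑ a ∈ s, F a else 0 := by
  by_cases h : c <;> simp [h]

theorem pe_ann_split (ρ : ℕ) (F : ℕ × ℕ → ℝ) :
    ∑ p ∈ peAnn ρ, F p + ∑ p ∈ range ρ ×ˢ range ρ, F p = ∑ p ∈ range (2 * ρ) ×ˢ range (2 * ρ), F p := by
  have h : (range (2 * ρ) ×ˢ range (2 * ρ)).filter (fun p => ¬ ρ ≤ max p.1 p.2) = range ρ ×ˢ range ρ := by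
    ext ⟨a, b⟩
    simp only [mem_filter, mem_product, mem_range, not_le, max_lt_iff]
    omega
  rw [← h]
  exact Finset.sum_filter_add_sum_filter_not _ _ _

theorem pe_ann_le (ρ : ℕ) (F : ℕ × ℕ → ℝ) (hF : ∀ p, 0 ≤ F p) :
    ∑ p ∈ peAnn ρ, F p ≤ ∑ p ∈ range (2 * ρ) ×ˢ range (2 * ρ), F p := by
  rw [← pe_ann_split]
  have : 0 ≤ ∑ p ∈ range ρ ×ˢ range ρ, F p := Finset.sum_nonneg fun p _ => hF p
  linarith

theorem pe_box_le (r M : ℕ) (h : M + 1 ≤ r) (f : ℕ → ℕ → ℝ) :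
    ∑ p ∈ range M ×ˢ range M, ((f (p.1 + 1) p.2 - f p.1 p.2) ^ 2 + (f p.1 (p.2 + 1) - f p.1 p.2) ^ 2) ≤ peEin r f := by
  unfold peEin
  rw [Finset.sum_add_distrib, ← Finset.sum_product' (range (r - 1)) (range r) (fun a b => (f (a + 1) b - f a b) ^ 2),
    ← Finset.sum_product' (range r) (range (r - 1)) (fun a b => (f a (b + 1) - f a b) ^ 2)]
  refine add_le_add ?_ ?_
  · refine Finset.sum_le_sum_of_subset_of_nonneg ?_ (fun _ _ _ => sq_nonneg _)
    exact Finset.product_subset_product (range_subset_range.2 (by omega)) (range_subset_range.2 (by omega))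
  · refine Finset.sum_le_sum_of_subset_of_nonneg ?_ (fun _ _ _ => sq_nonneg _)
    exact Finset.product_subset_product (range_subset_range.2 (by omega)) (range_subset_range.2 (by omega))

theorem pe_dyadic2 (L : ℕ) (F : ℕ × ℕ → ℝ) (hF : ∀ p, 0 ≤ F p) :
    ∑ k ∈ range L, ∑ p ∈ peAnn (2 ^ k), F p ≤ ∑ p ∈ range (2 ^ L) ×ˢ range (2 ^ L), F p := by
  induction L with
  | zero =>
    rw [Finset.sum_range_zero]
    exact Finset.sum_nonneg fun p _ => hF p
  | succ L ih =>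
    rw [Finset.sum_range_succ, pow_succ', ← pe_ann_split]
    linarith

theorem pe_dyadic1 (L : ℕ) (g : ℕ → ℝ) (hg : ∀ b, 0 ≤ g b) :
    ∑ k ∈ range L, ∑ b ∈ Ico (2 ^ k) (2 * 2 ^ k), g b ≤ ∑ b ∈ range (2 ^ L), g b := by
  induction L with
  | zero =>
    rw [Finset.sum_range_zero]
    exact Finset.sum_nonneg fun p _ => hg p
  | succ L ih =>
    rw [Finset.sum_range_succ, pow_succ', ← Finset.sum_range_add_sum_Ico g (by omega : 2 ^ L ≤ 2 * 2 ^ L)]
    linarith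

/-- L-PE-L5.  **Disjointness of the dyadic annuli.**  The index sets `peAnn (2^k)`, `Ico (2^k) (2^(k+1))`, `k < L`, are pairwise disjoint and the faces lie in `[0,r)²`. -/
theorem pe_EA_sum (P : PeLoc) (r L : ℕ) (hr : 2 ^ L + 1 ≤ r) (u : Bool × Bool → ℕ → ℕ → ℝ) :
    ∑ k ∈ range L, P.EA (2 ^ k) u ≤ P.Eq r u := by
  unfold PeLoc.EA PeLoc.Eq
  rw [Finset.sum_add_distrib, Finset.sum_add_distrib]
  refine add_le_add (add_le_add ?_ ?_) ?_
  · rw [Finset.sum_comm]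
    refine Finset.sum_le_sum fun q _ => ?_
    rw [pe_sum_if]
    split_ifs
    · unfold peEinA
      exact (pe_dyadic2 L _ (fun p => by positivity)).trans (pe_box_le r _ hr _)
    · exact le_rfl
  · rw [Finset.sum_comm]
    refine Finset.sum_le_sum fun β _ => ?_
    rw [pe_sum_if]
    split_ifs
    · refine (pe_dyadic1 L _ (fun b => sq_nonneg _)).trans ?_
      exact Finset.sum_le_sum_of_subset_of_nonneg (range_subset_range.2 (by omega)) (fun _ _ _ => sq_nonneg _)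
    · exact le_rfl
  · rw [Finset.sum_comm]
    refine Finset.sum_le_sum fun α _ => ?_
    rw [pe_sum_if]
    split_ifs
    · refine (pe_dyadic1 L _ (fun b => sq_nonneg _)).trans ?_
      exact Finset.sum_le_sum_of_subset_of_nonneg (range_subset_range.2 (by omega)) (fun _ _ _ => sq_nonneg _)
    · exact le_rfl

/-- L-PE-L5'.  One annulus. -/
theorem pe_EA_le (P : PeLoc) (r ρ : ℕ) (hr : 2 * ρ + 1 ≤ r) (u : Bool × Bool → ℕ → ℕ → ℝ) : P.EA ρ u ≤ P.Eq r u := by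
  have hsub : Ico ρ (2 * ρ) ⊆ range r := by
    intro b hb
    rw [mem_Ico] at hb
    rw [mem_range]
    omega
  unfold PeLoc.EA PeLoc.Eq
  refine add_le_add (add_le_add ?_ ?_) ?_
  · refine Finset.sum_le_sum fun q _ => ?_
    split_ifs
    · unfold peEinA
      exact (pe_ann_le ρ _ (fun p => by positivity)).trans (pe_box_le r _ hr _)
    · exact le_rfl
  · refine Finset.sum_le_sum fun β _ => ?_
    split_ifs
    · exact Finset.sum_le_sum_of_subset_of_nonneg hsub (fun _ _ _ => sq_nonneg _)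
    · exact le_rfl
  · refine Finset.sum_le_sum fun α _ => ?_
    split_ifs
    · exact Finset.sum_le_sum_of_subset_of_nonneg hsub (fun _ _ _ => sq_nonneg _)
    · exact le_rfl

/-- L-PE-L6.  Poincare on `B = [0,2ρ)²` relative to the diagonal square: `∑_B (f - m_B)² ≤ 4ρ² E(B)` (`Pot.ro_poincare_box`), `(m_B - m_D)² ≤ ρ⁻² ∑_B (f - m_B)²`. -/
theorem pe_box_dev (ρ : ℕ) (hρ : 0 < ρ) (f : ℕ → ℕ → ℝ) :
    ∑ a ∈ range (2 * ρ), ∑ b ∈ range (2 * ρ), (f a b - peMean ρ f) ^ 2 ≤ 40 * (ρ : ℝ) ^ 2 * peEin (2 * ρ) f := by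
  have h := pel2_box ρ 0 0 (2 * ρ) (2 * ρ) hρ (Nat.zero_le _) (by omega) (Nat.zero_le _) (by omega) f
  simp only [zero_add, ← Finset.range_eq_Ico] at h
  refine h.trans (le_of_eq ?_)
  have hr : (ρ : ℝ) ≠ 0 := by positivity
  unfold peEin
  push_cast
  field_simp
  ring

theorem pe_ein_mono {r r' : ℕ} (h : r ≤ r') (f : ℕ → ℕ → ℝ) : peEin r f ≤ peEin r' f := by
  unfold peEin
  have h1 : range (r - 1) ⊆ range (r' - 1) := range_subset_range.2 (by omega)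
  have h2 : range r ⊆ range r' := range_subset_range.2 h
  refine add_le_add ?_ ?_
  · refine (sum_le_sum fun a _ => sum_le_sum_of_subset_of_nonneg h2 fun _ _ _ => sq_nonneg _).trans ?_
    exact sum_le_sum_of_subset_of_nonneg h1 fun _ _ _ => sum_nonneg fun _ _ => sq_nonneg _
  · refine (sum_le_sum fun a _ => sum_le_sum_of_subset_of_nonneg h1 fun _ _ _ => sq_nonneg _).trans ?_
    exact sum_le_sum_of_subset_of_nonneg h2 fun _ _ _ => sum_nonneg fun _ _ => sq_nonneg _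

theorem pe_EA_nonneg (P : PeLoc) (ρ : ℕ) (u : Bool × Bool → ℕ → ℕ → ℝ) : 0 ≤ P.EA ρ u := by
  unfold PeLoc.EA
  refine add_nonneg (add_nonneg ?_ ?_) ?_ <;> refine sum_nonneg fun _ _ => ?_ <;> split_ifs
  · exact pe_einA_nonneg _ _
  · exact le_rfl
  · exact sum_nonneg fun _ _ => sq_nonneg _
  · exact le_rfl
  · exact sum_nonneg fun _ _ => sq_nonneg _
  · exact le_rfl

theorem pe_Eq_nonneg (P : PeLoc) (r : ℕ) (u : Bool × Bool → ℕ → ℕ → ℝ) : 0 ≤ P.Eq r u := by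
  unfold PeLoc.Eq
  refine add_nonneg (add_nonneg ?_ ?_) ?_ <;> refine sum_nonneg fun _ _ => ?_ <;> split_ifs
  · exact pe_ein_nonneg _ _
  · exact le_rfl
  · exact sum_nonneg fun _ _ => sq_nonneg _
  · exact le_rfl
  · exact sum_nonneg fun _ _ => sq_nonneg _
  · exact le_rfl

theorem pe_ann_card (ρ : ℕ) : ((peAnn ρ).card : ℝ) = 3 * (ρ : ℝ) ^ 2 := by
  have h := Finset.card_filter_add_card_filter_not (s := range (2 * ρ) ×ˢ range (2 * ρ))
    (fun p : ℕ × ℕ => ρ ≤ max p.1 p.2)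
  have h2 : ((range (2 * ρ) ×ˢ range (2 * ρ)).filter fun p : ℕ × ℕ => ¬ ρ ≤ max p.1 p.2) = range ρ ×ˢ range ρ := by
    ext p
    simp only [mem_filter, mem_product, mem_range, not_le, max_lt_iff]
    omega
  rw [h2, card_product, card_product, card_range, card_range] at h
  have h3 : ((peAnn ρ).card : ℝ) + (ρ : ℝ) * ρ = (2 * (ρ : ℝ)) * (2 * ρ) := by
    have := congrArg (fun n : ℕ => (n : ℝ)) h
    push_cast at this
    exact this
  nlinarith

theorem pe_ann_dev (ρ : ℕ) (f : ℕ → ℕ → ℝ) (c m : ℝ) :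
    ∑ p ∈ peAnn ρ, (f p.1 p.2 - c) ^ 2 ≤ 2 * ∑ p ∈ peAnn ρ, (f p.1 p.2 - m) ^ 2 + 6 * (ρ : ℝ) ^ 2 * (c - m) ^ 2 := by
  have h1 : ∑ p ∈ peAnn ρ, (f p.1 p.2 - c) ^ 2 ≤ ∑ p ∈ peAnn ρ, (2 * (f p.1 p.2 - m) ^ 2 + 2 * (c - m) ^ 2) := by
    refine sum_le_sum fun p _ => ?_
    nlinarith [sq_nonneg (f p.1 p.2 - m + (c - m))]
  rw [sum_add_distrib, ← mul_sum, sum_const, nsmul_eq_mul, pe_ann_card] at h1
  linarith

theorem pe_flat_q (P : PeLoc) (r ρ : ℕ) (hρ : 0 < ρ) (hr : 2 * ρ + 1 ≤ r) (u : Bool × Bool → ℕ → ℕ → ℝ) (q : Bool × Bool) :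
    peEin r (P.flat ρ u q) ≤ peEin r (u q) + 385 * peEinA ρ (u q) + 1152 * P.EA ρ u := by
  have h1 := pe_ein_flat r ρ hρ hr (P.cst ρ u q) (u q)
  have h2 := pe_poinc_L ρ hρ (u q)
  have h3 := pe_cst_sub P ρ hρ u q
  have h4 := pe_ann_dev ρ (u q) (P.cst ρ u q) (peMean ρ (u q))
  have hR : (0 : ℝ) < (ρ : ℝ) ^ 2 := by positivity
  have h5 : 4 / (ρ : ℝ) ^ 2 * ∑ p ∈ peAnn ρ, (u q p.1 p.2 - P.cst ρ u q) ^ 2 ≤ 384 * peEinA ρ (u q) + 1152 * P.EA ρ u := by
    rw [div_mul_eq_mul_div, div_le_iff₀ hR]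
    have h6 : 6 * (ρ : ℝ) ^ 2 * (P.cst ρ u q - peMean ρ (u q)) ^ 2 ≤ 6 * (ρ : ℝ) ^ 2 * (48 * P.EA ρ u) :=
      mul_le_mul_of_nonneg_left h3 (by positivity)
    nlinarith
  show peEin r (peFl ρ (P.cst ρ u q) (u q)) ≤ _
  linarith

theorem pe_chi_mul_sq (ρ s : ℕ) (x : ℝ) : (peChi ρ s * x) ^ 2 ≤ x ^ 2 := by
  obtain ⟨h0, h1⟩ := pe_chi_mem ρ s
  rw [mul_pow]
  have : peChi ρ s ^ 2 ≤ 1 := pow_le_one₀ h0 h1
  nlinarith [sq_nonneg x]


/-- L-PE-L7.  **One scale.**  Present quadrants: `pe_ein_flat` with `c = cst q`, `∑_A (u - c)² ≤ 2 ∑_A (u - m)² + 2 · 3ρ² (m - c)²` (`card (peAnn ρ) = 3ρ²`), `pe_poinc_L`, `pe_cst_sub`.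
Glued faces: `cst` agrees (`pe_V_hl`, `pe_V_vl`), the layers agree, so `δũ = χ δu`, `0 ≤ χ ≤ 1`. -/
theorem pe_flat_energy (P : PeLoc) (r ρ : ℕ) (hρ : 0 < ρ) (hr : 2 * ρ + 1 ≤ r) (u : Bool × Bool → ℕ → ℕ → ℝ) :
    P.Eq r (P.flat ρ u) ≤ P.Eq r u + 5000 * P.EA ρ u := by
  have hEA := pe_EA_nonneg P ρ u
  -- the quadrants
  have hq : ∑ q : Bool × Bool, (if P.pr q then peEin r (P.flat ρ u q) else 0)
      ≤ ∑ q : Bool × Bool, (if P.pr q then peEin r (u q) else 0)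
        + 385 * ∑ q : Bool × Bool, (if P.pr q then peEinA ρ (u q) else 0) + 4608 * P.EA ρ u := by
    have h1 : ∑ q : Bool × Bool, (if P.pr q then peEin r (P.flat ρ u q) else 0)
        ≤ ∑ q : Bool × Bool, ((if P.pr q then peEin r (u q) else 0)
          + 385 * (if P.pr q then peEinA ρ (u q) else 0) + 1152 * P.EA ρ u) := by
      refine sum_le_sum fun q _ => ?_
      by_cases hp : P.pr q
      · simp only [hp, if_true]
        exact pe_flat_q P r ρ hρ hr u q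
      · simp only [hp, if_false]
        linarith
    rw [sum_add_distrib, sum_add_distrib, ← mul_sum, sum_const] at h1
    simp only [card_univ, Fintype.card_prod, Fintype.card_bool, nsmul_eq_mul] at h1
    push_cast at h1
    linarith
  -- the glued faces
  have hh : ∑ β : Bool, (if P.hl β then ∑ b ∈ range r, (P.flat ρ u (true, β) 0 b - P.flat ρ u (false, β) 0 b) ^ 2 else 0)
      ≤ ∑ β : Bool, (if P.hl β then ∑ b ∈ range r, (u (true, β) 0 b - u (false, β) 0 b) ^ 2 else 0) := by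
    refine sum_le_sum fun β _ => ?_
    by_cases hp : P.hl β
    · simp only [hp, if_true]
      refine sum_le_sum fun b _ => ?_
      have hc : P.cst ρ u (false, β) = P.cst ρ u (true, β) := pe_V_hl P.toPePat _ β hp
      have : P.flat ρ u (true, β) 0 b - P.flat ρ u (false, β) 0 b
          = peChi ρ (max 0 b) * (u (true, β) 0 b - u (false, β) 0 b) := by
        simp only [PeLoc.flat, peFl, hc]
        ring
      rw [this]
      exact pe_chi_mul_sq _ _ _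
    · simp only [hp, if_false, le_refl]
  have hv : ∑ α : Bool, (if P.vl α then ∑ a ∈ range r, (P.flat ρ u (α, true) a 0 - P.flat ρ u (α, false) a 0) ^ 2 else 0)
      ≤ ∑ α : Bool, (if P.vl α then ∑ a ∈ range r, (u (α, true) a 0 - u (α, false) a 0) ^ 2 else 0) := by
    refine sum_le_sum fun α _ => ?_
    by_cases hp : P.vl α
    · simp only [hp, if_true]
      refine sum_le_sum fun a _ => ?_
      have hc : P.cst ρ u (α, false) = P.cst ρ u (α, true) := pe_V_vl P.toPePat _ α hp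
      have : P.flat ρ u (α, true) a 0 - P.flat ρ u (α, false) a 0
          = peChi ρ (max a 0) * (u (α, true) a 0 - u (α, false) a 0) := by
        simp only [PeLoc.flat, peFl, hc]
        ring
      rw [this]
      exact pe_chi_mul_sq _ _ _
    · simp only [hp, if_false, le_refl]
  -- the annulus energy of the quadrants is a part of `EA`
  have hA : ∑ q : Bool × Bool, (if P.pr q then peEinA ρ (u q) else 0) ≤ P.EA ρ u := by
    have a1 : 0 ≤ ∑ β : Bool, (if P.hl β then ∑ b ∈ Ico ρ (2 * ρ), (u (true, β) 0 b - u (false, β) 0 b) ^ 2 else 0) :=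
      sum_nonneg fun β _ => by
        split_ifs
        · exact sum_nonneg fun _ _ => sq_nonneg _
        · exact le_rfl
    have a2 : 0 ≤ ∑ α : Bool, (if P.vl α then ∑ a ∈ Ico ρ (2 * ρ), (u (α, true) a 0 - u (α, false) a 0) ^ 2 else 0) :=
      sum_nonneg fun α _ => by
        split_ifs
        · exact sum_nonneg fun _ _ => sq_nonneg _
        · exact le_rfl
    unfold PeLoc.EA
    linarith
  unfold PeLoc.Eq
  linarith

theorem pe_ein_le_Eq (P : PeLoc) (r : ℕ) (u : Bool × Bool → ℕ → ℕ → ℝ) (q : Bool × Bool) (hq : P.pr q) :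
    peEin r (u q) ≤ P.Eq r u := by
  have a0 : peEin r (u q) ≤ ∑ q' : Bool × Bool, (if P.pr q' then peEin r (u q') else 0) := by
    have := single_le_sum (f := fun q' : Bool × Bool => if P.pr q' then peEin r (u q') else 0)
      (fun q' _ => by
        show 0 ≤ if P.pr q' then peEin r (u q') else 0
        split_ifs
        · exact pe_ein_nonneg _ _
        · exact le_rfl) (mem_univ q)
    simpa only [hq, if_true] using this
  have a1 : 0 ≤ ∑ β : Bool, (if P.hl β then ∑ b ∈ range r, (u (true, β) 0 b - u (false, β) 0 b) ^ 2 else 0) :=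
    sum_nonneg fun β _ => by
      split_ifs
      · exact sum_nonneg fun _ _ => sq_nonneg _
      · exact le_rfl
  have a2 : 0 ≤ ∑ α : Bool, (if P.vl α then ∑ a ∈ range r, (u (α, true) a 0 - u (α, false) a 0) ^ 2 else 0) :=
    sum_nonneg fun α _ => by
      split_ifs
      · exact sum_nonneg fun _ _ => sq_nonneg _
      · exact le_rfl
  unfold PeLoc.Eq
  linarith

theorem pe_chi_one (ρ s : ℕ) (hρ : 0 < ρ) (h : 2 * ρ ≤ s) : peChi ρ s = 1 := by
  unfold peChi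
  rw [if_neg (by omega), if_pos h]

theorem pe_fl_abs (ρ : ℕ) (c : ℝ) (f : ℕ → ℕ → ℝ) (a b : ℕ) : |peFl ρ c f a b - f a b| ≤ |f a b - c| := by
  obtain ⟨h0, h1⟩ := pe_chi_mem ρ (max a b)
  have : peFl ρ c f a b - f a b = -((1 - peChi ρ (max a b)) * (f a b - c)) := by
    unfold peFl
    ring
  rw [this, abs_neg, abs_mul, abs_of_nonneg (by linarith)]
  exact mul_le_of_le_one_left (abs_nonneg _) (by linarith)

theorem pe_fl_far (ρ : ℕ) (hρ : 0 < ρ) (c : ℝ) (f : ℕ → ℕ → ℝ) (a b : ℕ) (h : 2 * ρ ≤ max a b) :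
    peFl ρ c f a b - f a b = 0 := by
  unfold peFl
  rw [pe_chi_one ρ _ hρ h]
  ring

theorem pe_fl_l1 (r ρ : ℕ) (hρ : 0 < ρ) (hr : 2 * ρ ≤ r) (c : ℝ) (f : ℕ → ℕ → ℝ) :
    ∑ a ∈ range r, ∑ b ∈ range r, |peFl ρ c f a b - f a b| ≤ ∑ a ∈ range (2 * ρ), ∑ b ∈ range (2 * ρ), |f a b - c| := by
  rw [← sum_product' (range r) (range r) fun a b => |peFl ρ c f a b - f a b|,
    ← sum_product' (range (2 * ρ)) (range (2 * ρ)) fun a b => |f a b - c|]
  have hsub : range (2 * ρ) ×ˢ range (2 * ρ) ⊆ range r ×ˢ range r :=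
    product_subset_product (range_subset_range.2 hr) (range_subset_range.2 hr)
  rw [← sum_subset hsub fun p _ hp => ?_]
  · exact sum_le_sum fun p _ => pe_fl_abs ρ c f p.1 p.2
  · have h2 : 2 * ρ ≤ max p.1 p.2 := by
      simp only [mem_product, mem_range, not_and_or, not_lt] at hp
      rcases hp with hp | hp
      · exact hp.trans (le_max_left _ _)
      · exact hp.trans (le_max_right _ _)
    rw [pe_fl_far ρ hρ c f p.1 p.2 h2, abs_zero]

theorem pe_box_cs (n : ℕ) (x : ℕ → ℕ → ℝ) :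
    (∑ a ∈ range n, ∑ b ∈ range n, |x a b|) ^ 2 ≤ (n : ℝ) ^ 2 * ∑ a ∈ range n, ∑ b ∈ range n, x a b ^ 2 := by
  rw [← sum_product' (range n) (range n) fun a b => |x a b|, ← sum_product' (range n) (range n) fun a b => x a b ^ 2]
  have := sq_sum_le_card_mul_sum_sq (s := range n ×ˢ range n) (f := fun p : ℕ × ℕ => |x p.1 p.2|)
  simp only [sq_abs, card_product, card_range] at this
  push_cast at this
  rw [← sq] at this
  exact this

theorem pe_box_dev2 (ρ : ℕ) (f : ℕ → ℕ → ℝ) (c m : ℝ) :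
    ∑ a ∈ range (2 * ρ), ∑ b ∈ range (2 * ρ), (f a b - c) ^ 2
      ≤ 2 * ∑ a ∈ range (2 * ρ), ∑ b ∈ range (2 * ρ), (f a b - m) ^ 2 + 8 * (ρ : ℝ) ^ 2 * (c - m) ^ 2 := by
  have h1 : ∑ a ∈ range (2 * ρ), ∑ b ∈ range (2 * ρ), (f a b - c) ^ 2
      ≤ ∑ a ∈ range (2 * ρ), ∑ b ∈ range (2 * ρ), (2 * (f a b - m) ^ 2 + 2 * (c - m) ^ 2) := by
    refine sum_le_sum fun a _ => sum_le_sum fun b _ => ?_
    nlinarith [sq_nonneg (f a b - m + (c - m))]
  simp only [sum_add_distrib, ← mul_sum, sum_const, card_range, nsmul_eq_mul] at h1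
  push_cast at h1
  nlinarith

theorem pe_flat_l1_q (P : PeLoc) (r ρ : ℕ) (hρ : 0 < ρ) (hr : 2 * ρ + 1 ≤ r) (u : Bool × Bool → ℕ → ℕ → ℝ) (q : Bool × Bool)
    (hq : P.pr q) :
    (∑ a ∈ range r, ∑ b ∈ range r, |P.flat ρ u q a b - u q a b|) ^ 2 ≤ 1856 * (ρ : ℝ) ^ 4 * P.Eq r u := by
  have h1 := pe_fl_l1 r ρ hρ (by omega) (P.cst ρ u q) (u q)
  have h0 : 0 ≤ ∑ a ∈ range r, ∑ b ∈ range r, |peFl ρ (P.cst ρ u q) (u q) a b - u q a b| :=
    sum_nonneg fun _ _ => sum_nonneg fun _ _ => abs_nonneg _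
  have h2 := pe_box_cs (2 * ρ) fun a b => u q a b - P.cst ρ u q
  have h3 := pe_box_dev2 ρ (u q) (P.cst ρ u q) (peMean ρ (u q))
  have h4 := pe_box_dev ρ hρ (u q)
  have h5 : peEin (2 * ρ) (u q) ≤ P.Eq r u := (pe_ein_mono (by omega) (u q)).trans (pe_ein_le_Eq P r u q hq)
  have h6 := (pe_cst_sub P ρ hρ u q).trans (mul_le_mul_of_nonneg_left (pe_EA_le P r ρ hr u) (by norm_num : (0 : ℝ) ≤ 48))
  have hR : (0 : ℝ) ≤ (ρ : ℝ) ^ 2 := by positivity
  have h7 : ∑ a ∈ range (2 * ρ), ∑ b ∈ range (2 * ρ), (u q a b - P.cst ρ u q) ^ 2 ≤ 464 * (ρ : ℝ) ^ 2 * P.Eq r u := by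
    have a1 : 40 * (ρ : ℝ) ^ 2 * peEin (2 * ρ) (u q) ≤ 40 * (ρ : ℝ) ^ 2 * P.Eq r u :=
      mul_le_mul_of_nonneg_left h5 (by positivity)
    have a2 : 8 * (ρ : ℝ) ^ 2 * (P.cst ρ u q - peMean ρ (u q)) ^ 2 ≤ 8 * (ρ : ℝ) ^ 2 * (48 * P.Eq r u) :=
      mul_le_mul_of_nonneg_left h6 (by positivity)
    nlinarith
  have h8 : (∑ a ∈ range r, ∑ b ∈ range r, |peFl ρ (P.cst ρ u q) (u q) a b - u q a b|) ^ 2
      ≤ (∑ a ∈ range (2 * ρ), ∑ b ∈ range (2 * ρ), |u q a b - P.cst ρ u q|) ^ 2 := pow_le_pow_left₀ h0 h1 2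
  have h9 : (((2 * ρ : ℕ) : ℝ)) ^ 2 * ∑ a ∈ range (2 * ρ), ∑ b ∈ range (2 * ρ), (u q a b - P.cst ρ u q) ^ 2
      ≤ (((2 * ρ : ℕ) : ℝ)) ^ 2 * (464 * (ρ : ℝ) ^ 2 * P.Eq r u) := mul_le_mul_of_nonneg_left h7 (by positivity)
  push_cast at h9 h2
  show (∑ a ∈ range r, ∑ b ∈ range r, |peFl ρ (P.cst ρ u q) (u q) a b - u q a b|) ^ 2 ≤ _
  nlinarith


/-- L-PE-L8.  **The `ℓ¹` change.**  `|ũ - u| = (1 - χ)|u - c| ≤ |u - c|`, zero off `[0,2ρ)²`; Cauchy-Schwarz over the `≤ 16ρ²` points; `(u - c)² ≤ 2(u - m)² + 2(m - c)²`, `pe_box_dev`, `pe_ein_mono`, `pe_cst_sub`, `pe_EA_le`. -/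
theorem pe_flat_l1 (P : PeLoc) (r ρ : ℕ) (hρ : 0 < ρ) (hr : 2 * ρ + 1 ≤ r) (u : Bool × Bool → ℕ → ℕ → ℝ) :
    (∑ q : Bool × Bool, if P.pr q then ∑ a ∈ range r, ∑ b ∈ range r, |P.flat ρ u q a b - u q a b| else 0) ^ 2
      ≤ 30000 * (ρ : ℝ) ^ 4 * P.Eq r u := by
  have hE := pe_Eq_nonneg P r u
  have h1 := sq_sum_le_card_mul_sum_sq (s := (univ : Finset (Bool × Bool)))
    (f := fun q => if P.pr q then ∑ a ∈ range r, ∑ b ∈ range r, |P.flat ρ u q a b - u q a b| else 0)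
  have h2 : ∑ q : Bool × Bool, (if P.pr q then ∑ a ∈ range r, ∑ b ∈ range r, |P.flat ρ u q a b - u q a b| else 0) ^ 2
      ≤ ∑ _q : Bool × Bool, 1856 * (ρ : ℝ) ^ 4 * P.Eq r u := by
    refine sum_le_sum fun q _ => ?_
    by_cases hp : P.pr q
    · simp only [hp, if_true]
      exact pe_flat_l1_q P r ρ hρ hr u q hp
    · simp only [hp, if_false]
      have : (0 : ℝ) ≤ (ρ : ℝ) ^ 4 * P.Eq r u := by positivity
      nlinarith
  simp only [sum_const, card_univ, Fintype.card_prod, Fintype.card_bool, nsmul_eq_mul] at h1 h2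
  push_cast at h1 h2
  have h3 : (0 : ℝ) ≤ (ρ : ℝ) ^ 4 * P.Eq r u := by positivity
  nlinarith

/-! ## 2. Ball coordinates -/

/-- the side of a coordinate -/
def peSide (r x : ℕ) : Bool := decide (r ≤ x)

/-- the distance from the axis -/
def peLay (r x : ℕ) : ℕ := if r ≤ x then x - r else r - 1 - x

/-- the coordinate at distance `a` from the axis on the side `s` -/
def pePos (r : ℕ) (s : Bool) (a : ℕ) : ℕ := if s then r + a else r - 1 - a

/-- the horizontal face `(x,y) → (x+1,y)` is present -/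
def PeLoc.Hok (P : PeLoc) (r x y : ℕ) : Prop := if x + 1 = r then P.hl (peSide r y) else P.pr (peSide r x, peSide r y)

/-- the vertical face `(x,y) → (x,y+1)` is present -/
def PeLoc.Vok (P : PeLoc) (r x y : ℕ) : Prop := if y + 1 = r then P.vl (peSide r x) else P.pr (peSide r x, peSide r y)

/-- the energy of the local model, ball coordinates -/
def PeLoc.E (P : PeLoc) (r : ℕ) (v : ℕ → ℕ → ℝ) : ℝ :=
  ∑ x ∈ range (2 * r - 1), ∑ y ∈ range (2 * r), (if P.Hok r x y then (v (x + 1) y - v x y) ^ 2 else 0)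
    + ∑ x ∈ range (2 * r), ∑ y ∈ range (2 * r - 1), (if P.Vok r x y then (v x (y + 1) - v x y) ^ 2 else 0)

/-- ball → quadrants -/
def peToQ (r : ℕ) (v : ℕ → ℕ → ℝ) (q : Bool × Bool) (a b : ℕ) : ℝ := v (pePos r q.1 a) (pePos r q.2 b)

/-- quadrants → ball -/
def peToB (r : ℕ) (u : Bool × Bool → ℕ → ℕ → ℝ) (x y : ℕ) : ℝ := u (peSide r x, peSide r y) (peLay r x) (peLay r y)

theorem pe_sum_full (r : ℕ) (g : ℕ → ℝ) :
    ∑ x ∈ range (2 * r), g x = ∑ a ∈ range r, g (pePos r false a) + ∑ a ∈ range r, g (pePos r true a) := by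
  rw [two_mul, Finset.sum_range_add]
  congr 1
  rw [← Finset.sum_range_reflect]
  refine Finset.sum_congr rfl fun a _ => ?_
  simp [pePos]

theorem pe_sum_face (r : ℕ) (hr : 0 < r) (g : ℕ → ℝ) :
    ∑ x ∈ range (2 * r - 1), g x
      = ∑ a ∈ range (r - 1), g (pePos r false (a + 1)) + g (r - 1) + ∑ a ∈ range (r - 1), g (pePos r true a) := by
  have e : 2 * r - 1 = (r - 1 + 1) + (r - 1) := by omega
  rw [e, Finset.sum_range_add, Finset.sum_range_succ]
  congr 1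
  · congr 1
    rw [← Finset.sum_range_reflect]
    refine Finset.sum_congr rfl fun a ha => ?_
    congr 1
    simp only [pePos, Bool.false_eq_true, if_false]
    omega
  · refine Finset.sum_congr rfl fun a _ => ?_
    congr 1
    simp only [pePos, if_true]
    omega

theorem pe_side_pos (r : ℕ) (s : Bool) (a : ℕ) (ha : a < r) : peSide r (pePos r s a) = s := by
  cases s
  · simp only [peSide, pePos, Bool.false_eq_true, if_false, decide_eq_false_iff_not, not_le]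
    omega
  · simp [peSide, pePos]

/-- one direction of faces, ball coordinates → quadrant coordinates -/
theorem pe_half (r : ℕ) (hr : 0 < r) (pr : Bool → Bool → Prop) (hl : Bool → Prop) (Hk : ℕ → ℕ → Prop)
    (h1 : ∀ x y, x + 1 = r → (Hk x y ↔ hl (peSide r y)))
    (h2 : ∀ x y, x + 1 ≠ r → (Hk x y ↔ pr (peSide r x) (peSide r y))) (v : ℕ → ℕ → ℝ) :
    ∑ x ∈ range (2 * r - 1), ∑ y ∈ range (2 * r), (if Hk x y then (v (x + 1) y - v x y) ^ 2 else 0)
      = ∑ s : Bool, ∑ t : Bool, (if pr s t then ∑ a ∈ range (r - 1), ∑ b ∈ range r,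
          (v (pePos r s (a + 1)) (pePos r t b) - v (pePos r s a) (pePos r t b)) ^ 2 else 0)
        + ∑ t : Bool, (if hl t then ∑ b ∈ range r,
          (v (pePos r true 0) (pePos r t b) - v (pePos r false 0) (pePos r t b)) ^ 2 else 0) := by
  have inner : ∀ (x : ℕ) (A : Bool → Prop), (∀ y, Hk x y ↔ A (peSide r y)) →
      ∑ y ∈ range (2 * r), (if Hk x y then (v (x + 1) y - v x y) ^ 2 else 0)
        = ∑ t : Bool, (if A t then ∑ b ∈ range r, (v (x + 1) (pePos r t b) - v x (pePos r t b)) ^ 2 else 0) := by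
    intro x A hA
    have key : ∀ t : Bool, ∑ b ∈ range r,
        (if Hk x (pePos r t b) then (v (x + 1) (pePos r t b) - v x (pePos r t b)) ^ 2 else 0)
        = if A t then ∑ b ∈ range r, (v (x + 1) (pePos r t b) - v x (pePos r t b)) ^ 2 else 0 := by
      intro t
      by_cases ht : A t
      · rw [if_pos ht]
        refine Finset.sum_congr rfl fun b hb => ?_
        rw [if_pos]
        rw [hA, pe_side_pos r t b (Finset.mem_range.1 hb)]
        exact ht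
      · rw [if_neg ht]
        refine Finset.sum_eq_zero fun b hb => ?_
        rw [if_neg]
        rw [hA, pe_side_pos r t b (Finset.mem_range.1 hb)]
        exact ht
    rw [pe_sum_full, key, key, Fintype.sum_bool, add_comm]
  have p1 : ∑ a ∈ range (r - 1), ∑ y ∈ range (2 * r), (if Hk (pePos r false (a + 1)) y then
        (v (pePos r false (a + 1) + 1) y - v (pePos r false (a + 1)) y) ^ 2 else 0)
      = ∑ t : Bool, (if pr false t then ∑ a ∈ range (r - 1), ∑ b ∈ range r,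
          (v (pePos r false (a + 1)) (pePos r t b) - v (pePos r false a) (pePos r t b)) ^ 2 else 0) := by
    calc _ = ∑ a ∈ range (r - 1), ∑ t : Bool, (if pr false t then ∑ b ∈ range r,
          (v (pePos r false (a + 1)) (pePos r t b) - v (pePos r false a) (pePos r t b)) ^ 2 else 0) := by
          refine Finset.sum_congr rfl fun a ha => ?_
          have ha' := Finset.mem_range.1 ha
          have e1 : pePos r false (a + 1) + 1 = pePos r false a := by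
            simp only [pePos, Bool.false_eq_true, if_false]
            omega
          have e2 : pePos r false (a + 1) + 1 ≠ r := by
            simp only [pePos, Bool.false_eq_true, if_false]
            omega
          rw [inner _ (pr false) (fun y => by rw [h2 _ _ e2, pe_side_pos r false (a + 1) (by omega)]), e1]
          refine Finset.sum_congr rfl fun t _ => ?_
          refine if_congr Iff.rfl ?_ rfl
          exact Finset.sum_congr rfl fun b _ => by ring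
      _ = _ := by
          rw [Finset.sum_comm]
          exact Finset.sum_congr rfl fun t _ => pe_sum_if _ _ _
  have p3 : ∑ a ∈ range (r - 1), ∑ y ∈ range (2 * r), (if Hk (pePos r true a) y then
        (v (pePos r true a + 1) y - v (pePos r true a) y) ^ 2 else 0)
      = ∑ t : Bool, (if pr true t then ∑ a ∈ range (r - 1), ∑ b ∈ range r,
          (v (pePos r true (a + 1)) (pePos r t b) - v (pePos r true a) (pePos r t b)) ^ 2 else 0) := by
    calc _ = ∑ a ∈ range (r - 1), ∑ t : Bool, (if pr true t then ∑ b ∈ range r,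
          (v (pePos r true (a + 1)) (pePos r t b) - v (pePos r true a) (pePos r t b)) ^ 2 else 0) := by
          refine Finset.sum_congr rfl fun a ha => ?_
          have ha' := Finset.mem_range.1 ha
          have e1 : pePos r true a + 1 = pePos r true (a + 1) := by
            simp only [pePos, if_true]
            omega
          have e2 : pePos r true a + 1 ≠ r := by
            simp only [pePos, if_true]
            omega
          rw [inner _ (pr true) (fun y => by rw [h2 _ _ e2, pe_side_pos r true a (by omega)]), e1]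
      _ = _ := by
          rw [Finset.sum_comm]
          exact Finset.sum_congr rfl fun t _ => pe_sum_if _ _ _
  have p2 : ∑ y ∈ range (2 * r), (if Hk (r - 1) y then (v (r - 1 + 1) y - v (r - 1) y) ^ 2 else 0)
      = ∑ t : Bool, (if hl t then ∑ b ∈ range r,
          (v (pePos r true 0) (pePos r t b) - v (pePos r false 0) (pePos r t b)) ^ 2 else 0) := by
    have e1 : r - 1 + 1 = pePos r true 0 := by
      simp only [pePos, if_true]
      omega
    have e2 : r - 1 = pePos r false 0 := by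
      simp only [pePos, Bool.false_eq_true, if_false]
      omega
    rw [inner _ hl (fun y => h1 _ _ (by omega)), e1]
    refine Finset.sum_congr rfl fun t _ => ?_
    refine if_congr Iff.rfl ?_ rfl
    refine Finset.sum_congr rfl fun b _ => ?_
    rw [← e2]
  rw [pe_sum_face r hr, p1, p2, p3, Fintype.sum_bool (fun s => ∑ t : Bool, (if pr s t then _ else _))]
  ring

/-- L-PE-L9.  Reindexing: split `range (2r - 1)` at `x + 1 = r`, `range (2r)` at `r`; reflect the western / southern halves (`Finset.sum_range_reflect`); squares do not see the orientation. -/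
theorem pe_E_eq (P : PeLoc) (r : ℕ) (hr : 0 < r) (v : ℕ → ℕ → ℝ) : P.E r v = P.Eq r (peToQ r v) := by
  have hH := pe_half r hr (fun s t => P.pr (s, t)) P.hl (fun x y => P.Hok r x y)
    (fun x y hx => by simp only [PeLoc.Hok, if_pos hx]) (fun x y hx => by simp only [PeLoc.Hok, if_neg hx]) v
  have hV := pe_half r hr (fun t s => P.pr (s, t)) P.vl (fun y x => P.Vok r x y)
    (fun y x hy => by simp only [PeLoc.Vok, if_pos hy]) (fun y x hy => by simp only [PeLoc.Vok, if_neg hy]) (fun y x => v x y)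
  have hq : ∀ s t : Bool, (if P.pr (s, t) then peEin r (peToQ r v (s, t)) else 0)
      = (if P.pr (s, t) then ∑ a ∈ range (r - 1), ∑ b ∈ range r,
          (v (pePos r s (a + 1)) (pePos r t b) - v (pePos r s a) (pePos r t b)) ^ 2 else 0)
        + (if P.pr (s, t) then ∑ b ∈ range (r - 1), ∑ a ∈ range r,
          (v (pePos r s a) (pePos r t (b + 1)) - v (pePos r s a) (pePos r t b)) ^ 2 else 0) := by
    intro s t
    by_cases h : P.pr (s, t)
    · simp only [if_pos h]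
      unfold peEin peToQ
      congr 1
      exact Finset.sum_comm
    · simp only [if_neg h, add_zero]
  unfold PeLoc.E PeLoc.Eq
  rw [hH, Finset.sum_comm (s := range (2 * r)) (t := range (2 * r - 1)), hV, Fintype.sum_prod_type]
  simp only [hq, Finset.sum_add_distrib, peToQ]
  rw [Finset.sum_comm (s := (Finset.univ : Finset Bool)) (t := (Finset.univ : Finset Bool))
    (f := fun t s => if P.pr (s, t) then ∑ b ∈ range (r - 1), ∑ a ∈ range r,
          (v (pePos r s a) (pePos r t (b + 1)) - v (pePos r s a) (pePos r t b)) ^ 2 else 0)]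
  ring

theorem pe_lay_pos (r : ℕ) (s : Bool) (a : ℕ) (ha : a < r) : peLay r (pePos r s a) = a := by
  cases s
  · simp only [peLay, pePos, Bool.false_eq_true, if_false]
    split_ifs <;> omega
  · simp [peLay, pePos]

theorem pe_pos_lay (r x : ℕ) : pePos r (peSide r x) (peLay r x) = x := by
  by_cases h : r ≤ x
  · simp only [pePos, peSide, peLay, h, decide_true, if_true]
    omega
  · simp only [pePos, peSide, peLay, h, decide_false, Bool.false_eq_true, if_false]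
    omega

theorem pe_toQ_toB (r : ℕ) (u : Bool × Bool → ℕ → ℕ → ℝ) (q : Bool × Bool) (a b : ℕ) (ha : a < r) (hb : b < r) :
    peToQ r (peToB r u) q a b = u q a b := by
  simp only [peToQ, peToB, pe_side_pos r _ _ ha, pe_side_pos r _ _ hb, pe_lay_pos r _ _ ha, pe_lay_pos r _ _ hb]

theorem pe_toB_toQ (r : ℕ) (v : ℕ → ℕ → ℝ) (x y : ℕ) : peToB r (peToQ r v) x y = v x y := by
  simp only [peToQ, peToB, pe_pos_lay]

theorem pe_ein_congr (r : ℕ) {f f' : ℕ → ℕ → ℝ} (h : ∀ a b, a < r → b < r → f a b = f' a b) : peEin r f = peEin r f' := by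
  unfold peEin
  congr 1
  · refine sum_congr rfl fun a ha => sum_congr rfl fun b hb => ?_
    have ha' := mem_range.1 ha
    have hb' := mem_range.1 hb
    rw [h (a + 1) b (by omega) hb', h a b (by omega) hb']
  · refine sum_congr rfl fun a ha => sum_congr rfl fun b hb => ?_
    have ha' := mem_range.1 ha
    have hb' := mem_range.1 hb
    rw [h a (b + 1) ha' (by omega), h a b ha' (by omega)]

/-- `Eq` only sees the values on `[0,r)²` -/
theorem pe_Eq_congr (P : PeLoc) (r : ℕ) {u u' : Bool × Bool → ℕ → ℕ → ℝ} (h : ∀ q a b, a < r → b < r → u q a b = u' q a b) :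
    P.Eq r u = P.Eq r u' := by
  unfold PeLoc.Eq
  congr 1
  · congr 1
    · refine sum_congr rfl fun q _ => ?_
      rw [pe_ein_congr r (h q)]
    · refine sum_congr rfl fun β _ => ?_
      congr 1
      refine sum_congr rfl fun b hb => ?_
      have hb' := mem_range.1 hb
      rw [h _ 0 b (by omega) hb', h _ 0 b (by omega) hb']
  · refine sum_congr rfl fun α _ => ?_
    congr 1
    refine sum_congr rfl fun a ha => ?_
    have ha' := mem_range.1 ha
    rw [h _ a 0 ha' (by omega), h _ a 0 ha' (by omega)]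

/-- L-PE-L9'.  The `ℓ¹` norm in the two coordinate systems. -/
theorem pe_l1_eq (P : PeLoc) (r : ℕ) (hr : 0 < r) (w : ℕ → ℕ → ℝ) :
    ∑ x ∈ range (2 * r), ∑ y ∈ range (2 * r), (if P.pr (peSide r x, peSide r y) then |w x y| else 0)
      = ∑ q : Bool × Bool, if P.pr q then ∑ a ∈ range r, ∑ b ∈ range r, |peToQ r w q a b| else 0 := by
  have inner : ∀ (x : ℕ) (s : Bool), peSide r x = s →
      ∑ y ∈ range (2 * r), (if P.pr (peSide r x, peSide r y) then |w x y| else 0)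
        = ∑ t : Bool, (if P.pr (s, t) then ∑ b ∈ range r, |w x (pePos r t b)| else 0) := by
    intro x s hs
    have key : ∀ t : Bool, ∑ b ∈ range r,
        (if P.pr (peSide r x, peSide r (pePos r t b)) then |w x (pePos r t b)| else 0)
        = if P.pr (s, t) then ∑ b ∈ range r, |w x (pePos r t b)| else 0 := by
      intro t
      rw [← pe_sum_if]
      refine Finset.sum_congr rfl fun b hb => ?_
      rw [hs, pe_side_pos r t b (Finset.mem_range.1 hb)]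
    rw [pe_sum_full, key, key, Fintype.sum_bool, add_comm]
  have outer : ∀ s : Bool, ∑ a ∈ range r, ∑ y ∈ range (2 * r),
      (if P.pr (peSide r (pePos r s a), peSide r y) then |w (pePos r s a) y| else 0)
      = ∑ t : Bool, (if P.pr (s, t) then ∑ a ∈ range r, ∑ b ∈ range r, |w (pePos r s a) (pePos r t b)| else 0) := by
    intro s
    calc _ = ∑ a ∈ range r, ∑ t : Bool, (if P.pr (s, t) then ∑ b ∈ range r, |w (pePos r s a) (pePos r t b)| else 0) :=
          Finset.sum_congr rfl fun a ha => inner _ s (pe_side_pos r s a (Finset.mem_range.1 ha))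
      _ = _ := by
          rw [Finset.sum_comm]
          exact Finset.sum_congr rfl fun t _ => pe_sum_if _ _ _
  rw [pe_sum_full, outer, outer, Fintype.sum_prod_type, Fintype.sum_bool (fun s => ∑ t : Bool, (if P.pr (s, t) then _ else _))]
  simp only [peToQ]
  ring

/-! ## 3. The export -/

/-- pigeonhole over the scales -/
theorem pe_pigeon (L : ℕ) (hL : 0 < L) (g : ℕ → ℝ) (E : ℝ) (h : ∑ k ∈ range L, g k ≤ E) : ∃ k < L, g k ≤ E / L := by
  by_contra hcon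
  have hcon : ∀ k < L, E / L < g k := fun k hk => not_le.1 fun h' => hcon ⟨k, hk, h'⟩
  have hLR : (0 : ℝ) < L := by exact_mod_cast hL
  have h1 : ∑ _k ∈ range L, E / L < ∑ k ∈ range L, g k :=
    Finset.sum_lt_sum_of_nonempty ⟨0, mem_range.2 hL⟩ fun k hk => hcon k (mem_range.1 hk)
  rw [Finset.sum_const, card_range, nsmul_eq_mul, mul_div_cancel₀ _ hLR.ne'] at h1
  linarith

/-- **FLATTENING AT A JUNCTION** (ball coordinates). -/
theorem pe_flatten_ball : ∃ C : ℝ, 0 ≤ C ∧ ∀ (L r : ℕ), 0 < L → 2 ^ L + 1 ≤ r → ∀ (P : PeLoc) (v : ℕ → ℕ → ℝ), ∃ v' : ℕ → ℕ → ℝ,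
    (∀ x y, 2 ^ L ≤ max (peLay r x) (peLay r y) → v' x y = v x y) ∧
    (∀ β, P.hl β → v' r (pePos r β 0) = v' (r - 1) (pePos r β 0)) ∧
    (∀ α, P.vl α → v' (pePos r α 0) r = v' (pePos r α 0) (r - 1)) ∧
    P.E r v' ≤ (1 + C / L) * P.E r v ∧
    (∑ x ∈ range (2 * r), ∑ y ∈ range (2 * r), (if P.pr (peSide r x, peSide r y) then |v' x y - v x y| else 0)) ^ 2
      ≤ C * (16 : ℝ) ^ L * P.E r v := by
  refine ⟨30000, by norm_num, fun L r hL hr P v => ?_⟩
  have hr0 : 0 < r := lt_of_lt_of_le (Nat.succ_pos _) hr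
  have hLR : (0 : ℝ) < L := by exact_mod_cast hL
  set u := peToQ r v with hu
  obtain ⟨k, hk, hkE⟩ := pe_pigeon L hL (fun k => P.EA (2 ^ k) u) (P.Eq r u) (pe_EA_sum P r L hr u)
  set ρ := 2 ^ k with hρdef
  have hρ : 0 < ρ := by positivity
  have h2ρ : 2 * ρ ≤ 2 ^ L := by
    have : 2 * ρ = 2 ^ (k + 1) := by rw [hρdef, pow_succ]; ring
    rw [this]
    exact Nat.pow_le_pow_right (by norm_num) hk
  have hrρ : 2 * ρ + 1 ≤ r := by omega
  have hE0 : 0 ≤ P.Eq r u := pe_Eq_nonneg P r u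
  have hQ : ∀ q a b, a < r → b < r → peToQ r (peToB r (P.flat ρ u)) q a b = P.flat ρ u q a b :=
    fun q a b ha hb => pe_toQ_toB r _ q a b ha hb
  have hchi0 : peChi ρ 0 = 0 := by unfold peChi; rw [if_pos (Nat.zero_le _)]
  have hflat0 : ∀ q, P.flat ρ u q 0 0 = P.cst ρ u q := by
    intro q
    show P.cst ρ u q + peChi ρ (max 0 0) * _ = _
    rw [max_self, hchi0, zero_mul, add_zero]
  have hBq : ∀ α β : Bool, peToB r (P.flat ρ u) (pePos r α 0) (pePos r β 0) = P.cst ρ u (α, β) := by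
    intro α β
    have := hQ (α, β) 0 0 hr0 hr0
    rw [hflat0] at this
    exact this
  have hp1 : pePos r true 0 = r := by simp [pePos]
  have hp0 : pePos r false 0 = r - 1 := by simp [pePos]
  refine ⟨peToB r (P.flat ρ u), ?_, ?_, ?_, ?_, ?_⟩
  · intro x y hxy
    have h1 : peChi ρ (max (peLay r x) (peLay r y)) = 1 := by
      unfold peChi
      rw [if_neg (by omega), if_pos (by omega)]
    have h2 : peToB r (P.flat ρ u) x y = peToB r u x y := by
      show P.cst ρ u _ + peChi ρ (max (peLay r x) (peLay r y)) * (u _ _ _ - P.cst ρ u _) = u _ _ _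
      rw [h1]; ring
    rw [h2, hu, pe_toB_toQ]
  · intro β hβ
    have h1 := hBq true β
    have h2 := hBq false β
    rw [hp1] at h1
    rw [hp0] at h2
    rw [h1, h2]
    exact (pe_V_hl P.toPePat _ β hβ).symm
  · intro α hα
    have h1 := hBq α true
    have h2 := hBq α false
    rw [hp1] at h1
    rw [hp0] at h2
    rw [h1, h2]
    exact (pe_V_vl P.toPePat _ α hα).symm
  · rw [pe_E_eq P r hr0, pe_E_eq P r hr0, pe_Eq_congr P r hQ, ← hu]
    have h1 := pe_flat_energy P r ρ hρ hrρ u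
    have h2 : (5000 : ℝ) * P.EA ρ u ≤ 30000 / L * P.Eq r u := by
      have h3 : P.EA ρ u ≤ P.Eq r u / L := hkE
      have h4 : 0 ≤ P.Eq r u / L := by positivity
      calc (5000 : ℝ) * P.EA ρ u ≤ 5000 * (P.Eq r u / L) := by linarith
        _ ≤ 30000 * (P.Eq r u / L) := by linarith
        _ = 30000 / L * P.Eq r u := by ring
    linarith
  · rw [pe_l1_eq P r hr0 (fun x y => peToB r (P.flat ρ u) x y - v x y), pe_E_eq P r hr0, ← hu]
    have h1 := pe_flat_l1 P r ρ hρ hrρ u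
    have e : (∑ q : Bool × Bool, if P.pr q then ∑ a ∈ range r, ∑ b ∈ range r,
          |peToQ r (fun x y => peToB r (P.flat ρ u) x y - v x y) q a b| else 0)
        = ∑ q : Bool × Bool, if P.pr q then ∑ a ∈ range r, ∑ b ∈ range r, |P.flat ρ u q a b - u q a b| else 0 := by
      refine Finset.sum_congr rfl fun q _ => ?_
      refine if_congr Iff.rfl ?_ rfl
      refine Finset.sum_congr rfl fun a ha => Finset.sum_congr rfl fun b hb => ?_
      have := hQ q a b (mem_range.1 ha) (mem_range.1 hb)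
      show |peToQ r (peToB r (P.flat ρ u)) q a b - peToQ r v q a b| = _
      rw [this]
    rw [e]
    refine h1.trans ?_
    have h5 : (ρ : ℝ) ^ 4 ≤ (16 : ℝ) ^ L := by
      have h6 : (ρ : ℝ) ≤ (2 : ℝ) ^ L := by
        have : ρ ≤ 2 ^ L := by omega
        exact_mod_cast this
      calc (ρ : ℝ) ^ 4 ≤ ((2 : ℝ) ^ L) ^ 4 := pow_le_pow_left₀ (by positivity) h6 4
        _ = (16 : ℝ) ^ L := by rw [← pow_mul, mul_comm, pow_mul]; norm_num
    have h7 : (30000 : ℝ) * (ρ : ℝ) ^ 4 ≤ 30000 * (16 : ℝ) ^ L := by linarith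
    exact mul_le_mul_of_nonneg_right h7 hE0

end

end Claimed.Agent.R285.C5
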