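import Mathlib

/-!
# ROW 285, [C] s5, package PK-C5-POT1 (architect helper83), file 1: THE PATTERN CALCULUS (Mathlib only)

Four squares `q : Bool × Bool` (`q.1` = east, `q.2` = north) around a vertex.  `hl β`: the two squares of the row `β` are joined; `vl α`: the two squares of the column `α` are joined.
`V u q` = the mean of `u` over the face-connected sector of `q`.
-/

set_option autoImplicit false

namespace Claimed.Agent.R285.C5

open scoped Classical

noncomputable section

/-- the links around a vertex -/
structure PePat where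
  hl : Bool → Prop
  vl : Bool → Prop

namespace PePat

variable (P : PePat)

/-- `q` is connected to its horizontal neighbour -/
def ch (q : Bool × Bool) : Prop := P.hl q.2 ∨ (P.vl q.1 ∧ P.hl (!q.2) ∧ P.vl (!q.1))

/-- `q` is connected to its vertical neighbour -/
def cv (q : Bool × Bool) : Prop := P.vl q.1 ∨ (P.hl q.2 ∧ P.vl (!q.1) ∧ P.hl (!q.2))

/-- `q` is connected to the opposite square -/
def cd (q : Bool × Bool) : Prop := (P.hl q.2 ∧ P.vl (!q.1)) ∨ (P.vl q.1 ∧ P.hl (!q.2))

/-- the mean over the sector of `q` -/
def V (u : Bool × Bool → ℝ) (q : Bool × Bool) : ℝ :=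
  (u q + (if P.ch q then u (!q.1, q.2) else 0) + (if P.cv q then u (q.1, !q.2) else 0)
      + (if P.cd q then u (!q.1, !q.2) else 0)) /
    (1 + (if P.ch q then 1 else 0) + (if P.cv q then 1 else 0) + (if P.cd q then 1 else 0))

/-- the mean over the (one or two) squares along the HORIZONTAL segment at the vertex which bounds `q` -/
def mh (u : Bool × Bool → ℝ) (q : Bool × Bool) : ℝ := if P.vl q.1 then (u q + u (q.1, !q.2)) / 2 else u q

/-- the mean over the (one or two) squares along the VERTICAL segment at the vertex which bounds `q` -/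
def mv (u : Bool × Bool → ℝ) (q : Bool × Bool) : ℝ := if P.hl q.2 then (u q + u (!q.1, q.2)) / 2 else u q

/-- the energy of the links at the vertex -/
def D (u : Bool × Bool → ℝ) : ℝ :=
  ∑ β : Bool, (if P.hl β then (u (true, β) - u (false, β)) ^ 2 else 0)
    + ∑ α : Bool, (if P.vl α then (u (α, true) - u (α, false)) ^ 2 else 0)

/-- the vertex functional of the interpolation -/
def A (u : Bool × Bool → ℝ) : ℝ := ∑ q : Bool × Bool, ((P.V u q - P.mh u q) ^ 2 + (P.V u q - P.mv u q) ^ 2)

/-- regular patterns: every sector is a single square, a pair or the full cycle -/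
def Reg : Prop := (¬ P.hl false ∧ ¬ P.hl true) ∨ (¬ P.vl false ∧ ¬ P.vl true) ∨ (P.hl false ∧ P.hl true ∧ P.vl false ∧ P.vl true)

end PePat

theorem pe_V_hl (P : PePat) (u : Bool × Bool → ℝ) (β : Bool) (h : P.hl β) : P.V u (false, β) = P.V u (true, β) := by
  cases β <;> by_cases h1 : P.hl false <;> by_cases h2 : P.hl true <;> by_cases h3 : P.vl false <;> by_cases h4 : P.vl true <;>
    simp_all [PePat.V, PePat.ch, PePat.cv, PePat.cd] <;> ring

theorem pe_V_vl (P : PePat) (u : Bool × Bool → ℝ) (α : Bool) (h : P.vl α) : P.V u (α, false) = P.V u (α, true) := by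
  cases α <;> by_cases h1 : P.hl false <;> by_cases h2 : P.hl true <;> by_cases h3 : P.vl false <;> by_cases h4 : P.vl true <;>
    simp_all [PePat.V, PePat.ch, PePat.cv, PePat.cd] <;> ring

theorem pe_V_sum (P : PePat) (u : Bool × Bool → ℝ) : ∑ q : Bool × Bool, (P.V u q - u q) = 0 := by
  rw [Fintype.sum_prod_type]
  simp only [Fintype.sum_bool]
  by_cases h1 : P.hl false <;> by_cases h2 : P.hl true <;> by_cases h3 : P.vl false <;> by_cases h4 : P.vl true <;>
    simp [PePat.V, PePat.ch, PePat.cv, PePat.cd, h1, h2, h3, h4] <;> ring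

/-- L-PE-P1.  `|V q - u q| ≤` the sum of the `|differences|` over the links (numerically the best constant is `7/8`).  16 patterns x 4 squares: `by_cases` on the four links, `simp only`, then `linarith` from the squares of the sums and differences of two link differences. -/
theorem pe_V_sub_sq (P : PePat) (u : Bool × Bool → ℝ) (q : Bool × Bool) : (P.V u q - u q) ^ 2 ≤ 4 * P.D u := by
  obtain ⟨q1, q2⟩ := q
  generalize ha : u (false, false) = a
  generalize hb : u (true, false) = b
  generalize hc : u (false, true) = c
  generalize hd : u (true, true) = d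
  have e1 := sq_nonneg (b - a)
  have e2 := sq_nonneg (d - c)
  have e3 := sq_nonneg (c - a)
  have e4 := sq_nonneg (d - b)
  have f1 := sq_nonneg ((b - a) + (d - c))
  have f2 := sq_nonneg ((b - a) - (d - c))
  have f3 := sq_nonneg ((b - a) + (c - a))
  have f4 := sq_nonneg ((b - a) - (c - a))
  have f5 := sq_nonneg ((b - a) + (d - b))
  have f6 := sq_nonneg ((b - a) - (d - b))
  have f7 := sq_nonneg ((d - c) + (c - a))
  have f8 := sq_nonneg ((d - c) - (c - a))
  have f9 := sq_nonneg ((d - c) + (d - b))
  have f10 := sq_nonneg ((d - c) - (d - b))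
  have f11 := sq_nonneg ((c - a) + (d - b))
  have f12 := sq_nonneg ((c - a) - (d - b))
  cases q1 <;> cases q2 <;>
  by_cases h1 : P.hl false <;> by_cases h2 : P.hl true <;> by_cases h3 : P.vl false <;> by_cases h4 : P.vl true <;>
    simp only [PePat.V, PePat.D, PePat.ch, PePat.cv, PePat.cd, h1, h2, h3, h4, ha, hb, hc, hd, Fintype.sum_bool, Bool.not_true, Bool.not_false,
      if_true, if_false, and_true, and_false, or_true, or_false, and_self, or_self] <;>
    norm_num <;> linarith

/-- L-PE-P3.  The crude vertex inequality for all patterns (numerically the best constant is `< 3`). -/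
theorem pe_A_le_gen (P : PePat) (u : Bool × Bool → ℝ) : P.A u ≤ 32 * P.D u := by
  unfold PePat.A
  rw [Fintype.sum_prod_type]
  simp only [Fintype.sum_bool]
  generalize ha : u (false, false) = a
  generalize hb : u (true, false) = b
  generalize hc : u (false, true) = c
  generalize hd : u (true, true) = d
  have e1 := sq_nonneg (b - a)
  have e2 := sq_nonneg (d - c)
  have e3 := sq_nonneg (c - a)
  have e4 := sq_nonneg (d - b)
  have f1 := sq_nonneg ((b - a) + (d - c))
  have f2 := sq_nonneg ((b - a) - (d - c))
  have f3 := sq_nonneg ((b - a) + (c - a))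
  have f4 := sq_nonneg ((b - a) - (c - a))
  have f5 := sq_nonneg ((b - a) + (d - b))
  have f6 := sq_nonneg ((b - a) - (d - b))
  have f7 := sq_nonneg ((d - c) + (c - a))
  have f8 := sq_nonneg ((d - c) - (c - a))
  have f9 := sq_nonneg ((d - c) + (d - b))
  have f10 := sq_nonneg ((d - c) - (d - b))
  have f11 := sq_nonneg ((c - a) + (d - b))
  have f12 := sq_nonneg ((c - a) - (d - b))
  by_cases h1 : P.hl false <;> by_cases h2 : P.hl true <;> by_cases h3 : P.vl false <;> by_cases h4 : P.vl true <;>
    simp only [PePat.V, PePat.D, PePat.mh, PePat.mv, PePat.ch, PePat.cv, PePat.cd, h1, h2, h3, h4, ha, hb, hc, hd, Fintype.sum_bool, Bool.not_true,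
      Bool.not_false, if_true, if_false, and_true, and_false, or_true, or_false, and_self, or_self] <;>
    norm_num <;> linarith

/-- L-PE-P2.  **The vertex inequality, constant ONE HALF**, for regular patterns (equality for a pair; `(x+y)² ≤ 2x²+2y²` for the cycle) and for flat data. -/
theorem pe_A_le (P : PePat) (u : Bool × Bool → ℝ) (h : P.Reg ∨ P.D u = 0) : P.A u ≤ P.D u / 2 := by
  rcases h with h | h
  · unfold PePat.A
    rw [Fintype.sum_prod_type]
    simp only [Fintype.sum_bool]
    generalize ha : u (false, false) = a
    generalize hb : u (true, false) = b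
    generalize hc : u (false, true) = c
    generalize hd : u (true, true) = d
    have f2 := sq_nonneg ((b - a) - (d - c))
    have f12 := sq_nonneg ((c - a) - (d - b))
    rcases h with ⟨h1, h2⟩ | ⟨h3, h4⟩ | ⟨h1, h2, h3, h4⟩
    · by_cases h3 : P.vl false <;> by_cases h4 : P.vl true <;>
        simp only [PePat.V, PePat.D, PePat.mh, PePat.mv, PePat.ch, PePat.cv, PePat.cd, h1, h2, h3, h4, ha, hb, hc, hd, Fintype.sum_bool,
          Bool.not_true, Bool.not_false, if_true, if_false, and_true, and_false, or_true, or_false, and_self, or_self] <;>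
        norm_num <;> linarith
    · by_cases h1 : P.hl false <;> by_cases h2 : P.hl true <;>
        simp only [PePat.V, PePat.D, PePat.mh, PePat.mv, PePat.ch, PePat.cv, PePat.cd, h1, h2, h3, h4, ha, hb, hc, hd, Fintype.sum_bool,
          Bool.not_true, Bool.not_false, if_true, if_false, and_true, and_false, or_true, or_false, and_self, or_self] <;>
        norm_num <;> linarith
    · simp only [PePat.V, PePat.D, PePat.mh, PePat.mv, PePat.ch, PePat.cv, PePat.cd, h1, h2, h3, h4, ha, hb, hc, hd, Fintype.sum_bool,
        Bool.not_true, Bool.not_false, if_true, if_false, and_true, and_false, or_true, or_false, and_self, or_self]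
      norm_num
      linarith
  · have := pe_A_le_gen P u
    rw [h] at this ⊢
    linarith

end

end Claimed.Agent.R285.C5
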