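import Claimed.Agent.R285.C5.Tor
import Claimed.Agent.R285.Read.C2
import Claimed.Agent.R285.Free.Rect

/-!
# ROW 285, [C] s5, package PK-C5-T1 (architect helper75): the LEAVES of the upper bound of the torus variance (50-openness.tex l.955-1004; also the upper half of [E]P5.6, last assertion)

SIMPLIFICATION (no `k²` rectangles, no affine replacement): cut the torus along ONE seam.
* `H_n = ∑_e F_e ∇_e (2π h)` with the EXACT flow `F = ∇ u_n`, `u_n(v) = κ_n cos(2π v₁/n)`, `κ_n = n⁻² / (2 - 2 cos(2π/n)) → 1/(4π²)` (`tor_cos_lift`); only horizontal bonds carry flow;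
* the `n` horizontal bonds which wrap around carry `F_e = κ_n (1 - cos(2π/n)) = n⁻²/2`: reference cost `π² n⁻³` (`tor_seam_cost`, `C2.ref_var`);
* deleting all wrapping bonds is a `Ref` from the free square `C2.sq n` to the torus (`tor_cut_ref`): `lsys_var_mono`;
* on the free square `u_n` is a sampled cosine: `C2.reg_cos`, `C2.free_var`; `dir u_n ≤ κ_n / 2` (`cosPot_dir_le`).
The glue (`C5/TorUp.lean`) is PROVED from these leaves.  Every leaf is paper-free.
-/

set_option autoImplicit false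

namespace Claimed.Agent.R285.C5

open Filter Topology
open scoped Classical

noncomputable section

/-- `κ_n = n⁻² / (2 - 2 cos (2π/n))` -/
def kapN (n : ℕ) : ℝ := (n : ℝ)⁻¹ ^ 2 / (2 - 2 * Real.cos (2 * Real.pi / n))

/-- the potential `u_n = A⁺ (cosine row)` on `ℤ²` -/
def cosPot (n : ℕ) (v : ℤ × ℤ) : ℝ := kapN n * Real.cos (2 * Real.pi * ((v.1 : ℝ) / n))

/-- the representative in `[0,n)²` of a bond of the torus -/
def torLift (n : ℕ) (e : (ZMod n × ZMod n) × Bool) : Bond := (((e.1.1.val : ℤ), (e.1.2.val : ℤ)), e.2)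

/-- the flow `∇ u_n` on the bonds of the torus (also on the wrapping bonds, by periodicity) -/
def torFl (n : ℕ) (e : (ZMod n × ZMod n) × Bool) : ℝ := C2.gd (cosPot n) (torLift n e)

/-- the statistic `∑_e w_e ∇_e (2π h)` on the torus -/
def torX (n : ℕ) [NeZero n] (b : ℝ) (w : (ZMod n × ZMod n) × Bool → ℝ) : ((torLaw n).sys b).L →+ ℝ :=
  C2.flowS ((torLaw n).sys b) fun e => 2 * Real.pi * w e

/-! ## helper lemmas (helper179) -/

theorem t1_den_eq (n : ℕ) : 2 - 2 * Real.cos (2 * Real.pi / n) = 4 * Real.sin (Real.pi / n) ^ 2 := by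
  have h : 2 * Real.pi / n = 2 * (Real.pi / n) := by ring
  rw [h, Real.cos_two_mul, Real.cos_sq']
  ring

theorem t1_kapN_eq {n : ℕ} (hn : n ≠ 0) :
    kapN n = (4 * Real.pi ^ 2 * Real.sinc (Real.pi / n) ^ 2)⁻¹ := by
  have hn' : (n : ℝ) ≠ 0 := Nat.cast_ne_zero.2 hn
  have hx : Real.pi / n ≠ 0 := div_ne_zero Real.pi_ne_zero hn'
  unfold kapN
  rw [t1_den_eq, Real.sinc_of_ne_zero hx]
  have hpi := Real.pi_ne_zero
  by_cases hs : Real.sin (Real.pi / n) = 0
  · simp [hs]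
  · field_simp

theorem t1_den_pos {n : ℕ} (hn : 2 ≤ n) : 0 < 2 - 2 * Real.cos (2 * Real.pi / n) := by
  rw [t1_den_eq]
  have hn' : (2 : ℝ) ≤ n := by exact_mod_cast hn
  have h1 : 0 < Real.pi / n := div_pos Real.pi_pos (by linarith)
  have h2 : Real.pi / n < Real.pi := div_lt_self Real.pi_pos (by linarith)
  have := Real.sin_pos_of_pos_of_lt_pi h1 h2
  positivity

theorem t1_kap_mul {n : ℕ} (hn : 2 ≤ n) :
    kapN n * (2 - 2 * Real.cos (2 * Real.pi / n)) = (n : ℝ)⁻¹ ^ 2 := by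
  unfold kapN
  exact div_mul_cancel₀ _ (t1_den_pos hn).ne'

theorem t1_torFl_false (n : ℕ) (v : ZMod n × ZMod n) : torFl n (v, false) = 0 := by
  simp [torFl, C2.gd, torLift, Bond.snd, cosPot]

theorem t1_torFl_true (n : ℕ) (v : ZMod n × ZMod n) :
    torFl n (v, true) = kapN n * (Real.cos (2 * Real.pi * (((v.1.val : ℝ) + 1) / n)) -
      Real.cos (2 * Real.pi * ((v.1.val : ℝ) / n))) := by
  simp [torFl, C2.gd, torLift, Bond.snd, cosPot]
  ring

theorem t1_mem_sq {n : ℕ} {v : ℤ × ℤ} :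
    v ∈ (C2.sq n).set ↔ (0 ≤ v.1 ∧ v.1 < n) ∧ (0 ≤ v.2 ∧ v.2 < n) := by
  simp [C2.sq, C2.Rc.set, Finset.mem_product]

theorem t1_lift_mem (n : ℕ) [NeZero n] (v : ZMod n × ZMod n) (d : Bool) :
    (torLift n (v, d)).1 ∈ (C2.sq n).set := by
  rw [t1_mem_sq]
  have h1 := ZMod.val_lt v.1
  have h2 := ZMod.val_lt v.2
  simp only [torLift]
  refine ⟨⟨by positivity, by exact_mod_cast h1⟩, ⟨by positivity, by exact_mod_cast h2⟩⟩

theorem t1_lift_true_mem_bd (n : ℕ) [NeZero n] (v : ZMod n × ZMod n) :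
    torLift n (v, true) ∈ (C2.sq n).bd ↔ v.1.val + 1 < n := by
  rw [Free.mem_bd, and_iff_right (t1_lift_mem n v true), t1_mem_sq]
  have h2 := ZMod.val_lt v.2
  simp only [torLift, Bond.snd, if_true]
  constructor
  · rintro ⟨⟨_, h⟩, _⟩
    exact_mod_cast h
  · intro h
    exact ⟨⟨by positivity, by exact_mod_cast h⟩, ⟨by positivity, by exact_mod_cast h2⟩⟩

theorem t1_seam_val {n : ℕ} (hn : 2 ≤ n) {v : ZMod n × ZMod n} (hv : v.1.val + 1 = n) :
    torFl n (v, true) = (n : ℝ)⁻¹ ^ 2 / 2 := by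
  have hn' : (n : ℝ) ≠ 0 := by
    have : (2 : ℝ) ≤ n := by exact_mod_cast hn
    linarith
  have hv' : (v.1.val : ℝ) + 1 = n := by exact_mod_cast hv
  rw [t1_torFl_true, hv', div_self hn', mul_one, Real.cos_two_pi]
  have e : 2 * Real.pi * ((v.1.val : ℝ) / n) = 2 * Real.pi - 2 * Real.pi / n := by
    have : (v.1.val : ℝ) = n - 1 := by linarith
    rw [this]
    field_simp
  rw [e, Real.cos_two_pi_sub, ← t1_kap_mul hn]
  ring

theorem t1_sum_Ico (n : ℕ) (f : ℤ → ℝ) :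
    ∑ x ∈ Finset.Ico (0 : ℤ) n, f x = ∑ k ∈ Finset.range n, f k := by
  symm
  refine Finset.sum_nbij' (fun k : ℕ => (k : ℤ)) (fun x : ℤ => x.toNat) ?_ ?_ ?_ ?_ ?_
  · intro k hk
    rw [Finset.mem_range] at hk
    rw [Finset.mem_Ico]
    omega
  · intro x hx
    rw [Finset.mem_Ico] at hx
    rw [Finset.mem_range]
    omega
  · intro k _
    simp
  · intro x hx
    rw [Finset.mem_Ico] at hx
    exact Int.toNat_of_nonneg hx.1
  · intro k _
    rfl

theorem t1_cos_diff_sq (θ a : ℝ) :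
    (Real.cos (a + θ) - Real.cos a) ^ 2 = (1 - Real.cos θ) * (1 - Real.cos (2 * a + θ)) := by
  rw [Real.cos_add, Real.cos_add (2 * a), Real.cos_two_mul, Real.sin_two_mul]
  have h1 := Real.sin_sq_add_cos_sq a
  have h2 := Real.sin_sq_add_cos_sq θ
  linear_combination (Real.sin θ ^ 2) * h1 + (1 - Real.cos a ^ 2) * h2

theorem t1_sum_cos_odd {n : ℕ} (hn : 3 ≤ n) :
    ∑ k ∈ Finset.range n, Real.cos (2 * (2 * Real.pi / n * k) + 2 * Real.pi / n) = 0 := by
  have hn' : (3 : ℝ) ≤ n := by exact_mod_cast hn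
  have hn0 : (n : ℝ) ≠ 0 := by linarith
  obtain ⟨θ, hθ⟩ : ∃ θ : ℝ, θ = 2 * Real.pi / n := ⟨_, rfl⟩
  have hpos : 0 < θ := by rw [hθ]; exact div_pos (by positivity) (by linarith)
  have hlt : θ < Real.pi := by
    rw [hθ, div_lt_iff₀ (by linarith)]
    nlinarith [Real.pi_pos]
  have hs : Real.sin θ ≠ 0 := (Real.sin_pos_of_pos_of_lt_pi hpos hlt).ne'
  rw [← hθ]
  have key : ∀ k : ℕ, Real.sin θ * Real.cos (2 * (θ * k) + θ) =
      Real.sin (2 * θ * ((k + 1 : ℕ) : ℝ)) / 2 - Real.sin (2 * θ * (k : ℝ)) / 2 := by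
    intro k
    have e1 : 2 * θ * ((k + 1 : ℕ) : ℝ) = (2 * (θ * k) + θ) + θ := by push_cast; ring
    have e2 : 2 * θ * (k : ℝ) = (2 * (θ * k) + θ) - θ := by ring
    rw [e1, e2, Real.sin_add, Real.sin_sub]
    ring
  have h1 : Real.sin θ * ∑ k ∈ Finset.range n, Real.cos (2 * (θ * k) + θ) = 0 := by
    rw [Finset.mul_sum, Finset.sum_congr rfl fun k _ => key k,
      Finset.sum_range_sub (fun k : ℕ => Real.sin (2 * θ * (k : ℝ)) / 2)]
    have e3 : 2 * θ * (n : ℝ) = ((4 : ℕ) : ℝ) * Real.pi := by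
      rw [hθ]
      field_simp
      norm_num
    rw [e3, Real.sin_nat_mul_pi]
    simp
  exact (mul_eq_zero.1 h1).resolve_left hs

/-- the cosine on `ZMod n` -/
def t1C (n : ℕ) (x : ZMod n) : ℝ := Real.cos (2 * Real.pi * ((x.val : ℝ) / n))

theorem t1C_intCast (n : ℕ) [NeZero n] (k : ℤ) :
    t1C n (k : ZMod n) = Real.cos (2 * Real.pi * ((k : ℝ) / n)) := by
  have hn : (n : ℝ) ≠ 0 := Nat.cast_ne_zero.2 (NeZero.ne n)
  have h1 : (((k : ZMod n).val : ℤ) : ℝ) = ((k % n : ℤ) : ℝ) := by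
    rw [ZMod.val_intCast]
  have h2 : (k : ℝ) = ((k % n : ℤ) : ℝ) + (n : ℝ) * ((k / n : ℤ) : ℝ) := by
    have := Int.emod_add_mul_ediv k n
    exact_mod_cast this.symm
  unfold t1C
  have h3 : (((k : ZMod n).val : ℕ) : ℝ) = ((k % n : ℤ) : ℝ) := by
    rw [← h1]
    simp
  have h4 : 2 * Real.pi * ((k : ℝ) / n) =
      2 * Real.pi * (((k % n : ℤ) : ℝ) / n) + ((k / n : ℤ) : ℝ) * (2 * Real.pi) := by
    obtain ⟨u, hu⟩ : ∃ u : ℝ, u = ((k % n : ℤ) : ℝ) := ⟨_, rfl⟩
    obtain ⟨v, hv⟩ : ∃ v : ℝ, v = ((k / n : ℤ) : ℝ) := ⟨_, rfl⟩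
    rw [← hu, ← hv] at h2 ⊢
    rw [h2]
    field_simp
  rw [h3, h4, Real.cos_add_int_mul_two_pi]

theorem t1C_add_one (n : ℕ) [NeZero n] (x : ZMod n) :
    t1C n (x + 1) = Real.cos (2 * Real.pi * (((x.val : ℝ) + 1) / n)) := by
  have h := t1C_intCast n ((x.val : ℤ) + 1)
  push_cast at h
  rw [ZMod.natCast_zmod_val] at h
  exact h

theorem t1C_sub_one (n : ℕ) [NeZero n] (x : ZMod n) :
    t1C n (x - 1) = Real.cos (2 * Real.pi * (((x.val : ℝ) - 1) / n)) := by
  have h := t1C_intCast n ((x.val : ℤ) - 1)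
  push_cast at h
  rw [ZMod.natCast_zmod_val] at h
  exact h

theorem t1C_lap (n : ℕ) [NeZero n] (x : ZMod n) :
    2 * t1C n x - t1C n (x + 1) - t1C n (x - 1) =
      (2 - 2 * Real.cos (2 * Real.pi / n)) * t1C n x := by
  have hn : (n : ℝ) ≠ 0 := Nat.cast_ne_zero.2 (NeZero.ne n)
  rw [t1C_add_one, t1C_sub_one]
  unfold t1C
  have e1 : 2 * Real.pi * (((x.val : ℝ) + 1) / n) =
      2 * Real.pi * ((x.val : ℝ) / n) + 2 * Real.pi / n := by field_simp
  have e2 : 2 * Real.pi * (((x.val : ℝ) - 1) / n) =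
      2 * Real.pi * ((x.val : ℝ) / n) - 2 * Real.pi / n := by field_simp
  rw [e1, e2, Real.cos_add, Real.cos_sub]
  ring

/-- summation by parts on `ZMod n`. -/
theorem t1_parts (n : ℕ) [NeZero n] (c g : ZMod n → ℝ) :
    ∑ x, (c (x + 1) - c x) * (g (x + 1) - g x) = ∑ x, (2 * c x - c (x + 1) - c (x - 1)) * g x := by
  have h1 : ∑ x, (c (x + 1) - c x) * g (x + 1) = ∑ x, (c x - c (x - 1)) * g x := by
    have := Equiv.sum_comp (Equiv.addRight (1 : ZMod n)) (fun x => (c x - c (x - 1)) * g x)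
    simp only [Equiv.coe_addRight, add_sub_cancel_right] at this
    exact this
  calc ∑ x, (c (x + 1) - c x) * (g (x + 1) - g x)
      = ∑ x, (c (x + 1) - c x) * g (x + 1) - ∑ x, (c (x + 1) - c x) * g x := by
        rw [← Finset.sum_sub_distrib]
        exact Finset.sum_congr rfl fun x _ => by ring
    _ = ∑ x, (2 * c x - c (x + 1) - c (x - 1)) * g x := by
        rw [h1, ← Finset.sum_sub_distrib]
        exact Finset.sum_congr rfl fun x _ => by ring

/-- the bond of the torus under a bond of `ℤ²` -/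
def t1iE (n : ℕ) (e : Bond) : (ZMod n × ZMod n) × Bool := (((e.1.1 : ZMod n), (e.1.2 : ZMod n)), e.2)

theorem t1_val_cast {n : ℕ} [NeZero n] {x : ℤ} (h0 : 0 ≤ x) (h1 : x < n) :
    (((x : ZMod n).val : ℕ) : ℤ) = x := by
  rw [ZMod.val_intCast, Int.emod_eq_of_lt h0 h1]

theorem t1_lift_iE {n : ℕ} [NeZero n] {e : Bond} (he : e.1 ∈ (C2.sq n).set) :
    torLift n (t1iE n e) = e := by
  obtain ⟨⟨x, y⟩, d⟩ := e
  obtain ⟨⟨hx0, hx1⟩, ⟨hy0, hy1⟩⟩ := t1_mem_sq.1 he
  simp only [torLift, t1iE]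
  rw [t1_val_cast hx0 hx1, t1_val_cast hy0 hy1]

theorem t1_iE_lift {n : ℕ} [NeZero n] (e : (ZMod n × ZMod n) × Bool) :
    t1iE n (torLift n e) = e := by
  obtain ⟨⟨x, y⟩, d⟩ := e
  simp [torLift, t1iE]

theorem t1_tgt_iE (n : ℕ) [NeZero n] (e : Bond) :
    (torus n).tgt (t1iE n e) = ((e.snd.1 : ZMod n), (e.snd.2 : ZMod n)) := by
  obtain ⟨⟨x, y⟩, d⟩ := e
  cases d <;> simp [torus, t1iE, Bond.snd]

/-- the refinement -/
def t1Ref (n : ℕ) [NeZero n] (b : ℝ) : LSys.Ref ((C2.sq n).sys b) ((torLaw n).sys b) where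
  iE := ⟨fun e => t1iE n (domBond (D := (C2.sq n).set) (cut := ∅) e), by
    intro e e' hee
    have h1 := t1_lift_iE (n := n) (domBonds_fst e.2)
    have h2 := t1_lift_iE (n := n) (domBonds_fst e'.2)
    apply Subtype.ext
    have h3 : t1iE n e.1 = t1iE n e'.1 := hee
    rw [← h1, ← h2, h3]⟩
  iO := ⟨fun o => Empty.elim o, fun o => Empty.elim o⟩
  hb := fun _ => rfl
  map_mem := by
    intro z hz
    obtain ⟨h, hh, rfl⟩ := AddSubgroup.mem_map.1 hz
    refine AddSubgroup.mem_map.2 ⟨fun v => h ((v.1.1 : ZMod n), (v.1.2 : ZMod n)), ?_, ?_⟩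
    · intro v hv
      have hv' : v.1 = (0, 0) := hv
      show h ((v.1.1 : ZMod n), (v.1.2 : ZMod n)) = 0
      rw [hv']
      simpa using hh ((0 : ZMod n), (0 : ZMod n)) rfl
    · refine Prod.ext ?_ ?_
      · funext e
        show h (((e.1.snd).1 : ZMod n), ((e.1.snd).2 : ZMod n)) - h ((e.1.1.1 : ZMod n), (e.1.1.2 : ZMod n)) =
          h ((torus n).tgt (t1iE n e.1)) - h ((torus n).src (t1iE n e.1))
        rw [t1_tgt_iE]
        rfl
      · funext o
        exact Empty.elim o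

/-! ## Leaf L-C5-T1A: general bridges -/

/-- L-C5-T1A.  `C2.ex_eq_E0` with `F = (· ^ 2)` and `F = id`; unfold `Vr`, `LSys.V0`, `LSys.Cv`, `LSys.E0`. -/
theorem Vr_eq_V0 {G : HGraph} (H : HLaw G) (hP : H.Proper) (b : ℝ) (f : G.V → ℝ) (X : (H.sys b).L →+ ℝ) (hX : H.Lift b f X) :
    Vr H b f = (H.sys b).V0 X := by
  have h1 := C2.ex_eq_E0 H hP b f X hX (fun t => t ^ 2)
  have h2 := C2.ex_eq_E0 H hP b f X hX (fun t => t)
  unfold Vr
  rw [h1, h2]
  unfold LSys.V0 LSys.Cv LSys.E0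
  simp only [pow_two]

/-- L-C5-T1A.  `HLaw.ok_of_isEmpty`. -/
theorem torLaw_ok (n : ℕ) [NeZero n] (b : ℝ) (hb : 0 < b) : ((torLaw n).sys b).Ok := by
  have : IsEmpty (torLaw n).O := (inferInstance : IsEmpty Empty)
  exact HLaw.ok_of_isEmpty _ b hb

/-- L-C5-T1A.  A function on the torus with zero gradient is constant (`h (x + 1, y) = h (x, y)`, `h (x, y + 1) = h (x, y)`; induction on `ZMod.val`, or `ZMod.natCast_zmod_val` + induction on a natural number), and it vanishes at the pin. -/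
theorem torLaw_proper (n : ℕ) [NeZero n] : (torLaw n).Proper := by
  intro h hh h0
  have hpin : h ((0 : ZMod n), (0 : ZMod n)) = 0 := hh _ rfl
  have hgr : ∀ e : (ZMod n × ZMod n) × Bool, h ((torus n).tgt e) - h ((torus n).src e) = 0 := by
    intro e
    exact congrFun (congrArg Prod.fst h0) e
  have hx : ∀ x y : ZMod n, h (x + 1, y) = h (x, y) := by
    intro x y
    have := hgr ((x, y), true)
    simp only [torus, if_true] at this
    linarith
  have hy : ∀ x y : ZMod n, h (x, y + 1) = h (x, y) := by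
    intro x y
    have := hgr ((x, y), false)
    simp only [torus] at this
    simpa [sub_eq_zero] using this
  have hx' : ∀ (k : ℕ) (y : ZMod n), h ((k : ZMod n), y) = h (0, y) := by
    intro k y
    induction k with
    | zero => simp
    | succ k ih => rw [Nat.cast_succ, hx, ih]
  have hy' : ∀ (k : ℕ), h ((0 : ZMod n), (k : ZMod n)) = h (0, 0) := by
    intro k
    induction k with
    | zero => simp
    | succ k ih => rw [Nat.cast_succ, hy, ih]
  funext v
  obtain ⟨x, y⟩ := v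
  have := hx' x.val y
  rw [ZMod.natCast_zmod_val] at this
  have h2 := hy' y.val
  rw [ZMod.natCast_zmod_val] at h2
  rw [this, h2, hpin]
  rfl

/-- L-C5-T1A. -/
theorem torX_add (n : ℕ) [NeZero n] (b : ℝ) (w w' : (ZMod n × ZMod n) × Bool → ℝ) :
    torX n b (fun e => w e + w' e) = torX n b w + torX n b w' := by
  ext z
  simp only [torX, C2.flowS, AddMonoidHom.coe_mk, ZeroHom.coe_mk, AddMonoidHom.add_apply]
  rw [← Finset.sum_add_distrib]
  exact Finset.sum_congr rfl fun e _ => by ring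

/-! ## Leaf L-C5-T1B: summation by parts on the torus -/

/-- L-C5-T1B.  `∑_e F_e ∇_e h = ∑_v h_v (2 u_v - u_{v+1} - u_{v-1})` (reindex by `Equiv.addRight (1 : ZMod n)` in the first coordinate; the vertical bonds carry no flow);
`c(x) = cos(2π val x / n)` satisfies `c (x + 1) = cos(2π (val x + 1)/n)` (periodicity at the wrap: `ZMod.val_add_one_of_lt` / `val = n - 1`), and `cos(θ(k+1)) + cos(θ(k-1)) = 2 cos θ cos(θ k)`; `2 - 2 cos(2π/n) ≠ 0` for `2 ≤ n`. -/
theorem tor_cos_lift (n : ℕ) [NeZero n] (hn : 2 ≤ n) (b : ℝ) : (torLaw n).Lift b (cosRow n) (torX n b (torFl n)) := by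
  intro h hh
  have hL : torX n b (torFl n) ⟨(torLaw n).coordA b h, (torLaw n).coordA_mem b hh⟩ =
      ∑ e : (ZMod n × ZMod n) × Bool, 2 * Real.pi * torFl n e *
        ((h ((torus n).tgt e) : ℝ) - (h ((torus n).src e) : ℝ)) := by
    simp only [torX, C2.flowS, AddMonoidHom.coe_mk, ZeroHom.coe_mk]
    refine Finset.sum_congr rfl fun e _ => ?_
    have : ((torLaw n).coordA b h).1 e = h ((torus n).tgt e) - h ((torus n).src e) := rfl
    rw [this]
    push_cast
    rfl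
  rw [hL, Fintype.sum_prod_type]
  simp only [Fintype.sum_bool, t1_torFl_false, mul_zero, zero_mul, add_zero]
  have hT : ∀ v : ZMod n × ZMod n, 2 * Real.pi * torFl n (v, true) *
      ((h ((torus n).tgt (v, true)) : ℝ) - (h ((torus n).src (v, true)) : ℝ)) =
      2 * Real.pi * kapN n * ((t1C n (v.1 + 1) - t1C n v.1) *
        ((h (v.1 + 1, v.2) : ℝ) - (h (v.1, v.2) : ℝ))) := by
    intro v
    rw [t1_torFl_true, t1C_add_one]
    simp only [torus, if_true, t1C]
    ring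
  rw [Finset.sum_congr rfl fun v _ => hT v, ← Finset.mul_sum, Fintype.sum_prod_type_right]
  have hP : ∀ y : ZMod n, ∑ x : ZMod n, (t1C n (x + 1) - t1C n x) *
      ((h (x + 1, y) : ℝ) - (h (x, y) : ℝ)) =
      ∑ x : ZMod n, (2 - 2 * Real.cos (2 * Real.pi / n)) * t1C n x * (h (x, y) : ℝ) := by
    intro y
    rw [t1_parts n (t1C n) (fun x => (h (x, y) : ℝ))]
    exact Finset.sum_congr rfl fun x _ => by rw [t1C_lap]
  rw [Finset.sum_congr rfl fun y _ => hP y]
  have hR : ∑ x : (torus n).V, cosRow n x * (2 * Real.pi * (h x : ℝ)) =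
      ∑ v : ZMod n × ZMod n, cosRow n v * (2 * Real.pi * (h v : ℝ)) := rfl
  rw [hR, Fintype.sum_prod_type_right, Finset.mul_sum]
  refine Finset.sum_congr rfl fun y _ => ?_
  rw [Finset.mul_sum]
  refine Finset.sum_congr rfl fun x _ => ?_
  have hk := t1_kap_mul hn
  unfold cosRow t1C
  have e : 2 * Real.pi * ((x, y) : ZMod n × ZMod n).1.val / (n : ℝ) =
      2 * Real.pi * ((x.val : ℝ) / n) := by
    rw [mul_div_assoc]
  rw [e, ← hk]
  ring

/-! ## Leaf L-C5-T1C: the seam cut is a refinement -/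

/-- L-C5-T1C.  `iE e := ((e.1.1 : ZMod n), (e.1.2 : ZMod n)), e.2)` (injective: the coordinates lie in `[0,n)`, `ZMod.intCast_eq_intCast_iff`/`ZMod.val_intCast`), `iO` from `Empty`, `hb` by `rfl`;
`map_mem`: `z = coord h`, `h` on the torus; its restriction is the gradient of `v ↦ h (v.1, v.2)` (casts; `Free.fr_mem_L`).
Identity of the tests: `Finset.sum` over the bonds of the torus, split by `torLift n e ∈ (C2.sq n).bd`; `e ↦ torLift n e` inverts `iE` (`ZMod.val_intCast`, `Int.emod_eq_of_lt`; `ZMod.natCast_zmod_val`). -/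
theorem tor_cut_ref (n : ℕ) [NeZero n] (b : ℝ) :
    ∃ r : LSys.Ref ((C2.sq n).sys b) ((torLaw n).sys b), ∀ w : Bond → ℝ,
      ((C2.sq n).flowX b w).comp r.psi = torX n b fun e => if torLift n e ∈ (C2.sq n).bd then w (torLift n e) else 0 := by
  refine ⟨t1Ref n b, fun w => ?_⟩
  ext z
  obtain ⟨ζ, hζ⟩ : ∃ ζ : (ZMod n × ZMod n) × Bool → ℤ, ζ = (z : ((torLaw n).sys b).Amb).1 := ⟨_, rfl⟩
  have hL : ((C2.sq n).flowX b w).comp (t1Ref n b).psi z =
      ∑ e : {e : Bond // e ∈ (C2.sq n).bd}, 2 * Real.pi * w e.1 * (ζ (t1iE n e.1) : ℝ) := by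
    rw [hζ]
    rfl
  have hR : torX n b (fun e => if torLift n e ∈ (C2.sq n).bd then w (torLift n e) else 0) z =
      ∑ e : (ZMod n × ZMod n) × Bool,
        2 * Real.pi * (if torLift n e ∈ (C2.sq n).bd then w (torLift n e) else 0) * (ζ e : ℝ) := by
    rw [hζ]
    rfl
  rw [hL, hR, Finset.sum_coe_sort (C2.sq n).bd (fun e => 2 * Real.pi * w e * (ζ (t1iE n e) : ℝ))]
  have hR2 : ∀ e : (ZMod n × ZMod n) × Bool,
      2 * Real.pi * (if torLift n e ∈ (C2.sq n).bd then w (torLift n e) else 0) * (ζ e : ℝ) =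
      if torLift n e ∈ (C2.sq n).bd then 2 * Real.pi * w (torLift n e) * (ζ e : ℝ) else 0 := by
    intro e
    split_ifs <;> simp
  rw [Finset.sum_congr rfl fun e _ => hR2 e, ← Finset.sum_filter]
  refine Finset.sum_nbij' (t1iE n) (torLift n) ?_ ?_ ?_ ?_ ?_
  · intro e he
    rw [Finset.mem_filter, t1_lift_iE (Free.mem_bd.1 he).1]
    exact ⟨Finset.mem_univ _, he⟩
  · intro e he
    exact (Finset.mem_filter.1 he).2
  · intro e he
    exact t1_lift_iE (Free.mem_bd.1 he).1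
  · intro e _
    exact t1_iE_lift e
  · intro e he
    rw [t1_lift_iE (Free.mem_bd.1 he).1]

/-! ## Leaf L-C5-T1D: trigonometry -/

/-- L-C5-T1D.  `n² (2 - 2 cos(2π/n)) = (2π)² (sin(π/n)/(π/n))² → 4π²`. -/
theorem kapN_tendsto : Tendsto kapN atTop (𝓝 (4 * Real.pi ^ 2)⁻¹) := by
  have h1 : Tendsto (fun n : ℕ => Real.pi / (n : ℝ)) atTop (𝓝 0) :=
    tendsto_const_div_atTop_nhds_zero_nat Real.pi
  have h2 : Tendsto (fun n : ℕ => Real.sinc (Real.pi / (n : ℝ))) atTop (𝓝 1) := by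
    have := (Real.continuous_sinc.tendsto 0).comp h1
    rwa [Real.sinc_zero] at this
  have h3 : Tendsto (fun n : ℕ => (4 * Real.pi ^ 2 * Real.sinc (Real.pi / (n : ℝ)) ^ 2)⁻¹) atTop
      (𝓝 (4 * Real.pi ^ 2 * 1 ^ 2)⁻¹) :=
    ((h2.pow 2).const_mul _).inv₀ (by positivity)
  rw [one_pow, mul_one] at h3
  refine h3.congr' ?_
  filter_upwards [eventually_ne_atTop 0] with n hn
  exact (t1_kapN_eq hn).symm

/-- L-C5-T1D. -/
theorem kapN_nonneg (n : ℕ) : 0 ≤ kapN n :=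
  div_nonneg (sq_nonneg _) (by linarith [Real.cos_le_one (2 * Real.pi / n)])

/-- L-C5-T1D.  A bond of the torus which is not a bond of the square and carries flow is horizontal with `val e.1.1 + 1 = n`: `F_e = κ_n (cos 2π - cos(2π (n-1)/n)) = κ_n (1 - cos(2π/n)) = n⁻²/2`; there are `n` of them. -/
theorem tor_seam_cost (n : ℕ) [NeZero n] (hn : 2 ≤ n) :
    ∑ e : (ZMod n × ZMod n) × Bool, (2 * Real.pi * (if torLift n e ∈ (C2.sq n).bd then 0 else torFl n e)) ^ 2 ≤ Real.pi ^ 2 / (n : ℝ) ^ 3 := by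
  have hn' : (0 : ℝ) < n := by
    have : (2 : ℝ) ≤ n := by exact_mod_cast hn
    linarith
  have hterm : ∀ e : (ZMod n × ZMod n) × Bool,
      (2 * Real.pi * (if torLift n e ∈ (C2.sq n).bd then 0 else torFl n e)) ^ 2 ≤
        if e.2 = true ∧ e.1.1.val + 1 = n then Real.pi ^ 2 / (n : ℝ) ^ 4 else 0 := by
    rintro ⟨v, d⟩
    cases d
    · simp [t1_torFl_false]
    · by_cases hv : v.1.val + 1 < n
      · rw [if_pos ((t1_lift_true_mem_bd n v).2 hv)]
        simp only [mul_zero, ne_eq, OfNat.ofNat_ne_zero, not_false_eq_true, zero_pow]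
        split_ifs <;> positivity
      · have hv' : v.1.val + 1 = n := by
          have := ZMod.val_lt v.1
          omega
        rw [if_neg (fun h => hv ((t1_lift_true_mem_bd n v).1 h)), if_pos ⟨rfl, hv'⟩,
          t1_seam_val hn hv']
        apply le_of_eq
        field_simp
  refine (Finset.sum_le_sum fun e _ => hterm e).trans ?_
  rw [← Finset.sum_filter, Finset.sum_const, nsmul_eq_mul]
  have hc : ((Finset.univ.filter fun e : (ZMod n × ZMod n) × Bool =>
      e.2 = true ∧ e.1.1.val + 1 = n).card : ℝ) ≤ n := by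
    have h1 : (Finset.univ.filter fun e : (ZMod n × ZMod n) × Bool =>
        e.2 = true ∧ e.1.1.val + 1 = n).card ≤ (Finset.univ : Finset (ZMod n)).card := by
      refine Finset.card_le_card_of_injOn (fun e => e.1.2) (fun _ _ => Finset.mem_univ _) ?_
      rintro ⟨⟨x, y⟩, d⟩ ha ⟨⟨x', y'⟩, d'⟩ hb hab
      simp only [Finset.coe_filter, Finset.mem_univ, true_and, Set.mem_ofPred_eq] at ha hb
      have hx : x = x' := ZMod.val_injective n (by omega)
      have hy : y = y' := hab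
      rw [hx, hy, ha.1, hb.1]
    rw [Finset.card_univ, ZMod.card] at h1
    exact_mod_cast h1
  calc ((Finset.univ.filter fun e : (ZMod n × ZMod n) × Bool =>
      e.2 = true ∧ e.1.1.val + 1 = n).card : ℝ) * (Real.pi ^ 2 / (n : ℝ) ^ 4)
      ≤ (n : ℝ) * (Real.pi ^ 2 / (n : ℝ) ^ 4) := by gcongr
    _ = Real.pi ^ 2 / (n : ℝ) ^ 3 := by field_simp

/-- the periodic Dirichlet energy (all `2 n²` bonds starting in the square) of the potential. -/
theorem t1_full_dir (n : ℕ) (hn : 3 ≤ n) :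
    ∑ e ∈ (C2.sq n).set ×ˢ (Finset.univ : Finset Bool), C2.gd (cosPot n) e ^ 2 = kapN n / 2 := by
  have hn' : (3 : ℝ) ≤ n := by exact_mod_cast hn
  have hn0 : (n : ℝ) ≠ 0 := by linarith
  obtain ⟨θ, hθ⟩ : ∃ θ : ℝ, θ = 2 * Real.pi / n := ⟨_, rfl⟩
  have hF : ∀ (x y : ℤ), C2.gd (cosPot n) ((x, y), true) ^ 2 =
      kapN n ^ 2 * ((1 - Real.cos θ) * (1 - Real.cos (2 * (θ * x) + θ))) := by
    intro x y
    have e1 : C2.gd (cosPot n) ((x, y), true) =
        kapN n * (Real.cos (θ * x + θ) - Real.cos (θ * x)) := by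
      simp only [C2.gd, Bond.snd, cosPot, if_true]
      have a1 : 2 * Real.pi * (((x + 1 : ℤ) : ℝ) / n) = θ * x + θ := by
        rw [hθ]; push_cast; field_simp
      have a2 : 2 * Real.pi * ((x : ℝ) / n) = θ * x := by
        rw [hθ]; field_simp
      rw [a1, a2]
      ring
    rw [e1, mul_pow, t1_cos_diff_sq]
  have hF0 : ∀ (x y : ℤ), C2.gd (cosPot n) ((x, y), false) ^ 2 = 0 := by
    intro x y
    simp [C2.gd, Bond.snd, cosPot]
  have hset : (C2.sq n).set = Finset.Ico (0 : ℤ) n ×ˢ Finset.Ico (0 : ℤ) n := by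
    simp [C2.sq, C2.Rc.set]
  rw [Finset.sum_product, hset, Finset.sum_product]
  simp only [Fintype.sum_bool, hF, hF0, add_zero, Finset.sum_const, Int.card_Ico, sub_zero,
    Int.toNat_natCast, nsmul_eq_mul]
  rw [← Finset.mul_sum, ← Finset.mul_sum, ← Finset.mul_sum, t1_sum_Ico n
    (fun x => 1 - Real.cos (2 * (θ * x) + θ)), Finset.sum_sub_distrib, Finset.sum_const,
    Finset.card_range, nsmul_eq_mul, mul_one]
  have h0 := t1_sum_cos_odd hn
  rw [← hθ] at h0
  simp only [Int.cast_natCast]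
  rw [h0, sub_zero]
  have h2 := t1_kap_mul (n := n) (by omega)
  rw [← hθ] at h2
  have h3 : kapN n * (1 - Real.cos θ) = (n : ℝ)⁻¹ ^ 2 / 2 := by linarith
  calc (n : ℝ) * (kapN n ^ 2 * ((1 - Real.cos θ) * n))
      = kapN n * (kapN n * (1 - Real.cos θ)) * (n : ℝ) ^ 2 := by ring
    _ = kapN n / 2 := by
      rw [h3]
      field_simp

/-- L-C5-T1D.  Vertical bonds: `0`.  Horizontal: `(c(x+1) - c(x))² = (2 - 2 cos θ) sin²(θ (x + 1/2))`, `θ = 2π/n`; `∑_{x<n} sin²(θ(x+1/2)) = n/2` for `3 ≤ n`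
(`sin θ · cos(θ(2x+1)) = (sin(θ(2x+2)) - sin(θ 2x))/2` telescopes to `sin(4π)/2 = 0`, `sin θ ≠ 0`); drop nothing else: `n` rows, `x ≤ n - 2` is a subset of `x ≤ n - 1`. -/
theorem cosPot_dir_le (n : ℕ) (hn : 3 ≤ n) : (C2.sq n).dir (cosPot n) ≤ kapN n / 2 := by
  have h1 : (C2.sq n).dir (cosPot n) ≤
      ∑ e ∈ (C2.sq n).set ×ˢ (Finset.univ : Finset Bool), C2.gd (cosPot n) e ^ 2 := by
    unfold C2.Rc.dir C2.Rc.cost
    exact Finset.sum_le_sum_of_subset_of_nonneg
      (fun e he => Finset.mem_product.2 ⟨(Free.mem_bd.1 he).1, Finset.mem_univ _⟩)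
      fun _ _ _ => sq_nonneg _
  exact h1.trans (t1_full_dir n hn).le

end

end Claimed.Agent.R285.C5
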